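import Vale.Agent.P166.Compare
import Mathlib.Probability.CDF

/-!
# P166: every compactly supported law has admissible spectra (its quantiles)
-/

open MeasureTheory Filter Finset
open scoped Topology

noncomputable section

namespace Vale.Agent.P166.Gen

/-- the quantile -/
def qtl (μ : Measure ℝ) (t : ℝ) : ℝ := sInf {x | t ≤ ProbabilityTheory.cdf μ x}

/-- the spectra of the quantiles -/
def qlam (μ : Measure ℝ) (N : ℕ) (i : Fin N) : ℝ := qtl μ (((i : ℕ) + 1 : ℝ) / N)

variable {μ : Measure ℝ} [IsProbabilityMeasure μ]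

lemma ae_mem_ends (hμ : IsCompact μ.support) : ∀ᵐ x ∂μ, sInf μ.support ≤ x ∧ x ≤ sSup μ.support := by
  filter_upwards [Measure.support_mem_ae (μ := μ)] with x hx
  exact ⟨csInf_le hμ.bddBelow hx, le_csSup hμ.bddAbove hx⟩

lemma cdf_top (hμ : IsCompact μ.support) {x : ℝ} (hx : sSup μ.support ≤ x) : ProbabilityTheory.cdf μ x = 1 := by
  rw [ProbabilityTheory.cdf_eq_real, measureReal_congr (s := Set.Iic x) (t := Set.univ)
    (ae_eq_univ.2 ((ae_mem_ends hμ).mono fun y hy => hy.2.trans hx)), probReal_univ]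

lemma cdf_bot (hμ : IsCompact μ.support) {x : ℝ} (hx : x < sInf μ.support) : ProbabilityTheory.cdf μ x = 0 := by
  rw [ProbabilityTheory.cdf_eq_real]
  refine (measureReal_eq_zero_iff).2 (measure_mono_null ?_ (Measure.measure_compl_support (μ := μ)))
  exact fun y hy hys => absurd (csInf_le hμ.bddBelow hys) (not_le.2 (lt_of_le_of_lt hy hx))

lemma qtl_le_iff (hμ : IsCompact μ.support) {t : ℝ} (ht : 0 < t) (ht1 : t ≤ 1) (x : ℝ) :
    qtl μ t ≤ x ↔ t ≤ ProbabilityTheory.cdf μ x := by
  set F := ProbabilityTheory.cdf μ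
  have hS : ({x | t ≤ F x} : Set ℝ).Nonempty := ⟨sSup μ.support, by simp [F, cdf_top hμ le_rfl, ht1]⟩
  have hB : BddBelow {x | t ≤ F x} := ⟨sInf μ.support, fun y hy => le_of_not_gt fun h => by
    simp only [Set.mem_ofPred_eq, F, cdf_bot hμ h] at hy
    linarith⟩
  refine ⟨fun h => ?_, fun h => csInf_le hB h⟩
  by_contra hc
  have h1 : ∀ᶠ y in 𝓝[>] x, F y < t :=
    ((F.right_continuous x).mono Set.Ioi_subset_Ici_self).tendsto.eventually (eventually_lt_nhds (not_le.1 hc))
  obtain ⟨y, hy1, hy2⟩ := (h1.and self_mem_nhdsWithin).exists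
  obtain ⟨z, hz, hzy⟩ := exists_lt_of_csInf_lt hS (h.trans_lt hy2)
  exact absurd ((le_trans hz (F.mono hzy.le)).trans_lt hy1) (lt_irrefl t)

lemma level_mem (N : ℕ) (i : Fin N) : 0 < ((i : ℕ) + 1 : ℝ) / N ∧ ((i : ℕ) + 1 : ℝ) / N ≤ 1 := by
  have hN : (0:ℝ) < N := by exact_mod_cast i.pos
  exact ⟨by positivity, (div_le_one hN).2 (by exact_mod_cast i.2)⟩

lemma qlam_mem (hμ : IsCompact μ.support) (N : ℕ) (i : Fin N) :
    sInf μ.support ≤ qlam μ N i ∧ qlam μ N i ≤ sSup μ.support := by
  obtain ⟨h0, h1⟩ := level_mem N i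
  refine ⟨le_of_not_gt fun h => ?_, (qtl_le_iff hμ h0 h1 _).2 (by rw [cdf_top hμ le_rfl]; exact h1)⟩
  have h' := (qtl_le_iff hμ h0 h1 (qlam μ N i)).1 le_rfl
  rw [cdf_bot hμ h] at h'
  linarith

/-- the empirical distribution functions of the quantiles tend to the distribution function -/
lemma qlam_cdf (hμ : IsCompact μ.support) (x : ℝ) :
    Tendsto (fun N : ℕ => (∑ i : Fin N, (if qlam μ N i ≤ x then (1:ℝ) else 0)) / (N:ℝ))
      atTop (𝓝 (ProbabilityTheory.cdf μ x)) := by
  classical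
  set F := ProbabilityTheory.cdf μ
  refine ((tendsto_nat_floor_mul_div_atTop (ProbabilityTheory.cdf_nonneg μ x)).comp
    tendsto_natCast_atTop_atTop).congr' ((eventually_gt_atTop 0).mono fun N hN => ?_)
  have hN' : (0:ℝ) < N := by exact_mod_cast hN
  have h0 : 0 ≤ F x * N := mul_nonneg (ProbabilityTheory.cdf_nonneg μ x) hN'.le
  have hle : ⌊F x * N⌋₊ ≤ N :=
    Nat.floor_le_of_le (mul_le_of_le_one_left hN'.le (ProbabilityTheory.cdf_le_one μ x))
  have e : (univ.filter fun i : Fin N => qlam μ N i ≤ x) =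
      univ.filter fun i : Fin N => (i : ℕ) < ⌊F x * N⌋₊ := Finset.filter_congr fun i _ => by
    rw [qlam, qtl_le_iff hμ (level_mem N i).1 (level_mem N i).2, div_le_iff₀ hN', ← Nat.succ_le_iff,
      Nat.le_floor_iff h0, Nat.cast_succ]
  simp only [Function.comp, Finset.sum_boole, e, Fin.card_filter_val_lt, min_eq_right hle]
  rfl

lemma integrable_le (x : ℝ) : Integrable (fun y : ℝ => if y ≤ x then (1:ℝ) else 0) μ :=
  Integrable.of_bound ((measurable_const.ite measurableSet_Iic measurable_const).aestronglyMeasurable) 1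
    (.of_forall fun y => by split <;> simp)

lemma integral_le (x : ℝ) : ∫ y, (if y ≤ x then (1:ℝ) else 0) ∂μ = ProbabilityTheory.cdf μ x := by
  rw [ProbabilityTheory.cdf_eq_real, ← integral_indicator_one measurableSet_Iic]
  exact integral_congr_ae (.of_forall fun y => by simp [Set.indicator])

/-- the step function of `g` on a grid -/
def stp (g : ℝ → ℝ) (t : ℕ → ℝ) (m : ℕ) (x : ℝ) : ℝ :=
  ∑ r ∈ range m, g (t (r + 1)) * ((if x ≤ t (r + 1) then (1:ℝ) else 0) - if x ≤ t r then 1 else 0)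

lemma stp_eq (g : ℝ → ℝ) {t : ℕ → ℝ} (ht : Monotone t) {m : ℕ} {x : ℝ} (h0 : t 0 < x) (hm : x ≤ t m) :
    ∃ r, r < m ∧ t r < x ∧ x ≤ t (r + 1) ∧ stp g t m x = g (t (r + 1)) := by
  classical
  have hex : ∃ r, x ≤ t r := ⟨m, hm⟩
  have h1 := Nat.find_spec hex
  obtain ⟨r, hr⟩ : ∃ r, Nat.find hex = r + 1 :=
    Nat.exists_eq_succ_of_ne_zero fun h => by rw [h] at h1; linarith
  rw [hr] at h1
  have hrm : r < m := by have := Nat.find_min' hex hm; omega
  have h2 : t r < x := not_le.1 (Nat.find_min hex (by omega))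
  refine ⟨r, hrm, h2, h1, ?_⟩
  rw [stp, Finset.sum_eq_single r]
  · rw [if_pos h1, if_neg (not_le.2 h2)]; ring
  · intro s _ hs
    rcases lt_or_gt_of_ne hs with hs | hs
    · rw [if_neg (not_le.2 ((ht (show s + 1 ≤ r by omega)).trans_lt h2)),
        if_neg (not_le.2 ((ht (show s ≤ r by omega)).trans_lt h2))]
      ring
    · rw [if_pos (h1.trans (ht (show r + 1 ≤ s + 1 by omega))), if_pos (h1.trans (ht (show r + 1 ≤ s by omega)))]
      ring
  · exact fun h => absurd (Finset.mem_range.2 hrm) h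

lemma qlam_weak (hμ : IsCompact μ.support) (g : BoundedContinuousFunction ℝ ℝ) :
    Tendsto (fun N : ℕ => (∑ i, g (qlam μ N i)) / (N:ℝ)) atTop (𝓝 (∫ x, g x ∂μ)) := by
  set a := sInf μ.support
  set b := sSup μ.support
  have hne := support_nonempty (μ := μ)
  have hab : a ≤ b := csInf_le_csSup hne hμ.bddBelow hμ.bddAbove
  rw [Metric.tendsto_nhds]
  intro ε hε
  obtain ⟨η, hη, huc⟩ := Metric.uniformContinuousOn_iff.1
    (isCompact_Icc.uniformContinuousOn_of_continuous (g.continuous.continuousOn (s := Set.Icc (a - 1) b)))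
    (ε / 4) (by linarith)
  obtain ⟨m, hm⟩ := exists_nat_gt ((b - (a - 1)) / η)
  have hw : 0 < b - (a - 1) := by linarith
  have hm0 : (0:ℝ) < m := lt_trans (div_pos hw hη) hm
  set d := (b - (a - 1)) / m
  have hd : 0 < d := div_pos hw hm0
  have hdη : d < η := by rw [div_lt_iff₀ hm0, mul_comm, ← div_lt_iff₀ hη]; exact hm
  set t := fun r : ℕ => a - 1 + r * d
  have ht : Monotone t := fun r s h => by simp only [t]; gcongr
  have htm : t m = b := by simp only [t, d]; field_simp; ring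
  have ht0 : t 0 = a - 1 := by simp [t]
  have happ : ∀ x, a ≤ x → x ≤ b → |g x - stp g t m x| ≤ ε / 4 := fun x hxa hxb => by
    obtain ⟨r, hrm, h2, h1, e⟩ := stp_eq g ht (show t 0 < x by linarith) (hxb.trans htm.ge)
    rw [e]
    have hs : t (r + 1) = t r + d := by simp only [t]; push_cast; ring
    have hh := huc x ⟨by linarith, hxb⟩ (t (r + 1))
      ⟨by linarith [ht (Nat.zero_le (r + 1))], (ht hrm).trans htm.le⟩
      (by rw [Real.dist_eq, abs_lt]; constructor <;> linarith)
    rw [Real.dist_eq] at hh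
    exact hh.le
  have hsti : Integrable (stp g t m) μ :=
    integrable_finsetSum _ fun r _ => ((integrable_le _).sub (integrable_le _)).const_mul _
  have hlimst : Tendsto (fun N : ℕ => (∑ i, stp g t m (qlam μ N i)) / (N:ℝ)) atTop
      (𝓝 (∫ y, stp g t m y ∂μ)) := by
    simp only [stp]
    rw [integral_finsetSum _ fun r _ => by exact ((integrable_le _).sub (integrable_le _)).const_mul _]
    simp only [integral_const_mul, integral_sub (integrable_le _) (integrable_le _), integral_le]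
    refine (tendsto_finsetSum _ fun r _ =>
      ((qlam_cdf hμ (t (r + 1))).sub (qlam_cdf hμ (t r))).const_mul (g (t (r + 1)))).congr fun N => ?_
    rw [Finset.sum_comm, Finset.sum_div]
    refine Finset.sum_congr rfl fun r _ => ?_
    rw [← Finset.mul_sum, Finset.sum_sub_distrib]
    ring
  have hgi : |∫ y, g y ∂μ - ∫ y, stp g t m y ∂μ| ≤ ε / 4 := by
    rw [← integral_sub (g.integrable μ) hsti, ← Real.norm_eq_abs]
    exact (norm_integral_le_of_norm_le_const (C := ε / 4)
      ((ae_mem_ends hμ).mono fun y hy => happ y hy.1 hy.2)).trans_eq (by simp)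
  filter_upwards [eventually_gt_atTop 0, Metric.tendsto_nhds.1 hlimst (ε / 4) (by linarith)] with N hN h
  have hN' : (0:ℝ) < N := by exact_mod_cast hN
  rw [Real.dist_eq, abs_lt] at h
  have h2 : |(∑ i, g (qlam μ N i)) / (N:ℝ) - (∑ i, stp g t m (qlam μ N i)) / (N:ℝ)| ≤ ε / 4 := by
    rw [← sub_div, ← Finset.sum_sub_distrib, abs_div, abs_of_pos hN', div_le_iff₀ hN']
    refine (Finset.abs_sum_le_sum_abs _ _).trans ((Finset.sum_le_sum (g := fun _ => ε / 4) fun i _ =>
      happ _ (qlam_mem hμ N i).1 (qlam_mem hμ N i).2).trans_eq ?_)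
    simp [mul_comm]
  rw [abs_le] at h2 hgi
  rw [Real.dist_eq, abs_lt]
  constructor <;> linarith

/-- **admissible spectra exist** -/
theorem exists_admissible (hμ : IsCompact μ.support) : ∃ lam : ∀ N : ℕ, Fin N → ℝ, Admissible μ lam := by
  set a := sInf μ.support
  set b := sSup μ.support
  set F := ProbabilityTheory.cdf μ
  have hne := support_nonempty (μ := μ)
  refine ⟨qlam μ, qlam_weak hμ, ?_, ?_⟩
  · refine tendsto_const_nhds.congr' ((eventually_gt_atTop 0).mono fun N hN => ?_)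
    have : Nonempty (Fin N) := ⟨⟨0, hN⟩⟩
    refine le_antisymm (le_trans (le_of_not_gt fun h => ?_)
      (le_ciSup (Set.finite_range _).bddAbove (⟨N - 1, by omega⟩ : Fin N))) (ciSup_le fun i => (qlam_mem hμ N i).2)
    set q := qlam μ N ⟨N - 1, by omega⟩ with hq
    have h1 : (1:ℝ) ≤ F q := by
      refine (qtl_le_iff hμ one_pos le_rfl q).1 (le_of_eq ?_)
      rw [hq, qlam]
      congr 1
      rw [eq_comm, div_eq_one_iff_eq (by exact_mod_cast hN.ne')]
      have : N - 1 + 1 = N := by omega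
      exact_mod_cast this
    have hpos : 0 < μ (Set.Ioi q) :=
      (Measure.mem_support_iff_forall b).1 (hμ.sSup_mem hne) _ (Ioi_mem_nhds h)
    have h2 : μ.real (Set.Ioi q) = 1 - F q := by
      rw [ProbabilityTheory.cdf_eq_real, ← probReal_compl_eq_one_sub measurableSet_Iic, Set.compl_Iic]
    have h3 : 0 < μ.real (Set.Ioi q) := ENNReal.toReal_pos hpos.ne' (measure_ne_top _ _)
    linarith
  · rw [Metric.tendsto_nhds]
    intro ε hε
    have hpos : 0 < F (a + ε / 2) := by
      rw [ProbabilityTheory.cdf_eq_real]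
      refine ENNReal.toReal_pos (ne_of_gt (lt_of_lt_of_le ?_ (measure_mono Set.Iio_subset_Iic_self)))
        (measure_ne_top _ _)
      exact (Measure.mem_support_iff_forall a).1 (hμ.sInf_mem hne) _ (Iio_mem_nhds (by linarith))
    filter_upwards [eventually_gt_atTop 0,
      (tendsto_const_div_atTop_nhds_zero_nat (1:ℝ)).eventually (eventually_le_nhds hpos)] with N hN h
    have : Nonempty (Fin N) := ⟨⟨0, hN⟩⟩
    have h1 : ⨅ i, qlam μ N i ≤ a + ε / 2 :=
      (ciInf_le (Set.finite_range _).bddBelow (⟨0, hN⟩ : Fin N)).trans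
        ((qtl_le_iff hμ (level_mem N _).1 (level_mem N _).2 _).2 (by simpa using h))
    have h2 : a ≤ ⨅ i, qlam μ N i := le_ciInf fun i => (qlam_mem hμ N i).1
    rw [Real.dist_eq, abs_lt]
    constructor <;> linarith

end Vale.Agent.P166.Gen
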