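import Vale.Agent.P166.Gen.Atom
import Vale.Agent.P157.Sph.Prod
import Vale.Agent.P157.Full.UDefs

/-! G5: the levels of a function of the overlap matrix: rows, diagonal, the energy and increment
identities, scaling of the atoms and comparison of the tails. -/

open MeasureTheory Filter Finset Real
open scoped Topology
open Vale.Agent.P157.Par (Prof)
open Vale.Agent.P168.MP (lin)
open Vale.Agent.P157.Full (dotH tailAvg)

noncomputable section

namespace Vale.Agent.P166.Gen

open Par.Multi (xiD xiD_mem xiD_low q_mono continuous_xiD)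
open Vale.Agent.P157.Sph (lam)

variable {R : ℕ} {q : ℕ → ℝ}

/-- share of the levels at most `s` -/
def below (R : ℕ) (q : ℕ → ℝ) (s : ℝ) : ℝ := (∑ l ∈ range R, if q l ≤ s then (1:ℝ) else 0) / R

lemma deriv_max (a s : ℝ) :
    HasDerivWithinAt (fun u => max u a) (if a ≤ s then (1:ℝ) else 0) (Set.Ioi s) s := by
  split_ifs with h
  · exact (hasDerivWithinAt_id s _).congr (fun u hu => max_eq_left (h.trans (le_of_lt hu))) (max_eq_left h)
  · refine ((hasDerivAt_const s a).congr_of_eventuallyEq ?_).hasDerivWithinAt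
    filter_upwards [eventually_lt_nhds (not_le.1 h)] with u hu using max_eq_right hu.le

lemma deriv_xiD (R : ℕ) (q : ℕ → ℝ) (s : ℝ) :
    HasDerivWithinAt (xiD R q) (-below R q s) (Set.Ioi s) s := by
  refine ((HasDerivWithinAt.fun_sum fun l (_ : l ∈ range R) => (deriv_max (q l) s).const_sub 1).div_const
    (R : ℝ)).congr_deriv ?_
  rw [below, sum_neg_distrib, neg_div]

/-- an integral above `max s q_l`, averaged over the levels -/
def upInt (g : ℝ → ℝ) (R : ℕ) (q : ℕ → ℝ) (s : ℝ) : ℝ :=
  (∑ l ∈ range R, ∫ u in max s (q l)..1, g u) / R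

lemma deriv_upInt {g : ℝ → ℝ} (hg : Continuous g) (R : ℕ) (q : ℕ → ℝ) (s : ℝ) :
    HasDerivWithinAt (upInt g R q) (-(g s * below R q s)) (Set.Ioi s) s := by
  have hF : ∀ x : ℝ, HasDerivAt (fun a => ∫ u in a..1, g u) (-g x) x := fun x =>
    intervalIntegral.integral_hasDerivAt_left (hg.intervalIntegrable _ _)
      hg.stronglyMeasurable.stronglyMeasurableAtFilter hg.continuousAt
  have h : HasDerivWithinAt (upInt g R q) ((∑ l ∈ range R, -g (max s (q l)) * if q l ≤ s then (1:ℝ) else 0) / R)
      (Set.Ioi s) s :=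
    (HasDerivWithinAt.fun_sum (A := fun l u => ∫ v in max u (q l)..1, g v) fun l (_ : l ∈ range R) =>
      HasDerivAt.comp_hasDerivWithinAt (h₂ := fun a => ∫ v in a..1, g v) s (hF (max s (q l)))
        (deriv_max (q l) s)).div_const (R : ℝ)
  refine h.congr_deriv ?_
  rw [below, ← mul_div_assoc, mul_sum, ← neg_div, ← sum_neg_distrib]
  congr 1
  refine sum_congr rfl fun l _ => ?_
  split_ifs with hl
  · rw [max_eq_left hl]; ring
  · ring

lemma continuous_upInt {g : ℝ → ℝ} (hg : Continuous g) (R : ℕ) (q : ℕ → ℝ) : Continuous (upInt g R q) := by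
  have hF : Continuous fun a => ∫ u in a..1, g u := by
    simp only [intervalIntegral.integral_symm (μ := volume) 1]
    exact (intervalIntegral.continuous_primitive (fun a b => hg.intervalIntegrable a b) 1).neg
  exact (continuous_finsetSum _ fun l _ => hF.comp (continuous_id.max continuous_const)).div_const _

lemma upInt_one (hq : Prof R q 1) (g : ℝ → ℝ) : upInt g R q 1 = 0 := by
  refine div_eq_zero_iff.2 (Or.inl (sum_eq_zero fun l hl => ?_))
  rw [max_eq_left (hq.upper (mem_range.1 hl).le).2, intervalIntegral.integral_same]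

lemma xiD_one (hq : Prof R q 1) : xiD R q 1 = 0 := by
  rw [xiD, sum_eq_zero fun l hl => by rw [max_eq_left (hq.upper (mem_range.1 hl).le).2, sub_self], zero_div]

/-- a continuous extension of a function on the nonnegative half line -/
def ext0 (f : ℝ → ℝ) (x : ℝ) : ℝ := f (max x 0)

lemma continuous_ext0 {f : ℝ → ℝ} (hf : ContinuousOn f (Set.Ici 0)) : Continuous (ext0 f) :=
  hf.comp_continuous (continuous_id.max continuous_const) fun x => le_max_right x 0

lemma ext0_eq (f : ℝ → ℝ) {x : ℝ} (hx : 0 ≤ x) : ext0 f x = f x := by rw [ext0, max_eq_left hx]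

/-- the integral of `f'` from zero -/
def prim (f' : ℝ → ℝ) (x : ℝ) : ℝ := ∫ u in (0:ℝ)..x, f' u

section rows
variable (hq : Prof R q 1) {f f' : ℝ → ℝ} (hf : ContinuousOn f' (Set.Ici 0))
include hq hf

/-- both integrals along the profile -/
lemma along {t : ℝ} (ht : t ∈ Set.Icc (0:ℝ) 1) :
    upInt (fun s => ext0 f' (xiD R q s)) R q t = prim (ext0 f') (xiD R q t) ∧
    upInt (fun s => s * ext0 f' (xiD R q s)) R q t =
      t * prim (ext0 f') (xiD R q t) + ∫ s in t..1, prim (ext0 f') (xiD R q s) := by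
  set g := ext0 f'
  have hg : Continuous g := continuous_ext0 hf
  have hP : ∀ x, HasDerivAt (prim g) (g x) x := fun x =>
    intervalIntegral.integral_hasDerivAt_right (hg.intervalIntegrable _ _)
      hg.stronglyMeasurable.stronglyMeasurableAtFilter hg.continuousAt
  have hPc : Continuous (prim g) := continuous_iff_continuousAt.2 fun x => (hP x).continuousAt
  have hD := continuous_xiD R q
  have hg1 : Continuous fun s => g (xiD R q s) := hg.comp hD
  have hg2 : Continuous fun s => s * g (xiD R q s) := continuous_id.mul hg1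
  have hF : Continuous fun s => prim g (xiD R q s) := hPc.comp hD
  have dF : ∀ s, HasDerivWithinAt (fun s => prim g (xiD R q s)) (g (xiD R q s) * -below R q s) (Set.Ioi s) s :=
    fun s => (hP _).comp_hasDerivWithinAt s (deriv_xiD R q s)
  have key : ∀ (Ψ : ℝ → ℝ), Continuous Ψ → Ψ 1 = 0 → (∀ s, HasDerivWithinAt Ψ 0 (Set.Ioi s) s) → Ψ t = 0 := by
    intro Ψ hc h1 hd
    have h := constant_of_has_deriv_right_zero (a := (0:ℝ)) (b := 1) hc.continuousOn
      fun s _ => hasDerivWithinAt_Ioi_iff_Ici.1 (hd s)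
    rw [h t ht, ← h 1 (Set.right_mem_Icc.2 zero_le_one), h1]
  constructor
  · have := key (fun s => upInt (fun s => g (xiD R q s)) R q s - prim g (xiD R q s))
      ((continuous_upInt hg1 R q).sub hF) (by simp [upInt_one hq, xiD_one hq, prim])
      fun s => ((deriv_upInt hg1 R q s).fun_sub (dF s)).congr_deriv (by ring)
    linarith
  · have dI : ∀ s, HasDerivWithinAt (fun s => ∫ u in s..1, prim g (xiD R q u)) (-prim g (xiD R q s)) (Set.Ioi s) s :=
      fun s => (intervalIntegral.integral_hasDerivAt_left (hF.intervalIntegrable _ _)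
        hF.stronglyMeasurable.stronglyMeasurableAtFilter hF.continuousAt).hasDerivWithinAt
    have hI : Continuous fun s => ∫ u in s..1, prim g (xiD R q u) := by
      simp only [intervalIntegral.integral_symm (μ := volume) 1]
      exact (intervalIntegral.continuous_primitive (fun a b => hF.intervalIntegrable a b) 1).neg
    have := key (fun s => upInt (fun s => s * g (xiD R q s)) R q s - s * prim g (xiD R q s) -
        ∫ u in s..1, prim g (xiD R q u))
      (((continuous_upInt hg2 R q).sub (continuous_id.mul hF)).sub hI)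
      (by simp [upInt_one hq, xiD_one hq, prim])
      fun s => (((deriv_upInt hg2 R q s).fun_sub ((hasDerivWithinAt_id s _).fun_mul (dF s))).fun_sub (dI s)).congr_deriv
        (by simp only [id]; ring)
    linarith

lemma ii_along {a b : ℝ} (ha : a ∈ Set.Icc (0:ℝ) 1) (hb : b ∈ Set.Icc (0:ℝ) 1) :
    IntervalIntegrable (fun s => f' (xiD R q s)) volume a b :=
  (hf.comp (continuous_xiD R q).continuousOn fun _ hs =>
    (xiD_mem hq (Set.uIcc_subset_Icc ha hb hs).1 (Set.uIcc_subset_Icc ha hb hs).2).1).intervalIntegrable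

omit hf in
lemma ext_int {a b : ℝ} (ha : a ∈ Set.Icc (0:ℝ) 1) (hb : b ∈ Set.Icc (0:ℝ) 1) :
    ∫ s in a..b, ext0 f' (xiD R q s) = ∫ s in a..b, f' (xiD R q s) :=
  intervalIntegral.integral_congr fun _ hs =>
    ext0_eq f' (xiD_mem hq (Set.uIcc_subset_Icc ha hb hs).1 (Set.uIcc_subset_Icc ha hb hs).2).1

omit hq hf in
lemma prim_ext (hd : ∀ x, 0 ≤ x → ∫ u in (0:ℝ)..x, f' u = f x - f 0) {x : ℝ} (hx : 0 ≤ x) :
    prim (ext0 f') x = f x - f 0 := by
  rw [← hd x hx]
  refine intervalIntegral.integral_congr fun u hu => ?_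
  rw [Set.uIcc_of_le hx] at hu
  exact ext0_eq f' hu.1

/-- **rows**: `lam` of the levels is the function at `D(q_j)` -/
theorem lam_levF (hd : ∀ x, 0 ≤ x → ∫ u in (0:ℝ)..x, f' u = f x - f 0) (hR : 1 ≤ R) (htop : q R = 1) {j : ℕ}
    (hj : j ≤ R) : lam R (levF f' R q) j = f (xiD R q (q j)) - f 0 := by
  have hqm : ∀ l, l ≤ R → q l ∈ Set.Icc (0:ℝ) 1 := fun l hl => hq.upper hl
  have z0 : (0:ℝ) ∈ Set.Icc (0:ℝ) 1 := Set.left_mem_Icc.2 zero_le_one
  have z1 : (1:ℝ) ∈ Set.Icc (0:ℝ) 1 := Set.right_mem_Icc.2 zero_le_one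
  rw [← prim_ext hd (xiD_mem hq (hqm j hj).1 (hqm j hj).2).1, ← (along hq hf (hqm j hj)).1]
  have e : ∀ l ∈ range R, ∫ u in max (q j) (q l)..1, ext0 f' (xiD R q u) =
      levF f' R q R - levF f' R q (max j l) := fun l hl => by
    have hl' := (mem_range.1 hl).le
    have hm : max (q j) (q l) = q (max j l) := by
      rcases le_total j l with h | h
      · rw [max_eq_right h, max_eq_right (q_mono hq h hl')]
      · rw [max_eq_left h, max_eq_left (q_mono hq h hj)]
    rw [hm, ext_int hq (hqm _ (max_le hj hl')) z1, levF, levF, htop,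
      intervalIntegral.integral_interval_sub_left (ii_along hq hf z0 z1) (ii_along hq hf z0 (hqm _ (max_le hj hl')))]
  rw [upInt, sum_congr rfl e, sum_sub_distrib, sum_const, card_range, nsmul_eq_mul, sub_div,
    mul_div_cancel_left₀ _ (by positivity : (R:ℝ) ≠ 0), ← sum_range_add_sum_Ico _ hj,
    sum_congr rfl fun l hl => by rw [max_eq_left (mem_range.1 hl).le],
    sum_congr (rfl : Ico j R = Ico j R) fun l hl => by rw [max_eq_right (mem_Ico.1 hl).1]]
  rw [lam, sum_const, card_range, nsmul_eq_mul]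
  ring

/-- the same with the rows written out -/
theorem row_levF (hd : ∀ x, 0 ≤ x → ∫ u in (0:ℝ)..x, f' u = f x - f 0) (htop : q R = 1) {l : ℕ} (hl : l < R) :
    levF f' R q R - ((l + 1 : ℝ) * levF f' R q l + ∑ j ∈ Ico (l + 1) R, levF f' R q j) / R =
      f (xiD R q (q l)) - f 0 := by
  rw [← lam_levF hq hf hd (by omega) htop hl.le, lam, sum_eq_sum_Ico_succ_bot hl]
  ring

/-- the diagonal against the profile -/
theorem diag_dot (hd : ∀ x, 0 ≤ x → ∫ u in (0:ℝ)..x, f' u = f x - f 0) (hR : 1 ≤ R) (htop : q R = 1) :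
    levF f' R q R - (∑ l ∈ range R, levF f' R q l * q l) / R =
      (∫ s in (0:ℝ)..1, xiD R q s * f' (xiD R q s)) + ∫ s in (0:ℝ)..1, (f (xiD R q s) - f 0) := by
  set g := fun s => ext0 f' (xiD R q s)
  have hg : Continuous g := (continuous_ext0 hf).comp (continuous_xiD R q)
  have ii : ∀ (φ : ℝ → ℝ) (a b : ℝ), Continuous φ → IntervalIntegrable φ volume a b := fun φ a b h =>
    h.intervalIntegrable a b
  have hqm : ∀ l, l ≤ R → q l ∈ Set.Icc (0:ℝ) 1 := fun l hl => hq.upper hl
  have z0 : (0:ℝ) ∈ Set.Icc (0:ℝ) 1 := Set.left_mem_Icc.2 zero_le_one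
  have z1 : (1:ℝ) ∈ Set.Icc (0:ℝ) 1 := Set.right_mem_Icc.2 zero_le_one
  have hlev : ∀ l, l ≤ R → levF f' R q l = ∫ s in (0:ℝ)..q l, g s := fun l hl =>
    (ext_int hq z0 (hqm l hl)).symm
  have e : ∀ l ∈ range R, levF f' R q R - levF f' R q l * q l =
      (∫ s in (0:ℝ)..1, g s * (1 - max s (q l))) + ∫ s in q l..1, s * g s := fun l hl => by
    obtain ⟨a0, a1⟩ := hqm l (mem_range.1 hl).le
    rw [hlev R le_rfl, hlev l (mem_range.1 hl).le, htop]
    rw [← intervalIntegral.integral_add_adjacent_intervals (ii g 0 (q l) hg) (ii g (q l) 1 hg),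
      ← intervalIntegral.integral_add_adjacent_intervals (f := fun s => g s * (1 - max s (q l)))
        (ii _ 0 (q l) (by fun_prop)) (ii _ (q l) 1 (by fun_prop)),
      intervalIntegral.integral_congr (f := fun s => g s * (1 - max s (q l))) (g := fun s => g s * (1 - q l))
        (a := (0:ℝ)) (b := q l) (fun s hs => by
          rw [Set.uIcc_of_le a0] at hs
          simp only [max_eq_right hs.2]),
      intervalIntegral.integral_congr (f := fun s => g s * (1 - max s (q l))) (g := fun s => g s - s * g s)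
        (a := q l) (b := 1) (fun s hs => by
          rw [Set.uIcc_of_le a1] at hs
          simp only [max_eq_left hs.1]; ring),
      intervalIntegral.integral_sub (ii g _ _ hg) (ii _ _ _ (by fun_prop)), intervalIntegral.integral_mul_const]
    ring
  have h1 : levF f' R q R - (∑ l ∈ range R, levF f' R q l * q l) / R =
      (∑ l ∈ range R, (levF f' R q R - levF f' R q l * q l)) / R := by
    rw [sum_sub_distrib, sum_const, card_range, nsmul_eq_mul, sub_div,
      mul_div_cancel_left₀ _ (by positivity : (R:ℝ) ≠ 0)]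
  rw [h1, sum_congr rfl e, sum_add_distrib, add_div]
  congr 1
  · rw [← intervalIntegral.integral_finsetSum fun l _ => ii _ 0 1 (by fun_prop), ← intervalIntegral.integral_div]
    refine intervalIntegral.integral_congr fun s hs => ?_
    rw [Set.uIcc_of_le zero_le_one] at hs
    show (∑ l ∈ range R, g s * (1 - max s (q l))) / R = xiD R q s * f' (xiD R q s)
    rw [← mul_sum, mul_div_assoc, show g s = f' (xiD R q s) from ext0_eq f' (xiD_mem hq hs.1 hs.2).1]
    exact mul_comm _ _
  · have h2 := (along hq hf z0).2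
    rw [zero_mul, zero_add, upInt, sum_congr rfl fun l hl => by rw [max_eq_right (hqm l (mem_range.1 hl).le).1]] at h2
    refine h2.trans (intervalIntegral.integral_congr fun s hs => ?_)
    rw [Set.uIcc_of_le zero_le_one] at hs
    exact prim_ext hd (xiD_mem hq hs.1 hs.2).1

omit hq hf in
/-- the levels of a profile form the identity -/
lemma levF_one (l : ℕ) : levF (fun _ => (1:ℝ)) R q l = q l := by
  simp [levF]

end rows

lemma lam_profile (hq : Prof R q 1) (hR : 1 ≤ R) (htop : q R = 1) {j : ℕ} (hj : j ≤ R) :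
    lam R q j = xiD R q (q j) := by
  have h := lam_levF hq (f := fun x => x) (f' := fun _ => (1:ℝ)) continuousOn_const (fun x _ => by simp) hR htop hj
  rw [show levF (fun _ => (1:ℝ)) R q = q from funext fun l => by simp [levF], sub_zero] at h
  exact h

lemma levF_low (hq : Prof R q 1) (f' : ℝ → ℝ) : levF f' R q 0 = q 0 * f' (xiD R q (q 0)) := by
  rw [levF, intervalIntegral.integral_congr (g := fun _ => f' (xiD R q (q 0))) fun s hs => by
    rw [Set.uIcc_of_le hq.zero] at hs
    simp only [xiD_low hq hs.2]]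
  simp

section atoms
variable {k : ℕ} {w θ : Fin k → ℝ} (ha : Atoms w θ) (hq : Prof R q 1)
include ha hq

lemma row_levP (htop : q R = 1) (j : Fin k) {l : ℕ} (hl : l < R) :
    levP w θ j R q R - ((l + 1 : ℝ) * levP w θ j R q l + ∑ i ∈ Ico (l + 1) R, levP w θ j R q i) / R =
      phiA w θ j (xiD R q (q l)) := by
  rw [levP, row_levF hq (ha.continuousOn_dphiA j) (f := phiA w θ j)
    (fun x hx => by rw [ha.integral_dphiA j hx]; simp [phiA]) htop hl]
  simp [phiA]

lemma row_fieldH (htop : q R = 1) {l : ℕ} (hl : l < R) :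
    fieldH w θ R q R - ((l + 1 : ℝ) * fieldH w θ R q l + ∑ i ∈ Ico (l + 1) R, fieldH w θ R q i) / R =
      Rat w θ (xiD R q (q l)) - Rat w θ 0 :=
  row_levF hq ha.continuousOn_dRat (f := Rat w θ) (fun _ hx => ha.integral_dRat le_rfl hx) htop hl

lemma sum_levP {l : ℕ} (hl : l ≤ R) : ∑ j, levP w θ j R q l = q l := by
  simp only [levP, levF]
  rw [← intervalIntegral.integral_finsetSum fun j _ =>
    ii_along hq (ha.continuousOn_dphiA j) (Set.left_mem_Icc.2 zero_le_one) (hq.upper hl)]
  simp [ha.sum_dphiA]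

lemma levP_prof (j : Fin k) : Prof R (levP w θ j R q) 1 := by
  have z0 : (0:ℝ) ∈ Set.Icc (0:ℝ) 1 := Set.left_mem_Icc.2 zero_le_one
  have hp : ∀ l, 0 ≤ l → ∀ s : ℝ, 0 ≤ dphiA w θ j (xiD R q s) := fun _ _ s => (ha.dphiA_mem j _).1
  refine ⟨intervalIntegral.integral_nonneg hq.zero fun s _ => hp 0 le_rfl s, fun l hl => ?_, ?_⟩
  · simp only [levP, levF]
    rw [← intervalIntegral.integral_add_adjacent_intervals
      (ii_along hq (ha.continuousOn_dphiA j) z0 (hq.upper hl.le))
      (ii_along hq (ha.continuousOn_dphiA j) (hq.upper hl.le) (hq.upper hl))]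
    exact le_add_of_nonneg_right (intervalIntegral.integral_nonneg (hq.mono l hl) fun s _ => hp 0 le_rfl s)
  · refine le_trans (intervalIntegral.integral_mono_on (hq.upper le_rfl).1
      (ii_along hq (ha.continuousOn_dphiA j) z0 (hq.upper le_rfl)) intervalIntegrable_const
      fun s _ => (ha.dphiA_mem j _).2) ?_
    simpa using hq.top

/-- the energy: `∑ θ_j W_j` at the diagonal -/
theorem theta_levP (hl : q R = 1) : ∑ j, θ j * levP w θ j R q R =
    ∫ s in (0:ℝ)..1, (Rat w θ (xiD R q s) + xiD R q s * dRat w θ (xiD R q s)) := by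
  have ii : ∀ j, IntervalIntegrable (fun s => dphiA w θ j (xiD R q s)) volume 0 1 := fun j =>
    ii_along hq (ha.continuousOn_dphiA j) (Set.left_mem_Icc.2 zero_le_one) (Set.right_mem_Icc.2 zero_le_one)
  simp only [levP, levF, hl, ← intervalIntegral.integral_const_mul]
  rw [← intervalIntegral.integral_finsetSum fun j _ => (ii j).const_mul _]
  refine intervalIntegral.integral_congr fun s hs => ?_
  rw [Set.uIcc_of_le zero_le_one] at hs
  exact ha.sum_theta_dphiA' (xiD_mem hq hs.1 hs.2).1

/-- **the increment identity** -/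
theorem increment (hR : 1 ≤ R) (hl : q R = 1) :
    (∑ j, w j * θ j + fieldH w θ R q R - dotH R (fieldH w θ R q) q -
        ∫ s in (0:ℝ)..1, xiD R q s * dRat w θ (xiD R q s)) / 2 =
      (∫ s in (0:ℝ)..1, Rat w θ (xiD R q s)) / 2 := by
  have h := diag_dot hq ha.continuousOn_dRat (f := Rat w θ) (fun _ hx => ha.integral_dRat le_rfl hx) hR hl
  rw [intervalIntegral.integral_sub
    (ii_along hq ha.continuousOn_Rat (Set.left_mem_Icc.2 zero_le_one) (Set.right_mem_Icc.2 zero_le_one))
    intervalIntegrable_const, intervalIntegral.integral_const] at h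
  have e : Rat w θ 0 = ∑ j, w j * θ j := by simp [Rat]
  simp only [e, sub_zero, one_smul] at h
  simp only [fieldH, dotH]
  linarith

omit hq in
/-- the quadratic terms of the corner and of the moved eigenvalues -/
theorem move_identity {y : ℝ} (hy : 0 < y) (o : Fin k) :
    (1 / (zat w θ y - θ o) - gat2 w θ (zat w θ y) / y) / gat2 w θ (zat w θ y) -
      (1 / (zat w θ y - θ o) - y) / gat2 w θ (zat w θ y) = -(y * dRat w θ y) := by
  have h1 := (ha.gat_pos (ha.zat_spec hy).1).2.ne'
  have := (ha.gap_pos hy o).ne'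
  rw [dRat, if_pos hy]
  field_simp
  ring

omit hq in
theorem move_sum {y : ℝ} (hy : 0 < y) (o : Fin k) :
    ∑ j, w j * ((θ o - θ j) / ((zat w θ y - θ j) * (zat w θ y - θ o))) = 1 / (zat w θ y - θ o) - y := by
  have e : ∀ j, w j * ((θ o - θ j) / ((zat w θ y - θ j) * (zat w θ y - θ o))) =
      w j * (1 / (zat w θ y - θ o)) - w j / (zat w θ y - θ j) := fun j => by
    have := (ha.gap_pos hy o).ne'
    have := (ha.gap_pos hy j).ne'
    field_simp
    ring
  rw [sum_congr rfl fun j _ => e j, sum_sub_distrib, ← sum_mul, ha.one, one_mul]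
  exact congrArg (fun x => 1 / (zat w θ y - θ o) - x) (ha.zat_spec hy).2

end atoms

/-! ### scaling of the atoms -/

section scale
variable {k : ℕ} {w θ : Fin k → ℝ} (ha : Atoms w θ) {b : ℝ} (hb : 0 < b)
include ha hb

lemma atoms_smul : Atoms w fun j => b * θ j :=
  ⟨ha.pos, ha.one, fun _ _ h => mul_lt_mul_of_pos_left (ha.mono h) hb⟩

lemma zat_smul {y : ℝ} (hy : 0 < y) : zat w (fun j => b * θ j) y = b * zat w θ (b * y) := by
  obtain ⟨h1, h2⟩ := ha.zat_spec (mul_pos hb hy)
  have e : gat w (fun j => b * θ j) (b * zat w θ (b * y)) = y := by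
    calc _ = gat w θ (zat w θ (b * y)) / b := by
          rw [gat, gat, sum_div]
          refine sum_congr rfl fun j _ => ?_
          rw [← mul_sub, mul_comm b, div_div]
      _ = y := by rw [h2]; field_simp
  have h := (atoms_smul ha hb).zat_eq (z := b * zat w θ (b * y)) fun j => mul_lt_mul_of_pos_left (h1 j) hb
  rwa [e] at h

omit ha hb in
lemma gat2_smul (z : ℝ) : gat2 w (fun j => b * θ j) (b * z) = gat2 w θ z / b ^ 2 := by
  rw [gat2, gat2, sum_div]
  refine sum_congr rfl fun j _ => ?_
  rw [← mul_sub, mul_pow, mul_comm (b ^ 2), div_div]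

theorem Rat_smul {y : ℝ} (hy : 0 ≤ y) : Rat w (fun j => b * θ j) y = b * Rat w θ (b * y) := by
  rcases hy.eq_or_lt with rfl | h
  · simp [Rat, mul_sum, mul_left_comm]
  · simp only [Rat, if_pos h, if_pos (mul_pos hb h), zat_smul ha hb h]
    field_simp

theorem dphiA_smul (j : Fin k) {y : ℝ} (hy : 0 ≤ y) :
    dphiA w (fun i => b * θ i) j y = dphiA w θ j (b * y) := by
  rcases hy.eq_or_lt with rfl | h
  · simp [dphiA]
  · simp only [dphiA, if_pos h, if_pos (mul_pos hb h), zat_smul ha hb h, gat2_smul, ← mul_sub, mul_pow]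
    have := (ha.gap_pos (mul_pos hb h) j).ne'
    have := (ha.gat_pos (ha.zat_spec (mul_pos hb h)).1).2.ne'
    field_simp

theorem dRat_smul {y : ℝ} (hy : 0 ≤ y) : dRat w (fun j => b * θ j) y = b ^ 2 * dRat w θ (b * y) := by
  rcases hy.eq_or_lt with rfl | h
  · simp only [dRat, mul_zero, lt_irrefl, if_false, mul_sub, mul_sum]
    rw [sum_congr rfl fun j _ => show w j * (b * θ j) = b * (w j * θ j) by ring, ← mul_sum, ← mul_sum]
    congr 1
    · rw [mul_sum]; exact sum_congr rfl fun j _ => by ring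
    · ring
  · simp only [dRat, if_pos h, if_pos (mul_pos hb h), zat_smul ha hb h, gat2_smul]
    have := (ha.gat_pos (ha.zat_spec (mul_pos hb h)).1).2.ne'
    field_simp

theorem levP_smul (hq : Prof R q 1) (j : Fin k) {l : ℕ} (hl : l ≤ R) :
    levP w (fun i => b * θ i) j R q l = ∫ s in (0:ℝ)..q l, dphiA w θ j (b * xiD R q s) :=
  intervalIntegral.integral_congr fun s hs => by
    rw [Set.uIcc_of_le (hq.upper hl).1] at hs
    exact dphiA_smul ha hb j (xiD_mem hq hs.1 (hs.2.trans (hq.upper hl).2)).1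

end scale

/-! ### the energy in `b` -/

section energy
variable {k : ℕ} {w θ : Fin k → ℝ} (ha : Atoms w θ) (hq : Prof R q 1)

/-- the derivative of `y R(y)` -/
def slopeR (w θ : Fin k → ℝ) (y : ℝ) : ℝ := Rat w θ y + y * dRat w θ y

/-- the part of the value that the couplings give at the scale `b` -/
def energy (w θ : Fin k → ℝ) (R : ℕ) (q : ℕ → ℝ) (b : ℝ) : ℝ :=
  b * (∫ s in (0:ℝ)..1, Rat w θ (b * xiD R q s)) / 2

include ha hq

omit ha in
lemma ii_scaled {g : ℝ → ℝ} (hg : ContinuousOn g (Set.Ici 0)) {b : ℝ} (hb : 0 ≤ b) :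
    IntervalIntegrable (fun s => g (b * xiD R q s)) volume 0 1 :=
  (hg.comp (continuous_const.mul (continuous_xiD R q)).continuousOn fun s hs => by
    rw [Set.uIcc_of_le zero_le_one] at hs
    exact mul_nonneg hb (xiD_mem hq hs.1 hs.2).1).intervalIntegrable

omit hq in
lemma continuousOn_slopeR : ContinuousOn (slopeR w θ) (Set.Ici 0) :=
  ha.continuousOn_Rat.add (continuousOn_id.mul ha.continuousOn_dRat)

/-- the energy at scale `b` is the value of the scaled atoms, its slope the projected overlaps -/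
theorem slope_eq (htop : q R = 1) {b : ℝ} (hb : 0 < b) :
    (∫ s in (0:ℝ)..1, slopeR w θ (b * xiD R q s)) / 2 = (∑ j, θ j * levP w (fun i => b * θ i) j R q R) / 2 ∧
    energy w θ R q b = (∫ s in (0:ℝ)..1, Rat w (fun j => b * θ j) (xiD R q s)) / 2 := by
  constructor
  · congr 1
    simp only [levP_smul ha hb hq _ le_rfl, htop, ← intervalIntegral.integral_const_mul]
    rw [← intervalIntegral.integral_finsetSum fun j _ => (ii_scaled hq (ha.continuousOn_dphiA j) hb.le).const_mul _]
    refine intervalIntegral.integral_congr fun s hs => ?_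
    rw [Set.uIcc_of_le zero_le_one] at hs
    exact (ha.sum_theta_dphiA' (mul_nonneg hb.le (xiD_mem hq hs.1 hs.2).1)).symm
  · rw [energy, ← intervalIntegral.integral_const_mul]
    congr 1
    refine intervalIntegral.integral_congr fun s hs => ?_
    rw [Set.uIcc_of_le zero_le_one] at hs
    exact (Rat_smul ha hb (xiD_mem hq hs.1 hs.2).1).symm

/-- the energy is convex in `b`: increments lie between the slopes -/
theorem energy_between {a b : ℝ} (h0 : 0 ≤ a) (hab : a ≤ b) :
    (b - a) * ((∫ s in (0:ℝ)..1, slopeR w θ (a * xiD R q s)) / 2) ≤ energy w θ R q b - energy w θ R q a ∧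
    energy w θ R q b - energy w θ R q a ≤ (b - a) * ((∫ s in (0:ℝ)..1, slopeR w θ (b * xiD R q s)) / 2) := by
  have hb := h0.trans hab
  have hmv : ∀ D : ℝ, 0 ≤ D → (b - a) * slopeR w θ (a * D) ≤ b * Rat w θ (b * D) - a * Rat w θ (a * D) ∧
      b * Rat w θ (b * D) - a * Rat w θ (a * D) ≤ (b - a) * slopeR w θ (b * D) := fun D hD => by
    rcases hab.eq_or_lt with rfl | hlt
    · simp
    have hcd : ContinuousOn (fun x => x * Rat w θ (x * D)) (Set.Icc a b) :=
      continuousOn_id.mul (ha.continuousOn_Rat.comp (continuous_id.mul continuous_const).continuousOn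
        fun x hx => mul_nonneg (h0.trans hx.1) hD)
    have hder : ∀ x ∈ Set.Ioo a b, HasDerivAt (fun x => x * Rat w θ (x * D)) (slopeR w θ (x * D)) x := by
      intro x hx
      have hx0 : 0 < x := h0.trans_lt hx.1
      rcases hD.eq_or_lt with rfl | hD'
      · simpa [slopeR, Rat] using (hasDerivAt_id' x).mul_const (Rat w θ 0)
      · refine ((hasDerivAt_id' x).fun_mul ((ha.hasDerivAt_Rat (mul_pos hx0 hD')).comp x
          ((hasDerivAt_id' x).mul_const D))).congr_deriv ?_
        simp only [slopeR, Function.comp_apply]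
        ring
    obtain ⟨ξ, hξ, he⟩ := exists_hasDerivAt_eq_slope _ _ hlt hcd hder
    rw [eq_div_iff (sub_ne_zero.2 hlt.ne')] at he
    rw [← he, mul_comm (slopeR w θ (ξ * D))]
    exact ⟨mul_le_mul_of_nonneg_left (ha.yR_slope_mono (mul_nonneg h0 hD) (mul_nonneg (h0.trans hξ.1.le) hD)
        (mul_le_mul_of_nonneg_right hξ.1.le hD)) (sub_nonneg.2 hab),
      mul_le_mul_of_nonneg_left (ha.yR_slope_mono (mul_nonneg (h0.trans hξ.1.le) hD) (mul_nonneg hb hD)
        (mul_le_mul_of_nonneg_right hξ.2.le hD)) (sub_nonneg.2 hab)⟩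
  have ia := (ii_scaled hq ha.continuousOn_Rat h0).const_mul a
  have ib := (ii_scaled hq ha.continuousOn_Rat hb).const_mul b
  have e : energy w θ R q b - energy w θ R q a =
      (∫ s in (0:ℝ)..1, (b * Rat w θ (b * xiD R q s) - a * Rat w θ (a * xiD R q s))) / 2 := by
    rw [intervalIntegral.integral_sub ib ia, intervalIntegral.integral_const_mul,
      intervalIntegral.integral_const_mul, energy, energy]
    ring
  have sa := (ii_scaled hq (continuousOn_slopeR ha) h0).const_mul (b - a)
  have sb := (ii_scaled hq (continuousOn_slopeR ha) hb).const_mul (b - a)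
  have m1 := intervalIntegral.integral_mono_on zero_le_one sa (ib.sub ia) fun s hs =>
    (hmv _ (xiD_mem hq hs.1 hs.2).1).1
  have m2 := intervalIntegral.integral_mono_on zero_le_one (ib.sub ia) sb fun s hs =>
    (hmv _ (xiD_mem hq hs.1 hs.2).1).2
  rw [intervalIntegral.integral_const_mul] at m1 m2
  rw [e]
  constructor <;> linarith

end energy

/-! ### comparison of tails -/

open Vale.Agent.P157.Full (tailAvg) in
/-- tails at least those of `q` give a susceptibility at most that of `q` -/
theorem xiD_tail (hq : Prof R q 1) {q' : ℕ → ℝ} {η : ℝ} (hη : 0 ≤ η)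
    (h : ∀ J < R, tailAvg R J q - η ≤ tailAvg R J q') (s : ℝ) : xiD R q' s ≤ xiD R q s + η := by
  rcases Nat.eq_zero_or_pos R with rfl | hR
  · simpa [xiD] using hη
  have hex : ∃ J, J ≤ R ∧ (∀ l < J, q l ≤ s) ∧ ∀ l, J ≤ l → l < R → s ≤ q l := by
    classical
    by_cases hc : ∃ l, l < R ∧ s < q l
    · refine ⟨Nat.find hc, (Nat.find_spec hc).1.le, fun l hl => ?_, fun l hl hlR => ?_⟩
      · have := Nat.find_min hc hl
        push Not at this
        exact this (hl.trans_le (Nat.find_spec hc).1.le)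
      · exact (Nat.find_spec hc).2.le.trans (q_mono hq hl hlR.le)
    · push Not at hc
      exact ⟨R, le_rfl, hc, fun l h1 h2 => absurd h2 (by omega)⟩
  obtain ⟨J, hJR, hlo, hhi⟩ := hex
  have hR0 : (0:ℝ) < R := by positivity
  have htail : (∑ l ∈ Ico J R, q l) - η * R ≤ ∑ l ∈ Ico J R, q' l := by
    rcases hJR.eq_or_lt with rfl | hJ
    · simp only [Ico_self, sum_empty]; linarith [mul_nonneg hη hR0.le]
    · have := h J hJ
      rw [tailAvg, tailAvg, div_sub' hR0.ne', div_le_div_iff_of_pos_right hR0] at this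
      linarith
  have hq1 : ∑ l ∈ range R, max s (q l) = (J:ℝ) * s + ∑ l ∈ Ico J R, q l := by
    rw [← sum_range_add_sum_Ico _ hJR, sum_congr rfl fun l hl => max_eq_left (hlo l (mem_range.1 hl)),
      sum_congr (rfl : Ico J R = Ico J R) fun l hl => max_eq_right (hhi l (mem_Ico.1 hl).1 (mem_Ico.1 hl).2)]
    simp
  have hq2 : (J:ℝ) * s + ∑ l ∈ Ico J R, q' l ≤ ∑ l ∈ range R, max s (q' l) := by
    rw [← sum_range_add_sum_Ico _ hJR]
    refine add_le_add ((le_of_eq (by simp)).trans (sum_le_sum (f := fun _ => s) fun l _ => le_max_left _ _))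
      (sum_le_sum fun l _ => le_max_right _ _)
  rw [xiD, xiD, div_le_iff₀ hR0, add_mul, div_mul_cancel₀ _ hR0.ne']
  simp only [sum_sub_distrib]
  linarith

end Vale.Agent.P166.Gen
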