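import Vale.Agent.P166.Gen.Algebra
import Vale.Agent.P157.Full.Fields
import Vale.Agent.P157.Full.Reps

/-! G5: Lipschitz dependence on the overlaps and on the path, with constants that depend on the atoms
only through a bound on their size and on the mass of the top one. -/

open MeasureTheory Finset Real
open scoped Topology
open Vale.Agent.P157.Par (Prof dist1)
open Vale.Agent.P157.Full (qh psiH dotH qh_prof dist1_of_lvl sinh_div_cosh_eq)
open Vale.Agent.P168.MP (lin)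

noncomputable section

namespace Vale.Agent.P166.Gen

open Par.Multi (xiD xiD_mem continuous_xiD)

/-- a susceptibility is Lipschitz in the overlaps -/
lemma xiD_lip {R : ℕ} (q q' : ℕ → ℝ) (s : ℝ) :
    |xiD R q s - xiD R q' s| ≤ (∑ l ∈ range R, |q l - q' l|) / R := by
  rw [xiD, xiD, ← sub_div, ← sum_sub_distrib, abs_div, Nat.abs_cast]
  refine div_le_div_of_nonneg_right ((abs_sum_le_sum_abs _ _).trans (sum_le_sum fun l _ => ?_))
    (Nat.cast_nonneg R)
  rw [sub_sub_sub_cancel_left, abs_sub_comm (q l)]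
  exact (abs_max_sub_max_le_max _ _ _ _).trans (by simp)

lemma mean_le_dist1 {R : ℕ} (q q' : ℕ → ℝ) : (∑ l ∈ range R, |q l - q' l|) / R ≤ dist1 R q q' :=
  le_add_of_nonneg_right (abs_nonneg _)

lemma inv_sq_lip {η x y : ℝ} (hη : 0 < η) (hx : η ≤ x) (hy : η ≤ y) :
    |1 / x ^ 2 - 1 / y ^ 2| ≤ 2 / η ^ 3 * |x - y| := by
  have x0 := hη.trans_le hx
  have y0 := hη.trans_le hy
  have h1 : 1 / (x * y ^ 2) ≤ 1 / η ^ 3 := one_div_le_one_div_of_le (by positivity)
    (le_of_eq_of_le (by ring) (mul_le_mul hx (pow_le_pow_left₀ hη.le hy 2) (by positivity) x0.le))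
  have h2 : 1 / (x ^ 2 * y) ≤ 1 / η ^ 3 := one_div_le_one_div_of_le (by positivity)
    (le_of_eq_of_le (by ring) (mul_le_mul (pow_le_pow_left₀ hη.le hx 2) hy hη.le (by positivity)))
  rw [show 1 / x ^ 2 - 1 / y ^ 2 = (1 / (x * y ^ 2) + 1 / (x ^ 2 * y)) * (y - x) by field_simp; ring, abs_mul,
    abs_sub_comm y, abs_of_pos (by positivity)]
  refine mul_le_mul_of_nonneg_right ((add_le_add h1 h2).trans_eq ?_) (abs_nonneg _)
  ring

lemma quot_lip {N N' a a' : ℝ} (ha : 1 ≤ a) (ha' : 1 ≤ a') :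
    |N / a - N' / a'| ≤ |N - N'| + |N'| * |a - a'| := by
  have h := zero_lt_one.trans_le ha
  have h' := zero_lt_one.trans_le ha'
  rw [show N / a - N' / a' = (N - N') / a + N' * (a' - a) / (a * a') by field_simp; ring]
  refine (abs_add_le _ _).trans (add_le_add ?_ ?_)
  · rw [abs_div, abs_of_pos h]
    exact div_le_self (abs_nonneg _) ha
  · rw [abs_div, abs_mul, abs_sub_comm a', abs_of_pos (mul_pos h h')]
    exact div_le_self (by positivity) (by nlinarith)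

/-- atoms of size at most `L` with mass at least `η` at the top -/
def Bdd {k : ℕ} (w θ : Fin k → ℝ) (L η : ℝ) : Prop :=
  Atoms w θ ∧ (∀ j, |θ j| ≤ L) ∧ 0 < η ∧ ∀ j : Fin k, (∀ i, i ≤ j) → η ≤ w j

namespace Bdd

variable {k : ℕ} {w θ : Fin k → ℝ} {L η : ℝ} (H : Bdd w θ L η)
include H

lemma le_pA (j : Fin k) (y : ℝ) : η ≤ pA w θ j y := by
  obtain ⟨t, ht⟩ := H.1.exists_top
  exact (H.2.2.2 t ht).trans (H.1.pA_ge ht j y)

lemma L_nonneg : 0 ≤ L := by
  obtain ⟨t, -⟩ := H.1.exists_top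
  exact (abs_nonneg _).trans (H.2.1 t)

lemma le_qA (y : ℝ) : 1 ≤ qA w θ y := by
  obtain ⟨t, ht⟩ := H.1.exists_top
  exact (H.1.qA_bounds ht y).1

lemma pA_lip {B a b : ℝ} (ha : a ∈ Set.Icc 0 B) (hb : b ∈ Set.Icc 0 B) (j : Fin k) :
    |pA w θ j a - pA w θ j b| ≤ (2 * L + B * (4 * L ^ 2 / η ^ 4)) * |a - b| := by
  obtain ⟨hA, hL, hη, hw⟩ := H
  have e : ∀ y, 0 ≤ y → pA w θ j y = 1 + y * (Rat w θ y - θ j) := fun y hy => by
    rcases hy.eq_or_lt with rfl | h
    · simp [pA]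
    · rw [pA, if_pos h, Rat, if_pos h]
      field_simp
      ring
  rw [e a ha.1, e b hb.1,
    show 1 + a * (Rat w θ a - θ j) - (1 + b * (Rat w θ b - θ j)) =
      (a - b) * (Rat w θ a - θ j) + b * (Rat w θ a - Rat w θ b) by ring]
  refine (abs_add_le _ _).trans ?_
  rw [abs_mul, abs_mul, abs_of_nonneg hb.1]
  have h1 : |Rat w θ a - θ j| ≤ 2 * L :=
    (abs_sub _ _).trans ((add_le_add (hA.abs_Rat_le ha.1 hL) (hL j)).trans_eq (by ring))
  have h2 := mul_le_mul hb.2 (hA.Rat_lip ha.1 hb.1 hL hη hw) (abs_nonneg _) (hb.1.trans hb.2)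
  linarith [mul_le_mul_of_nonneg_left h1 (abs_nonneg (a - b))]

end Bdd

/-- the coefficients of the atoms are Lipschitz -/
theorem coef_lip (L η B : ℝ) : ∃ K : ℝ, 0 ≤ K ∧ ∀ {k : ℕ} {w θ : Fin k → ℝ}, Bdd w θ L η →
    ∀ a ∈ Set.Icc (0:ℝ) B, ∀ b ∈ Set.Icc (0:ℝ) B,
      (∀ j, |1 / pA w θ j a ^ 2 - 1 / pA w θ j b ^ 2| ≤ K * |a - b|) ∧
      |qA w θ a - qA w θ b| ≤ K * |a - b| := by
  refine ⟨|2 / η ^ 3| * |2 * L + B * (4 * L ^ 2 / η ^ 4)|, by positivity, fun {k w θ} H a ha b hb => ?_⟩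
  have h : ∀ j, |1 / pA w θ j a ^ 2 - 1 / pA w θ j b ^ 2| ≤
      |2 / η ^ 3| * |2 * L + B * (4 * L ^ 2 / η ^ 4)| * |a - b| := fun j => by
    refine (inv_sq_lip H.2.2.1 (H.le_pA j a) (H.le_pA j b)).trans ?_
    rw [mul_assoc]
    exact mul_le_mul (le_abs_self _) ((H.pA_lip ha hb j).trans (mul_le_mul_of_nonneg_right (le_abs_self _)
      (abs_nonneg _))) (abs_nonneg _) (abs_nonneg _)
  refine ⟨h, ?_⟩
  rw [qA, qA, ← sum_sub_distrib]
  refine (abs_sum_le_sum_abs _ _).trans ((sum_le_sum fun j _ => ?_).trans_eq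
    (show ∑ j, w j * (|2 / η ^ 3| * |2 * L + B * (4 * L ^ 2 / η ^ 4)| * |a - b|) = _ by
      rw [← sum_mul, H.1.one, one_mul]))
  rw [← mul_one_div (w j), ← mul_one_div (w j) (pA w θ j b ^ 2), ← mul_sub, abs_mul, abs_of_nonneg (H.1.pos j).le]
  exact mul_le_mul_of_nonneg_left (h j) (H.1.pos j).le

/-- the derivatives of the R-transform and of the projected functions are Lipschitz -/
theorem deriv_lip (L η B : ℝ) : ∃ K : ℝ, 0 ≤ K ∧ ∀ {k : ℕ} {w θ : Fin k → ℝ}, Bdd w θ L η →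
    ∀ a ∈ Set.Icc (0:ℝ) B, ∀ b ∈ Set.Icc (0:ℝ) B,
      |dRat w θ a - dRat w θ b| ≤ K * |a - b| ∧
      ∀ j, |dphiA w θ j a - dphiA w θ j b| ≤ w j * (K * |a - b|) := by
  obtain ⟨C, hC, hc⟩ := coef_lip L η B
  refine ⟨C * (1 + |1 / η ^ 2|) * (1 + (2 * L) ^ 2 * (1 + |1 / η ^ 2|)), by positivity,
    fun {k w θ} H a ha b hb => ?_⟩
  obtain ⟨hu, hq⟩ := hc H a ha b hb
  obtain ⟨hA, hL, hη, hw⟩ := id H
  set U := |1 / η ^ 2| with hU
  set d := C * |a - b| with hd
  have d0 : 0 ≤ d := by positivity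
  have hub : ∀ j y, |1 / pA w θ j y ^ 2| ≤ U := fun j y => by
    rw [hU, abs_of_pos (one_div_pos.2 (pow_pos (hη.trans_le (H.le_pA j y)) 2)), abs_of_pos (by positivity)]
    exact one_div_le_one_div_of_le (by positivity) (pow_le_pow_left₀ hη.le (H.le_pA j y) 2)
  have U0 : 0 ≤ U := abs_nonneg _
  have hL2 : (0:ℝ) ≤ (2 * L) ^ 2 := sq_nonneg _
  constructor
  · set T := fun y i j => w i * w j * (θ i - θ j) ^ 2 * (1 / pA w θ i y ^ 2 * (1 / pA w θ j y ^ 2))
    have e : ∀ y, 0 ≤ y → dRat w θ y = (∑ i, ∑ j, T y i j) / qA w θ y / 2 := fun y hy => by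
      rw [hA.dRat_eq hy, div_div, mul_comm (qA w θ y)]
      refine congrArg (fun x => x / (2 * qA w θ y)) (sum_congr rfl fun i _ => sum_congr rfl fun j _ => ?_)
      simp only [T]
      have := (hA.pA_pos i y).ne'
      have := (hA.pA_pos j y).ne'
      field_simp
    have hθ : ∀ i j, (θ i - θ j) ^ 2 ≤ (2 * L) ^ 2 := fun i j =>
      sq_le_sq' (by linarith [abs_le.1 (hL i), abs_le.1 (hL j)]) (by linarith [abs_le.1 (hL i), abs_le.1 (hL j)])
    have hsum : ∀ c : ℝ, ∑ i, ∑ j, w i * w j * c = c := fun c => by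
      simp only [← sum_mul, ← mul_sum, hA.one, one_mul]
    have hwt : ∀ (f : Fin k → Fin k → ℝ) (c : ℝ), (∀ i j, |f i j| ≤ c) →
        |∑ i, ∑ j, w i * w j * (θ i - θ j) ^ 2 * f i j| ≤ (2 * L) ^ 2 * c := fun f c hf => by
      refine (abs_sum_le_sum_abs _ _).trans ((sum_le_sum fun i _ =>
        (abs_sum_le_sum_abs _ _).trans (sum_le_sum fun j _ => ?_)).trans_eq (hsum _))
      have h0 := mul_nonneg (hA.pos i).le (hA.pos j).le
      rw [abs_mul, abs_of_nonneg (mul_nonneg h0 (sq_nonneg _)), mul_assoc]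
      exact mul_le_mul_of_nonneg_left (mul_le_mul (hθ i j) (hf i j) (abs_nonneg _) hL2) h0
    have hT : |(∑ i, ∑ j, T a i j) - ∑ i, ∑ j, T b i j| ≤ (2 * L) ^ 2 * (2 * U * d) := by
      simp only [T, ← sum_sub_distrib, ← mul_sub]
      refine hwt _ _ fun i j => ?_
      rw [show ∀ x y x' y' : ℝ, x * y - x' * y' = (x - x') * y + x' * (y - y') from fun _ _ _ _ => by ring]
      refine (abs_add_le _ _).trans ?_
      rw [abs_mul, abs_mul]
      linarith [mul_le_mul (hu i) (hub j a) (abs_nonneg _) d0, mul_le_mul (hub i b) (hu j) (abs_nonneg _) U0]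
    have hTb : |∑ i, ∑ j, T b i j| ≤ (2 * L) ^ 2 * (U * U) := hwt _ _ fun i j => by
      rw [abs_mul]; exact mul_le_mul (hub i b) (hub j b) (abs_nonneg _) U0
    rw [e a ha.1, e b hb.1, ← sub_div, abs_div, abs_two]
    refine (div_le_div_of_nonneg_right ((quot_lip (H.le_qA a) (H.le_qA b)).trans (add_le_add hT
      (mul_le_mul hTb hq (abs_nonneg _) (by positivity)))) two_pos.le).trans ?_
    have h1 : 0 ≤ (2 * L) ^ 2 * d := mul_nonneg hL2 d0
    have h2 : 0 ≤ (2 * L) ^ 2 * d * U := mul_nonneg h1 U0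
    have h3 : 0 ≤ d * U := mul_nonneg d0 U0
    have h4 : 0 ≤ (2 * L) ^ 2 * d * U * U := mul_nonneg h2 U0
    simp only [hd] at *
    linarith
  · intro j
    rw [hA.dphiA_eq j a, hA.dphiA_eq j b, ← mul_one_div (w j), ← mul_one_div (w j) (pA w θ j b ^ 2),
      mul_div_assoc, mul_div_assoc, ← mul_sub, abs_mul, abs_of_nonneg (hA.pos j).le]
    refine mul_le_mul_of_nonneg_left ((quot_lip (H.le_qA a) (H.le_qA b)).trans
      ((add_le_add (hu j) (mul_le_mul (hub j b) hq (abs_nonneg _) U0)).trans ?_)) (hA.pos j).le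
    have h1 : 0 ≤ (2 * L) ^ 2 * d := mul_nonneg hL2 d0
    have h2 : 0 ≤ (2 * L) ^ 2 * d * U := mul_nonneg h1 U0
    have h4 : 0 ≤ (2 * L) ^ 2 * d * U * U := mul_nonneg h2 U0
    simp only [hd] at *
    linarith

section levels
variable {R : ℕ} {q q' : ℕ → ℝ} {f' : ℝ → ℝ} {K M : ℝ}

/-- levels are Lipschitz in the overlaps -/
theorem levF_lip (hq : Prof R q 1) (hq' : Prof R q' 1) (hf : ContinuousOn f' (Set.Ici 0))
    (hM : ∀ x ∈ Set.Icc (0:ℝ) 1, |f' x| ≤ M) (hK0 : 0 ≤ K)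
    (hK : ∀ x ∈ Set.Icc (0:ℝ) 1, ∀ y ∈ Set.Icc (0:ℝ) 1, |f' x - f' y| ≤ K * |x - y|) {l : ℕ} (hl : l ≤ R) :
    |levF f' R q l - levF f' R q' l| ≤
      M * |q l - q' l| + K * ((∑ i ∈ range R, |q i - q' i|) / R) := by
  have z0 : (0:ℝ) ∈ Set.Icc (0:ℝ) 1 := Set.left_mem_Icc.2 zero_le_one
  have a := hq.upper hl
  have b := hq'.upper hl
  have e : levF f' R q l - levF f' R q' l =
      (∫ s in (0:ℝ)..q l, (f' (xiD R q s) - f' (xiD R q' s))) + ∫ s in q' l..q l, f' (xiD R q' s) := by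
    rw [intervalIntegral.integral_sub (ii_along hq hf z0 a) (ii_along hq' hf z0 a),
      ← intervalIntegral.integral_interval_sub_left (ii_along hq' hf z0 a) (ii_along hq' hf z0 b), levF, levF]
    ring
  rw [e]
  refine (abs_add_le _ _).trans ((add_comm _ _).trans_le (add_le_add ?_ ?_))
  · exact intervalIntegral.norm_integral_le_of_norm_le_const (C := M) (f := fun s => f' (xiD R q' s)) fun s hs =>
      have h := Set.uIcc_subset_Icc b a (Set.uIoc_subset_uIcc hs)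
      hM _ (xiD_mem hq' h.1 h.2)
  · have hm : (0:ℝ) ≤ (∑ i ∈ range R, |q i - q' i|) / R := by positivity
    refine (intervalIntegral.norm_integral_le_of_norm_le_const
      (C := K * ((∑ i ∈ range R, |q i - q' i|) / R))
      (f := fun s => f' (xiD R q s) - f' (xiD R q' s)) fun s hs => ?_).trans ?_
    · have h := Set.uIcc_subset_Icc z0 a (Set.uIoc_subset_uIcc hs)
      exact (hK _ (xiD_mem hq h.1 h.2) _ (xiD_mem hq' h.1 h.2)).trans
        (mul_le_mul_of_nonneg_left (xiD_lip q q' s) hK0)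
    · rw [sub_zero, abs_of_nonneg a.1]
      exact mul_le_of_le_one_right (mul_nonneg hK0 hm) a.2

lemma levF_prof (hq : Prof R q 1) (hf : ContinuousOn f' (Set.Ici 0)) (h0 : ∀ x ∈ Set.Icc (0:ℝ) 1, 0 ≤ f' x)
    (hM : ∀ x ∈ Set.Icc (0:ℝ) 1, f' x ≤ M) : Prof R (levF f' R q) M := by
  have z0 : (0:ℝ) ∈ Set.Icc (0:ℝ) 1 := Set.left_mem_Icc.2 zero_le_one
  have hm : ∀ {a b s : ℝ}, a ∈ Set.Icc (0:ℝ) 1 → b ∈ Set.Icc (0:ℝ) 1 → s ∈ Set.Icc a b →
      xiD R q s ∈ Set.Icc (0:ℝ) 1 := fun ha hb hs => xiD_mem hq (ha.1.trans hs.1) (hs.2.trans hb.2)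
  have hn := hq.upper (Nat.zero_le R)
  refine ⟨intervalIntegral.integral_nonneg hq.zero fun s hs => h0 _ (hm z0 hn hs), fun l hl => ?_, ?_⟩
  · simp only [levF]
    rw [← intervalIntegral.integral_add_adjacent_intervals (ii_along hq hf z0 (hq.upper hl.le))
      (ii_along hq hf (hq.upper hl.le) (hq.upper hl))]
    exact le_add_of_nonneg_right (intervalIntegral.integral_nonneg (hq.mono l hl)
      fun s hs => h0 _ (hm (hq.upper hl.le) (hq.upper hl) hs))
  · refine (intervalIntegral.integral_mono_on (hq.upper le_rfl).1 (ii_along hq hf z0 (hq.upper le_rfl))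
      intervalIntegrable_const fun s hs => hM _ (hm z0 (hq.upper le_rfl) hs)).trans ?_
    rw [intervalIntegral.integral_const, smul_eq_mul, sub_zero]
    exact mul_le_of_le_one_left ((h0 0 z0).trans (hM 0 z0)) (hq.upper le_rfl).2

end levels

/-- the field is a path bounded by the bound on `R'` -/
lemma fieldH_prof {k R : ℕ} {w θ : Fin k → ℝ} {L η : ℝ} (H : Bdd w θ L η) {q : ℕ → ℝ} (hq : Prof R q 1) :
    Prof R (fieldH w θ R q) (4 * L ^ 2 / η ^ 4) :=
  levF_prof hq H.1.continuousOn_dRat (fun _ hx => H.1.dRat_nonneg hx.1)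
    fun _ hx => H.1.dRat_le hx.1 H.2.1 H.2.2.1 H.2.2.2

/-- the field and the projected overlaps are Lipschitz in the overlaps -/
theorem maps_lip (L η : ℝ) : ∃ K : ℝ, 0 ≤ K ∧ ∀ {k : ℕ} {w θ : Fin k → ℝ}, Bdd w θ L η →
    ∀ (R : ℕ) (q q' : ℕ → ℝ), 1 ≤ R → Prof R q 1 → Prof R q' 1 →
      dist1 R (fieldH w θ R q) (fieldH w θ R q') ≤ K * dist1 R q q' ∧
      (∀ j, dist1 R (levP w θ j R q) (levP w θ j R q') ≤ w j * (K * dist1 R q q')) ∧
      ∀ j, ∀ l ≤ R, |levP w θ j R q l - levP w θ j R q' l| ≤ w j * (K * (|q l - q' l| + dist1 R q q')) := by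
  obtain ⟨C, hC, hc⟩ := deriv_lip L η 1
  refine ⟨3 * (4 * L ^ 2 / η ^ 4 + |1 / η ^ 2| + C), by positivity, fun {k w θ} H R q q' hR hq hq' => ?_⟩
  obtain ⟨hA, hL, hη, hw⟩ := id H
  set M := 4 * L ^ 2 / η ^ 4
  have M0 : 0 ≤ M := by positivity
  have U0 := abs_nonneg (1 / η ^ 2)
  have dd := Vale.Agent.P157.Par.dist1_nonneg R q q'
  have key : ∀ {x K' : ℝ} {l : ℕ}, K' ≤ M + |1 / η ^ 2| + C → 0 ≤ K' →
      x ≤ K' * |q l - q' l| + C * ((∑ i ∈ range R, |q i - q' i|) / R) →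
      x ≤ (M + |1 / η ^ 2| + C) * (|q l - q' l| + dist1 R q q') := fun {x K' l} h1 _ h3 => by
    rw [mul_add]
    exact h3.trans (add_le_add (mul_le_mul_of_nonneg_right h1 (abs_nonneg _))
      (mul_le_mul (by linarith) (mean_le_dist1 q q') (by positivity) (by positivity)))
  have hf : ∀ l ≤ R, |fieldH w θ R q l - fieldH w θ R q' l| ≤
      (M + |1 / η ^ 2| + C) * (|q l - q' l| + dist1 R q q') := fun l hl =>
    key (by linarith) M0 (levF_lip hq hq' hA.continuousOn_dRat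
      (fun x hx => by rw [abs_of_nonneg (hA.dRat_nonneg hx.1)]; exact hA.dRat_le hx.1 hL hη hw) hC
      (fun x hx y hy => (hc H x hx y hy).1) hl)
  have hp : ∀ j, ∀ l ≤ R, |levP w θ j R q l - levP w θ j R q' l| ≤
      w j * (M + |1 / η ^ 2| + C) * (|q l - q' l| + dist1 R q q') := fun j l hl => by
    have w0 := (hA.pos j).le
    have h := levF_lip (M := w j * |1 / η ^ 2|) (K := w j * C) hq hq' (hA.continuousOn_dphiA j)
      (fun x _ => ?_) (mul_nonneg w0 hC)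
      (fun x hx y hy => by rw [mul_assoc]; exact (hc H x hx y hy).2 j) hl
    · refine h.trans ?_
      rw [mul_assoc, mul_assoc, ← mul_add, mul_assoc]
      exact mul_le_mul_of_nonneg_left (key (K' := |1 / η ^ 2|) (by linarith) U0 le_rfl) w0
    · rw [abs_of_nonneg (hA.dphiA_mem j x).1, hA.dphiA_eq, abs_of_pos (by positivity), mul_one_div]
      exact (div_le_self (div_nonneg w0 (sq_nonneg _)) (H.le_qA x)).trans
        (div_le_div_of_nonneg_left w0 (by positivity) (pow_le_pow_left₀ hη.le (H.le_pA j x) 2))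
  refine ⟨dist1_of_lvl hR hf, fun j => (dist1_of_lvl hR (hp j)).trans_eq (by ring), fun j l hl =>
    (hp j l hl).trans ?_⟩
  rw [mul_assoc]
  refine mul_le_mul_of_nonneg_left (mul_le_mul_of_nonneg_right ?_ (by positivity)) (hA.pos j).le
  linarith

/-- the generated overlaps and the spin part are Lipschitz in the path -/
theorem spin_lip (V : ℝ) : ∃ K : ℝ, 0 ≤ K ∧ ∀ (R : ℕ) (h h' : ℕ → ℝ), 1 ≤ R → Prof R h V → Prof R h' V →
    dist1 R (qh R h) (qh R h') ≤ K * dist1 R h h' ∧ |spinH R h - spinH R h'| ≤ K * dist1 R h h' := by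
  obtain ⟨C, hC, hc⟩ := Vale.Agent.P157.Par.Phi_lip Vale.Agent.P157.Par.sm_logcosh V
  refine ⟨(1 + C) + (1 + |V|) * (3 * C), by positivity, fun R h h' hR hh hh' => ?_⟩
  obtain ⟨hP, hG⟩ := hc R h h' hR hh hh'
  have dd := Vale.Agent.P157.Par.dist1_nonneg R h h'
  have hl : ∀ l ≤ R, |qh R h l - qh R h' l| ≤ C * (|h l - h' l| + dist1 R h h') := fun l hl => by
    unfold qh
    split_ifs
    · have := hG l hl
      rw [Vale.Agent.P157.Par.cosh_eq_exp, sinh_div_cosh_eq] at this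
      exact this.trans_eq (by unfold dist1; ring)
    · rw [sub_self, abs_zero]
      exact mul_nonneg hC (add_nonneg (abs_nonneg _) dd)
  have hq := dist1_of_lvl hR hl
  have hVq : 0 ≤ |V| * (3 * C * dist1 R h h') := by positivity
  refine ⟨hq.trans (mul_le_mul_of_nonneg_right (by nlinarith [abs_nonneg V]) dd), ?_⟩
  rw [Vale.Agent.P157.Par.cosh_eq_exp] at hP
  have hdot : |dotH R h (qh R h) - dotH R h' (qh R h')| ≤
      dist1 R h h' + |V| * dist1 R (qh R h) (qh R h') := by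
    rw [dotH, dotH, ← sub_div, ← sum_sub_distrib, abs_div, Nat.abs_cast]
    refine le_trans (div_le_div_of_nonneg_right ((abs_sum_le_sum_abs _ _).trans (sum_le_sum
      (g := fun l => |h l - h' l| + |V| * |qh R h l - qh R h' l|) fun l hl' => ?_)) (Nat.cast_nonneg R)) ?_
    · have hl' := (mem_range.1 hl').le
      obtain ⟨q0, q1⟩ := (qh_prof hR hh).1.upper hl'
      obtain ⟨h0, h1⟩ := hh'.upper hl'
      rw [show h l * qh R h l - h' l * qh R h' l = (h l - h' l) * qh R h l + h' l * (qh R h l - qh R h' l) by ring]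
      refine (abs_add_le _ _).trans (add_le_add ?_ ?_) <;> rw [abs_mul]
      · exact mul_le_of_le_one_right (abs_nonneg _) (by rwa [abs_of_nonneg q0])
      · exact mul_le_mul_of_nonneg_right (by rw [abs_of_nonneg h0]; exact h1.trans (le_abs_self V)) (abs_nonneg _)
    · rw [sum_add_distrib, ← mul_sum, add_div, mul_div_assoc]
      exact add_le_add (mean_le_dist1 h h') (mul_le_mul_of_nonneg_left (mean_le_dist1 _ _) (abs_nonneg V))
  have htop : |h R - h' R| ≤ dist1 R h h' := le_add_of_nonneg_left (by positivity)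
  rw [spinH, spinH, psiH, psiH]
  have h3 := mul_le_mul_of_nonneg_left hq (abs_nonneg V)
  have hP' := abs_le.1 hP
  have hd' := abs_le.1 hdot
  have ht' := abs_le.1 htop
  have h4 : 0 ≤ C * dist1 R h h' := mul_nonneg hC dd
  rw [abs_le]
  simp only [dist1] at *
  constructor <;> linarith

/-- the energy part is Lipschitz in the overlaps -/
theorem intRat_lip {k R : ℕ} {w θ : Fin k → ℝ} {L η : ℝ} (H : Bdd w θ L η) {q q' : ℕ → ℝ}
    (hq : Prof R q 1) (hq' : Prof R q' 1) :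
    |(∫ t in (0:ℝ)..1, Rat w θ (xiD R q t)) - ∫ t in (0:ℝ)..1, Rat w θ (xiD R q' t)| ≤
      4 * L ^ 2 / η ^ 4 * ((∑ l ∈ range R, |q l - q' l|) / R) := by
  have z0 : (0:ℝ) ∈ Set.Icc (0:ℝ) 1 := Set.left_mem_Icc.2 zero_le_one
  have z1 : (1:ℝ) ∈ Set.Icc (0:ℝ) 1 := Set.right_mem_Icc.2 zero_le_one
  obtain ⟨hA, hL, hη, hw⟩ := H
  rw [← intervalIntegral.integral_sub (ii_along hq hA.continuousOn_Rat z0 z1) (ii_along hq' hA.continuousOn_Rat z0 z1)]
  refine (intervalIntegral.norm_integral_le_of_norm_le_const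
    (C := 4 * L ^ 2 / η ^ 4 * ((∑ l ∈ range R, |q l - q' l|) / R))
    (f := fun t => Rat w θ (xiD R q t) - Rat w θ (xiD R q' t)) fun s hs => ?_).trans_eq
    (by rw [sub_zero, abs_one, mul_one])
  have h := Set.uIcc_subset_Icc z0 z1 (Set.uIoc_subset_uIcc hs)
  exact (hA.Rat_lip (xiD_mem hq h.1 h.2).1 (xiD_mem hq' h.1 h.2).1 hL hη hw).trans
    (mul_le_mul_of_nonneg_left (xiD_lip q q' s) (by positivity))

/-- a path against any overlaps near those it generates -/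
theorem aForm_near {k R : ℕ} {w θ : Fin k → ℝ} {L η V : ℝ} (H : Bdd w θ L η) (hR : 1 ≤ R) {h r : ℕ → ℝ}
    (hh : Prof R h V) (hr : Prof R r 1) :
    |aForm w θ R h - ((∫ t in (0:ℝ)..1, Rat w θ (xiD R r t)) / 2 + spinH R h)| ≤
      2 * L ^ 2 / η ^ 4 * dist1 R (qh R h) r := by
  have h0 := (intRat_lip H (qh_prof hR hh).1 hr).trans
    (mul_le_mul_of_nonneg_left (mean_le_dist1 _ _) (by positivity))
  rw [aForm, add_sub_add_right_eq_sub, ← sub_div, abs_div, abs_two, div_le_iff₀ two_pos]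
  exact h0.trans_eq (by ring)

/-- the value is Lipschitz in the path -/
theorem aForm_lip (L η V : ℝ) : ∃ K : ℝ, 0 ≤ K ∧ ∀ {k : ℕ} {w θ : Fin k → ℝ}, Bdd w θ L η →
    ∀ (R : ℕ) (h h' : ℕ → ℝ), 1 ≤ R → Prof R h V → Prof R h' V →
      |aForm w θ R h - aForm w θ R h'| ≤ K * dist1 R h h' := by
  obtain ⟨C, hC, hc⟩ := spin_lip V
  refine ⟨|2 * L ^ 2 / η ^ 4| * C + C, by positivity, fun {k w θ} H R h h' hR hh hh' => ?_⟩
  obtain ⟨h1, h2⟩ := hc R h h' hR hh hh'
  have h3 := (aForm_near H hR hh (qh_prof hR hh').1).trans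
    ((mul_le_mul_of_nonneg_right (le_abs_self _) (Vale.Agent.P157.Par.dist1_nonneg _ _ _)).trans
      (mul_le_mul_of_nonneg_left h1 (abs_nonneg _)))
  have e : aForm w θ R h' = (∫ t in (0:ℝ)..1, Rat w θ (xiD R (qh R h') t)) / 2 + spinH R h' := rfl
  rw [abs_le] at *
  constructor <;> linarith

/-- the slope of the energy is at most that at overlaps with smaller tails -/
theorem slope_tail (L η B : ℝ) : ∃ K : ℝ, 0 ≤ K ∧ ∀ {k : ℕ} {w θ : Fin k → ℝ}, Bdd w θ L η →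
    ∀ (R : ℕ) (q q' : ℕ → ℝ) (b ε : ℝ), 0 ≤ b → 0 ≤ ε → b * (1 + ε) ≤ B → Prof R q 1 → Prof R q' 1 →
      (∀ J < R, Vale.Agent.P157.Full.tailAvg R J q - ε ≤ Vale.Agent.P157.Full.tailAvg R J q') →
      ∫ s in (0:ℝ)..1, slopeR w θ (b * xiD R q' s) ≤
        (∫ s in (0:ℝ)..1, slopeR w θ (b * xiD R q s)) + K * ε := by
  obtain ⟨C, hC, hc⟩ := deriv_lip L η B
  refine ⟨|B| * (4 * L ^ 2 / η ^ 4 * 2 + |B| * C), by positivity,
    fun {k w θ} H R q q' b ε hb hε hbB hq hq' ht => ?_⟩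
  obtain ⟨hA, hL, hη, hw⟩ := id H
  have B0 : 0 ≤ B := (mul_nonneg hb (by linarith)).trans hbB
  rw [abs_of_nonneg B0]
  have hbB' : b ≤ B := (le_mul_of_one_le_right hb (by linarith)).trans hbB
  have hpt : ∀ s ∈ Set.Icc (0:ℝ) 1, slopeR w θ (b * xiD R q' s) ≤
      slopeR w θ (b * xiD R q s) + B * (4 * L ^ 2 / η ^ 4 * 2 + B * C) * ε := fun s hs => by
    have hD := xiD_mem hq hs.1 hs.2
    have hD' := xiD_mem hq' hs.1 hs.2
    set u := b * (xiD R q s + ε)
    set v := b * xiD R q s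
    have hu : u ∈ Set.Icc (0:ℝ) B :=
      ⟨mul_nonneg hb (add_nonneg hD.1 hε), (mul_le_mul_of_nonneg_left (by linarith [hD.2]) hb).trans hbB⟩
    have hv : v ∈ Set.Icc (0:ℝ) B :=
      ⟨mul_nonneg hb hD.1, (mul_le_of_le_one_right hb hD.2).trans hbB'⟩
    have h1 : slopeR w θ (b * xiD R q' s) ≤ slopeR w θ u := hA.yR_slope_mono
      (mul_nonneg hb hD'.1) hu.1 (mul_le_mul_of_nonneg_left (xiD_tail hq hε ht s) hb)
    have hd : |u - v| ≤ B * ε := by
      rw [show u - v = b * ε by simp only [u, v]; ring, abs_of_nonneg (mul_nonneg hb hε)]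
      exact mul_le_mul_of_nonneg_right hbB' hε
    have h2 := (abs_le.1 (hA.Rat_lip hu.1 hv.1 hL hη hw)).2
    have h3 := mul_le_mul_of_nonneg_left ((le_abs_self _).trans (hc H u hu v hv).1) hv.1
    have h4 := mul_le_mul (le_abs_self (u - v)) (hA.dRat_le hu.1 hL hη hw) (hA.dRat_nonneg hu.1) (abs_nonneg _)
    have h5 := mul_le_mul_of_nonneg_left hd (show 0 ≤ 4 * L ^ 2 / η ^ 4 by positivity)
    have h6 := mul_le_mul hv.2 (mul_le_mul_of_nonneg_left hd hC) (by positivity) B0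
    simp only [slopeR] at h1 ⊢
    linarith
  refine (intervalIntegral.integral_mono_on zero_le_one (ii_scaled hq' (continuousOn_slopeR hA) hb)
    ((ii_scaled hq (continuousOn_slopeR hA) hb).add intervalIntegrable_const) hpt).trans_eq ?_
  rw [intervalIntegral.integral_add (ii_scaled hq (continuousOn_slopeR hA) hb) intervalIntegrable_const]
  simp

end Vale.Agent.P166.Gen
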