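import Vale.Agent.P166.Gen.Defs

/-! G5: the Cauchy transform of finitely many atoms, its inverse above the atoms, the R-transform and
the spectral functions of the projectors, up to `y = 0`, with bounds in the mass of the top atom. -/

open MeasureTheory Filter Finset Real
open scoped Topology

noncomputable section

namespace Vale.Agent.P166.Gen

variable {k : ℕ} {w θ : Fin k → ℝ} {y z L η : ℝ}

/-- the scaled distance from an atom, continued by `1` at zero -/
def pA (w θ : Fin k → ℝ) (i : Fin k) (y : ℝ) : ℝ := if 0 < y then (zat w θ y - θ i) * y else 1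

/-- the weighted mean of the squared inverse distances -/
def qA (w θ : Fin k → ℝ) (y : ℝ) : ℝ := ∑ i, w i / pA w θ i y ^ 2

namespace Atoms

variable (ha : Atoms w θ)
include ha

lemma card_pos : 0 < k := by
  rcases Nat.eq_zero_or_pos k with rfl | h
  · have := ha.one
    simp at this
  · exact h

lemma exists_top : ∃ t : Fin k, ∀ i, i ≤ t :=
  ⟨⟨k - 1, by have := ha.card_pos; omega⟩, fun i => Fin.le_def.2 (by have := i.2; simp only; omega)⟩

lemma exists_bot : ∃ o : Fin k, ∀ i, o ≤ i :=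
  ⟨⟨0, ha.card_pos⟩, fun _ => Fin.le_def.2 (Nat.zero_le _)⟩

lemma theta_le {t : Fin k} (ht : ∀ i, i ≤ t) (i : Fin k) : θ i ≤ θ t := ha.mono.monotone (ht i)

lemma above {t : Fin k} (ht : ∀ i, i ≤ t) (hz : θ t < z) (i : Fin k) : θ i < z :=
  (ha.theta_le ht i).trans_lt hz

lemma top_le_one {t : Fin k} : w t ≤ 1 :=
  ha.one ▸ single_le_sum (fun i _ => (ha.pos i).le) (mem_univ t)

lemma gat_pos (hz : ∀ j, θ j < z) : 0 < gat w θ z ∧ 0 < gat2 w θ z := by
  have : Nonempty (Fin k) := ⟨⟨0, ha.card_pos⟩⟩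
  exact ⟨sum_pos (fun j _ => div_pos (ha.pos j) (sub_pos.2 (hz j))) univ_nonempty,
    sum_pos (fun j _ => div_pos (ha.pos j) (pow_pos (sub_pos.2 (hz j)) 2)) univ_nonempty⟩

lemma gat_lt {z' : ℝ} (hz : ∀ j, θ j < z) (h : z < z') : gat w θ z' < gat w θ z := by
  have : Nonempty (Fin k) := ⟨⟨0, ha.card_pos⟩⟩
  exact sum_lt_sum_of_nonempty univ_nonempty fun j _ =>
    div_lt_div_of_pos_left (ha.pos j) (sub_pos.2 (hz j)) (by linarith)

lemma gat_continuousOn {t : Fin k} (ht : ∀ i, i ≤ t) : ContinuousOn (gat w θ) (Set.Ioi (θ t)) :=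
  continuousOn_finsetSum _ fun j _ => continuousOn_const.div (continuousOn_id.sub continuousOn_const)
    fun _ hz => (sub_pos.2 (ha.above ht hz j)).ne'

omit ha in
lemma hasDerivAt_gat (hz : ∀ j, θ j < z) : HasDerivAt (gat w θ) (-gat2 w θ z) z := by
  show HasDerivAt (fun z => ∑ j, w j / (z - θ j)) _ z
  rw [gat2, ← sum_neg_distrib]
  refine HasDerivAt.fun_sum fun j _ => ?_
  have h0 : z - θ j ≠ 0 := (sub_pos.2 (hz j)).ne'
  exact ((hasDerivAt_const z (w j)).fun_div ((hasDerivAt_id' z).sub_const (θ j)) h0).congr_deriv (by field_simp; ring)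

/-- the equation of `zat` -/
theorem zat_spec (hy : 0 < y) : (∀ j, θ j < zat w θ y) ∧ gat w θ (zat w θ y) = y := by
  obtain ⟨t, ht⟩ := ha.exists_top
  set a := θ t + w t / (2 * y)
  set b := θ t + 1 / y
  have hwt := ha.pos t
  have ha0 : θ t < a := lt_add_of_pos_right _ (div_pos hwt (by positivity))
  have hab : a ≤ b := by
    refine add_le_add le_rfl ?_
    rw [div_le_div_iff₀ (by positivity) hy]
    nlinarith [ha.top_le_one (t := t)]
  have h1 : y ≤ gat w θ a := by
    refine le_trans ?_ (single_le_sum (f := fun j => w j / (a - θ j))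
      (fun j _ => (div_pos (ha.pos j) (sub_pos.2 (ha.above ht ha0 j))).le) (mem_univ t))
    simp only [a, add_sub_cancel_left]
    rw [le_div_iff₀ (div_pos hwt (by positivity)), mul_div_assoc', div_le_iff₀ (by positivity)]
    nlinarith
  have h2 : gat w θ b ≤ y := by
    calc gat w θ b ≤ ∑ j, w j * y := sum_le_sum fun j _ => by
          rw [div_le_iff₀ (sub_pos.2 (ha.above ht (ha0.trans_le hab) j))]
          have h := ha.theta_le ht j
          have : 1 ≤ y * (b - θ j) := by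
            simp only [b]
            have e : y * (1 / y) = 1 := by field_simp
            nlinarith [mul_le_mul_of_nonneg_left h hy.le]
          nlinarith [ha.pos j]
      _ = y := by rw [← sum_mul, ha.one, one_mul]
  obtain ⟨z, hz, hzy⟩ := intermediate_value_Icc' hab
    ((ha.gat_continuousOn ht).mono fun x hx => ha0.trans_le hx.1) ⟨h2, h1⟩
  have hza : ∀ j, θ j < z := ha.above ht (ha0.trans_le hz.1)
  have e : zat w θ y = z := by
    refine le_antisymm (csInf_le ⟨θ t, fun x hx => (hx.1 t).le⟩ ⟨hza, hzy.le⟩)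
      (le_csInf ⟨z, hza, hzy.le⟩ fun x hx => ?_)
    by_contra hc
    linarith [ha.gat_lt hx.1 (not_le.1 hc), hx.2]
  rw [e]
  exact ⟨hza, hzy⟩

/-- uniqueness -/
theorem zat_eq (hz : ∀ j, θ j < z) : zat w θ (gat w θ z) = z := by
  obtain ⟨h1, h2⟩ := ha.zat_spec (ha.gat_pos hz).1
  rcases lt_trichotomy (zat w θ (gat w θ z)) z with h | h | h
  · linarith [ha.gat_lt h1 h]
  · exact h
  · linarith [ha.gat_lt hz h]

lemma gap_pos (hy : 0 < y) (j : Fin k) : 0 < zat w θ y - θ j := sub_pos.2 ((ha.zat_spec hy).1 j)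

/-- the distance from the top atom -/
theorem gap_top {t : Fin k} (ht : ∀ i, i ≤ t) (hy : 0 < y) :
    w t ≤ (zat w θ y - θ t) * y ∧ (zat w θ y - θ t) * y ≤ 1 := by
  obtain ⟨hz, he⟩ := ha.zat_spec hy
  have h0 := ha.gap_pos hy t
  constructor
  · rw [mul_comm, ← div_le_iff₀ h0]
    exact le_of_le_of_eq (single_le_sum (f := fun j => w j / (zat w θ y - θ j))
      (fun j _ => (div_pos (ha.pos j) (sub_pos.2 (hz j))).le) (mem_univ t)) he
  · rw [mul_comm, ← le_div_iff₀ h0]
    calc y = ∑ j, w j / (zat w θ y - θ j) := he.symm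
      _ ≤ ∑ j, w j / (zat w θ y - θ t) := sum_le_sum fun j _ =>
          div_le_div_of_nonneg_left (ha.pos j).le h0 (by linarith [ha.theta_le ht j])
      _ = _ := by rw [← sum_div, ha.one]

theorem gap_bot {o : Fin k} (ho : ∀ i, o ≤ i) (hy : 0 < y) : 1 ≤ (zat w θ y - θ o) * y := by
  obtain ⟨hz, he⟩ := ha.zat_spec hy
  have h0 := ha.gap_pos hy o
  rw [mul_comm, ← div_le_iff₀ h0]
  calc 1 / (zat w θ y - θ o) = ∑ j, w j / (zat w θ y - θ o) := by rw [← sum_div, ha.one]
    _ ≤ ∑ j, w j / (zat w θ y - θ j) := sum_le_sum fun j _ =>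
        div_le_div_of_nonneg_left (ha.pos j).le (sub_pos.2 (hz j)) (by linarith [ha.mono.monotone (ho j)])
    _ = y := he

theorem zat_anti {y' : ℝ} (hy : 0 < y) (h : y < y') : zat w θ y' < zat w θ y := by
  obtain ⟨a1, a2⟩ := ha.zat_spec hy
  obtain ⟨b1, b2⟩ := ha.zat_spec (hy.trans h)
  by_contra hc
  rcases (not_lt.1 hc).eq_or_lt with e | e
  · rw [e, b2] at a2
    linarith
  · linarith [ha.gat_lt a1 e]

theorem zat_lip {y' : ℝ} (hy : 0 < y) (h : y ≤ y') {t : Fin k} (ht : ∀ i, i ≤ t) :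
    0 ≤ zat w θ y - zat w θ y' ∧ (zat w θ y - zat w θ y') * (w t * (y * y')) ≤ y' - y := by
  have hy' := hy.trans_le h
  obtain ⟨a1, a2⟩ := ha.zat_spec hy
  obtain ⟨b1, b2⟩ := ha.zat_spec hy'
  set a := zat w θ y
  set b := zat w θ y'
  have hd : 0 ≤ a - b := by
    rcases h.eq_or_lt with rfl | h'
    · simp [a, b]
    · exact sub_nonneg.2 (ha.zat_anti hy h').le
  refine ⟨hd, ?_⟩
  have e : y' - y = ∑ j, (a - b) * (w j / ((a - θ j) * (b - θ j))) := by
    rw [← a2, ← b2, gat, gat, ← sum_sub_distrib]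
    refine sum_congr rfl fun j _ => ?_
    have := (sub_pos.2 (a1 j)).ne'
    have := (sub_pos.2 (b1 j)).ne'
    field_simp
    ring
  rw [e, ← mul_sum]
  refine mul_le_mul_of_nonneg_left ?_ hd
  refine le_trans ?_ (single_le_sum (f := fun j => w j / ((a - θ j) * (b - θ j)))
    (fun j _ => (div_pos (ha.pos j) (mul_pos (sub_pos.2 (a1 j)) (sub_pos.2 (b1 j)))).le) (mem_univ t))
  have g1 : (a - θ t) * y ≤ 1 := (ha.gap_top ht hy).2
  have g2 : (b - θ t) * y' ≤ 1 := (ha.gap_top ht hy').2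
  have p1 : 0 < a - θ t := sub_pos.2 (a1 t)
  have p2 : 0 < b - θ t := sub_pos.2 (b1 t)
  rw [le_div_iff₀ (mul_pos p1 p2)]
  calc w t * (y * y') * ((a - θ t) * (b - θ t)) = w t * (((a - θ t) * y) * ((b - θ t) * y')) := by ring
    _ ≤ w t * 1 := mul_le_mul_of_nonneg_left (mul_le_one₀ g1 (by positivity) g2) (ha.pos t).le
    _ = _ := mul_one _

lemma continuousAt_zat (hy : 0 < y) : ContinuousAt (zat w θ) y := by
  obtain ⟨t, ht⟩ := ha.exists_top
  set C := 1 / (w t * (y / 2) ^ 2)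
  have hwt := ha.pos t
  refine continuousAt_of_locally_lipschitz (r := y / 2) (by positivity) C fun x hx => ?_
  rw [Real.dist_eq] at hx
  have hx2 : y / 2 < x := by linarith [(abs_lt.1 hx).1]
  have hb : ∀ u v, y / 2 ≤ u → u ≤ v → |zat w θ v - zat w θ u| ≤ C * (v - u) := fun u v hu huv => by
    obtain ⟨h1, h2⟩ := ha.zat_lip (show 0 < u by linarith) huv ht
    rw [abs_sub_comm, abs_of_nonneg h1, div_mul_eq_mul_div, one_mul, le_div_iff₀ (by positivity)]
    refine le_trans (mul_le_mul_of_nonneg_left (mul_le_mul_of_nonneg_left ?_ hwt.le) h1) h2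
    rw [sq]
    exact mul_le_mul hu (hu.trans huv) (by positivity) (by linarith)
  rw [Real.dist_eq, Real.dist_eq]
  rcases le_total x y with h | h
  · rw [abs_sub_comm, abs_sub_comm x, abs_of_nonneg (show 0 ≤ y - x by linarith)]
    exact hb x y hx2.le h
  · rw [abs_of_nonneg (show 0 ≤ x - y by linarith)]
    exact hb y x (by linarith) h

/-- the derivative of `zat` -/
theorem hasDerivAt_zat (hy : 0 < y) : HasDerivAt (zat w θ) (-(1 / gat2 w θ (zat w θ y))) y := by
  obtain ⟨hz, -⟩ := ha.zat_spec hy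
  refine ((hasDerivAt_gat (w := w) hz).of_local_left_inverse (ha.continuousAt_zat hy)
    (neg_ne_zero.2 (ha.gat_pos hz).2.ne') ?_).congr_deriv (by rw [inv_neg, one_div])
  filter_upwards [eventually_gt_nhds hy] with x hx using (ha.zat_spec hx).2

/-! ### continuation to zero -/

omit ha in
lemma pA_of_pos (hy : 0 < y) (i : Fin k) : pA w θ i y = (zat w θ y - θ i) * y := if_pos hy

omit ha in
lemma pA_zero (i : Fin k) : pA w θ i 0 = 1 := if_neg (lt_irrefl 0)

/-- the scaled distances are at least the top weight -/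
theorem pA_ge {t : Fin k} (ht : ∀ i, i ≤ t) (i : Fin k) (y : ℝ) : w t ≤ pA w θ i y := by
  rw [pA]
  split_ifs with hy
  · exact (ha.gap_top ht hy).1.trans (mul_le_mul_of_nonneg_right (by linarith [ha.theta_le ht i]) hy.le)
  · exact ha.top_le_one

lemma pA_pos (i : Fin k) (y : ℝ) : 0 < pA w θ i y := by
  obtain ⟨t, ht⟩ := ha.exists_top
  exact (ha.pos t).trans_le (ha.pA_ge ht i y)

theorem sum_pA (y : ℝ) : ∑ i, w i / pA w θ i y = 1 := by
  by_cases hy : 0 < y
  · simp only [pA, if_pos hy, ← div_div, ← sum_div]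
    rw [show ∑ i, w i / (zat w θ y - θ i) = y from (ha.zat_spec hy).2, div_self hy.ne']
  · simp only [pA, if_neg hy, div_one, ha.one]

omit ha in
lemma pA_sub (i j : Fin k) (hy : 0 ≤ y) : pA w θ i y - pA w θ j y = (θ j - θ i) * y := by
  rcases hy.eq_or_lt with rfl | h
  · simp [pA_zero]
  · rw [pA_of_pos h, pA_of_pos h]; ring

theorem pA_near {t o : Fin k} (ht : ∀ i, i ≤ t) (ho : ∀ i, o ≤ i) (i : Fin k) (hy : 0 < y) :
    |pA w θ i y - 1| ≤ (θ t - θ o) * y := by
  have a := (ha.gap_top ht hy).2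
  have b := ha.gap_bot ho hy
  have h1 := mul_le_mul_of_nonneg_right (ha.mono.monotone (ho i)) hy.le
  have h2 := mul_le_mul_of_nonneg_right (ha.theta_le ht i) hy.le
  rw [pA_of_pos hy, abs_le]
  constructor <;> nlinarith

theorem continuousOn_pA (i : Fin k) : ContinuousOn (pA w θ i) (Set.Ici 0) := by
  intro x hx
  rcases (Set.mem_Ici.1 hx).eq_or_lt with rfl | hx
  · obtain ⟨t, ht⟩ := ha.exists_top
    obtain ⟨o, ho⟩ := ha.exists_bot
    have hd : Tendsto (fun u : ℝ => (θ t - θ o) * u) (𝓝[≥] 0) (𝓝 0) := by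
      simpa using ((continuous_id.const_mul (θ t - θ o)).tendsto 0).mono_left nhdsWithin_le_nhds
    rw [ContinuousWithinAt, pA_zero, tendsto_iff_dist_tendsto_zero]
    refine squeeze_zero' (.of_forall fun _ => dist_nonneg) ?_ hd
    filter_upwards [self_mem_nhdsWithin] with u hu
    rcases (Set.mem_Ici.1 hu).eq_or_lt with rfl | hu
    · simp [pA_zero]
    · exact ha.pA_near ht ho i hu
  · have hc : ContinuousAt (fun u => (zat w θ u - θ i) * u) x :=
      ((ha.continuousAt_zat hx).sub continuousAt_const).mul continuousAt_id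
    refine (hc.congr ?_).continuousWithinAt
    filter_upwards [eventually_gt_nhds hx] with u hu
    simp [pA_of_pos hu]

theorem qA_bounds {t : Fin k} (ht : ∀ i, i ≤ t) (y : ℝ) : 1 ≤ qA w θ y ∧ qA w θ y ≤ 1 / w t := by
  constructor
  · have h := sum_sq_le_sum_mul_sum_of_sq_le_mul univ (r := fun i => w i / pA w θ i y) (f := w)
      (g := fun i => w i / pA w θ i y ^ 2) (fun i _ => (ha.pos i).le)
      (fun i _ => div_nonneg (ha.pos i).le (sq_nonneg _)) fun i _ => le_of_eq (by ring)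
    rw [ha.sum_pA, ha.one, one_mul, one_pow] at h
    exact h
  · calc qA w θ y ≤ ∑ i, w i / pA w θ i y * (1 / w t) := sum_le_sum fun i _ => by
          rw [sq, ← div_div, div_eq_mul_one_div (w i / pA w θ i y)]
          exact mul_le_mul_of_nonneg_left (one_div_le_one_div_of_le (ha.pos t) (ha.pA_ge ht i y))
            (div_nonneg (ha.pos i).le (ha.pA_pos i y).le)
      _ = _ := by rw [← sum_mul, ha.sum_pA, one_mul]

lemma qA_pos (y : ℝ) : 0 < qA w θ y := by
  obtain ⟨t, ht⟩ := ha.exists_top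
  exact zero_lt_one.trans_le (ha.qA_bounds ht y).1

omit ha in
lemma gat2_eq (hy : 0 < y) : gat2 w θ (zat w θ y) = qA w θ y * y ^ 2 := by
  rw [qA, gat2, sum_mul]
  refine sum_congr rfl fun i _ => ?_
  rw [pA_of_pos hy, mul_pow, ← div_div, div_mul_cancel₀ _ (pow_ne_zero 2 hy.ne')]

omit ha in
theorem phiA_eq (j : Fin k) (hy : 0 ≤ y) : phiA w θ j y = y * (w j / pA w θ j y) := by
  rcases hy.eq_or_lt with rfl | h
  · simp [phiA]
  · rw [phiA, if_pos h, pA_of_pos h, ← mul_div_assoc, mul_comm y, mul_div_mul_right _ _ h.ne']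

theorem Rat_eq (hy : 0 ≤ y) : Rat w θ y = ∑ j, θ j * (w j / pA w θ j y) := by
  rcases hy.eq_or_lt with rfl | h
  · simp [Rat, pA_zero, mul_comm]
  · rw [Rat, if_pos h]
    have e : ∑ j, θ j * (w j / pA w θ j y) =
        ∑ j, (zat w θ y * (w j / pA w θ j y) - w j / y) := sum_congr rfl fun j _ => by
      have := (ha.gap_pos h j).ne'
      have := h.ne'
      rw [pA_of_pos h]
      field_simp
      ring
    rw [e, sum_sub_distrib, ← mul_sum, ha.sum_pA, mul_one, ← sum_div, ha.one]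

theorem dphiA_eq (j : Fin k) (y : ℝ) : dphiA w θ j y = w j / pA w θ j y ^ 2 / qA w θ y := by
  rw [dphiA]
  split_ifs with h
  · rw [gat2_eq h, pA_of_pos h, mul_pow]
    have := (ha.qA_pos y).ne'
    have := (ha.gap_pos h j).ne'
    have := h.ne'
    field_simp
  · simp [qA, pA, if_neg h, ha.one]

theorem dRat_eq (hy : 0 ≤ y) : dRat w θ y =
    (∑ i, ∑ j, w i * w j * (θ i - θ j) ^ 2 / (pA w θ i y * pA w θ j y) ^ 2) / (2 * qA w θ y) := by
  rcases hy.eq_or_lt with rfl | h
  · simp only [dRat, lt_irrefl, if_false, qA, pA_zero, one_pow, div_one, mul_one, ha.one]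
    rw [sum_congr rfl fun i _ => sum_congr rfl fun j _ =>
      show w i * w j * (θ i - θ j) ^ 2 = w i * θ i ^ 2 * w j - 2 * (w i * θ i) * (w j * θ j) + w i * (w j * θ j ^ 2) by ring]
    simp only [sum_add_distrib, sum_sub_distrib, ← mul_sum, ← sum_mul, ha.one]
    ring
  · have e : ∀ i j, w i * w j * (θ i - θ j) ^ 2 / (pA w θ i y * pA w θ j y) ^ 2 =
        (w i / pA w θ i y ^ 2 * w j - 2 * (w i / pA w θ i y) * (w j / pA w θ j y) +
          w i * (w j / pA w θ j y ^ 2)) / y ^ 2 := fun i j => by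
      have := (ha.pA_pos i y).ne'
      have := (ha.pA_pos j y).ne'
      have := h.ne'
      have hs := pA_sub (w := w) (θ := θ) i j h.le
      field_simp
      have h2 : y ^ 2 * (θ i - θ j) ^ 2 = (pA w θ j y - pA w θ i y) ^ 2 := by
        rw [show pA w θ j y - pA w θ i y = -((θ j - θ i) * y) by linarith]; ring
      linear_combination (w i * w j) * h2
    rw [sum_congr rfl fun i _ => sum_congr rfl fun j _ => e i j]
    simp only [← sum_div, sum_add_distrib, sum_sub_distrib, ← mul_sum, ← sum_mul, ha.sum_pA, ha.one]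
    rw [dRat, if_pos h, gat2_eq h, ← qA]
    have := (ha.qA_pos y).ne'
    have := h.ne'
    field_simp
    ring

theorem continuousOn_qA : ContinuousOn (qA w θ) (Set.Ici 0) :=
  continuousOn_finsetSum _ fun i _ => continuousOn_const.div ((ha.continuousOn_pA i).pow 2)
    fun y _ => (pow_pos (ha.pA_pos i y) 2).ne'

theorem continuousOn_phiA (j : Fin k) : ContinuousOn (phiA w θ j) (Set.Ici 0) :=
  (continuousOn_id.mul (continuousOn_const.div (ha.continuousOn_pA j) fun y _ => (ha.pA_pos j y).ne')).congr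
    fun _ hy => phiA_eq j hy

theorem continuousOn_dphiA (j : Fin k) : ContinuousOn (dphiA w θ j) (Set.Ici 0) :=
  ((continuousOn_const.div ((ha.continuousOn_pA j).pow 2) fun y _ => (pow_pos (ha.pA_pos j y) 2).ne').div
    ha.continuousOn_qA fun y _ => (ha.qA_pos y).ne').congr fun y _ => ha.dphiA_eq j y

theorem continuousOn_Rat : ContinuousOn (Rat w θ) (Set.Ici 0) :=
  (continuousOn_finsetSum _ fun j _ => continuousOn_const.mul
    (continuousOn_const.div (ha.continuousOn_pA j) fun y _ => (ha.pA_pos j y).ne')).congr fun _ hy => ha.Rat_eq hy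

theorem continuousOn_dRat : ContinuousOn (dRat w θ) (Set.Ici 0) := by
  refine ((continuousOn_finsetSum _ fun i _ => continuousOn_finsetSum _ fun j _ => ?_).div
    (continuousOn_const.mul ha.continuousOn_qA) fun y _ => (mul_pos two_pos (ha.qA_pos y)).ne').congr
    fun _ hy => ha.dRat_eq hy
  exact continuousOn_const.div (((ha.continuousOn_pA i).mul (ha.continuousOn_pA j)).pow 2)
    fun y _ => (pow_pos (mul_pos (ha.pA_pos i y) (ha.pA_pos j y)) 2).ne'

/-! ### sums and derivatives -/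

theorem sum_phiA (hy : 0 ≤ y) : ∑ j, phiA w θ j y = y := by
  simp only [fun j => phiA_eq (w := w) (θ := θ) j hy, ← mul_sum, ha.sum_pA, mul_one]

theorem sum_theta_phiA (hy : 0 ≤ y) : ∑ j, θ j * phiA w θ j y = y * Rat w θ y := by
  rw [ha.Rat_eq hy, mul_sum]
  exact sum_congr rfl fun j _ => by rw [phiA_eq j hy]; ring

theorem sum_dphiA (y : ℝ) : ∑ j, dphiA w θ j y = 1 := by
  simp only [fun j => ha.dphiA_eq j y, ← sum_div]
  exact div_self (ha.qA_pos y).ne'

theorem dphiA_mem (j : Fin k) (y : ℝ) : 0 ≤ dphiA w θ j y ∧ dphiA w θ j y ≤ 1 := by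
  have h : ∀ i, 0 ≤ dphiA w θ i y := fun i => by
    rw [ha.dphiA_eq i y]
    exact div_nonneg (div_nonneg (ha.pos i).le (sq_nonneg _)) (ha.qA_pos y).le
  exact ⟨h j, (single_le_sum (fun i _ => h i) (mem_univ j)).trans_eq (ha.sum_dphiA y)⟩

theorem dRat_nonneg (hy : 0 ≤ y) : 0 ≤ dRat w θ y := by
  rw [ha.dRat_eq hy]
  exact div_nonneg (sum_nonneg fun i _ => sum_nonneg fun j _ => div_nonneg
    (mul_nonneg (mul_nonneg (ha.pos i).le (ha.pos j).le) (sq_nonneg _)) (sq_nonneg _))
    (mul_pos two_pos (ha.qA_pos y)).le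

theorem dRat_le (hy : 0 ≤ y) (hL : ∀ j, |θ j| ≤ L) (hη : 0 < η)
    (hw : ∀ j : Fin k, (∀ i, i ≤ j) → η ≤ w j) : dRat w θ y ≤ 4 * L ^ 2 / η ^ 4 := by
  obtain ⟨t, ht⟩ := ha.exists_top
  have hηt := hw t ht
  have hq := ha.qA_bounds ht y
  rw [ha.dRat_eq hy, div_le_iff₀ (mul_pos two_pos (ha.qA_pos y))]
  calc ∑ i, ∑ j, w i * w j * (θ i - θ j) ^ 2 / (pA w θ i y * pA w θ j y) ^ 2
      ≤ ∑ i, ∑ j, w i * w j * (4 * L ^ 2) / (η * η) ^ 2 := sum_le_sum fun i _ => sum_le_sum fun j _ => by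
        have hwij := mul_nonneg (ha.pos i).le (ha.pos j).le
        refine div_le_div₀ (mul_nonneg hwij (by positivity)) (mul_le_mul_of_nonneg_left ?_ hwij) (by positivity)
          (pow_le_pow_left₀ (by positivity) (mul_le_mul (hηt.trans (ha.pA_ge ht i y))
            (hηt.trans (ha.pA_ge ht j y)) hη.le (ha.pA_pos i y).le) 2)
        have a := abs_le.1 (hL i)
        have b := abs_le.1 (hL j)
        nlinarith
    _ = 4 * L ^ 2 / η ^ 4 := by
        simp only [← sum_div, ← sum_mul, ← mul_sum, ha.one]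
        ring
    _ ≤ _ := by
        refine le_mul_of_one_le_right (by positivity) ?_
        linarith [hq.1]

theorem abs_Rat_le (hy : 0 ≤ y) (hL : ∀ j, |θ j| ≤ L) : |Rat w θ y| ≤ L := by
  rw [ha.Rat_eq hy]
  refine (abs_sum_le_sum_abs _ _).trans ((sum_le_sum fun j _ => ?_).trans_eq
    (show ∑ j, L * (w j / pA w θ j y) = L by rw [← mul_sum, ha.sum_pA, mul_one]))
  rw [abs_mul, abs_of_nonneg (div_nonneg (ha.pos j).le (ha.pA_pos j y).le)]
  exact mul_le_mul_of_nonneg_right (hL j) (div_nonneg (ha.pos j).le (ha.pA_pos j y).le)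

theorem phiA_mem (j : Fin k) (hy : 0 ≤ y) : 0 ≤ phiA w θ j y ∧ phiA w θ j y ≤ y := by
  have h : ∀ i, 0 ≤ phiA w θ i y := fun i => by
    rw [phiA_eq i hy]
    exact mul_nonneg hy (div_nonneg (ha.pos i).le (ha.pA_pos i y).le)
  exact ⟨h j, (single_le_sum (fun i _ => h i) (mem_univ j)).trans_eq (ha.sum_phiA hy)⟩

theorem hasDerivAt_phiA (j : Fin k) (hy : 0 < y) : HasDerivAt (phiA w θ j) (dphiA w θ j y) y := by
  have h1 : HasDerivAt (fun x => w j / (zat w θ x - θ j)) (dphiA w θ j y) y := by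
    refine ((hasDerivAt_const y (w j)).fun_div ((ha.hasDerivAt_zat hy).sub_const (θ j))
      (ha.gap_pos hy j).ne').congr_deriv ?_
    rw [dphiA, if_pos hy]
    have := (ha.gap_pos hy j).ne'
    have := (ha.gat_pos (ha.zat_spec hy).1).2.ne'
    field_simp
    ring
  refine h1.congr_of_eventuallyEq ?_
  filter_upwards [eventually_gt_nhds hy] with x hx
  rw [phiA, if_pos hx]

theorem hasDerivAt_Rat (hy : 0 < y) : HasDerivAt (Rat w θ) (dRat w θ y) y := by
  have h1 : HasDerivAt (fun x => zat w θ x - 1 / x) (dRat w θ y) y := by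
    refine ((ha.hasDerivAt_zat hy).fun_sub ((hasDerivAt_const y (1:ℝ)).fun_div (hasDerivAt_id' y) hy.ne')).congr_deriv ?_
    rw [dRat, if_pos hy]
    ring
  refine h1.congr_of_eventuallyEq ?_
  filter_upwards [eventually_gt_nhds hy] with x hx
  rw [Rat, if_pos hx]

theorem sum_theta_dphiA (hy : 0 < y) : ∑ j, θ j * dphiA w θ j y = Rat w θ y + y * dRat w θ y := by
  have h1 : HasDerivAt (fun x => ∑ j, θ j * phiA w θ j x) (∑ j, θ j * dphiA w θ j y) y :=
    HasDerivAt.fun_sum fun j _ => (ha.hasDerivAt_phiA j hy).const_mul _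
  have h2 : HasDerivAt (fun x => x * Rat w θ x) (1 * Rat w θ y + y * dRat w θ y) y :=
    (hasDerivAt_id' y).fun_mul (ha.hasDerivAt_Rat hy)
  have h3 := h1.congr_of_eventuallyEq (f₁ := fun x => x * Rat w θ x) (by
    filter_upwards [eventually_gt_nhds hy] with x hx using (ha.sum_theta_phiA hx.le).symm)
  rw [h3.unique h2, one_mul]

theorem sum_theta_dphiA' (hy : 0 ≤ y) : ∑ j, θ j * dphiA w θ j y = Rat w θ y + y * dRat w θ y := by
  rcases hy.eq_or_lt with rfl | h
  · simp [dphiA, Rat, mul_comm]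
  · exact ha.sum_theta_dphiA h

/-- `y R(y)` is convex -/
theorem yR_slope_mono : MonotoneOn (fun y => Rat w θ y + y * dRat w θ y) (Set.Ici 0) := by
  have hc : ContinuousOn (fun y => Rat w θ y + y * dRat w θ y) (Set.Ici 0) :=
    ha.continuousOn_Rat.add (continuousOn_id.mul ha.continuousOn_dRat)
  refine monotoneOn_of_hasDerivWithinAt_nonneg (convex_Ici 0) hc
    (f' := fun y => 2 * (gat w θ (zat w θ y) * (∑ i, w i / (zat w θ y - θ i) ^ 3) - gat2 w θ (zat w θ y) ^ 2) /
      gat2 w θ (zat w θ y) ^ 3) (fun x hx => ?_) fun x hx => ?_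
  · rw [interior_Ici] at hx
    have hx0 : 0 < x := hx
    obtain ⟨hz, he⟩ := ha.zat_spec hx0
    have hg2 := (ha.gat_pos hz).2
    have d2 : HasDerivAt (gat2 w θ) (-2 * ∑ i, w i / (zat w θ x - θ i) ^ 3) (zat w θ x) := by
      show HasDerivAt (fun z => ∑ i, w i / (z - θ i) ^ 2) _ _
      rw [mul_sum]
      refine HasDerivAt.fun_sum fun i _ => ?_
      have h0 : zat w θ x - θ i ≠ 0 := (sub_pos.2 (hz i)).ne'
      exact ((hasDerivAt_const _ (w i)).fun_div (((hasDerivAt_id' _).sub_const (θ i)).fun_pow 2)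
        (pow_ne_zero 2 h0)).congr_deriv (by field_simp; ring)
    have dz := ha.hasDerivAt_zat hx0
    have h1 : HasDerivAt (fun u => zat w θ u - u / gat2 w θ (zat w θ u))
        (2 * (gat w θ (zat w θ x) * (∑ i, w i / (zat w θ x - θ i) ^ 3) - gat2 w θ (zat w θ x) ^ 2) /
          gat2 w θ (zat w θ x) ^ 3) x := by
      refine (dz.fun_sub ((hasDerivAt_id' x).fun_div (d2.comp x dz) hg2.ne')).congr_deriv ?_
      simp only [Function.comp_apply, he]
      field_simp
      ring
    refine (h1.congr_of_eventuallyEq ?_).hasDerivWithinAt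
    filter_upwards [eventually_gt_nhds hx0] with u hu
    have := hu.ne'
    have := (ha.gat_pos (ha.zat_spec hu).1).2.ne'
    simp only [Rat, dRat, if_pos hu]
    field_simp
    ring
  · rw [interior_Ici] at hx
    obtain ⟨hz, he⟩ := ha.zat_spec (show (0:ℝ) < x from hx)
    refine div_nonneg (mul_nonneg two_pos.le (sub_nonneg.2 ?_)) (pow_nonneg (ha.gat_pos hz).2.le 3)
    exact sum_sq_le_sum_mul_sum_of_sq_le_mul univ (fun i _ => div_nonneg (ha.pos i).le (sub_pos.2 (hz i)).le)
      (fun i _ => div_nonneg (ha.pos i).le (pow_pos (sub_pos.2 (hz i)) 3).le) fun i _ => le_of_eq (by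
        have := (sub_pos.2 (hz i)).ne'
        field_simp)

theorem yR_convex : ConvexOn ℝ (Set.Ici 0) fun y => y * Rat w θ y := by
  refine MonotoneOn.convexOn_of_deriv (convex_Ici 0) (continuousOn_id.mul ha.continuousOn_Rat) (fun x hx => ?_) ?_
  · rw [interior_Ici] at hx
    exact ((hasDerivAt_id' x).fun_mul (ha.hasDerivAt_Rat hx)).differentiableAt.differentiableWithinAt
  · rw [interior_Ici]
    intro x hx u hu hxu
    rw [((hasDerivAt_id' x).fun_mul (ha.hasDerivAt_Rat hx)).deriv,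
      ((hasDerivAt_id' u).fun_mul (ha.hasDerivAt_Rat hu)).deriv, one_mul, one_mul]
    exact ha.yR_slope_mono (show (0:ℝ) ≤ x from hx.le) (show (0:ℝ) ≤ u from hu.le) hxu

/-- the spectral function as an integral of its derivative -/
theorem integral_dphiA (j : Fin k) (hy : 0 ≤ y) : ∫ x in (0:ℝ)..y, dphiA w θ j x = phiA w θ j y := by
  have hsub : Set.uIcc 0 y ⊆ Set.Ici (0:ℝ) := by
    rw [Set.uIcc_of_le hy]; exact fun x hx => hx.1
  rw [intervalIntegral.integral_eq_sub_of_hasDeriv_right ((ha.continuousOn_phiA j).mono hsub)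
    (fun x hx => (ha.hasDerivAt_phiA j (by rw [min_eq_left hy] at hx; exact hx.1)).hasDerivWithinAt)
    ((ha.continuousOn_dphiA j).mono hsub).intervalIntegrable]
  simp [phiA]

/-- the R-transform as an integral of its derivative -/
theorem integral_dRat {a b : ℝ} (h0 : 0 ≤ a) (h : a ≤ b) :
    ∫ x in a..b, dRat w θ x = Rat w θ b - Rat w θ a := by
  have hsub : Set.uIcc a b ⊆ Set.Ici (0:ℝ) := by
    rw [Set.uIcc_of_le h]; exact fun x hx => h0.trans hx.1
  exact intervalIntegral.integral_eq_sub_of_hasDeriv_right (ha.continuousOn_Rat.mono hsub)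
    (fun x hx => (ha.hasDerivAt_Rat (by rw [min_eq_left h] at hx; exact h0.trans_lt hx.1)).hasDerivWithinAt)
    (ha.continuousOn_dRat.mono hsub).intervalIntegrable

/-- the R-transform is Lipschitz with the bound on its derivative -/
theorem Rat_lip {a b : ℝ} (h0 : 0 ≤ a) (h1 : 0 ≤ b) (hL : ∀ j, |θ j| ≤ L) (hη : 0 < η)
    (hw : ∀ j : Fin k, (∀ i, i ≤ j) → η ≤ w j) :
    |Rat w θ a - Rat w θ b| ≤ 4 * L ^ 2 / η ^ 4 * |a - b| := by
  have key : ∀ u v, 0 ≤ u → u ≤ v → |Rat w θ v - Rat w θ u| ≤ 4 * L ^ 2 / η ^ 4 * (v - u) := fun u v hu huv => by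
    rw [← ha.integral_dRat hu huv, ← norm_eq_abs]
    refine (intervalIntegral.norm_integral_le_of_norm_le_const (C := 4 * L ^ 2 / η ^ 4) fun x hx => ?_).trans_eq
      (by rw [abs_of_nonneg (sub_nonneg.2 huv)])
    rw [Set.uIoc_of_le huv] at hx
    have hx0 : 0 ≤ x := hu.trans hx.1.le
    rw [norm_of_nonneg (ha.dRat_nonneg hx0)]
    exact ha.dRat_le hx0 hL hη hw
  rcases le_total a b with h | h
  · rw [abs_sub_comm, abs_sub_comm a, abs_of_nonneg (sub_nonneg.2 h)]; exact key a b h0 h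
  · rw [abs_of_nonneg (sub_nonneg.2 h)]; exact key b a h1 h

end Atoms

end Vale.Agent.P166.Gen
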