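import Vale.Agent.P166.Gen.CornerRoot
import Vale.Agent.P166.Phase.Invariance

/-!
# P166 Gen: the law of the coupling with one more site

The coupling of `N + 1` sites, decomposed at the last site: conditionally on the last column `u` of
the frame it is the coupling of `N` sites with one bottom eigenvalue less, with one row of each higher
atom moved to the root, and a field in the same rows.
-/

open MeasureTheory Finset Real Matrix

noncomputable section

namespace Vale.Agent.P166.Gen

open Phase (app ip mul tp Orth nz refl)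

variable {N k : ℕ}

lemma ip_single_right (x : Fin N → ℝ) (i : Fin N) : ip x (Pi.single i 1) = x i := by
  simp [ip, Pi.single_apply]

lemma app_single (U : Mat N) (i : Fin N) : app U (Pi.single i 1) = fun l => U l i := by
  funext l; simp [app, Pi.single_apply]

lemma orth_of_ip {U : Mat N} (h : ∀ x y, ip (app U x) (app U y) = ip x y) : Orth U := by
  rw [Orth, Matrix.mem_orthogonalGroup_iff']
  ext i j
  have := h (Pi.single i 1) (Pi.single j 1)
  rw [app_single, app_single, ip_single_right] at this
  simpa [Matrix.mul_apply, Matrix.transpose_apply, Matrix.one_apply, ip, Pi.single_apply, eq_comm] using this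

lemma app_tp_app {U : Mat N} (h : Orth U) (x : Fin N → ℝ) : app (tp U) (app U x) = x := by
  funext i
  rw [← ip_single_right (app (tp U) (app U x)) i, ← ip_single_right x i, ← Phase.ip_app h x]
  simp [ip, app, tp, Pi.single_apply, mul_comm]

lemma app_app_tp {U : Mat N} (h : Orth U) (x : Fin N → ℝ) : app U (app (tp U) x) = x :=
  app_tp_app (U := tp U) h.tp x

lemma ip_snoc (a b : Fin N → ℝ) (s t : ℝ) :
    ip (Fin.snoc a s : Fin (N + 1) → ℝ) (Fin.snoc b t) = ip a b + s * t := by
  simp [ip, Fin.sum_univ_castSucc]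

/-! ### mirrors inside the classes -/

/-- reflection inside every class of `lab` -/
def mir (lab : Fin N → Fin k) (w y : Fin N → ℝ) (i : Fin N) : ℝ :=
  y i - 2 * (∑ l ∈ univ.filter (fun l => lab l = lab i), w l * y l) /
    (∑ l ∈ univ.filter (fun l => lab l = lab i), w l * w l) * w i

lemma sum_mir_sq (lab : Fin N → Fin k) (w y : Fin N → ℝ) (φ : Fin k → ℝ) :
    ∑ i, φ (lab i) * mir lab w y i ^ 2 = ∑ i, φ (lab i) * y i ^ 2 := by
  rw [← Finset.sum_fiberwise univ lab, ← Finset.sum_fiberwise univ lab (fun i => φ (lab i) * y i ^ 2)]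
  refine Finset.sum_congr rfl fun j _ => ?_
  set A := ∑ l ∈ univ.filter (fun l => lab l = j), w l * y l
  set W := ∑ l ∈ univ.filter (fun l => lab l = j), w l * w l with hW
  calc ∑ i ∈ univ.filter (fun i => lab i = j), φ (lab i) * mir lab w y i ^ 2
      = ∑ i ∈ univ.filter (fun i => lab i = j),
          (φ j * y i ^ 2 - φ j * (4 * A / W) * (w i * y i) + φ j * (4 * A ^ 2 / W ^ 2) * (w i * w i)) := by
        refine Finset.sum_congr rfl fun i hi => ?_
        have e := (Finset.mem_filter.1 hi).2
        simp only [mir, e]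
        ring
    _ = ∑ i ∈ univ.filter (fun i => lab i = j), φ j * y i ^ 2 := by
        simp only [Finset.sum_add_distrib, Finset.sum_sub_distrib, ← Finset.mul_sum, ← hW]
        rcases eq_or_ne W 0 with h | h
        · simp [h]
        · rw [show (∑ i ∈ univ.filter (fun i => lab i = j), w i * y i) = A from rfl]
          field_simp; ring
    _ = _ := Finset.sum_congr rfl fun i hi => by rw [(Finset.mem_filter.1 hi).2]

lemma mir_map {lab : Fin N → Fin k} {u u' : Fin N → ℝ}
    (h : ∀ j, ∑ l ∈ univ.filter (fun l => lab l = j), u l ^ 2 =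
      ∑ l ∈ univ.filter (fun l => lab l = j), u' l ^ 2) :
    mir lab (fun l => u l - u' l) u = u' := by
  funext i
  set s := univ.filter (fun l => lab l = lab i)
  have hw : ∑ l ∈ s, (u l - u' l) * (u l - u' l) = 2 * ∑ l ∈ s, (u l - u' l) * u l := by
    have e : ∀ l, (u l - u' l) * (u l - u' l) = 2 * ((u l - u' l) * u l) - (u l ^ 2 - u' l ^ 2) := fun l => by ring
    simp only [e, Finset.sum_sub_distrib, ← Finset.mul_sum, h (lab i), s, sub_self, sub_zero]
  simp only [mir]
  rcases eq_or_ne (∑ l ∈ s, (u l - u' l) * (u l - u' l)) 0 with h0 | h0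
  · have := (Finset.sum_eq_zero_iff_of_nonneg fun l _ => mul_self_nonneg _).1 h0 i (by simp [s])
    rw [mul_self_eq_zero, sub_eq_zero] at this
    rw [show univ.filter (fun l => lab l = lab i) = s from rfl, h0, div_zero, zero_mul, sub_zero, this]
  · rw [show univ.filter (fun l => lab l = lab i) = s from rfl, ← hw, div_self h0, one_mul, sub_sub_cancel]

/-! ### the bordered frame -/

/-- replace the coordinates at the representatives `e` by their bordered image -/
def tFr (r θ : Fin k → ℝ) (o : Fin k) (e : Fin k → Fin N) (z : Fin N → ℝ) (i : Fin N) : ℝ :=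
  z i + ∑ l, if e l = i then sFr r θ o (fun j => z (e j)) l - z i else 0

lemma sum_tFr_sq {r θ : Fin k → ℝ} {o : Fin k} {e : Fin k → Fin N} (he : Function.Injective e)
    {lab : Fin N → Fin k} (hl : ∀ j, lab (e j) = j) (φ : Fin k → ℝ) (z : Fin N → ℝ) :
    ∑ i, φ (lab i) * tFr r θ o e z i ^ 2 = (∑ i, φ (lab i) * z i ^ 2) +
      ∑ l, φ l * (sFr r θ o (fun j => z (e j)) l ^ 2 - z (e l) ^ 2) := by
  rw [← sub_eq_iff_eq_add', ← Finset.sum_sub_distrib]
  refine (Fintype.sum_of_injective e he _ _ (fun i hi => ?_) fun l => ?_).symm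
  · have : ∀ l, e l ≠ i := fun l hl' => hi ⟨l, hl'⟩
    simp [tFr, this]
  · simp [tFr, he.eq_iff, hl]
    ring

/-- the map sending the last unit vector to `u` and `diag θ` to bordered form -/
lemma exists_frame_bordered {θ : Fin k → ℝ} (hθ : StrictMono θ) {lab : Fin (N + 1) → Fin k}
    {lab' : Fin N → Fin k} {o : Fin k} {e : Fin k → Fin N} (ho : (o : ℕ) = 0) (he : ∀ j, lab' (e j) = j)
    (hcard : ∀ j, (univ.filter fun i => lab i = j).card =
      (univ.filter fun i => lab' i = j).card + if j = o then 1 else 0)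
    {u : Fin (N + 1) → ℝ} (hu : ip u u = 1) (r : Fin k → ℝ)
    (hr : ∀ j, r j = ∑ i ∈ univ.filter (fun i => lab i = j), u i ^ 2) (hpos : ∀ j, 0 < r j) :
    ∃ A : Mat (N + 1), Orth A ∧ app A (Pi.single (Fin.last N) 1) = u ∧ ∀ (y : Fin N → ℝ) (s : ℝ),
      ∑ i, θ (lab i) * app A (Fin.snoc y s) i ^ 2 = (∑ i, θ (lab' i) * y i ^ 2) + s ^ 2 * (∑ j, r j * θ j) +
        ∑ j ∈ upAtoms k, ((root r θ j - θ j) * y (e j) ^ 2 + 2 * s * (cpl r θ j * y (e j))) := by
  set lab2 : Fin (N + 1) → Fin k := Fin.snoc lab' o with hlab2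
  have hc2 : ∀ j, Fintype.card {i // lab2 i = j} = Fintype.card {i // lab i = j} := fun j => by
    rw [Fintype.card_subtype, Fintype.card_subtype, hcard j, Finset.card_filter, Fin.sum_univ_castSucc,
      Finset.card_filter]
    simp only [hlab2, Fin.snoc_castSucc, Fin.snoc_last, eq_comm]
  set τ : Fin (N + 1) ≃ Fin (N + 1) := Equiv.ofFiberEquiv fun j => Fintype.equivOfCardEq (hc2 j) with hτdef
  have hτ : ∀ i, lab (τ i) = lab2 i := fun i => Equiv.ofFiberEquiv_map _ i
  set e2 : Fin k → Fin (N + 1) := fun j => if j = o then Fin.last N else (e j).castSucc with he2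
  have hl2 : ∀ j, lab2 (e2 j) = j := fun j => by
    by_cases h : j = o
    · simp [he2, hlab2, h]
    · simp [he2, hlab2, h, he]
  have hinj : Function.Injective e2 := fun a b h => by rw [← hl2 a, ← hl2 b, h]
  have hup : ∀ j : Fin k, j ∈ upAtoms k ↔ j ≠ o := fun j => by
    simp only [Finset.mem_filter, Finset.mem_univ, true_and, ne_eq, Fin.ext_iff, ho]; omega
  have hupset : upAtoms k = univ.erase o := by
    ext j; rw [hup]; simp
  have hsplit : ∀ f : Fin k → ℝ, ∑ j, f j = f o + ∑ j ∈ upAtoms k, f j := fun f => by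
    rw [hupset, Finset.add_sum_erase _ _ (Finset.mem_univ o)]
  have h1 : ∑ j, r j = 1 := by
    simp only [hr]
    rw [Finset.sum_fiberwise univ lab (fun i => u i ^ 2)]
    simpa [ip, sq] using hu
  set T : (Fin (N + 1) → ℝ) → Fin (N + 1) → ℝ := fun z i => tFr r θ o e2 z (τ.symm i) with hT
  have hTsum : ∀ (φ : Fin k → ℝ) (z : Fin (N + 1) → ℝ),
      ∑ i, φ (lab i) * T z i ^ 2 = (∑ i, φ (lab2 i) * z i ^ 2) +
        ∑ l, φ l * (sFr r θ o (fun j => z (e2 j)) l ^ 2 - z (e2 l) ^ 2) := fun φ z => by
    rw [← sum_tFr_sq hinj hl2 φ z, ← Equiv.sum_comp τ]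
    simp [hT, hτ]
  set L := Fin.last N
  set eL : Fin (N + 1) → ℝ := Pi.single L 1
  have hzL : (fun j => eL (e2 j)) = Pi.single o 1 := by
    funext j
    by_cases h : j = o
    · simp [eL, L, he2, h]
    · simp [eL, L, he2, h, (Fin.castSucc_lt_last (e j)).ne]
  have hblock : ∀ j, ∑ i ∈ univ.filter (fun i => lab i = j), T eL i ^ 2 = r j := fun j => by
    have h := hTsum (Pi.single j 1) eL
    rw [hzL] at h
    simp only [Pi.single_apply, ite_mul, one_mul, zero_mul, Finset.sum_ite_eq', Finset.mem_univ, if_true] at h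
    rw [Finset.sum_filter, h, sFr_bottom o ho, Real.sq_sqrt (hpos j).le]
    have a : ∑ i, (if lab2 i = j then eL i ^ 2 else 0) = if o = j then 1 else 0 := by
      simp [eL, L, Pi.single_apply, Fin.sum_univ_castSucc, hlab2, (Fin.castSucc_lt_last _).ne]
    have b : eL (e2 j) = if j = o then 1 else 0 := by
      have := congrFun hzL j
      simpa [Pi.single_apply] using this
    rw [a, b]
    by_cases h : j = o <;> simp [h, Ne.symm]
  set w : Fin (N + 1) → ℝ := fun i => T eL i - u i
  have hmirlin : ∀ y y' (c : ℝ), mir lab w (y + c • y') = mir lab w y + c • mir lab w y' := fun y y' c => by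
    funext i
    simp only [mir, Pi.add_apply, Pi.smul_apply, smul_eq_mul, mul_add, Finset.sum_add_distrib,
      mul_left_comm (w _) c, ← Finset.mul_sum]
    ring
  have hTlin : ∀ y y' (c : ℝ), T (y + c • y') = T y + c • T y' := fun y y' c => by
    funext i
    simp only [hT, tFr, Pi.add_apply, Pi.smul_apply, smul_eq_mul, Finset.mul_sum, mul_add]
    rw [show ∀ a b S T' : ℝ, a + c * b + S = a + T' + (c * b + (S - T')) from fun _ _ _ _ => by ring]
    congr 1
    congr 1
    rw [← Finset.sum_sub_distrib]
    refine Finset.sum_congr rfl fun l _ => ?_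
    split_ifs
    · simp only [sFr, add_mul, Finset.sum_add_distrib, mul_assoc, ← Finset.mul_sum]
      ring
    · ring
  set G : (Fin (N + 1) → ℝ) →ₗ[ℝ] Fin (N + 1) → ℝ :=
    { toFun := fun z => mir lab w (T z)
      map_add' := fun a b => by simpa using congrArg (mir lab w) (hTlin a b 1) |>.trans (hmirlin _ _ 1)
      map_smul' := fun c a => by
        have h0 : T 0 = 0 := by have := hTlin 0 0 1; simpa using this
        have h0' : mir lab w 0 = 0 := by have := hmirlin 0 0 1; simpa using this
        simpa [h0, h0'] using congrArg (mir lab w) (hTlin 0 a c) |>.trans (hmirlin _ _ c) }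
  set A : Mat (N + 1) := fun i l => G (Pi.single l 1) i
  have hA : ∀ z, app A z = mir lab w (T z) := fun z => by
    show _ = G z
    conv_rhs => rw [pi_eq_sum_univ' z, map_sum]
    funext i
    simp [app, A, Finset.sum_apply, mul_comm]
  have hq : ∀ (φ : Fin k → ℝ) z, ∑ i, φ (lab i) * app A z i ^ 2 = (∑ i, φ (lab2 i) * z i ^ 2) +
      ∑ l, φ l * (sFr r θ o (fun j => z (e2 j)) l ^ 2 - z (e2 l) ^ 2) := fun φ z => by
    rw [hA, sum_mir_sq, hTsum]
  have hnorm : ∀ z, ip (app A z) (app A z) = ip z z := fun z => by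
    have h := hq (fun _ => 1) z
    simp only [one_mul, Finset.sum_sub_distrib, sFr_norm hθ hpos h1] at h
    rw [hsplit fun l => z (e2 l) ^ 2, sub_self, add_zero] at h
    simpa [ip, sq] using h
  have hpol : ∀ a b, ip (app A a) (app A b) = ip a b := fun a b => by
    have h := hnorm (a + b)
    have ha := hnorm a
    have hb := hnorm b
    rw [show app A (a + b) = app A a + app A b from by funext i; simp [app, mul_add, Finset.sum_add_distrib]] at h
    simp only [ip, Pi.add_apply, add_mul, mul_add, Finset.sum_add_distrib] at h ha hb ⊢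
    simp only [fun i => mul_comm (app A b i) (app A a i), fun i => mul_comm (b i) (a i)] at h
    linarith
  refine ⟨A, orth_of_ip hpol, ?_, fun y s => ?_⟩
  · rw [hA]
    exact mir_map fun j => by rw [hblock, hr]
  · rw [hq θ, Fin.sum_univ_castSucc]
    simp only [hlab2, Fin.snoc_castSucc, Fin.snoc_last, mul_sub, Finset.sum_sub_distrib,
      sFr_form hθ hpos h1]
    have ey : ∀ j ∈ upAtoms k, (Fin.snoc y s : Fin (N + 1) → ℝ) (e2 j) = y (e j) := fun j hj => by
      simp [he2, (hup j).1 hj]
    have eo : (Fin.snoc y s : Fin (N + 1) → ℝ) (e2 o) = s := by simp [he2, L]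
    have s1 : ∑ j ∈ upAtoms k, θ j * (Fin.snoc y s : Fin (N + 1) → ℝ) (e2 j) ^ 2 =
        ∑ j ∈ upAtoms k, θ j * y (e j) ^ 2 := Finset.sum_congr rfl fun j hj => by rw [ey j hj]
    have s2 : ∑ j ∈ upAtoms k, (root r θ j * (Fin.snoc y s : Fin (N + 1) → ℝ) (e2 j) ^ 2 +
          2 * s * (cpl r θ j * (Fin.snoc y s : Fin (N + 1) → ℝ) (e2 j))) =
        ∑ j ∈ upAtoms k, (root r θ j * y (e j) ^ 2 + 2 * s * (cpl r θ j * y (e j))) :=
      Finset.sum_congr rfl fun j hj => by rw [ey j hj]
    rw [hsplit fun l => θ l * (Fin.snoc y s : Fin (N + 1) → ℝ) (e2 l) ^ 2, eo, s1, s2]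
    simp only [Finset.sum_add_distrib, sub_mul, Finset.sum_sub_distrib]
    ring

/-! ### decomposition at the last site -/

/-- block array fixing the last unit vector -/
def blk (V : Mat N) : Mat (N + 1) :=
  fun i => Fin.lastCases (Pi.single (Fin.last N) 1) (fun i' => Fin.snoc (V i') 0) i

lemma app_blk (V : Mat N) (y : Fin N → ℝ) (s : ℝ) :
    app (blk V) (Fin.snoc y s) = Fin.snoc (app V y) s := by
  funext i
  refine Fin.lastCases ?_ (fun i' => ?_) i
  · simp [app, blk, Pi.single_apply]
  · simp [app, blk, Fin.sum_univ_castSucc]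

lemma orth_blk {V : Mat N} (h : Orth V) : Orth (blk V) := by
  refine orth_of_ip fun x y => ?_
  rw [← Fin.snoc_init_self x, ← Fin.snoc_init_self y, app_blk, app_blk, ip_snoc, ip_snoc, Phase.ip_app h]

lemma continuous_blk : Continuous (blk (N := N)) := by
  refine continuous_pi fun i => ?_
  refine Fin.lastCases ?_ (fun i' => ?_) i
  · simpa [blk] using continuous_const
  · refine continuous_pi fun l => ?_
    refine Fin.lastCases ?_ (fun l' => ?_) l
    · simpa [blk] using continuous_const
    · simp only [blk, Fin.lastCases_castSucc, Fin.snoc_castSucc]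
      exact (continuous_apply l').comp (continuous_apply i')

/-- the energy at the last column `u` in a frame of `N` sites -/
lemma exists_split {θ : Fin k → ℝ} (hθ : StrictMono θ) {lab : Fin (N + 1) → Fin k}
    {lab' : Fin N → Fin k} {o : Fin k} {e : Fin k → Fin N} (ho : (o : ℕ) = 0) (he : ∀ j, lab' (e j) = j)
    (hcard : ∀ j, (univ.filter fun i => lab i = j).card =
      (univ.filter fun i => lab' i = j).card + if j = o then 1 else 0)
    {U : Mat (N + 1)} (hU : Orth U) (r : Fin k → ℝ)
    (hr : ∀ j, r j = ∑ i ∈ univ.filter (fun i => lab i = j), U i (Fin.last N) ^ 2) (hpos : ∀ j, 0 < r j) :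
    ∃ W : Mat N, Orth W ∧ ∀ (y : Fin N → ℝ) (s : ℝ),
      ∑ i, θ (lab i) * app U (Fin.snoc y s) i ^ 2 = (∑ i, θ (lab' i) * app W y i ^ 2) +
        s ^ 2 * (∑ j, r j * θ j) + ∑ j ∈ upAtoms k,
          ((root r θ j - θ j) * app W y (e j) ^ 2 + 2 * s * (cpl r θ j * app W y (e j))) := by
  set eL : Fin (N + 1) → ℝ := Pi.single (Fin.last N) 1
  have hu : ip (app U eL) (app U eL) = 1 := by
    rw [Phase.ip_app hU, ip_single_right]; simp [eL]
  obtain ⟨A, hA, hAL, hform⟩ := exists_frame_bordered hθ ho he hcard hu r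
    (fun j => by simp only [hr, eL, app_single]) hpos
  set B := mul (tp A) U
  have hB : Orth B := orth_of_ip fun x y => by
    simp only [B, Phase.app_mul, Phase.ip_app hA.tp, Phase.ip_app hU]
  have hBL : app B eL = eL := by rw [Phase.app_mul, ← hAL, app_tp_app hA]
  set W : Mat N := fun i l => B i.castSucc l.castSucc
  have hcol : ∀ i : Fin N, B i.castSucc (Fin.last N) = 0 := fun i => by
    have := congrFun hBL i.castSucc
    rw [show app B eL = fun l => B l (Fin.last N) from app_single B _] at this
    simpa [eL, (Fin.castSucc_lt_last i).ne] using this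
  have happ : ∀ (y : Fin N → ℝ) (s : ℝ), app B (Fin.snoc y s) = Fin.snoc (app W y) s := fun y s => by
    funext i
    refine Fin.lastCases ?_ (fun i' => ?_) i
    · have := Phase.ip_app hB (Fin.snoc y s) eL
      rw [hBL, ip_single_right, ip_single_right] at this
      simpa using this
    · simp [app, W, Fin.sum_univ_castSucc, hcol]
  refine ⟨W, orth_of_ip fun x y => ?_, fun y s => ?_⟩
  · have := Phase.ip_app hB (Fin.snoc x 0) (Fin.snoc y 0)
    rwa [happ, happ, ip_snoc, ip_snoc, mul_zero, add_zero, add_zero] at this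
  · rw [← hform (app W y) s, ← happ, Phase.app_mul, app_app_tp hA]

lemma cd_eq_app (U : Mat N) (σ : Fin N → Bool) : cd U σ = app U fun x => spin (σ x) := rfl

lemma spin_snoc (σ : Fin (N + 1) → Bool) :
    (fun x => spin (σ x)) = Fin.snoc (fun x : Fin N => spin (σ x.castSucc)) (spin (σ (Fin.last N))) := by
  funext x
  refine Fin.lastCases ?_ (fun x' => ?_) x <;> simp

lemma continuous_wJ (θ : Fin k → ℝ) (lab : Fin N → Fin k) (σ : Fin N → Bool) :
    Continuous fun U : Mat N => wJ θ lab U σ := by
  unfold wJ cd; fun_prop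

theorem stmt_corner : StmtCorner := by
  intro k N _ θ hθ lab lab' o e ho he hcard ν₁ ν hν₁ hν F hF
  have := hν₁.1
  have := hν.1
  set L := Fin.last N
  set eL : Fin (N + 1) → ℝ := Pi.single L 1
  set Φ : Mat (N + 1) → ℝ := fun U => F (wJ θ lab U)
  have hΦ : Continuous Φ := hF.comp_continuous
    (continuous_pi fun σ => continuous_wJ θ lab σ) fun U σ => exp_pos _
  set K : (Fin k → ℝ) → Mat N → ℝ := fun r V => F fun σ =>
    wJ θ lab' V (fun i => σ i.castSucc) *
      exp (cornerE r θ (σ L) fun j => cd V (fun i => σ i.castSucc) (e j))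
  have hK : ∀ r, Continuous (K r) := fun r => hF.comp_continuous
    (continuous_pi fun σ => (continuous_wJ θ lab' _).mul (by unfold cornerE cd; fun_prop))
    fun V σ => mul_pos (exp_pos _) (exp_pos _)
  set P : Mat (N + 1) × Mat N → ℝ := fun q => Φ (mul q.1 (blk q.2))
  have hPc : Continuous P := by
    refine hΦ.comp ?_
    have : Continuous fun q : Mat (N + 1) × Mat N => blk q.2 := continuous_blk.comp continuous_snd
    unfold Phase.mul
    fun_prop
  set Hd : Mat (N + 1) → ℝ := fun U => ∫ V, P (U, V) ∂ν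
  have hHd : Measurable Hd := hPc.stronglyMeasurable.integral_prod_right'.measurable
  -- the value at a frame depends on the shares of its last column only
  set shrC : (Fin (N + 1) → ℝ) → Fin k → ℝ := fun u j => ∑ i ∈ univ.filter (fun i => lab i = j), u i ^ 2
  have horbit : ∀ U, Orth U → (∀ j, 0 < shrC (app U eL) j) → Hd U = ∫ V, K (shrC (app U eL)) V ∂ν := by
    intro U hU hpos
    set r := shrC (app U eL) with hrdef
    obtain ⟨W, hW, hWid⟩ := exists_split hθ ho he hcard hU r
      (fun j => by simp only [hrdef, shrC, eL, app_single, L]) hpos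
    have hm : Measurable fun V : Mat N => mul W V := by unfold Phase.mul; fun_prop
    have e1 : ∀ V, P (U, V) = K r (mul W V) := fun V => by
      refine congrArg F (funext fun σ => ?_)
      set y : Fin N → ℝ := fun x => spin (σ x.castSucc)
      set s := spin (σ L) with hs
      have hs2 : s ^ 2 = 1 := by rw [hs, spin]; split_ifs <;> norm_num
      simp only [wJ, ← exp_add]
      congr 1
      simp only [cd_eq_app, spin_snoc σ, Phase.app_mul, app_blk, hWid, cornerE]
      rw [show spin (σ (Fin.last N)) = s from rfl, hs2, one_mul, add_div, add_div, add_assoc]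
      congr 1
      congr 1
      rw [Finset.sum_div]
      exact Finset.sum_congr rfl fun j _ => by ring
    simp only [Hd, e1]
    rw [← integral_map hm.aemeasurable (hK r).aestronglyMeasurable,
      show ν.map (fun V => mul W V) = ν from hν.2.2 _ hW]
  -- the mean over the last block does not change the mean
  have hfub : ∫ U, Φ U ∂ν₁ = ∫ U, Hd U ∂ν₁ := by
    obtain ⟨C, hC⟩ := (compact_orthogonal (N + 1)).exists_bound_of_continuousOn
      (f := fun A : Matrix (Fin (N + 1)) (Fin (N + 1)) ℝ => Φ fun i j => A i j)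
      (hΦ.comp (by fun_prop)).continuousOn
    have hint : Integrable P (ν₁.prod ν) := by
      refine Integrable.of_bound hPc.aestronglyMeasurable C ?_
      filter_upwards [Measure.quasiMeasurePreserving_fst.ae hν₁.2.1,
        Measure.quasiMeasurePreserving_snd.ae hν.2.1] with q hq1 hq2
      exact hC (Matrix.of (mul q.1 (blk q.2))) (show Matrix.of q.1 * Matrix.of (blk q.2) ∈ _ from
        Submonoid.mul_mem _ hq1 (orth_blk hq2))
    simp only [Hd]
    rw [integral_integral_swap hint]
    have : ∀ᵐ V ∂ν, ∫ U, P (U, V) ∂ν₁ = ∫ U, Φ U ∂ν₁ := hν.2.1.mono fun V hV => by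
      have hm : Measurable fun U : Mat (N + 1) => mul U (blk V) := by unfold Phase.mul; fun_prop
      conv_rhs => rw [← Phase.map_mul_right hν₁ (orth_blk hV),
        integral_map hm.aemeasurable hΦ.aestronglyMeasurable]
    rw [integral_congr_ae this, integral_const, probReal_univ, one_smul]
  -- a measurable frame over the sphere
  set R : (Fin (N + 1) → ℝ) → Mat (N + 1) := fun u => refl fun i => eL i - u i
  have hR : Measurable R := by unfold R Phase.refl Phase.ip; fun_prop
  have heL : ip eL eL = 1 := by rw [ip_single_right]; simp [eL]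
  have hlaw : ν₁.map (fun U => app U eL) = (Pattern.gauss (Fin (N + 1))).map nz :=
    Phase.law_app hν₁ (Nat.succ_pos N) heL
  have hgood : ∀ᵐ g ∂Pattern.gauss (Fin (N + 1)), ip (nz g) (nz g) = 1 ∧ ∀ j, 0 < shrC (nz g) j := by
    have hcoord : ∀ i, ∀ᵐ g ∂Pattern.gauss (Fin (N + 1)), g i ≠ 0 := fun i =>
      (Phase.linear_ne_zero_ae (c := Pi.single i 1) (by rw [ip_single_right]; simp)).mono fun g hg => by
        simpa [Phase.ip, Pi.single_apply] using hg
    filter_upwards [ae_all_iff.2 hcoord] with g hg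
    have hgg : 0 < ip g g := lt_of_lt_of_le (mul_self_pos.2 (hg L))
      (Finset.single_le_sum (f := fun i => g i * g i) (fun i _ => mul_self_nonneg _) (Finset.mem_univ L))
    refine ⟨Phase.ip_nz_self hgg.ne', fun j => ?_⟩
    obtain ⟨i, hi⟩ : (univ.filter fun i => lab i = j).Nonempty := by
      rw [← Finset.card_pos, hcard j]
      have : 0 < (univ.filter fun i => lab' i = j).card := Finset.card_pos.2 ⟨e j, by simp [he]⟩
      omega
    exact lt_of_lt_of_le (sq_pos_of_ne_zero (div_ne_zero (hg i) (Real.sqrt_ne_zero'.2 hgg)))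
      (Finset.single_le_sum (f := fun i => nz g i ^ 2) (fun i _ => sq_nonneg _) hi)
  have hms : MeasurableSet {u : Fin (N + 1) → ℝ | ∀ j, 0 < shrC u j} := by
    rw [Set.ofPred_forall]
    exact MeasurableSet.iInter fun j => measurableSet_lt measurable_const (by unfold shrC; fun_prop)
  have happm : Measurable fun U : Mat (N + 1) => app U eL := by unfold Phase.app; fun_prop
  have hgoodU : ∀ᵐ U ∂ν₁, ∀ j, 0 < shrC (app U eL) j := by
    refine ae_of_ae_map happm.aemeasurable (p := fun u => ∀ j, 0 < shrC u j) ?_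
    rw [hlaw, ae_map_iff Phase.measurable_nz.aemeasurable hms]
    exact hgood.mono fun g hg => hg.2
  have hsec : ∀ u, ip u u = 1 → app (R u) eL = u := fun u hu => Phase.app_refl_map (heL.trans hu.symm)
  calc ∫ U, F (wJ θ lab U) ∂ν₁ = ∫ U, Hd U ∂ν₁ := hfub
    _ = ∫ U, Hd (R (app U eL)) ∂ν₁ := by
      refine integral_congr_ae ?_
      filter_upwards [hν₁.2.1, hgoodU] with U hU hpos
      have e2 : app (R (app U eL)) eL = app U eL := hsec _ (by rw [Phase.ip_app hU, heL])
      rw [horbit U hU hpos, horbit _ (Phase.orth_refl _) (by rw [e2]; exact hpos), e2]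
    _ = ∫ g, Hd (R (nz g)) ∂Pattern.gauss (Fin (N + 1)) := by
      have hm2 : Measurable fun u => Hd (R u) := hHd.comp hR
      rw [← integral_map happm.aemeasurable hm2.aestronglyMeasurable, hlaw,
        integral_map Phase.measurable_nz.aemeasurable hm2.aestronglyMeasurable]
    _ = ∫ g, ∫ V, K (shr lab g) V ∂ν ∂Pattern.gauss (Fin (N + 1)) := by
      refine integral_congr_ae (hgood.mono fun g hg => ?_)
      have e2 := hsec _ hg.1
      show Hd (R (nz g)) = _
      rw [horbit (R (nz g)) (Phase.orth_refl _) (by rw [e2]; exact hg.2), e2]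
      have : shrC (nz g) = shr lab g := by
        funext j
        simp only [shrC, shr, nz, Phase.ip, div_pow, ← Finset.sum_div]
        rw [Real.sq_sqrt (Finset.sum_nonneg fun i _ => mul_self_nonneg _)]
        simp only [sq]
      rw [this]
    _ = _ := rfl

end Vale.Agent.P166.Gen
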