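import Vale.Agent.P166.Gen.Defs

/-!
# P166 Gen: the roots of the Cauchy transform between neighbouring atoms

The bordered form of a diagonal matrix: a unit vector with squared components `r` and the vectors
`cpl j • √r / (θ - root j)` are orthonormal and bring `diag θ` to bordered form.
-/

open Finset Real

noncomputable section

namespace Vale.Agent.P166.Gen

variable {k : ℕ} {r θ : Fin k → ℝ}

/-- the atoms above the bottom one -/
abbrev upAtoms (k : ℕ) : Finset (Fin k) := Finset.univ.filter fun j : Fin k => 0 < (j : ℕ)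

lemma gat_strictAnti_between {x y : ℝ} (j : Fin k) (hr : ∀ i, 0 < r i) (hxy : x < y)
    (hlo : ∀ i, i < j → θ i < x) (hhi : ∀ i, j ≤ i → y < θ i) : gat r θ y < gat r θ x := by
  refine Finset.sum_lt_sum_of_nonempty ⟨j, Finset.mem_univ _⟩ fun i _ => ?_
  have hp : 0 < (x - θ i) * (y - θ i) := by
    rcases lt_or_ge i j with h | h
    · have := hlo i h
      exact mul_pos (by linarith) (by linarith)
    · have := hhi i h
      exact mul_pos_of_neg_of_neg (by linarith) (by linarith)
  have hx : x - θ i ≠ 0 := left_ne_zero_of_mul hp.ne'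
  have hy : y - θ i ≠ 0 := right_ne_zero_of_mul hp.ne'
  have e : r i / (x - θ i) - r i / (y - θ i) = r i * (y - x) / ((x - θ i) * (y - θ i)) := by
    field_simp; ring
  have : 0 < r i * (y - x) / ((x - θ i) * (y - θ i)) := div_pos (mul_pos (hr i) (sub_pos.2 hxy)) hp
  linarith

/-- the root lies strictly between the neighbouring atoms and kills the transform -/
lemma root_spec (hθ : StrictMono θ) (hr : ∀ i, 0 < r i) {j : Fin k} (hj : 0 < (j : ℕ)) :
    (∀ i, i < j → θ i < root r θ j) ∧ root r θ j < θ j ∧ gat r θ (root r θ j) = 0 := by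
  set p : Fin k := ⟨(j : ℕ) - 1, by omega⟩ with hpdef
  have hpj : p < j := by simp only [hpdef, Fin.lt_def]; omega
  have hθpj : θ p < θ j := hθ hpj
  have hle : ∀ i, i < j → θ i ≤ θ p := fun i hi => hθ.monotone (by
    simp only [hpdef, Fin.le_def, Fin.lt_def] at hi ⊢; omega)
  set s : Finset (Fin k) := (Finset.univ.erase p).erase j with hs
  have hsep : ∀ i ∈ s, θ i < θ p ∨ θ j < θ i := fun i hi => by
    obtain ⟨hij, hip⟩ : i ≠ j ∧ i ≠ p := by simpa [hs] using hi
    rcases lt_trichotomy i j with h | h | h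
    · exact Or.inl (lt_of_le_of_ne (hle i h) (hθ.injective.ne hip))
    · exact absurd h hij
    · exact Or.inr (hθ h)
  set f : ℝ → ℝ := fun x => (∑ i ∈ s, r i * ((x - θ p) * (θ j - x)) / (x - θ i)) +
    r p * (θ j - x) - r j * (x - θ p) with hf
  have hc : ContinuousOn f (Set.Icc (θ p) (θ j)) := by
    simp only [hf]
    refine ((continuousOn_finsetSum s fun i hi => ?_).add (by fun_prop)).sub (by fun_prop)
    refine ContinuousOn.div (by fun_prop) (by fun_prop) fun x hx => sub_ne_zero.2 ?_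
    rcases hsep i hi with h | h
    · exact (h.trans_le hx.1).ne'
    · exact (hx.2.trans_lt h).ne
  have hfa : 0 < f (θ p) := by simpa [hf] using mul_pos (hr p) (sub_pos.2 hθpj)
  have hfb : f (θ j) < 0 := by simpa [hf] using mul_pos (hr j) (sub_pos.2 hθpj)
  obtain ⟨x, hx, hfx⟩ := intermediate_value_Icc' hθpj.le hc (show (0:ℝ) ∈ Set.Icc _ _ from ⟨hfb.le, hfa.le⟩)
  have h1 : θ p < x := lt_of_le_of_ne hx.1 fun e => by rw [← e] at hfx; linarith
  have h2 : x < θ j := lt_of_le_of_ne hx.2 fun e => by rw [e] at hfx; linarith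
  have hlo : ∀ i, i < j → θ i < x := fun i hi => (hle i hi).trans_lt h1
  have hmul : gat r θ x * ((x - θ p) * (θ j - x)) = f x := by
    rw [gat, ← Finset.add_sum_erase _ _ (Finset.mem_univ p),
      ← Finset.add_sum_erase _ _ (show j ∈ Finset.univ.erase p by simp [hpj.ne'])]
    simp only [hf, add_mul, Finset.sum_mul, ← hs]
    have a : r p / (x - θ p) * ((x - θ p) * (θ j - x)) = r p * (θ j - x) := by
      rw [← mul_assoc, div_mul_cancel₀ _ (sub_ne_zero.2 h1.ne')]
    have b : r j / (x - θ j) * ((x - θ p) * (θ j - x)) = -(r j * (x - θ p)) := by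
      rw [show (x - θ p) * (θ j - x) = (x - θ j) * -(x - θ p) by ring, ← mul_assoc,
        div_mul_cancel₀ _ (sub_ne_zero.2 h2.ne)]
      ring
    rw [a, b]
    simp only [div_mul_eq_mul_div]
    ring
  have hzero : gat r θ x = 0 := by
    rw [hfx] at hmul
    exact (mul_eq_zero.1 hmul).resolve_right (mul_pos (sub_pos.2 h1) (sub_pos.2 h2)).ne'
  have hleast : IsLeast {y | (∀ i, i < j → θ i < y) ∧ y < θ j ∧ gat r θ y ≤ 0} x := by
    refine ⟨⟨hlo, h2, hzero.le⟩, fun y hy => le_of_not_gt fun hlt => ?_⟩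
    have := gat_strictAnti_between j hr hlt hy.1 fun i hi => h2.trans_le (hθ.monotone hi)
    linarith [hy.2.2]
  rw [root, hleast.csInf_eq]
  exact ⟨hlo, h2, hzero⟩

lemma root_ne_atom (hθ : StrictMono θ) (hr : ∀ i, 0 < r i) {j : Fin k} (hj : 0 < (j : ℕ)) (i : Fin k) :
    θ i - root r θ j ≠ 0 := by
  obtain ⟨hlo, hhi, -⟩ := root_spec hθ hr hj
  rcases lt_or_ge i j with h | h
  · exact sub_ne_zero.2 (hlo i h).ne
  · exact sub_ne_zero.2 (hhi.trans_le (hθ.monotone h)).ne'

lemma root_lt (hθ : StrictMono θ) (hr : ∀ i, 0 < r i) {i j : Fin k} (hi : 0 < (i : ℕ)) (hij : i < j) :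
    root r θ i < root r θ j :=
  (root_spec hθ hr hi).2.1.trans ((root_spec hθ hr (by simp only [Fin.lt_def] at hij; omega)).1 i hij)

lemma root_inj (hθ : StrictMono θ) (hr : ∀ i, 0 < r i) {i j : Fin k} (hi : 0 < (i : ℕ)) (hj : 0 < (j : ℕ))
    (hne : i ≠ j) : root r θ i - root r θ j ≠ 0 := by
  rcases lt_or_gt_of_ne hne with h | h
  · exact sub_ne_zero.2 (root_lt hθ hr hi h).ne
  · exact sub_ne_zero.2 (root_lt hθ hr hj h).ne'

lemma gat2_root_pos (hθ : StrictMono θ) (hr : ∀ i, 0 < r i) {j : Fin k} (hj : 0 < (j : ℕ)) :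
    0 < gat2 r θ (root r θ j) := by
  refine Finset.sum_pos (fun i _ => div_pos (hr i) ?_) ⟨j, Finset.mem_univ _⟩
  exact sq_pos_of_ne_zero (sub_ne_zero.2 (sub_ne_zero.1 (root_ne_atom hθ hr hj i)).symm)

lemma cpl_sq (hθ : StrictMono θ) (hr : ∀ i, 0 < r i) {j : Fin k} (hj : 0 < (j : ℕ)) :
    cpl r θ j * cpl r θ j * gat2 r θ (root r θ j) = 1 := by
  have h := gat2_root_pos hθ hr hj
  rw [cpl, Real.mul_self_sqrt (by positivity), one_div, inv_mul_cancel₀ h.ne']

lemma sum_one (hθ : StrictMono θ) (hr : ∀ i, 0 < r i) {j : Fin k} (hj : 0 < (j : ℕ)) :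
    ∑ l, r l / (θ l - root r θ j) = 0 := by
  have h := (root_spec hθ hr hj).2.2
  have e : ∀ l, r l / (θ l - root r θ j) = -(r l / (root r θ j - θ l)) := fun l => by
    rw [← div_neg, neg_sub]
  simp only [e, Finset.sum_neg_distrib]
  simp only [gat] at h
  rw [h, neg_zero]

lemma sum_two (hθ : StrictMono θ) (hr : ∀ i, 0 < r i) {i j : Fin k} (hi : 0 < (i : ℕ)) (hj : 0 < (j : ℕ)) :
    ∑ l, r l / ((θ l - root r θ i) * (θ l - root r θ j)) =
      if i = j then gat2 r θ (root r θ j) else 0 := by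
  split_ifs with h
  · subst h
    exact Finset.sum_congr rfl fun l _ => by rw [← sq, sub_sq_comm]
  · have e : ∀ l, r l / ((θ l - root r θ i) * (θ l - root r θ j)) =
        (r l / (θ l - root r θ i) - r l / (θ l - root r θ j)) / (root r θ i - root r θ j) := fun l => by
      have a := root_ne_atom hθ hr hi l
      have b := root_ne_atom hθ hr hj l
      have c := root_inj hθ hr hi hj h
      field_simp; ring
    simp only [e, ← Finset.sum_div, Finset.sum_sub_distrib, sum_one hθ hr hi, sum_one hθ hr hj, sub_zero,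
      zero_div]

/-- the bordered frame: image of `z` at atom `l` -/
def sFr (r θ : Fin k → ℝ) (o : Fin k) (z : Fin k → ℝ) (l : Fin k) : ℝ :=
  √(r l) * (z o + ∑ j ∈ upAtoms k, z j * (cpl r θ j / (θ l - root r θ j)))

lemma sFr_expand (hr : ∀ i, 0 < r i) (o : Fin k) (z φ : Fin k → ℝ) :
    ∑ l, φ l * sFr r θ o z l ^ 2 = z o ^ 2 * (∑ l, φ l * r l) +
      2 * z o * (∑ j ∈ upAtoms k, z j * cpl r θ j * ∑ l, φ l * r l / (θ l - root r θ j)) +
      ∑ j ∈ upAtoms k, ∑ i ∈ upAtoms k, z j * cpl r θ j * (z i * cpl r θ i) *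
        ∑ l, φ l * r l / ((θ l - root r θ j) * (θ l - root r θ i)) := by
  have e : ∀ l, φ l * sFr r θ o z l ^ 2 = z o ^ 2 * (φ l * r l) +
      2 * z o * (∑ j ∈ upAtoms k, z j * cpl r θ j * (φ l * r l / (θ l - root r θ j))) +
      ∑ j ∈ upAtoms k, ∑ i ∈ upAtoms k, z j * cpl r θ j * (z i * cpl r θ i) *
        (φ l * r l / ((θ l - root r θ j) * (θ l - root r θ i))) := fun l => by
    have a : ∀ j, z j * cpl r θ j * (φ l * r l / (θ l - root r θ j)) =
        φ l * r l * (z j * (cpl r θ j / (θ l - root r θ j))) := fun j => by ring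
    have b : ∀ j i, z j * cpl r θ j * (z i * cpl r θ i) * (φ l * r l / ((θ l - root r θ j) * (θ l - root r θ i))) =
        φ l * r l * (z j * (cpl r θ j / (θ l - root r θ j)) * (z i * (cpl r θ i / (θ l - root r θ i)))) :=
      fun j i => by rw [← div_div]; ring
    simp only [a, b, ← Finset.mul_sum, ← Finset.sum_mul]
    rw [sFr, mul_pow, Real.sq_sqrt (hr l).le]
    ring
  simp only [e, Finset.sum_add_distrib, Finset.mul_sum]
  congr 1
  · congr 1
    exact Finset.sum_comm
  · rw [Finset.sum_comm]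
    exact Finset.sum_congr rfl fun j _ => Finset.sum_comm

lemma sFr_norm (hθ : StrictMono θ) (hr : ∀ i, 0 < r i) (h1 : ∑ l, r l = 1) (o : Fin k) (z : Fin k → ℝ) :
    ∑ l, sFr r θ o z l ^ 2 = z o ^ 2 + ∑ j ∈ upAtoms k, z j ^ 2 := by
  have := sFr_expand (θ := θ) hr o z fun _ => 1
  simp only [one_mul] at this
  rw [this, h1, mul_one,
    Finset.sum_eq_zero fun j hj => by rw [sum_one hθ hr (Finset.mem_filter.1 hj).2, mul_zero],
    mul_zero, add_zero]
  congr 1
  refine Finset.sum_congr rfl fun j hj => ?_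
  have hj' := (Finset.mem_filter.1 hj).2
  rw [Finset.sum_congr rfl fun i hi => by rw [sum_two hθ hr hj' (Finset.mem_filter.1 hi).2],
    Finset.sum_eq_single j (fun i _ hne => by simp [Ne.symm hne]) (fun h => absurd hj h), if_pos rfl]
  calc z j * cpl r θ j * (z j * cpl r θ j) * gat2 r θ (root r θ j)
      = z j ^ 2 * (cpl r θ j * cpl r θ j * gat2 r θ (root r θ j)) := by ring
    _ = z j ^ 2 := by rw [cpl_sq hθ hr hj', mul_one]

lemma sFr_form (hθ : StrictMono θ) (hr : ∀ i, 0 < r i) (h1 : ∑ l, r l = 1) (o : Fin k) (z : Fin k → ℝ) :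
    ∑ l, θ l * sFr r θ o z l ^ 2 = z o ^ 2 * (∑ l, r l * θ l) +
      ∑ j ∈ upAtoms k, (root r θ j * z j ^ 2 + 2 * z o * (cpl r θ j * z j)) := by
  have one : ∀ j ∈ upAtoms k, ∑ l, θ l * r l / (θ l - root r θ j) = 1 := fun j hj => by
    have hj' := (Finset.mem_filter.1 hj).2
    have e : ∀ l, θ l * r l / (θ l - root r θ j) = r l + root r θ j * (r l / (θ l - root r θ j)) := fun l => by
      have := root_ne_atom hθ hr hj' l
      field_simp; ring
    simp only [e, Finset.sum_add_distrib, ← Finset.mul_sum, sum_one hθ hr hj', h1, mul_zero, add_zero]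
  have two : ∀ j ∈ upAtoms k, ∀ i ∈ upAtoms k,
      ∑ l, θ l * r l / ((θ l - root r θ j) * (θ l - root r θ i)) =
        root r θ j * if j = i then gat2 r θ (root r θ i) else 0 := fun j hj i hi => by
    have hj' := (Finset.mem_filter.1 hj).2
    have hi' := (Finset.mem_filter.1 hi).2
    have e : ∀ l, θ l * r l / ((θ l - root r θ j) * (θ l - root r θ i)) = r l / (θ l - root r θ i) +
        root r θ j * (r l / ((θ l - root r θ j) * (θ l - root r θ i))) := fun l => by
      have := root_ne_atom hθ hr hj' l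
      have := root_ne_atom hθ hr hi' l
      field_simp; ring
    simp only [e, Finset.sum_add_distrib, ← Finset.mul_sum, sum_one hθ hr hi', sum_two hθ hr hj' hi', zero_add]
  rw [sFr_expand hr o z θ, Finset.sum_add_distrib]
  rw [show ∑ l, θ l * r l = ∑ l, r l * θ l from Finset.sum_congr rfl fun l _ => mul_comm _ _]
  have lin1 : ∑ j ∈ upAtoms k, z j * cpl r θ j * ∑ l, θ l * r l / (θ l - root r θ j) =
      ∑ j ∈ upAtoms k, z j * cpl r θ j := Finset.sum_congr rfl fun j hj => by rw [one j hj, mul_one]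
  rw [lin1, Finset.mul_sum (s := upAtoms k)]
  have sq2 : ∀ j ∈ upAtoms k, ∑ i ∈ upAtoms k, z j * cpl r θ j * (z i * cpl r θ i) *
      ∑ l, θ l * r l / ((θ l - root r θ j) * (θ l - root r θ i)) = root r θ j * z j ^ 2 := fun j hj => by
    have hj' := (Finset.mem_filter.1 hj).2
    rw [Finset.sum_congr rfl fun i hi => by rw [two j hj i hi],
      Finset.sum_eq_single j (fun i _ hne => by simp [Ne.symm hne]) (fun h => absurd hj h), if_pos rfl]
    calc z j * cpl r θ j * (z j * cpl r θ j) * (root r θ j * gat2 r θ (root r θ j))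
        = root r θ j * z j ^ 2 * (cpl r θ j * cpl r θ j * gat2 r θ (root r θ j)) := by ring
      _ = root r θ j * z j ^ 2 := by rw [cpl_sq hθ hr hj', mul_one]
  rw [Finset.sum_congr rfl sq2, add_assoc, add_comm (∑ j ∈ upAtoms k, 2 * z o * (z j * cpl r θ j))]
  congr 1
  congr 1
  exact Finset.sum_congr rfl fun j _ => by ring

lemma sFr_bottom (o : Fin k) (ho : (o : ℕ) = 0) (l : Fin k) :
    sFr r θ o (Pi.single o 1) l = √(r l) := by
  rw [sFr, Pi.single_eq_same, Finset.sum_eq_zero, add_zero, mul_one]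
  intro j hj
  have hj' := (Finset.mem_filter.1 hj).2
  have : j ≠ o := fun e => by rw [e, ho] at hj'; omega
  rw [Pi.single_eq_of_ne this, zero_mul]

end Vale.Agent.P166.Gen
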