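import Vale.Agent.P166.Defs
import Vale.Agent.P166.Par.Multi.RForm
import Vale.Agent.P157.Full.Defs
import Vale.Agent.P168.MP.GridConc

/-!
# P166: the path formula for every compactly supported law, at every temperature

Objects and the statements of the modules. The inverse temperature is folded into the law. A point is
a monotone nonnegative path `h`; it generates the overlaps `qh R h`.
-/

open MeasureTheory ProbabilityTheory Filter Finset Real
open scoped Topology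
open Vale.Agent.P157.Full (qh psiH dotH)
open Vale.Agent.P157.Par (Prof adev ovK qlev)
open Vale.Agent.P168.MP (lin mad avg gu logZ0)

noncomputable section

namespace Vale.Agent.P166.Gen

open Par.Multi (xiD)

/-! ### the formula -/

/-- the part of the value of a path that does not see the couplings -/
def spinH (R : ℕ) (h : ℕ → ℝ) : ℝ := psiH R h + dotH R h (qh R h) / 2

/-- the point above the support at which the Cauchy transform is `y`, or the top of the support if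
the transform stays below `y` -/
def zed (μ : Measure ℝ) (y : ℝ) : ℝ := sInf {z | sSup μ.support < z ∧ ∫ x, 1 / (z - x) ∂μ ≤ y}

/-- the R-transform of `μ`, continued by `top - 1/y` beyond the value of the transform at the top -/
def Rmu (μ : Measure ℝ) (y : ℝ) : ℝ := zed μ y - 1 / y

/-- the value of a path -/
def mForm (β : ℝ) (μ : Measure ℝ) (R : ℕ) (h : ℕ → ℝ) : ℝ :=
  β / 2 * (∫ t in (0:ℝ)..1, Rmu μ (β * xiD R (qh R h) t)) + spinH R h

/-- the values of all paths -/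
def mValues (β : ℝ) (μ : Measure ℝ) : Set ℝ :=
  {v | ∃ (R : ℕ) (h : ℕ → ℝ) (V : ℝ), 1 ≤ R ∧ Prof R h V ∧ v = mForm β μ R h}

/-! ### finitely many atoms -/

variable {k : ℕ}

/-- finitely many atoms in increasing order, with positive weights -/
structure Atoms (w θ : Fin k → ℝ) : Prop where
  pos : ∀ j, 0 < w j
  one : ∑ j, w j = 1
  mono : StrictMono θ

/-- the Cauchy transform -/
def gat (w θ : Fin k → ℝ) (z : ℝ) : ℝ := ∑ j, w j / (z - θ j)

/-- minus the derivative of the Cauchy transform -/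
def gat2 (w θ : Fin k → ℝ) (z : ℝ) : ℝ := ∑ j, w j / (z - θ j) ^ 2

/-- the point above all atoms at which the Cauchy transform is `y` -/
def zat (w θ : Fin k → ℝ) (y : ℝ) : ℝ := sInf {z | (∀ j, θ j < z) ∧ gat w θ z ≤ y}

/-- the R-transform -/
def Rat (w θ : Fin k → ℝ) (y : ℝ) : ℝ := if 0 < y then zat w θ y - 1 / y else ∑ j, w j * θ j

/-- its derivative -/
def dRat (w θ : Fin k → ℝ) (y : ℝ) : ℝ :=
  if 0 < y then 1 / y ^ 2 - 1 / gat2 w θ (zat w θ y)
  else ∑ j, w j * θ j ^ 2 - (∑ j, w j * θ j) ^ 2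

/-- the spectral function of the projector of atom `j` -/
def phiA (w θ : Fin k → ℝ) (j : Fin k) (y : ℝ) : ℝ := if 0 < y then w j / (zat w θ y - θ j) else 0

/-- its derivative -/
def dphiA (w θ : Fin k → ℝ) (j : Fin k) (y : ℝ) : ℝ :=
  if 0 < y then w j / (zat w θ y - θ j) ^ 2 / gat2 w θ (zat w θ y) else w j

/-- the levels of a function of the overlap matrix, from its derivative -/
def levF (f' : ℝ → ℝ) (R : ℕ) (q : ℕ → ℝ) (l : ℕ) : ℝ := ∫ s in (0:ℝ)..q l, f' (xiD R q s)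

/-- the levels of the projected overlaps of atom `j` -/
def levP (w θ : Fin k → ℝ) (j : Fin k) (R : ℕ) (q : ℕ → ℝ) : ℕ → ℝ := levF (dphiA w θ j) R q

/-- the path of the local field -/
def fieldH (w θ : Fin k → ℝ) (R : ℕ) (q : ℕ → ℝ) : ℕ → ℝ := levF (dRat w θ) R q

/-- the value of a path for finitely many atoms -/
def aForm (w θ : Fin k → ℝ) (R : ℕ) (h : ℕ → ℝ) : ℝ :=
  (∫ t in (0:ℝ)..1, Rat w θ (xiD R (qh R h) t)) / 2 + spinH R h

/-! ### the coupling -/

variable {N : ℕ}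

/-- coordinate `i` of a configuration in the frame `U` -/
def cd (U : Mat N) (σ : Fin N → Bool) (i : Fin N) : ℝ := ∑ x, U i x * spin (σ x)

/-- the Boltzmann weight of the coupling with eigenvalue `θ (lab i)` on row `i` -/
def wJ (θ : Fin k → ℝ) (lab : Fin N → Fin k) (U : Mat N) (σ : Fin N → Bool) : ℝ :=
  exp ((∑ i, θ (lab i) * cd U σ i ^ 2) / 2)

/-- the overlap projected on the eigenspace of atom `j` -/
def pov (lab : Fin N → Fin k) (U : Mat N) (j : Fin k) (σ τ : Fin N → Bool) : ℝ :=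
  (∑ i ∈ univ.filter (fun i => lab i = j), cd U σ i * cd U τ i) / N

/-- the share of atom `j` -/
def freq (lab : Fin N → Fin k) (j : Fin k) : ℝ := ((univ.filter fun i => lab i = j).card : ℝ) / N

variable {Ω : Type} [Fintype Ω]

/-- the weight of paths -/
def wU (θ : Fin k → ℝ) (lab : Fin N → Fin k) (U : Mat N) (w₀ : List Ω → ℝ)
    (rd : List Ω → Fin N → Bool) (p : List Ω) : ℝ := w₀ p * wJ θ lab U (rd p)

/-- mean deviation of the squared norms of the projections -/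
def madJ (R : ℕ) (lab : Fin N → Fin k) (U : Mat N) (W : List Ω → ℝ) (rd : List Ω → Fin N → Bool) : ℝ :=
  ∑ j, mad R (lin R) W fun p => pov lab U j (rd p) (rd p)

/-! ### the modules -/

/-- the rotation identities: concentrated overlaps and squared norms determine the projected overlaps;
`δ` depends neither on the number of levels nor on the weight `w₀` -/
def StmtSd : Prop :=
  ∀ (k : ℕ) (w θ : Fin k → ℝ), Atoms w θ → ∀ ε : ℝ, 0 < ε → ∃ δ : ℝ, 0 < δ ∧ ∀ R : ℕ, 1 ≤ R →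
    ∃ N₀ : ℕ, ∀ N, N₀ ≤ N → ∀ [NeZero N] (θ' : Fin k → ℝ) (lab : Fin N → Fin k),
      (∀ j, |θ' j - θ j| ≤ δ) → (∀ j, |freq lab j - w j| ≤ δ) →
      ∀ {Ω : Type} [Fintype Ω] [Nonempty Ω] (w₀ : List Ω → ℝ), (∀ p, 0 < w₀ p) →
      ∀ (rd : List Ω → Fin N → Bool) (ν : Measure (Mat N)), IsHaarOrthogonal ν →
      ∫ U, (adev R (wU θ' lab U w₀ rd) (ovK rd) (qlev R (wU θ' lab U w₀ rd) rd) +
        madJ R lab U (wU θ' lab U w₀ rd) rd) ∂ν ≤ δ →
      ∫ U, (∑ j, adev R (wU θ' lab U w₀ rd) (fun p p' => pov lab U j (rd p) (rd p'))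
        (levP w θ j R (qlev R (wU θ' lab U w₀ rd) rd))) ∂ν ≤ ε

/-- on average over small shifts of the atoms, on any grid of at least `N * N` points, the squared
norms of the projections concentrate -/
def StmtWindow : Prop :=
  ∀ (k R : ℕ), 1 ≤ R → ∀ ub : ℝ, 0 < ub → ∀ ε : ℝ, 0 < ε → ∃ N₀ : ℕ, ∀ N, N₀ ≤ N →
    ∀ [NeZero N] (M : ℕ), N * N ≤ M → ∀ (θ : Fin k → ℝ) (lab : Fin N → Fin k)
      {Ω : Type} [Fintype Ω] [Nonempty Ω] (w₀ : List Ω → ℝ), (∀ p, 0 < w₀ p) →
      ∀ (rd : List Ω → Fin N → Bool) (U : Mat N), Matrix.of U ∈ Matrix.orthogonalGroup (Fin N) ℝ →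
      avg (fun g : Fin k → Fin M =>
        madJ R lab U (wU (fun j => θ j + gu ub M g j) lab U w₀ rd) rd) ≤ ε

/-- the upper bound by every path -/
def StmtUpperG : Prop :=
  ∀ (k : ℕ) (w θ : Fin k → ℝ), Atoms w θ → ∀ lab : ∀ N, Fin N → Fin k,
    (∀ j, Tendsto (fun N => freq (lab N) j) atTop (𝓝 (w j))) →
    ∀ ν : ∀ N, Measure (Mat N), (∀ N, IsHaarOrthogonal (ν N)) →
    ∀ (R : ℕ) (h : ℕ → ℝ) (V : ℝ), 1 ≤ R → Prof R h V → ∀ ε : ℝ, 0 < ε →
      ∀ᶠ N in atTop, ∫ U, pressure 1 (fun i => θ (lab N i)) U ∂ν N ≤ aForm w θ R h + ε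

/-- the lower bound for atoms on a fine grid with a top atom of mass at least `η`, labels drawn with
the weights -/
def StmtLowerG : Prop :=
  ∀ L η : ℝ, 0 < η → ∀ ε : ℝ, 0 < ε → ∃ δ : ℝ, 0 < δ ∧ ∀ (k : ℕ) (w θ : Fin k → ℝ), Atoms w θ →
    (∀ j, |θ j| ≤ L) → (∀ j : Fin k, (∀ i, i ≤ j) → η ≤ w j) →
    (∀ i j : Fin k, (i : ℕ) + 1 = j → θ j - θ i ≤ δ) →
    ∀ v : ℝ, (∀ (R : ℕ) (h : ℕ → ℝ) (V : ℝ), 1 ≤ R → Prof R h V → v ≤ aForm w θ R h) →
    ∀ ν : ∀ N, Measure (Mat N), (∀ N, IsHaarOrthogonal (ν N)) →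
    ∀ᶠ N in atTop, v - ε ≤ ∑ lab : Fin N → Fin k,
      (∏ i, w (lab i)) * ∫ U, pressure 1 (fun i => θ (lab i)) U ∂ν N

/-! ### the corner of one more site -/

/-- the share of atom `j` in the unit vector `g / |g|` -/
def shr (lab : Fin N → Fin k) (g : Fin N → ℝ) (j : Fin k) : ℝ :=
  (∑ i ∈ univ.filter (fun i => lab i = j), g i ^ 2) / ∑ i, g i ^ 2

/-- the new eigenvalue between atom `j - 1` and atom `j` -/
def root (r θ : Fin k → ℝ) (j : Fin k) : ℝ :=
  sInf {x | (∀ i, i < j → θ i < x) ∧ x < θ j ∧ gat r θ x ≤ 0}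

/-- the coupling of the new site with that eigenvector -/
def cpl (r θ : Fin k → ℝ) (j : Fin k) : ℝ := √(1 / gat2 r θ (root r θ j))

/-- the exponent that the site `b` adds to a base configuration with eigen coordinates `x` -/
def cornerE (r θ : Fin k → ℝ) (b : Bool) (x : Fin k → ℝ) : ℝ :=
  (∑ j, r j * θ j) / 2 + ∑ j ∈ univ.filter (fun j : Fin k => 0 < (j : ℕ)),
    ((root r θ j - θ j) * x j ^ 2 / 2 + spin b * cpl r θ j * x j)

/-- one more site is the base with one bottom eigenvalue less, moved at one row of each higher atom,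
and a field in the same rows -/
def StmtCorner : Prop :=
  ∀ (k N : ℕ) [NeZero N] (θ : Fin k → ℝ), StrictMono θ →
    ∀ (lab : Fin (N + 1) → Fin k) (lab' : Fin N → Fin k) (o : Fin k) (e : Fin k → Fin N),
    (o : ℕ) = 0 → (∀ j, lab' (e j) = j) →
    (∀ j, (univ.filter fun i => lab i = j).card =
      (univ.filter fun i => lab' i = j).card + if j = o then 1 else 0) →
    ∀ (ν₁ : Measure (Mat (N + 1))) (ν : Measure (Mat N)), IsHaarOrthogonal ν₁ → IsHaarOrthogonal ν →
    ∀ F : ((Fin (N + 1) → Bool) → ℝ) → ℝ, ContinuousOn F {f | ∀ σ, 0 < f σ} →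
    ∫ U, F (wJ θ lab U) ∂ν₁ = ∫ g, ∫ U, F (fun σ =>
        wJ θ lab' U (fun i => σ i.castSucc) *
          exp (cornerE (shr lab g) θ (σ (Fin.last N)) fun j => cd U (fun i => σ i.castSucc) (e j))) ∂ν
      ∂Vale.Agent.P150.gauss (Fin (N + 1))

/-- given the base, the chosen rows are uniform in their eigenspaces -/
def StmtFrame : Prop :=
  ∀ (k N : ℕ) (θ : Fin k → ℝ) (lab : Fin N → Fin k) (e : Fin k → Fin N), (∀ j, lab (e j) = j) →
    ∀ ν : Measure (Mat N), IsHaarOrthogonal ν →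
    ∀ F : ((Fin N → Bool) → ℝ) → (Fin k → (Fin N → Bool) → ℝ) → ℝ,
      ContinuousOn (fun p : ((Fin N → Bool) → ℝ) × (Fin k → (Fin N → Bool) → ℝ) => F p.1 p.2)
        {p | ∀ σ, 0 < p.1 σ} →
    ∫ U, F (wJ θ lab U) (fun j σ => cd U σ (e j)) ∂ν = ∫ U, ∫ g, F (wJ θ lab U) (fun j σ =>
      (∑ i ∈ univ.filter (fun i => lab i = j), g i * cd U σ i) /
        √(∑ i ∈ univ.filter (fun i => lab i = j), g i ^ 2)) ∂Vale.Agent.P150.gauss (Fin N) ∂ν

end Vale.Agent.P166.Gen
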