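import Vale.Agent.P166.Gen.Defs
import Vale.Agent.P166.Phase.Invariance

/-!
# P166 Gen: given the base, the chosen rows are uniform in their eigenspaces

A reflection inside every eigenspace commutes with the coupling and moves the chosen coordinate
vector to any given unit vector of the eigenspace.
-/

open MeasureTheory ProbabilityTheory Real Finset

noncomputable section

namespace Vale.Agent.P166.Gen

open Phase (Orth app ip mul)

namespace Frame

variable {k N : ℕ}

/-- squared norm on the block of `j` -/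
def bq (lab : Fin N → Fin k) (x : Fin N → ℝ) (j : Fin k) : ℝ :=
  ∑ i ∈ univ.filter (fun i => lab i = j), x i * x i

/-- the reflection orthogonal to `w` inside every block -/
def brefl (lab : Fin N → Fin k) (w : Fin N → ℝ) : Mat N := fun i j =>
  (if i = j then 1 else 0) - (if lab i = lab j then 2 * w i * w j / bq lab w (lab i) else 0)

lemma bq_eq (lab : Fin N → Fin k) (w : Fin N → ℝ) (j : Fin k) :
    bq lab w j = ∑ l, if lab l = j then w l * w l else 0 := by rw [bq, Finset.sum_filter]

lemma orth_brefl (lab : Fin N → Fin k) (w : Fin N → ℝ) : Orth (brefl lab w) := by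
  classical
  rw [Orth, Matrix.mem_orthogonalGroup_iff]
  ext i j
  simp only [Matrix.mul_apply, Matrix.transpose_apply, Matrix.of_apply, brefl, Matrix.one_apply]
  obtain ⟨q, hq⟩ : ∃ q, q = bq lab w (lab i) := ⟨_, rfl⟩
  by_cases hij : lab i = lab j
  · rw [← hij, ← hq]
    have e : ∀ l, ((if i = l then (1:ℝ) else 0) - if lab i = lab l then 2 * w i * w l / q else 0) *
        ((if j = l then (1:ℝ) else 0) - if lab i = lab l then 2 * w j * w l / q else 0) =
        (if i = l then (if j = l then (1:ℝ) else 0) else 0)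
          - (if i = l then 2 * w j * w l / q else 0) - (if j = l then 2 * w i * w l / q else 0)
          + 4 * w i * w j / q / q * (if lab l = lab i then w l * w l else 0) := fun l => by
      by_cases h1 : i = l <;> by_cases h2 : j = l <;> by_cases h3 : lab i = lab l <;>
        simp_all [eq_comm] <;> ring
    simp only [e, Finset.sum_add_distrib, Finset.sum_sub_distrib, Finset.sum_ite_eq,
      Finset.mem_univ, if_true, ← Finset.mul_sum]
    rw [← bq_eq, ← hq, if_congr (eq_comm (a := j) (b := i)) rfl rfl]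
    rcases eq_or_ne q 0 with h | h
    · simp [h]
    · field_simp
      ring
  · have hne : i ≠ j := fun h => hij (by rw [h])
    rw [if_neg hne]
    refine Finset.sum_eq_zero fun l _ => ?_
    by_cases h1 : lab i = lab l
    · rw [if_neg (fun h : j = l => hij (by rw [h1, h])),
        if_neg (fun h : lab j = lab l => hij (h1.trans h.symm))]
      ring
    · rw [if_neg (fun h : i = l => h1 (by rw [h])), if_neg h1]
      ring

lemma brefl_comm (lab : Fin N → Fin k) (w : Fin N → ℝ) (θ : Fin k → ℝ) (x : Fin N → ℝ) :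
    app (brefl lab w) (fun l => θ (lab l) * x l) = fun i => θ (lab i) * app (brefl lab w) x i := by
  funext i
  simp only [app, Finset.mul_sum]
  refine Finset.sum_congr rfl fun l _ => ?_
  by_cases h : lab i = lab l
  · rw [h]; ring
  · simp only [brefl, if_neg h, if_neg (fun e : i = l => h (by rw [e]))]
    ring

lemma form_inv (lab : Fin N → Fin k) (w : Fin N → ℝ) (θ : Fin k → ℝ) (x : Fin N → ℝ) :
    ∑ i, θ (lab i) * app (brefl lab w) x i ^ 2 = ∑ i, θ (lab i) * x i ^ 2 := by
  have h := Phase.ip_app (orth_brefl lab w) x (fun l => θ (lab l) * x l)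
  rw [brefl_comm] at h
  simp only [ip] at h
  calc ∑ i, θ (lab i) * app (brefl lab w) x i ^ 2
      = ∑ i, app (brefl lab w) x i * (θ (lab i) * app (brefl lab w) x i) :=
        Finset.sum_congr rfl fun i _ => by ring
    _ = ∑ i, x i * (θ (lab i) * x i) := h
    _ = _ := Finset.sum_congr rfl fun i _ => by ring

/-- the chosen coordinate vectors move to the given directions -/
lemma exists_rot (lab : Fin N → Fin k) (e : Fin k → Fin N) (he : ∀ j, lab (e j) = j)
    (g : Fin N → ℝ) (hg : ∀ j, bq lab g j ≠ 0) :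
    ∃ O : Mat N, Orth O ∧
      (∀ (θ : Fin k → ℝ) x, ∑ i, θ (lab i) * app O x i ^ 2 = ∑ i, θ (lab i) * x i ^ 2) ∧
      ∀ x j, app O x (e j) =
        (∑ i ∈ univ.filter (fun i => lab i = j), g i * x i) / √(bq lab g j) := by
  classical
  obtain ⟨u, hu⟩ : ∃ u : Fin N → ℝ, u = fun i => g i / √(bq lab g (lab i)) := ⟨_, rfl⟩
  obtain ⟨w, hw⟩ : ∃ w : Fin N → ℝ, w = fun i => (if i = e (lab i) then 1 else 0) - u i := ⟨_, rfl⟩
  refine ⟨brefl lab w, orth_brefl lab w, form_inv lab w, fun x j => ?_⟩
  have hunit : bq lab u j = 1 := by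
    have hp : 0 < bq lab g j :=
      lt_of_le_of_ne (Finset.sum_nonneg fun i _ => mul_self_nonneg _) (hg j).symm
    have : bq lab u j = bq lab g j / (√(bq lab g j) * √(bq lab g j)) := by
      simp only [bq, Finset.sum_div]
      refine Finset.sum_congr rfl fun i hi => ?_
      have hl := (Finset.mem_filter.1 hi).2
      rw [hu]
      simp only [hl]
      exact div_mul_div_comm _ _ _ _
    rw [this, Real.mul_self_sqrt hp.le, div_self hp.ne']
  have hmem : e j ∈ univ.filter (fun i => lab i = j) := by simp [he j]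
  have hwe : w (e j) = 1 - u (e j) := by rw [hw]; simp [he j]
  have hwo : ∀ i, lab i = j → w i = (if i = e j then 1 else 0) - u i := fun i hi => by
    rw [hw]; simp [hi]
  have hq : bq lab w j = 2 * w (e j) := by
    have e1 : bq lab w j = ∑ i ∈ univ.filter (fun i => lab i = j),
        ((if i = e j then 1 - 2 * u i else 0) + u i * u i) := by
      refine Finset.sum_congr rfl fun i hi => ?_
      rw [hwo i (Finset.mem_filter.1 hi).2]
      split_ifs <;> ring
    rw [e1, Finset.sum_add_distrib, Finset.sum_ite_eq', if_pos hmem, hwe]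
    change 1 - 2 * u (e j) + bq lab u j = _
    rw [hunit]; ring
  have hrow : ∀ i, brefl lab w (e j) i = if lab i = j then u i else 0 := by
    intro i
    simp only [brefl, he j]
    by_cases hi : lab i = j
    · rw [if_pos hi.symm, if_pos hi]
      rcases eq_or_ne (bq lab w j) 0 with h0 | h0
      · have h1 := (Finset.sum_eq_zero_iff_of_nonneg fun l _ => mul_self_nonneg (w l)).1 h0 i
          (by simp [hi])
        have h2 := hwo i hi
        rw [mul_self_eq_zero.1 h1] at h2
        rw [h0, div_zero, sub_zero, if_congr (eq_comm (a := e j) (b := i)) rfl rfl]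
        linarith
      · have hne : w (e j) ≠ 0 := fun h => h0 (by rw [hq, h, mul_zero])
        rw [hq, mul_div_cancel_left₀ _ (mul_ne_zero two_ne_zero hne), hwo i hi,
          if_congr (eq_comm (a := e j) (b := i)) rfl rfl]
        ring
    · rw [if_neg hi, if_neg (fun h : e j = i => hi (by rw [← h, he j])),
        if_neg (fun h : j = lab i => hi h.symm)]
      ring
  simp only [app, hrow, ite_mul, zero_mul]
  rw [← Finset.sum_filter, Finset.sum_div]
  refine Finset.sum_congr rfl fun i hi => ?_
  rw [hu]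
  simp only [(Finset.mem_filter.1 hi).2]
  ring

end Frame

open Frame in
/-- given the base, the chosen rows are uniform in their eigenspaces -/
theorem stmt_frame : StmtFrame := by
  intro k N θ lab e he ν hν F hF
  classical
  have := hν.1
  obtain ⟨Φ, hΦ⟩ : ∃ Φ : Mat N × (Fin k → (Fin N → Bool) → ℝ) → ℝ,
      Φ = fun q => F (wJ θ lab q.1) q.2 := ⟨_, rfl⟩
  have hΦc : Continuous Φ := by
    rw [hΦ]
    refine hF.comp_continuous
      (f := fun q : Mat N × (Fin k → (Fin N → Bool) → ℝ) => (wJ θ lab q.1, q.2)) ?_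
      fun q σ => exp_pos _
    unfold wJ cd
    fun_prop
  obtain ⟨row, hrow⟩ : ∃ row : Mat N → Fin k → (Fin N → Bool) → ℝ,
      row = fun U j σ => cd U σ (e j) := ⟨_, rfl⟩
  obtain ⟨mix, hmix⟩ : ∃ mix : (Fin N → ℝ) × Mat N → Fin k → (Fin N → Bool) → ℝ,
      mix = fun q j σ => (∑ i ∈ univ.filter (fun i => lab i = j), q.1 i * cd q.2 σ i) /
        √(∑ i ∈ univ.filter (fun i => lab i = j), q.1 i ^ 2) := ⟨_, rfl⟩
  have hmixm : Measurable mix := by
    rw [hmix]
    refine measurable_pi_lambda _ fun j => measurable_pi_lambda _ fun σ => ?_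
    unfold cd
    fun_prop
  have hrowc : Continuous row := by rw [hrow]; unfold cd; fun_prop
  show ∫ U, F (wJ θ lab U) (fun j σ => cd U σ (e j)) ∂ν = _
  suffices key : ∫ U, Φ (U, row U) ∂ν =
      ∫ U, ∫ g, Φ (U, mix (g, U)) ∂Vale.Agent.P150.gauss (Fin N) ∂ν by
    simpa only [hΦ, hrow, hmix] using key
  obtain ⟨γ, hγ⟩ : ∃ γ : Measure (Fin N → ℝ), γ = Vale.Agent.P150.gauss (Fin N) := ⟨_, rfl⟩
  rw [← hγ]
  have hγ' : γ = Pattern.gauss (Fin N) := hγ
  have : IsProbabilityMeasure γ := hγ' ▸ inferInstance
  -- almost surely every block is hit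
  have hgood : ∀ᵐ g ∂γ, ∀ j, bq lab g j ≠ 0 := by
    refine ae_all_iff.2 fun j => ?_
    rw [hγ']
    refine (Phase.linear_ne_zero_ae (c := Pi.single (e j) 1)
      (by simp [ip, Pi.single_apply])).mono fun g hg => ?_
    have h0 : g (e j) ≠ 0 := by simpa [ip, Pi.single_apply] using hg
    exact ne_of_gt (lt_of_lt_of_le (mul_self_pos.2 h0)
      (Finset.single_le_sum (f := fun i => g i * g i) (fun i _ => mul_self_nonneg _) (by simp [he j])))
  -- one direction per block is one rotation
  have hfix : ∀ g, (∀ j, bq lab g j ≠ 0) → ∫ U, Φ (U, mix (g, U)) ∂ν = ∫ U, Φ (U, row U) ∂ν := by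
    intro g hg
    obtain ⟨O, hO, hform, hOrow⟩ := exists_rot lab e he g hg
    have hcd : ∀ U σ, cd (mul O U) σ = app O (cd U σ) := fun U σ =>
      Phase.app_mul O U (fun x => spin (σ x))
    have e1 : ∀ U, Φ (mul O U, row (mul O U)) = Φ (U, mix (g, U)) := fun U => by
      have hW : wJ θ lab (mul O U) = wJ θ lab U := by
        funext σ
        simp only [wJ, hcd, hform θ (cd U σ)]
      have hR : row (mul O U) = mix (g, U) := by
        rw [hrow, hmix]
        funext j σ
        simp only [hcd, hOrow, bq, sq]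
      rw [hΦ]
      simp only [hW, hR]
    have hm : Measurable (fun U => mul O U) :=
      Phase.measurable_mul.comp (measurable_const.prodMk measurable_id)
    have hΦr : Measurable fun U => Φ (U, row U) := (hΦc.comp (continuous_id.prodMk hrowc)).measurable
    conv_rhs => rw [← hν.2.2 O hO]
    rw [show (fun (U : Mat N) i j => ∑ k, O i k * U k j) = (fun U => mul O U) from rfl,
      integral_map hm.aemeasurable hΦr.aestronglyMeasurable]
    exact integral_congr_ae (Filter.Eventually.of_forall fun U => (e1 U).symm)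
  -- boundedness on the orthogonal group
  obtain ⟨K, hK⟩ : ∃ K : Set (Mat N × (Fin k → (Fin N → Bool) → ℝ)),
      K = ((fun A : Matrix (Fin N) (Fin N) ℝ => fun i j => A i j) ''
        ((Matrix.orthogonalGroup (Fin N) ℝ : Submonoid _) : Set _)) ×ˢ
        Set.Icc (fun _ _ => -((N : ℝ) + 1)) (fun _ _ => (N : ℝ) + 1) := ⟨_, rfl⟩
  have hKc : IsCompact K := hK ▸ ((compact_orthogonal N).image (by fun_prop)).prod isCompact_Icc
  obtain ⟨C, hC⟩ := hKc.exists_bound_of_continuousOn hΦc.continuousOn
  have hmem : ∀ g U, Orth U → (U, mix (g, U)) ∈ K := by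
    intro g U hU
    rw [hK]
    have hb : ∀ j σ, |mix (g, U) j σ| ≤ (N : ℝ) + 1 := by
      intro j σ
      rw [hmix]
      simp only [abs_div, abs_of_nonneg (Real.sqrt_nonneg _)]
      refine div_le_of_le_mul₀ (Real.sqrt_nonneg _) (by positivity) ?_
      refine abs_le_of_sq_le_sq ?_ (by positivity)
      have hS : 0 ≤ ∑ i ∈ univ.filter (fun i => lab i = j), g i ^ 2 :=
        Finset.sum_nonneg fun i _ => sq_nonneg _
      have hn : ∑ i ∈ univ.filter (fun i => lab i = j), cd U σ i ^ 2 ≤ (N : ℝ) :=
        (Finset.sum_le_univ_sum_of_nonneg fun i => sq_nonneg _).trans_eq (sum_field_sq hU σ)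
      rw [mul_pow, Real.sq_sqrt hS]
      refine ((Finset.sum_mul_sq_le_sq_mul_sq _ g (cd U σ)).trans
        (mul_le_mul_of_nonneg_left hn hS)).trans ?_
      rw [mul_comm]
      exact mul_le_mul_of_nonneg_right (by nlinarith [Nat.cast_nonneg (α := ℝ) N]) hS
    exact ⟨⟨Matrix.of U, hU, rfl⟩,
      fun j σ => (abs_le.1 (hb j σ)).1, fun j σ => (abs_le.1 (hb j σ)).2⟩
  have hint : Integrable (Function.uncurry fun U g => Φ (U, mix (g, U))) (ν.prod γ) := by
    refine .of_bound ((hΦc.measurable.comp (measurable_fst.prodMk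
      (hmixm.comp (measurable_snd.prodMk measurable_fst)))).aestronglyMeasurable) C ?_
    filter_upwards [Measure.quasiMeasurePreserving_fst.ae hν.2.1] with q hq using
      hC _ (hmem q.2 q.1 hq)
  rw [integral_integral_swap hint, integral_congr_ae (hgood.mono fun g hg => hfix g hg)]
  simp

end Vale.Agent.P166.Gen
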