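import Vale.Agent.P166.Gen.LowLabel
import Vale.Agent.P166.Functional
import Vale.Agent.P157.Par.Rep
import Vale.Agent.P157.Par.Lip
import Vale.Agent.P168.MP.NestC
import Vale.Agent.P168.MP.Cavity

/-! P166 G4: the perturbed coupling system at fixed frame: bounds, continuity, invariance. -/

open MeasureTheory Finset Real
open Vale.Agent.P157.Par (Prof adev devOf qlev ovK valid_pair)
open Vale.Agent.P168.MP (lin pw spinAt Batch gainCap logZ0 avg Mark gain1)

noncomputable section

namespace Vale.Agent.P166.Gen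

variable {k n S R : ℕ} {ι : Type} {β : ι → Batch} {θ : Fin k → ℝ} {lab : Fin n → Fin k} {h u : ι → ℝ} {L : ℝ}

lemma wJ_pos (θ : Fin k → ℝ) (lab : Fin n → Fin k) (U : Mat n) (σ : Fin n → Bool) : 0 < wJ θ lab U σ :=
  exp_pos _

lemma continuous_cd (σ : Fin n → Bool) (i : Fin n) : Continuous fun U : Mat n => cd U σ i := by
  unfold cd; fun_prop

lemma continuous_wJU (θ : Fin k → ℝ) (lab : Fin n → Fin k) (σ : Fin n → Bool) :
    Continuous fun U : Mat n => wJ θ lab U σ := by
  unfold wJ cd; fun_prop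

lemma sum_cdU_sq {U : Mat n} (hU : Matrix.of U ∈ Matrix.orthogonalGroup (Fin n) ℝ) (σ : Fin n → Bool) :
    ∑ i, cd U σ i ^ 2 = n :=
  sum_field_sq hU σ

lemma cd_sq_le {U : Mat n} (hU : Matrix.of U ∈ Matrix.orthogonalGroup (Fin n) ℝ) (σ : Fin n → Bool)
    (i : Fin n) : cd U σ i ^ 2 ≤ n :=
  sum_cdU_sq hU σ ▸ single_le_sum (fun a _ => sq_nonneg (cd U σ a)) (mem_univ i)

lemma abs_log_wJ (hL : ∀ j, |θ j| ≤ L) {U : Mat n} (hU : Matrix.of U ∈ Matrix.orthogonalGroup (Fin n) ℝ)
    (σ : Fin n → Bool) : |log (wJ θ lab U σ)| ≤ L * n / 2 := by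
  rw [wJ, log_exp, abs_div, abs_two]
  refine div_le_div_of_nonneg_right ((abs_sum_le_sum_abs _ _).trans ?_) zero_le_two
  rw [← sum_cdU_sq hU σ, mul_sum]
  exact sum_le_sum fun i _ => by
    rw [abs_mul, abs_of_nonneg (sq_nonneg (cd U σ i))]
    exact mul_le_mul_of_nonneg_right (hL _) (sq_nonneg _)

/-- a continuous function is integrable against Haar measure -/
lemma integrable_haar {ν : Measure (Mat n)} (hν : IsHaarOrthogonal ν) {f : Mat n → ℝ} (hf : Continuous f) :
    Integrable f ν := by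
  have := hν.1
  obtain ⟨C, hC⟩ := (isCompact_univ_pi fun _ : Fin n => isCompact_univ_pi fun _ : Fin n =>
    isCompact_Icc (a := (-1:ℝ)) (b := 1)).exists_bound_of_continuousOn hf.continuousOn
  refine Integrable.of_bound hf.measurable.aestronglyMeasurable C (hν.2.1.mono fun U hU => hC U ?_)
  exact fun i _ j _ => abs_le.1 (abs_entry_le (A := Matrix.of U) hU i j)

/-- only the counts matter -/
theorem haar_counts {ν : Measure (Mat n)} (hν : IsHaarOrthogonal ν) (θ : Fin k → ℝ) {lab lab' : Fin n → Fin k}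
    (hc : ∀ j, cnt lab j = cnt lab' j) {F : ((Fin n → Bool) → ℝ) → ℝ}
    (hF : Continuous fun U => F (wJ θ lab' U)) :
    ∫ U, F (wJ θ lab U) ∂ν = ∫ U, F (wJ θ lab' U) ∂ν := by
  obtain ⟨e, he⟩ := exists_perm hc
  set O : Mat n := fun i c => if c = e i then 1 else 0
  have hO : Matrix.of O ∈ Matrix.orthogonalGroup (Fin n) ℝ := by
    rw [Matrix.mem_orthogonalGroup_iff]
    ext i j
    simp [Matrix.mul_apply, O, Matrix.one_apply, eq_comm]
  have hm : Measurable fun (U : Mat n) (i j : Fin n) => ∑ c, O i c * U c j := by fun_prop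
  conv_rhs => rw [← hν.2.2 O hO]
  rw [integral_map hm.aemeasurable hF.measurable.aestronglyMeasurable]
  refine integral_congr_ae (Filter.Eventually.of_forall fun U => congrArg F (funext fun σ => ?_))
  simp only [wJ, cd, O, ite_mul, one_mul, zero_mul, sum_ite_eq', mem_univ, if_true, ← he]
  congr 2
  exact (Equiv.sum_comp e fun i => θ (lab i) * (∑ x, U i x * spin (σ x)) ^ 2).symm

/-- moving one row to another atom -/
lemma wJ_update (θ : Fin k → ℝ) (lab : Fin n → Fin k) (e : Fin n) (p : Fin k) (U : Mat n)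
    (σ : Fin n → Bool) :
    wJ θ (Function.update lab e p) U σ =
      wJ θ lab U σ * exp (-((θ (lab e) - θ p) * cd U σ e ^ 2 / 2)) := by
  rw [wJ, wJ, ← exp_add]
  refine congrArg exp ?_
  rw [← add_sum_erase univ _ (mem_univ e), ← add_sum_erase univ (fun i => θ (lab i) * cd U σ i ^ 2) (mem_univ e),
    Function.update_self, sum_congr rfl fun i hi => by rw [Function.update_of_ne (ne_of_mem_erase hi)]]
  ring

lemma pov_abs_le_one {U : Mat n} (hU : Matrix.of U ∈ Matrix.orthogonalGroup (Fin n) ℝ) (lab : Fin n → Fin k)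
    (j : Fin k) (σ τ : Fin n → Bool) : |pov lab U j σ τ| ≤ 1 := by
  rcases Nat.eq_zero_or_pos n with rfl | hn
  · simp [pov]
  have hn' : (0:ℝ) < n := by exact_mod_cast hn
  rw [pov, abs_div, abs_of_pos hn', div_le_one hn']
  refine (abs_sum_le_sum_abs _ _).trans ((sum_le_sum fun i _ => show |cd U σ i * cd U τ i| ≤
    (cd U σ i ^ 2 + cd U τ i ^ 2) / 2 from ?_).trans ?_)
  · rw [abs_mul]; linarith [two_mul_le_add_sq |cd U σ i| |cd U τ i|, sq_abs (cd U σ i), sq_abs (cd U τ i)]
  · refine (sum_le_sum_of_subset_of_nonneg (filter_subset _ _) fun i _ _ => by positivity).trans_eq ?_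
    rw [← sum_div, sum_add_distrib, sum_cdU_sq hU σ, sum_cdU_sq hU τ]
    ring

/-! ### with the perturbation -/

variable [NeZero n] [Fintype ι] [DecidableEq ι]

/-- the log partition function of the perturbed system -/
def pertU (θ : Fin k → ℝ) (lab : Fin n → Fin k) (R S : ℕ) (β : ι → Batch) (h u : ι → ℝ) (U : Mat n) : ℝ :=
  logZ0 R (lin R) (pw (S := S) (β := β) R (wJ θ lab U) h u)

/-- the weight of the perturbation -/
def gainW (R : ℕ) (h u : ι → ℝ) (p : List (Mark n S β)) : ℝ := exp (∑ i : ι × Fin S, gain1 R h u p i)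

omit [DecidableEq ι] in
lemma gainW_pos (p : List (Mark n S β)) : 0 < gainW R h u p := exp_pos _

omit [DecidableEq ι] in
lemma pw_eq_wU (θ : Fin k → ℝ) (lab : Fin n → Fin k) (U : Mat n) :
    pw (S := S) (β := β) R (wJ θ lab U) h u = wU θ lab U (gainW R h u) (spinAt R) :=
  funext fun _ => mul_comm _ _

omit [DecidableEq ι] in
lemma pw_wJ_pos (θ : Fin k → ℝ) (lab : Fin n → Fin k) (U : Mat n) (p : List (Mark n S β)) :
    0 < pw R (wJ θ lab U) h u p :=
  mul_pos (wJ_pos θ lab U _) (exp_pos _)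

omit [DecidableEq ι] in
lemma continuous_pw_wJ (θ : Fin k → ℝ) (lab : Fin n → Fin k) (p : List (Mark n S β)) :
    Continuous fun U => pw R (wJ θ lab U) h u p :=
  (continuous_wJU θ lab _).mul continuous_const

lemma continuous_pertU (θ : Fin k → ℝ) (lab : Fin n → Fin k) :
    Continuous (pertU θ lab R S β h u) :=
  P157.Par.continuous_logZ0 (continuous_pw_wJ θ lab) (pw_wJ_pos θ lab) R

lemma qU_prof (θ : Fin k → ℝ) (lab : Fin n → Fin k) (U : Mat n) :
    Prof R (qU θ lab U R S β h u) 1 ∧ qU θ lab U R S β h u R = 1 :=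
  P157.Par.qlev_prof (pw_wJ_pos θ lab U)

lemma continuous_qU (θ : Fin k → ℝ) (lab : Fin n → Fin k) (l : ℕ) :
    Continuous fun U => qU θ lab U R S β h u l :=
  P157.Par.continuous_ET (continuous_pw_wJ θ lab) (pw_wJ_pos θ lab) R _ fun _ => continuous_const

lemma continuous_adev {C : Mat n → List (Mark n S β) → List (Mark n S β) → ℝ}
    (hC : ∀ p p', Continuous fun U => C U p p') {q : Mat n → ℕ → ℝ} (hq : ∀ l, Continuous fun U => q U l)
    (θ : Fin k → ℝ) (lab : Fin n → Fin k) :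
    Continuous fun U => adev R (pw R (wJ θ lab U) h u) (C U) (q U) := by
  have hd : ∀ l, Continuous fun U => devOf R (pw R (wJ θ lab U) h u) (C U) (q U) l := fun l =>
    P157.Par.continuous_ET (continuous_pw_wJ θ lab) (pw_wJ_pos θ lab) R _ fun ps =>
      ((hC _ _).sub (hq l)).abs
  exact ((continuous_finsetSum _ fun l _ => hd l).div_const _).add (hd R)

omit [NeZero n] in
lemma continuous_pov (lab : Fin n → Fin k) (j : Fin k) (σ τ : Fin n → Bool) :
    Continuous fun U => pov lab U j σ τ := by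
  unfold pov cd; fun_prop

lemma continuous_mad {D : Mat n → List (Mark n S β) → ℝ} (hD : ∀ p, Continuous fun U => D U p)
    (θ : Fin k → ℝ) (lab : Fin n → Fin k) :
    Continuous fun U => Vale.Agent.P168.MP.mad R (lin R) (pw R (wJ θ lab U) h u) (D U) := by
  have hm : Continuous fun U => Vale.Agent.P168.MP.ET R (lin R) (pw R (wJ θ lab U) h u) [(0, 0)]
      fun ps => D U (ps.getD 0 []) :=
    P157.Par.continuous_ET (continuous_pw_wJ θ lab) (pw_wJ_pos θ lab) R _ fun ps => hD _
  exact P157.Par.continuous_ET (continuous_pw_wJ θ lab) (pw_wJ_pos θ lab) R _ fun ps => ((hD _).sub hm).abs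

lemma continuous_madJ (θ : Fin k → ℝ) (lab lab' : Fin n → Fin k) :
    Continuous fun U => madJ R lab' U (pw (S := S) (β := β) R (wJ θ lab U) h u) (spinAt R) :=
  continuous_finsetSum _ fun j _ =>
    continuous_mad (D := fun U p => pov lab' U j (spinAt R p) (spinAt R p))
      (fun _ => continuous_pov lab' j _ _) θ lab

lemma continuous_devU (θ : Fin k → ℝ) (lab : Fin n → Fin k) :
    Continuous fun U => devU θ lab U R S β h u := by
  have h1 : Continuous fun U => adev R (pw (S := S) (β := β) R (wJ θ lab U) h u) (ovK (spinAt R))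
      (qU θ lab U R S β h u) :=
    continuous_adev (C := fun _ => ovK (spinAt R)) (q := fun U => qU θ lab U R S β h u)
      (fun _ _ => continuous_const) (continuous_qU θ lab) θ lab
  exact h1.add (continuous_madJ θ lab lab)

lemma abs_pertU_le (hR : 1 ≤ R) (hL : ∀ j, |θ j| ≤ L) (hh : ∀ i, |h i| ≤ 1) (hu : ∀ i, |u i| ≤ 1) {U : Mat n}
    (hU : Matrix.of U ∈ Matrix.orthogonalGroup (Fin n) ℝ) :
    |pertU θ lab R S β h u U| ≤ gainCap S β + L * n / 2 := by
  have h1 := Vale.Agent.P168.MP.abs_logZ0_pw_sub_le (S := S) (β := β) hR (wJ_pos θ lab U) hh hu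
  have h2 : |log (avg (wJ θ lab U))| ≤ L * n / 2 := by
    refine abs_le.2 ⟨?_, ?_⟩
    · rw [le_log_iff_exp_le (Vale.Agent.P168.MP.avg_pos (wJ_pos θ lab U))]
      refine (Vale.Agent.P168.MP.avg_const _).symm.trans_le (Vale.Agent.P168.MP.avg_le_avg fun σ => ?_)
      exact (exp_le_exp.2 (abs_le.1 (abs_log_wJ hL hU σ)).1).trans_eq (exp_log (wJ_pos θ lab U σ))
    · rw [log_le_iff_le_exp (Vale.Agent.P168.MP.avg_pos (wJ_pos θ lab U))]
      refine (Vale.Agent.P168.MP.avg_le_avg fun σ => ?_).trans_eq (Vale.Agent.P168.MP.avg_const _)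
      exact (exp_log (wJ_pos θ lab U σ)).symm.trans_le (exp_le_exp.2 (abs_le.1 (abs_log_wJ hL hU σ)).2)
  unfold pertU
  linarith [abs_sub_abs_le_abs_sub (logZ0 R (lin R) (pw (S := S) (β := β) R (wJ θ lab U) h u))
    (log (avg (wJ θ lab U)))]

/-- the perturbed system at raised atoms against the pressure -/
lemma pertU_le_pressure (hR : 1 ≤ R) (hh : ∀ i, |h i| ≤ 1) (hu : ∀ i, |u i| ≤ 1) {θ' : Fin k → ℝ} {ub : ℝ}
    (hub : ∀ j, θ' j ≤ θ j + ub) {U : Mat n} (hU : Matrix.of U ∈ Matrix.orthogonalGroup (Fin n) ℝ) :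
    pertU θ' lab R S β h u U ≤ n * pressure 1 (fun i => θ (lab i)) U + gainCap S β + ub * n / 2 := by
  have h1 := (abs_le.1 (Vale.Agent.P168.MP.abs_logZ0_pw_sub_le (S := S) (β := β) hR (wJ_pos θ' lab U) hh hu)).2
  have hp := Vale.Agent.P168.MP.avg_pos (wJ_pos θ lab U)
  have h2 : avg (wJ θ' lab U) ≤ exp (ub * n / 2) * avg (wJ θ lab U) := by
    rw [← Vale.Agent.P168.MP.avg_mul_left]
    refine Vale.Agent.P168.MP.avg_le_avg fun σ => ?_
    simp only [wJ, ← exp_add]
    refine exp_le_exp.2 ?_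
    rw [← sum_cdU_sq hU σ, mul_sum, ← add_div, ← sum_add_distrib]
    refine div_le_div_of_nonneg_right (sum_le_sum fun i _ => ?_) zero_le_two
    rw [← add_mul]
    exact mul_le_mul_of_nonneg_right (by linarith [hub (lab i)]) (sq_nonneg _)
  have h3 : log (avg (wJ θ lab U)) = n * pressure 1 (fun i => θ (lab i)) U := by
    rw [pressure_eq, ← mul_assoc, mul_one_div_cancel (Nat.cast_ne_zero.2 (NeZero.ne n)), one_mul]
    congr 1
    simp only [avg, Fintype.card_fun, Fintype.card_bool, Fintype.card_fin, energy, field, wJ, cd,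
      div_eq_inv_mul, Nat.cast_pow, Nat.cast_ofNat]
    congr 1
    exact sum_congr rfl fun σ _ => by congr 1; ring
  have h4 := log_le_log (Vale.Agent.P168.MP.avg_pos (wJ_pos θ' lab U)) h2
  rw [log_mul (exp_pos _).ne' hp.ne', log_exp, h3] at h4
  unfold pertU
  linarith

/-- the deviation of the projections is bounded -/
lemma povU_le (hR : 1 ≤ R) {w θ₀ : Fin k → ℝ} {U : Mat n}
    (hU : Matrix.of U ∈ Matrix.orthogonalGroup (Fin n) ℝ)
    (hlev : ∀ j, ∀ l ≤ R, |levP w θ₀ j R (qU θ lab U R S β h u) l| ≤ 1) :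
    povU w θ₀ θ lab U R S β h u ≤ 4 * k := by
  refine (sum_le_sum fun j _ => ?_).trans_eq (show ∑ _j : Fin k, (4:ℝ) = 4 * k by
    rw [sum_const, card_univ, Fintype.card_fin, nsmul_eq_mul, mul_comm])
  have hd : ∀ l ≤ R, devOf R (pw (S := S) (β := β) R (wJ θ lab U) h u)
      (fun p p' => pov lab U j (spinAt R p) (spinAt R p')) (levP w θ₀ j R (qU θ lab U R S β h u)) l ≤ 1 + 1 :=
    fun l hl => P157.Par.devOf_le (pw_wJ_pos θ lab U) hl (fun p p' => pov_abs_le_one hU lab j _ _) (hlev j l hl)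
  have hR' : (0:ℝ) < R := by exact_mod_cast hR
  refine (add_le_add (div_le_div_of_nonneg_right (sum_le_sum fun l hl => hd l (mem_range.1 hl).le) hR'.le)
    (hd R le_rfl)).trans_eq ?_
  rw [sum_const, card_range, nsmul_eq_mul]
  field_simp
  ring

end Vale.Agent.P166.Gen
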