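import Vale.Agent.P166.Gen.LowLabel
import Vale.Agent.P157.Par.Taylor

/-! P166 G4: the shares of the new site, and where the new eigenvalues lie. -/

open MeasureTheory ProbabilityTheory Finset Real
open Vale.Agent.P150 (gauss)
open Vale.Agent.P157.Par (c4 c4_nonneg integral_sq_sum)

noncomputable section

namespace Vale.Agent.P166.Gen

variable {k n : ℕ}

lemma ae_ne_zero : ∀ᵐ g ∂gauss (Fin n), ∀ i, g i ≠ 0 := by
  refine ae_all_iff.2 fun i => ?_
  have h0 : ∀ᵐ t ∂gaussianReal 0 1, t ≠ 0 := by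
    rw [ae_iff]; simp only [ne_eq, not_not, Set.ofPred_eq_eq_singleton]
    exact (nullSingletonClass_gaussianReal one_ne_zero).measure_singleton 0
  exact (measurePreserving_eval (fun _ : Fin n => gaussianReal 0 1) i).quasiMeasurePreserving.ae h0

lemma shr_sum_pos {g : Fin n → ℝ} (hg : ∀ i, g i ≠ 0) (hn : 0 < n) : 0 < ∑ i, g i ^ 2 :=
  sum_pos (fun i _ => lt_of_le_of_ne (sq_nonneg _) (pow_ne_zero 2 (hg i)).symm) ⟨⟨0, hn⟩, mem_univ _⟩

lemma shr_pos {lab : Fin n → Fin k} (hl : ∀ j, 0 < cnt lab j) {g : Fin n → ℝ} (hg : ∀ i, g i ≠ 0)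
    (j : Fin k) : 0 < shr lab g j := by
  obtain ⟨i, hi⟩ := exists_site (hl j)
  refine div_pos (sum_pos (fun a _ => lt_of_le_of_ne (sq_nonneg _) (pow_ne_zero 2 (hg a)).symm)
    ⟨i, mem_filter.2 ⟨mem_univ _, hi⟩⟩) (shr_sum_pos hg i.pos)

lemma shr_one (lab : Fin n → Fin k) {g : Fin n → ℝ} (hg : ∀ i, g i ≠ 0) (hn : 0 < n) :
    ∑ j, shr lab g j = 1 := by
  simp only [shr]
  rw [← sum_div, sum_fiberwise univ lab fun i => g i ^ 2, div_self (shr_sum_pos hg hn).ne']

lemma shr_continuousOn (lab : Fin n → Fin k) (hn : 0 < n) (j : Fin k) :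
    ContinuousOn (fun g => shr lab g j) {g | ∀ i, g i ≠ 0} := by
  unfold shr
  exact ContinuousOn.div (by fun_prop) (by fun_prop) fun g hg => (shr_sum_pos hg hn).ne'

lemma measurable_shr (lab : Fin n → Fin k) (j : Fin k) : Measurable fun g => shr lab g j := by
  unfold shr; fun_prop

open Classical in
/-- the indicator of shares away from the frequencies -/
def farS (lab : Fin n → Fin k) (τ : ℝ) (g : Fin n → ℝ) : ℝ :=
  if ∃ j, τ < |shr lab g j - freq lab j| then 1 else 0

lemma farS_nonneg (lab : Fin n → Fin k) (τ : ℝ) (g : Fin n → ℝ) : 0 ≤ farS lab τ g := by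
  unfold farS; split_ifs <;> norm_num

lemma measurable_farS (lab : Fin n → Fin k) (τ : ℝ) : Measurable (farS lab τ) := by
  classical
  unfold farS
  refine Measurable.ite ?_ measurable_const measurable_const
  rw [Set.ofPred_exists]
  exact MeasurableSet.iUnion fun j =>
    measurableSet_lt measurable_const ((measurable_shr lab j).sub measurable_const).abs

lemma integrable_farS (lab : Fin n → Fin k) (τ : ℝ) : Integrable (farS lab τ) (gauss (Fin n)) :=
  Integrable.of_bound (measurable_farS lab τ).aestronglyMeasurable 1 (Filter.Eventually.of_forall fun g => by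
    unfold farS; split_ifs <;> norm_num)

/-- the shares are seldom away from the frequencies -/
lemma farS_tail (lab : Fin n → Fin k) {τ : ℝ} (hτ : 0 < τ) (hn : 0 < n) :
    ∫ g, farS lab τ g ∂gauss (Fin n) ≤ k * (4 * c4 * (1 + 1 / τ ^ 2)) / n := by
  classical
  have hn' : (0:ℝ) < n := by exact_mod_cast hn
  set c : Fin k → Fin n → ℝ := fun j i => (if lab i = j then 1 else 0) - freq lab j
  set S1 : (Fin n → ℝ) → ℝ := fun g => ∑ i, (1:ℝ) * (g i ^ 2 - 1)
  set Y : Fin k → (Fin n → ℝ) → ℝ := fun j g => ∑ i, c j i * (g i ^ 2 - 1)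
  have hb : ∀ g, farS lab τ g ≤ ∑ j, (4 / (n:ℝ) ^ 2 * S1 g ^ 2 + 4 / (τ * n) ^ 2 * Y j g ^ 2) := by
    intro g
    have hnn : ∀ j, 0 ≤ 4 / (n:ℝ) ^ 2 * S1 g ^ 2 + 4 / (τ * n) ^ 2 * Y j g ^ 2 := fun j => by positivity
    unfold farS
    split_ifs with h
    · obtain ⟨j, hj⟩ := h
      refine le_trans ?_ (single_le_sum (fun a _ => hnn a) (mem_univ j))
      set T := ∑ i, g i ^ 2
      have e1 : S1 g = T - n := by simp [S1, T, sum_sub_distrib]
      rcases le_or_gt ((n:ℝ) / 2) T with hT | hT
      · refine le_add_of_nonneg_of_le (by positivity) ?_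
        have hT0 : 0 < T := by linarith
        have hc : ∑ i, c j i = 0 := by
          simp only [c, sum_sub_distrib, sum_const, card_univ, Fintype.card_fin, nsmul_eq_mul, freq_eq_cnt,
            cnt_eq_sum, Nat.cast_sum, Nat.cast_ite, Nat.cast_one, Nat.cast_zero]
          field_simp
          ring
        have eY : Y j g = (shr lab g j - freq lab j) * T := by
          simp only [Y, mul_sub, mul_one]
          rw [sum_sub_distrib, hc, sub_zero]
          simp only [c, sub_mul, ite_mul, one_mul, zero_mul, sum_sub_distrib, ← sum_filter, ← mul_sum]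
          rw [shr, div_mul_cancel₀ _ hT0.ne']
        have h2 : τ * n / 2 ≤ |Y j g| := by
          rw [eY, abs_mul, abs_of_pos hT0, mul_div_assoc]
          exact mul_le_mul hj.le hT (by positivity) (abs_nonneg _)
        rw [div_mul_eq_mul_div, le_div_iff₀ (by positivity), one_mul, ← sq_abs (Y j g)]
        have := pow_le_pow_left₀ (by positivity) h2 2
        linarith
      · refine le_add_of_le_of_nonneg ?_ (by positivity)
        rw [div_mul_eq_mul_div, le_div_iff₀ (by positivity), one_mul, e1]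
        have : ((n:ℝ) / 2) ^ 2 ≤ (n - T) ^ 2 := pow_le_pow_left₀ (by positivity) (by linarith) 2
        linarith
    · exact sum_nonneg fun j _ => hnn j
  have hc2 : ∀ j, ∑ i, c j i ^ 2 ≤ n := fun j => by
    refine (sum_le_sum fun i _ => (sq_le_one_iff_abs_le_one (c j i)).2 ?_).trans_eq
      (show ∑ _i : Fin n, (1:ℝ) = n by simp)
    have h0 := freq_nonneg lab j
    have h1 : freq lab j ≤ 1 := sum_freq lab hn.ne' ▸ single_le_sum (fun a _ => freq_nonneg lab a) (mem_univ j)
    simp only [c, abs_le]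
    split_ifs <;> constructor <;> linarith
  have hS : Integrable (fun g => S1 g ^ 2) (gauss (Fin n)) ∧ ∫ g, S1 g ^ 2 ∂gauss (Fin n) = c4 * n := by
    refine ⟨(integral_sq_sum _).1, (integral_sq_sum _).2.trans ?_⟩
    simp
  have hY : ∀ j, Integrable (fun g => Y j g ^ 2) (gauss (Fin n)) ∧
      ∫ g, Y j g ^ 2 ∂gauss (Fin n) ≤ c4 * n := fun j => ⟨(integral_sq_sum _).1,
    (integral_sq_sum _).2.trans_le (mul_le_mul_of_nonneg_left (hc2 j) c4_nonneg)⟩
  refine (integral_mono (integrable_farS lab τ) (integrable_finsetSum _ fun j _ =>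
    (hS.1.const_mul _).add ((hY j).1.const_mul _)) hb).trans ?_
  rw [integral_finsetSum]
  · refine (sum_le_sum fun j _ => (integral_add (hS.1.const_mul _) ((hY j).1.const_mul _)).trans_le ?_).trans_eq
      (show ∑ _j : Fin k, 4 * c4 * (1 + 1 / τ ^ 2) / n = _ by
        rw [sum_const, card_univ, Fintype.card_fin, nsmul_eq_mul]; ring)
    rw [integral_const_mul, integral_const_mul, hS.2]
    refine (add_le_add le_rfl (mul_le_mul_of_nonneg_left (hY j).2 (by positivity))).trans_eq ?_
    field_simp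
  · exact fun j _ => (hS.1.const_mul _).add ((hY j).1.const_mul _)

/-- the new eigenvalue lies below its atom and above the one before -/
lemma root_mem {r θ : Fin k → ℝ} (hr : ∀ j, 0 < r j) (hθ : StrictMono θ) {j : Fin k} (hj : 0 < (j : ℕ)) :
    θ (prv j) ≤ root r θ j ∧ root r θ j ≤ θ j := by
  have hp : prv j < j := Fin.lt_def.2 (Nat.sub_lt hj Nat.one_pos)
  set γ := θ j - θ (prv j)
  have hγ : 0 < γ := sub_pos.2 (hθ hp)
  set S := ∑ i, r i
  have hS : 0 < S := sum_pos (fun i _ => hr i) ⟨j, mem_univ j⟩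
  set t := min (γ / 2) (r j * γ / (2 * S))
  have ht : 0 < t := lt_min (by positivity) (by have := hr j; positivity)
  set X := {x | (∀ i, i < j → θ i < x) ∧ x < θ j ∧ gat r θ x ≤ 0}
  have hmem : θ j - t ∈ X := by
    have hlow : ∀ i, i < j → γ / 2 ≤ θ j - t - θ i := fun i hi => by
      have h2 : i ≤ prv j := Fin.le_def.2 (Nat.le_sub_one_of_lt hi)
      have := hθ.monotone h2
      have := min_le_left (γ / 2) (r j * γ / (2 * S))
      simp only [γ] at *
      linarith
    refine ⟨fun i hi => by linarith [hlow i hi], by linarith, ?_⟩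
    have hb : ∀ i, r i / (θ j - t - θ i) ≤ 2 * r i / γ + if i = j then -(r j / t) else 0 := fun i => by
      have h0 := hr i
      rcases lt_trichotomy i j with hi | hi | hi
      · rw [if_neg hi.ne, add_zero]
        exact (div_le_div_of_nonneg_left h0.le (by positivity) (hlow i hi)).trans_eq (by field_simp)
      · subst hi
        have : 0 ≤ 2 * r i / γ := by positivity
        rw [if_pos rfl, show θ i - t - θ i = -t by ring, div_neg]
        linarith
      · rw [if_neg hi.ne', add_zero]
        exact (div_nonpos_of_nonneg_of_nonpos h0.le (by linarith [hθ hi])).trans (by positivity)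
    refine (sum_le_sum fun i _ => hb i).trans ?_
    rw [sum_add_distrib, sum_ite_eq', if_pos (mem_univ j), ← sum_div, ← mul_sum, ← sub_eq_add_neg,
      sub_nonpos, le_div_iff₀ ht]
    refine (mul_le_mul_of_nonneg_left (min_le_right (γ / 2) (r j * γ / (2 * S))) (by positivity)).trans_eq ?_
    field_simp
    simp only [S, mul_comm]
  refine ⟨le_csInf ⟨_, hmem⟩ fun x hx => (hx.1 _ hp).le,
    (csInf_le ⟨θ (prv j), fun x hx => (hx.1 _ hp).le⟩ hmem).trans (by linarith)⟩

lemma aA_mem {r θ : Fin k → ℝ} (hr : ∀ j, 0 < r j) (hθ : StrictMono θ) (j : Fin k) :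
    -gap θ j ≤ aA r θ j ∧ aA r θ j ≤ 0 := by
  unfold aA gap
  split_ifs with h
  · obtain ⟨a, b⟩ := root_mem hr hθ h
    constructor <;> linarith
  · exact ⟨by linarith [hθ.monotone (prv_le j)], le_rfl⟩

end Vale.Agent.P166.Gen
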