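import Vale.Agent.P166.Gen.LowRoot
import Vale.Agent.P166.Gen.LowShr
import Vale.Agent.P166.Gen.AlgebraLip

/-!
# P166 G4: the elementary facts on the atoms, the moves and the couplings

`kap w θ t` is `1/(P^2 Q)` with the scaled distance `P = 1 + y (R(y) - t)`. The first moments of the moved
eigenvalues against those of the corner telescope to the derivative of the R-transform, up to the fineness.
-/

open Finset Real

noncomputable section

namespace Vale.Agent.P166.Gen

variable {k : ℕ} {w θ : Fin k → ℝ}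

/-- the scaled distance of `t` from the point above the atoms at which the transform is `y` -/
def pT (w θ : Fin k → ℝ) (t y : ℝ) : ℝ := 1 + y * (Rat w θ y - t)

lemma pT_of_pos (t : ℝ) {y : ℝ} (hy : 0 < y) : pT w θ t y = (zat w θ y - t) * y := by
  rw [pT, Rat, if_pos hy]
  field_simp
  ring

lemma kap_eq (ha : Atoms w θ) (t : ℝ) {y : ℝ} (hy : 0 ≤ y) :
    kap w θ t y = 1 / (pT w θ t y ^ 2 * qA w θ y) := by
  rcases hy.eq_or_lt with rfl | h
  · simp [kap, pT, qA, pA, ha.one]
  · rw [kap, if_pos h, pT_of_pos t h, Atoms.gat2_eq h]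
    ring

lemma dphiA_eq_kap (j : Fin k) (y : ℝ) : dphiA w θ j y = w j * kap w θ (θ j) y := by
  unfold dphiA kap
  split_ifs
  · rw [div_div, mul_one_div]
  · rw [mul_one]

lemma sum_cA {α : Type*} [AddCommMonoid α] (f : Fin k → α) (g : Fin k → α)
    (h0 : ∀ j : Fin k, ¬0 < (j : ℕ) → f j = 0) (h1 : ∀ j : Fin k, 0 < (j : ℕ) → f j = g j) :
    ∑ j, f j = ∑ j ∈ upAtoms k, g j := by
  rw [upAtoms, sum_filter]
  exact sum_congr rfl fun j _ => by split_ifs with h <;> [exact h1 j h; exact h0 j h]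

lemma sum_cA_sq (ha : Atoms w θ) :
    ∑ j, cA w θ j ^ 2 = (∑ l, w l * θ l ^ 2) - (∑ l, w l * θ l) ^ 2 := by
  rw [← sum_cpl_sq ha.mono ha.pos ha.one]
  exact sum_cA _ _ (fun j h => by simp [cA, h]) fun j h => by simp [cA, h]

lemma dRat_eq_kap (ha : Atoms w θ) {y : ℝ} (hy : 0 ≤ y) :
    dRat w θ y = ∑ j, cA w θ j ^ 2 * kap w θ (root w θ j) y := by
  rcases hy.eq_or_lt with rfl | h
  · simp [dRat, kap, sum_cA_sq ha]
  · obtain ⟨hz, he⟩ := ha.zat_spec h
    have hg := (ha.gat_pos hz).2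
    have hd := sum_cpl_div ha.mono ha.pos ha.one hz
    set z := zat w θ y
    rw [he] at hd
    rw [sum_cA _ (fun j => cpl w θ j ^ 2 / (z - root w θ j) ^ 2 / gat2 w θ z) (fun j hj => by simp [cA, hj])
      fun j hj => by rw [cA, if_pos hj, kap, if_pos h, mul_one_div, div_div], ← sum_div, dRat, if_pos h,
      div_sub_div _ _ (pow_ne_zero 2 h.ne') hg.ne', div_eq_div_iff (by positivity) hg.ne']
    linear_combination gat2 w θ z * hd

lemma gap_nonneg (ha : Atoms w θ) (i : Fin k) : 0 ≤ gap θ i := sub_nonneg.2 (ha.mono.monotone (prv_le i))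

lemma tailW_nonneg (ha : Atoms w θ) (i : Fin k) : 0 ≤ tailW w i := sum_nonneg fun j _ => (ha.pos j).le

namespace Fine

variable {L η δ : ℝ} (F : Fine L η δ w θ) (hη : 0 < η)
include F hη

lemma bdd : Bdd w θ L η := ⟨F.atoms, F.bd, hη, F.top⟩

omit hη in
lemma gap_le {i : Fin k} (hi : 0 < (i : ℕ)) : gap θ i ≤ δ :=
  F.fine (prv i) i (show ((i : ℕ) - 1) + 1 = (i : ℕ) by omega)

lemma eta_le_pT {t y : ℝ} (ht : ∀ j, (∀ i, i ≤ j) → t ≤ θ j) (hy : 0 ≤ y) : η ≤ pT w θ t y := by
  obtain ⟨o, ho⟩ := F.atoms.exists_top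
  rcases hy.eq_or_lt with rfl | h
  · simpa [pT] using (F.top o ho).trans F.atoms.top_le_one
  · rw [pT_of_pos t h]
    exact ((F.top o ho).trans (F.atoms.gap_top ho h).1).trans
      (mul_le_mul_of_nonneg_right (by linarith [ht o ho]) h.le)

lemma kap_mem {t y : ℝ} (ht : ∀ j, (∀ i, i ≤ j) → t ≤ θ j) (hy : 0 ≤ y) :
    0 ≤ kap w θ t y ∧ kap w θ t y ≤ 1 / η ^ 2 := by
  have h1 := F.eta_le_pT hη ht hy
  have h2 := (F.bdd hη).le_qA y
  rw [kap_eq F.atoms t hy]
  refine ⟨by positivity, one_div_le_one_div_of_le (by positivity) ?_⟩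
  exact (pow_le_pow_left₀ hη.le h1 2).trans (le_mul_of_one_le_right (sq_nonneg _) h2)

lemma continuousOn_kap {t : ℝ} (ht : ∀ j, (∀ i, i ≤ j) → t ≤ θ j) :
    ContinuousOn (kap w θ t) (Set.Ici 0) :=
  (continuousOn_const.div (((continuousOn_const.add
      (continuousOn_id.mul (F.atoms.continuousOn_Rat.sub continuousOn_const))).pow 2).mul
        F.atoms.continuousOn_qA)
    fun y hy => (mul_pos (pow_pos (hη.trans_le (F.eta_le_pT hη ht hy)) 2) (F.atoms.qA_pos y)).ne').congr
    fun _ hy => kap_eq F.atoms t hy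

/-- Lipschitz in the point -/
lemma kap_lip_arg {t t' y : ℝ} (ht : ∀ j, (∀ i, i ≤ j) → t ≤ θ j) (ht' : ∀ j, (∀ i, i ≤ j) → t' ≤ θ j)
    (hy : y ∈ Set.Icc (0:ℝ) 1) : |kap w θ t y - kap w θ t' y| ≤ 2 / η ^ 3 * |t - t'| := by
  have h2 := (F.bdd hη).le_qA y
  rw [kap_eq F.atoms t hy.1, kap_eq F.atoms t' hy.1, ← div_div, ← div_div, ← sub_div, abs_div,
    abs_of_pos (F.atoms.qA_pos y)]
  refine ((div_le_self (abs_nonneg _) h2).trans (inv_sq_lip hη (F.eta_le_pT hη ht hy.1)
    (F.eta_le_pT hη ht' hy.1))).trans (mul_le_mul_of_nonneg_left ?_ (by positivity))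
  rw [show pT w θ t y - pT w θ t' y = -(y * (t - t')) by simp only [pT]; ring, abs_neg, abs_mul,
    abs_of_nonneg hy.1]
  exact mul_le_of_le_one_left (abs_nonneg _) hy.2

/-- first moments: the moved eigenvalues and the corner give at least `-y R'(y)`, up to the fineness -/
lemma moves {y : ℝ} (hy : y ∈ Set.Icc (0:ℝ) 1) (hδ : 0 ≤ δ) :
    -(y * dRat w θ y) - δ / η ≤
      (∑ i, tailW w i * gap θ i * kap w θ (θ i) y) + ∑ j, aA w θ j * kap w θ (θ j) y := by
  obtain ⟨ha, hy0⟩ := And.intro F.atoms hy.1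
  set o : Fin k := ⟨0, ha.card_pos⟩
  have ho : (o : ℕ) = 0 := rfl
  have hall : ∀ f : Fin k → ℝ, ∑ j, f j = f o + ∑ j ∈ upAtoms k, f j := fun f => by
    rw [← sum_filter_not_add_sum_filter univ (fun j : Fin k => 0 < (j : ℕ)) f]
    congr 1
    rw [show univ.filter (fun j : Fin k => ¬0 < (j : ℕ)) = {o} by
      ext j; simp [Fin.ext_iff, ho], sum_singleton]
  rcases hy0.eq_or_lt with rfl | h
  · have hR := sum_root ha.mono ha.pos ha.one
    have ht : ∑ i, tailW w i * gap θ i = ∑ l, w l * θ l - θ o := by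
      rw [show ∑ l, w l * θ l - θ o = ∑ j, w j * (θ j - θ o) by
        simp only [mul_sub, sum_sub_distrib, ← sum_mul, ha.one, one_mul], tele w θ ho]
      rfl
    have hs : ∑ j, aA w θ j = ∑ j ∈ upAtoms k, (root w θ j - θ j) :=
      sum_cA _ _ (fun j hj => by simp [aA, hj]) fun j hj => by simp [aA, hj]
    simp only [kap, lt_irrefl, if_false, mul_one, zero_mul, neg_zero, zero_sub, ht, hs, sum_sub_distrib, hR]
    linarith [hall θ, div_nonneg hδ hη.le]
  · obtain ⟨hz, he⟩ := ha.zat_spec h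
    set z := zat w θ y
    set G := gat2 w θ z
    have hG : 0 < G := (ha.gat_pos hz).2
    have u0 : ∀ i, 0 < z - θ i := fun i => sub_pos.2 (hz i)
    have hk : ∀ i, kap w θ (θ i) y = 1 / (z - θ i) ^ 2 / G := fun i => by rw [kap, if_pos h, div_div]
    -- the moved eigenvalues
    have hA : y - 1 / (z - θ o) ≤ ∑ i, tailW w i * gap θ i * (1 / (z - θ i) ^ 2) := by
      have e : ∑ j, w j * (1 / (z - θ j) - 1 / (z - θ o)) = y - 1 / (z - θ o) := by
        simp only [mul_sub, sum_sub_distrib, ← sum_mul, ha.one, one_mul]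
        simp only [mul_one_div]
        rw [show ∑ j, w j / (z - θ j) = y from he]
      rw [← e, tele w (fun i => 1 / (z - θ i)) ho]
      refine sum_le_sum fun i _ => ?_
      rw [mul_assoc]
      refine mul_le_mul_of_nonneg_left ?_ (tailW_nonneg ha i)
      have hg := gap_nonneg ha i
      have hp := u0 (prv i)
      have hi := u0 i
      rw [show 1 / (z - θ i) - 1 / (z - θ (prv i)) = gap θ i * (1 / ((z - θ i) * (z - θ (prv i)))) by
        simp only [gap]; field_simp; ring]
      refine mul_le_mul_of_nonneg_left (one_div_le_one_div_of_le (by positivity) ?_) hg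
      rw [sq]
      exact mul_le_mul_of_nonneg_left (by simp only [gap] at hg; linarith) hi.le
    -- the corner
    set D := ∑ j ∈ upAtoms k, (1 / (z - θ j) - 1 / (z - root w θ j))
    have hD : D = G / y - 1 / (z - θ o) := by
      have h2 := sum_inv_sub ha.mono ha.pos ha.one hz
      rw [hall, he] at h2
      simp only [D, sum_sub_distrib, G]
      linarith
    have hB : -((1 + δ * y / η) * D) ≤ ∑ j, aA w θ j * (1 / (z - θ j) ^ 2) := by
      rw [sum_cA _ (fun j => (root w θ j - θ j) * (1 / (z - θ j) ^ 2)) (fun j hj => by simp [aA, hj])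
        fun j hj => by simp [aA, hj], mul_sum, ← sum_neg_distrib]
      refine sum_le_sum fun j hj => ?_
      have hj' := (mem_filter.1 hj).2
      obtain ⟨r1, r2⟩ := root_mem ha.pos ha.mono hj'
      have hu := u0 j
      set u := z - θ j with hu'
      set v := z - root w θ j with hv'
      have huv : u ≤ v := by linarith
      have hv : 0 < v := hu.trans_le huv
      have huy : η ≤ u * y := by
        obtain ⟨t, ht⟩ := ha.exists_top
        exact ((F.top t ht).trans (ha.gap_top ht h).1).trans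
          (mul_le_mul_of_nonneg_right (by linarith [ha.theta_le ht j]) h.le)
      have hvu : v / u ≤ 1 + δ * y / η := by
        have hg := F.gap_le hj'
        simp only [gap] at hg
        calc v / u ≤ (u + δ) / u := div_le_div_of_nonneg_right (by linarith) hu.le
          _ = 1 + δ * y / (u * y) := by field_simp
          _ ≤ _ := by
            gcongr
      rw [show (root w θ j - θ j) * (1 / u ^ 2) = -(v / u * (1 / u - 1 / v)) by
        rw [show root w θ j - θ j = u - v by rw [hu', hv']; ring]; field_simp; ring]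
      exact neg_le_neg (mul_le_mul_of_nonneg_right hvu
        (sub_nonneg.2 (one_div_le_one_div_of_le hu huv)))
    have hD0 : 0 ≤ D := sum_nonneg fun j hj => sub_nonneg.2 (one_div_le_one_div_of_le (u0 j)
      (by linarith [(root_mem ha.pos ha.mono (mem_filter.1 hj).2).2]))
    have h3 : δ * y / η * D ≤ δ / η * G := by
      rw [show δ * y / η * D = δ / η * (y * D) by ring]
      refine mul_le_mul_of_nonneg_left ?_ (by positivity)
      rw [hD, mul_sub, mul_div_cancel₀ _ h.ne']
      exact sub_le_self _ (by have := u0 o; positivity)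
    simp only [hk, ← mul_div_assoc, ← sum_div, ← add_div]
    rw [dRat, if_pos h, le_div_iff₀ hG,
      show (-(y * (1 / y ^ 2 - 1 / G)) - δ / η) * G = y - G / y - δ / η * G by field_simp; ring]
    simp only [mul_one_div, mul_one] at *
    linarith

end Fine

/-- the elementary facts, all bounds uniform in the atoms -/
theorem stmt_kap : StmtKap := by
  intro L η hη
  obtain ⟨C, hC, hc⟩ := coef_lip L η 1
  set P := 2 * L + 4 * L ^ 2 / η ^ 4
  refine ⟨L ^ 2 + 1 / η + 1 / η ^ 2 + 2 / η ^ 3 + 2 / η ^ 3 * |P| + 1 / η ^ 2 * C, by positivity,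
    fun δ hδ _ k w θ F => ?_⟩
  set K := L ^ 2 + 1 / η + 1 / η ^ 2 + 2 / η ^ 3 + 2 / η ^ 3 * |P| + 1 / η ^ 2 * C with hK
  have p1 : 0 ≤ 1 / η := by positivity
  have p2 : 0 ≤ 1 / η ^ 2 := by positivity
  have p3 : 0 ≤ 2 / η ^ 3 := by positivity
  have p4 : 0 ≤ 2 / η ^ 3 * |P| := by positivity
  have p5 : 0 ≤ 1 / η ^ 2 * C := by positivity
  have ha := F.atoms
  refine ⟨fun j => (aA_mem ha.pos ha.mono j).symm, ?_, fun t y _ ht hy => ⟨⟨(F.kap_mem hη ht hy.1).1, ?_⟩, ?_, ?_⟩,
    fun j y => dphiA_eq_kap j y, fun y hy => ⟨dRat_eq_kap ha hy.1, ?_⟩⟩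
  · rw [sum_cA_sq ha]
    have : ∑ l, w l * θ l ^ 2 ≤ L ^ 2 := by
      refine (sum_le_sum fun l _ => mul_le_mul_of_nonneg_left ?_ (ha.pos l).le).trans_eq
        (show ∑ l, w l * L ^ 2 = L ^ 2 by rw [← sum_mul, ha.one, one_mul])
      exact sq_le_sq' (abs_le.1 (F.bd l)).1 (abs_le.1 (F.bd l)).2
    nlinarith [sq_nonneg (∑ l, w l * θ l)]
  · linarith [(F.kap_mem hη ht hy.1).2, sq_nonneg L]
  · intro y' hy'
    have hP : |pT w θ t y - pT w θ t y'| ≤ |P| * |y - y'| := by
      refine le_trans ?_ (mul_le_mul_of_nonneg_right (le_abs_self P) (abs_nonneg _))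
      rw [show pT w θ t y - pT w θ t y' =
        (y - y') * (Rat w θ y - t) + y' * (Rat w θ y - Rat w θ y') by simp only [pT]; ring]
      refine (abs_add_le _ _).trans ?_
      rw [abs_mul, abs_mul, abs_of_nonneg hy'.1]
      have h1 : |Rat w θ y - t| ≤ 2 * L := by
        have := (abs_sub _ _).trans (add_le_add (ha.abs_Rat_le hy.1 F.bd) ‹|t| ≤ L›)
        linarith
      have h2 := mul_le_mul hy'.2 (ha.Rat_lip hy.1 hy'.1 F.bd hη F.top) (abs_nonneg _) zero_le_one
      nlinarith [mul_le_mul_of_nonneg_left h1 (abs_nonneg (y - y'))]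
    rw [kap_eq ha t hy.1, kap_eq ha t hy'.1, ← div_div, ← div_div]
    refine ((quot_lip ((F.bdd hη).le_qA y) ((F.bdd hη).le_qA y')).trans (add_le_add
      ((inv_sq_lip hη (F.eta_le_pT hη ht hy.1) (F.eta_le_pT hη ht hy'.1)).trans
        (mul_le_mul_of_nonneg_left hP p3))
      (mul_le_mul (?_ : |1 / pT w θ t y' ^ 2| ≤ 1 / η ^ 2) (hc (F.bdd hη) y hy y' hy').2 (abs_nonneg _) p2))).trans ?_
    · rw [abs_of_nonneg (by positivity)]
      exact one_div_le_one_div_of_le (by positivity) (pow_le_pow_left₀ hη.le (F.eta_le_pT hη ht hy'.1) 2)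
    · rw [← mul_assoc, ← mul_assoc, ← add_mul]
      exact mul_le_mul_of_nonneg_right (by linarith [sq_nonneg L]) (abs_nonneg _)
  · exact fun t' _ ht' => (F.kap_lip_arg hη ht ht' hy).trans
      (mul_le_mul_of_nonneg_right (by linarith [sq_nonneg L]) (abs_nonneg _))
  · have h := F.moves hη hy hδ.le
    have : δ / η ≤ K * δ := by
      rw [div_eq_mul_one_div, mul_comm]
      exact mul_le_mul_of_nonneg_right (by linarith [sq_nonneg L]) hδ.le
    linarith

end Vale.Agent.P166.Gen
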