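import Vale.Agent.P166.Gen.LowBase

/-!
# P166 G4: the two halves of one telescoping step

`StmtHead`: the gain of the new site over the base without a bottom site. `StmtChain`: the cost of the
moves that turn this base into the bases without a site of another atom. Constants `C` may depend on
the atoms; they only multiply deviations.
-/

open MeasureTheory Finset Real
open Vale.Agent.P168.MP (lin Batch)

noncomputable section

namespace Vale.Agent.P166.Gen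

variable {k N S R : ℕ} {ι : Type}

/-- the value of the corner at the overlaps `q` -/
def headV (w θ : Fin k → ℝ) (R : ℕ) (q : ℕ → ℝ) : ℝ :=
  (∑ j, w j * θ j + ∑ j, aA w θ j * vlev w θ (θ j) R q R) / 2 +
    P157.Par.Phi Real.cosh R (lin R) (fieldH w θ R q)

/-- the first order cost of the moves at the overlaps `q` -/
def chainV (w θ : Fin k → ℝ) (R : ℕ) (q : ℕ → ℝ) : ℝ :=
  (∑ i, tailW w i * gap θ i * vlev w θ (θ i) R q R) / 2

/-- the deviations of one base -/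
def totDev (w θ θ' : Fin k → ℝ) (lab : Fin N → Fin k) [NeZero N] [Fintype ι] [DecidableEq ι] (U : Mat N)
    (R S : ℕ) (β : ι → Batch) (h u : ι → ℝ) : ℝ :=
  povU w θ θ' lab U R S β h u + devU θ' lab U R S β h u

/-- the gain of the new site over the base without a bottom site -/
def StmtHead : Prop :=
  ∀ L η : ℝ, 0 < η → ∃ K : ℝ, 0 ≤ K ∧ ∀ δ : ℝ, 0 < δ → δ ≤ 1 →
    ∀ (k : ℕ) (w θ : Fin k → ℝ), Fine L η δ w θ → ∀ ε : ℝ, 0 < ε → ∃ τ C : ℝ, 0 < τ ∧ 0 ≤ C ∧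
    ∀ {ι : Type} [Fintype ι] [DecidableEq ι] (β : ι → Batch) (R S : ℕ), 2 ≤ R →
    ∀ {h u : ι → ℝ}, (∀ i, |h i| ≤ 1) → (∀ i, |u i| ≤ 1) →
    ∃ N₀ : ℕ, ∀ N, N₀ ≤ N → ∀ [NeZero N] (θ' : Fin k → ℝ) (lab : Fin (N + 1) → Fin k) (lab' : Fin N → Fin k)
      (o : Fin k), StrictMono θ' → (∀ j, |θ' j - θ j| ≤ τ) → (∀ j, |freq lab j - w j| ≤ τ) → (o : ℕ) = 0 →
      (∀ j, cnt lab j = cnt lab' j + if j = o then 1 else 0) →
      ∀ (ν₁ : Measure (Mat (N + 1))) (ν : Measure (Mat N)), IsHaarOrthogonal ν₁ → IsHaarOrthogonal ν →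
      ∫ U, headV w θ R (qU θ' lab' U R S β h u) ∂ν -
          (K * √δ + ε + C * ∫ U, totDev w θ θ' lab' U R S β h u ∂ν) ≤
        ∫ U, pertU θ' lab R S β h u U ∂ν₁ - ∫ U, pertU θ' lab' R S β h u U ∂ν

/-- the cost of the moves, over the bases `labs i` without a site of atom `i` -/
def StmtChain : Prop :=
  ∀ L η : ℝ, 0 < η → ∃ K : ℝ, 0 ≤ K ∧ ∀ δ : ℝ, 0 < δ → δ ≤ 1 / 2 →
    ∀ (k : ℕ) (w θ : Fin k → ℝ), Fine L η δ w θ → ∀ ε : ℝ, 0 < ε → ∃ τ C : ℝ, 0 < τ ∧ 0 ≤ C ∧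
    ∀ {ι : Type} [Fintype ι] [DecidableEq ι] (β : ι → Batch) (R S : ℕ), 2 ≤ R →
    ∀ {h u : ι → ℝ}, (∀ i, |h i| ≤ 1) → (∀ i, |u i| ≤ 1) →
    ∃ N₀ : ℕ, ∀ N, N₀ ≤ N → ∀ [NeZero N] (θ' : Fin k → ℝ) (lab : Fin (N + 1) → Fin k)
      (labs : Fin k → Fin N → Fin k) (o : Fin k), StrictMono θ' → (∀ j, |θ' j - θ j| ≤ τ) →
      (∀ j, |freq lab j - w j| ≤ τ) → (o : ℕ) = 0 →
      (∀ i j, cnt lab j = cnt (labs i) j + if j = i then 1 else 0) →
      ∀ (ν : Measure (Mat N)), IsHaarOrthogonal ν →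
      ∑ i, tailW (fun j => freq lab j) i *
          (∫ U, pertU θ' (labs i) R S β h u U ∂ν - ∫ U, pertU θ' (labs (prv i)) R S β h u U ∂ν) ≤
        -∫ U, chainV w θ R (qU θ' (labs o) U R S β h u) ∂ν + K * √δ + ε +
          C * ∑ i, ∫ U, totDev w θ θ' (labs i) U R S β h u ∂ν

end Vale.Agent.P166.Gen
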