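import Vale.Agent.P166.Gen.AlgebraLip
import Vale.Agent.P166.Gen.LowParts
import Vale.Agent.P166.Gen.LowKap

/-! P166 G4: the functionals of the overlaps are continuous in the frame. -/

open MeasureTheory Finset Real
open Vale.Agent.P157.Par (Prof dist1 dist1_nonneg)
open Vale.Agent.P157.Full (qh qh_prof)
open Vale.Agent.P168.MP (lin Batch)

noncomputable section

namespace Vale.Agent.P166.Gen

variable {k R : ℕ} {w θ : Fin k → ℝ} {L η δ : ℝ} {X : Type*} [TopologicalSpace X] {q : X → ℕ → ℝ}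

/-- a functional Lipschitz in one level and in `dist1` is continuous along a continuous family -/
lemma cont_lev {F : (ℕ → ℝ) → ℝ} {K : ℝ} {l : ℕ}
    (hF : ∀ q q', Prof R q 1 → Prof R q' 1 → |F q - F q'| ≤ K * (|q l - q' l| + dist1 R q q'))
    (hq : ∀ x, Prof R (q x) 1) (hc : ∀ l, Continuous fun x => q x l) : Continuous fun x => F (q x) := by
  refine continuous_iff_continuousAt.2 fun x₀ => tendsto_iff_norm_sub_tendsto_zero.2 ?_
  refine squeeze_zero (fun _ => norm_nonneg _) (fun x => hF _ _ (hq x) (hq x₀)) ?_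
  have h : Continuous fun x => K * (|q x l - q x₀ l| + dist1 R (q x) (q x₀)) := by unfold dist1; fun_prop
  simpa [dist1] using h.tendsto x₀

lemma continuous_levP (hB : Bdd w θ L η) (hR : 1 ≤ R) (j : Fin k) {l : ℕ} (hl : l ≤ R)
    (hq : ∀ x, Prof R (q x) 1) (hc : ∀ l, Continuous fun x => q x l) :
    Continuous fun x => levP w θ j R (q x) l := by
  obtain ⟨K, -, h⟩ := maps_lip L η
  exact cont_lev (F := fun q => levP w θ j R q l) (K := w j * K)
    (fun a b ha hb => ((h hB R a b hR ha hb).2.2 j l hl).trans_eq (mul_assoc _ _ _).symm) hq hc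

lemma levP_vlev (hd : ∀ j y, dphiA w θ j y = w j * kap w θ (θ j) y) (j : Fin k) (q : ℕ → ℝ) (l : ℕ) :
    levP w θ j R q l = w j * vlev w θ (θ j) R q l := by
  simp only [levP, vlev, levF, hd, intervalIntegral.integral_const_mul]

lemma continuous_vlev (hB : Bdd w θ L η) (hd : ∀ j y, dphiA w θ j y = w j * kap w θ (θ j) y) (hR : 1 ≤ R)
    (j : Fin k) {l : ℕ} (hl : l ≤ R) (hq : ∀ x, Prof R (q x) 1) (hc : ∀ l, Continuous fun x => q x l) :
    Continuous fun x => vlev w θ (θ j) R (q x) l := by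
  have h := (continuous_levP hB hR j hl hq hc).div_const (w j)
  simp only [levP_vlev hd, mul_div_cancel_left₀ _ (hB.1.pos j).ne'] at h
  exact h

lemma continuous_chainV (hB : Bdd w θ L η) (hd : ∀ j y, dphiA w θ j y = w j * kap w θ (θ j) y) (hR : 1 ≤ R)
    (hq : ∀ x, Prof R (q x) 1) (hc : ∀ l, Continuous fun x => q x l) :
    Continuous fun x => chainV w θ R (q x) :=
  (continuous_finsetSum _ fun i _ => (continuous_vlev hB hd hR i le_rfl hq hc).const_mul _).div_const _

lemma continuous_headV (hB : Bdd w θ L η) (hd : ∀ j y, dphiA w θ j y = w j * kap w θ (θ j) y) (hR : 1 ≤ R)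
    (hq : ∀ x, Prof R (q x) 1) (hc : ∀ l, Continuous fun x => q x l) :
    Continuous fun x => headV w θ R (q x) := by
  refine ((continuous_const.add (continuous_finsetSum _ fun j _ =>
    (continuous_vlev hB hd hR j le_rfl hq hc).const_mul _)).div_const _).add ?_
  obtain ⟨K, hK, h⟩ := maps_lip L η
  obtain ⟨C, hC, hc'⟩ := Vale.Agent.P157.Par.Phi_lip Vale.Agent.P157.Par.sm_logcosh (4 * L ^ 2 / η ^ 4)
  refine cont_lev (F := fun q => P157.Par.Phi Real.cosh R (lin R) (fieldH w θ R q)) (K := C * K) (l := R)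
    (fun a b ha hb => ?_) hq hc
  have h1 := (hc' R _ _ hR (fieldH_prof hB ha) (fieldH_prof hB hb)).1
  rw [Vale.Agent.P157.Par.cosh_eq_exp] at h1
  refine h1.trans ((mul_le_mul_of_nonneg_left (h hB R a b hR ha hb).1 hC).trans ?_)
  rw [← mul_assoc]
  exact mul_le_mul_of_nonneg_left (le_add_of_nonneg_left (abs_nonneg _)) (mul_nonneg hC hK)

/-- the distance from the generated path is continuous -/
lemma continuous_gap (hB : Bdd w θ L η) (hR : 1 ≤ R)
    (hq : ∀ x, Prof R (q x) 1) (hc : ∀ l, Continuous fun x => q x l) :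
    Continuous fun x => dist1 R (q x) (qh R (fieldH w θ R (q x))) := by
  obtain ⟨K, hK, h⟩ := maps_lip L η
  obtain ⟨C, hC, hc'⟩ := spin_lip (4 * L ^ 2 / η ^ 4)
  refine cont_lev (F := fun q => dist1 R q (qh R (fieldH w θ R q))) (K := 1 + C * K) (l := R)
    (fun a b ha hb => ?_) hq hc
  have h1 := ((hc' R _ _ hR (fieldH_prof hB ha) (fieldH_prof hB hb)).1).trans
    (mul_le_mul_of_nonneg_left (h hB R a b hR ha hb).1 hC)
  set x := qh R (fieldH w θ R a)
  set y := qh R (fieldH w θ R b)
  have tri : ∀ p r s : ℕ → ℝ, dist1 R p s ≤ dist1 R p r + dist1 R r s := fun p r s => by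
    have h1 : (∑ l ∈ range R, |p l - s l|) / (R:ℝ) ≤
        (∑ l ∈ range R, |p l - r l|) / R + (∑ l ∈ range R, |r l - s l|) / R := by
      rw [← add_div, ← sum_add_distrib]
      exact div_le_div_of_nonneg_right (sum_le_sum fun l _ => abs_sub_le _ _ _) (Nat.cast_nonneg _)
    have h2 := abs_sub_le (p R) (r R) (s R)
    unfold dist1
    linarith
  have sym : ∀ p r : ℕ → ℝ, dist1 R p r = dist1 R r p := fun p r => by simp only [dist1, abs_sub_comm]
  have dd := dist1_nonneg R a b
  have hle : |dist1 R a x - dist1 R b y| ≤ dist1 R a b + dist1 R x y := abs_le.2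
    ⟨by linarith [tri b a x, tri b x y, sym a b], by linarith [tri a b y, tri a y x, sym x y]⟩
  have hCK := mul_nonneg (mul_nonneg hC hK) (abs_nonneg (a R - b R))
  have := abs_nonneg (a R - b R)
  linarith

end Vale.Agent.P166.Gen
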