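import Vale.Agent.P166.Gen.LowParts
import Vale.Agent.P166.Gen.Algebra

/-! P166 G4: the corner and the moves together are at least the value of the trial. -/

open MeasureTheory Finset Real
open Vale.Agent.P157.Par (Prof)

noncomputable section

namespace Vale.Agent.P166.Gen

open Par.Multi (xiD xiD_mem continuous_xiD)

/-- the chain of moves and the corner dominate the first order part of the trial -/
theorem value_ge (hK : StmtKap) : ∀ L η : ℝ, 0 < η → ∃ K : ℝ, 0 ≤ K ∧ ∀ δ : ℝ, 0 < δ → δ ≤ 1 →
    ∀ (k : ℕ) (w θ : Fin k → ℝ), Fine L η δ w θ → ∀ (R : ℕ) (q : ℕ → ℝ), Prof R q 1 → q R = 1 →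
      trialV w θ R q - K * δ ≤ headV w θ R q + chainV w θ R q := by
  intro L η hη
  obtain ⟨K, hK0, hKf⟩ := hK L η hη
  refine ⟨K, hK0, fun δ hδ hδ1 k w θ hF R q hq hqR => ?_⟩
  obtain ⟨-, -, hkap, -, hchain⟩ := hKf δ hδ hδ1 k w θ hF
  have hA := hF.atoms
  have hk : ∀ j, ContinuousOn (kap w θ (θ j)) (Set.Icc (0:ℝ) 1) := fun j =>
    (LipschitzOnWith.of_dist_le_mul (K := K.toNNReal) fun y hy y' hy' => by
      rw [Real.coe_toNNReal _ hK0]
      simpa [Real.dist_eq] using (hkap (θ j) y (hF.bd j) (fun t ht => hA.mono.monotone (ht j)) hy).2.1 y' hy').continuousOn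
  have hm : Set.MapsTo (xiD R q) (Set.Icc (0:ℝ) 1) (Set.Icc (0:ℝ) 1) := fun s hs => xiD_mem hq hs.1 hs.2
  have hx : ContinuousOn (xiD R q) (Set.Icc (0:ℝ) 1) := (continuous_xiD R q).continuousOn
  have ik : ∀ j, IntervalIntegrable (fun s => kap w θ (θ j) (xiD R q s)) volume 0 1 := fun j =>
    ((hk j).comp hx hm).intervalIntegrable_of_Icc zero_le_one
  have iR : IntervalIntegrable (fun s => xiD R q s * dRat w θ (xiD R q s)) volume 0 1 :=
    (hx.mul ((hA.continuousOn_dRat.mono Set.Icc_subset_Ici_self).comp hx hm)).intervalIntegrable_of_Icc zero_le_one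
  have hv : ∀ j, vlev w θ (θ j) R q R = ∫ s in (0:ℝ)..1, kap w θ (θ j) (xiD R q s) := fun j => by
    simp only [vlev, levF, hqR]
  have key : ∫ s in (0:ℝ)..1, (-(xiD R q s * dRat w θ (xiD R q s)) - K * δ) ≤
      (∑ i, tailW w i * gap θ i * vlev w θ (θ i) R q R) + ∑ j, aA w θ j * vlev w θ (θ j) R q R := by
    simp only [hv, ← intervalIntegral.integral_const_mul]
    have cs : ∀ c : Fin k → ℝ, IntervalIntegrable (fun s => ∑ j, c j * kap w θ (θ j) (xiD R q s)) volume 0 1 :=
      fun c => (continuousOn_finsetSum _ fun j _ =>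
        continuousOn_const.mul ((hk j).comp hx hm)).intervalIntegrable_of_Icc zero_le_one
    rw [← intervalIntegral.integral_finsetSum fun j _ => (ik j).const_mul _,
      ← intervalIntegral.integral_finsetSum fun j _ => (ik j).const_mul _,
      ← intervalIntegral.integral_add (cs fun j => tailW w j * gap θ j) (cs (aA w θ))]
    · exact intervalIntegral.integral_mono_on zero_le_one (iR.neg.sub intervalIntegrable_const)
        ((cs fun j => tailW w j * gap θ j).add (cs (aA w θ)))
        fun s hs => (hchain _ (hm hs)).2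
  have iN : IntervalIntegrable (fun s => -(xiD R q s * dRat w θ (xiD R q s))) volume 0 1 := iR.neg
  rw [intervalIntegral.integral_sub iN intervalIntegrable_const, intervalIntegral.integral_neg,
    intervalIntegral.integral_const] at key
  simp only [sub_zero, one_smul] at key
  have := mul_nonneg hK0 hδ.le
  simp only [trialV, Tq, headV, chainV]
  linarith

end Vale.Agent.P166.Gen
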