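import Vale.Agent.P166.Gen.LowCont
import Vale.Agent.P166.Gen.LowValue

/-! P166 G4: one telescoping step at labels near the weights. -/

open MeasureTheory Finset Real
open Vale.Agent.P157.Par (Prof dist1)
open Vale.Agent.P157.Full (qh)
open Vale.Agent.P168.MP (lin pw Batch avg)

noncomputable section

namespace Vale.Agent.P166.Gen

variable {k N R S : ℕ} {ι : Type} [Fintype ι] [DecidableEq ι] {β : ι → Batch} {h u : ι → ℝ}

lemma totDev_nonneg [NeZero N] (w θ θ' : Fin k → ℝ) (lab : Fin N → Fin k) (U : Mat N) :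
    0 ≤ totDev w θ θ' lab U R S β h u :=
  add_nonneg (sum_nonneg fun _ _ => P157.Par.adev_nn (pw_wJ_pos θ' lab U))
    (add_nonneg (P157.Par.adev_nn (pw_wJ_pos θ' lab U))
      (sum_nonneg fun _ _ => Vale.Agent.P168.MP.ET_nonneg (pw_wJ_pos θ' lab U) fun _ => abs_nonneg _))

/-- only the counts matter for the perturbed log partition function -/
lemma pertU_counts [NeZero N] {ν : Measure (Mat N)} (hν : IsHaarOrthogonal ν) (θ : Fin k → ℝ)
    {lab lab' : Fin N → Fin k} (hc : ∀ j, cnt lab j = cnt lab' j) :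
    ∫ U, pertU θ lab R S β h u U ∂ν = ∫ U, pertU θ lab' R S β h u U ∂ν :=
  haar_counts hν θ hc (F := fun W => Vale.Agent.P168.MP.logZ0 R (lin R) (pw (S := S) (β := β) R W h u))
    (continuous_pertU θ lab')

omit [Fintype ι] [DecidableEq ι] in
/-- the mean over the removed site -/
lemma avg_drop (lab : Fin (N + 1) → Fin k) (P : Fin k → ℝ) {Q : Fin (N + 1) → ℝ}
    (hQ : ∀ x, Q x = P (lab x)) : avg Q = ∑ j, freq lab j * P j := by
  rw [← sum_freq_mul lab P, avg, Fintype.card_fin, funext hQ]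

/-- **one step**: the value of every path bounds the increment, up to deviations of the bases -/
theorem step_typ (hKap : StmtKap) (hTr : StmtTrial) (hSelf : StmtSelfG) (hHead : StmtHead) (hCh : StmtChain) :
    ∀ L η : ℝ, 0 < η → ∀ ε : ℝ, 0 < ε → ∃ δ : ℝ, 0 < δ ∧
    ∀ (k : ℕ) (w θ : Fin k → ℝ), Fine L η δ w θ →
    ∀ v : ℝ, (∀ (R : ℕ) (h : ℕ → ℝ) (V : ℝ), 1 ≤ R → Prof R h V → v ≤ aForm w θ R h) →
    ∃ τ C : ℝ, 0 < τ ∧ 0 ≤ C ∧
    ∀ {ι : Type} [Fintype ι] [DecidableEq ι] (β : ι → Batch) (R S : ℕ), 2 ≤ R →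
    ∀ {h u : ι → ℝ}, (∀ i, |h i| ≤ 1) → (∀ i, |u i| ≤ 1) →
    ∃ N₀ : ℕ, ∀ N, N₀ ≤ N → ∀ [NeZero N] (θ' : Fin k → ℝ) (lab : Fin (N + 1) → Fin k)
      (labs : Fin k → Fin N → Fin k), StrictMono θ' → (∀ j, |θ' j - θ j| ≤ τ) →
      (∀ j, |freq lab j - w j| ≤ τ) → (∀ i j, cnt lab j = cnt (labs i) j + if j = i then 1 else 0) →
      ∀ (ν₁ : Measure (Mat (N + 1))) (ν : Measure (Mat N)), IsHaarOrthogonal ν₁ → IsHaarOrthogonal ν →
      v - ε - C * ∑ i, ∫ U, totDev w θ θ' (labs i) U R S β h u ∂ν ≤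
        ∫ U, pertU θ' lab R S β h u U ∂ν₁ -
          avg fun x : Fin (N + 1) => ∫ U, pertU θ' (lab ∘ x.succAbove) R S β h u U ∂ν := by
  intro L η hη ε hε
  obtain ⟨KV, hKV, hval⟩ := value_ge hKap L η hη
  obtain ⟨KK, -, hkap⟩ := hKap L η hη
  obtain ⟨KT, hKT, htr⟩ := hTr L η hη
  obtain ⟨δs, hδs, -, hself⟩ := hSelf L η hη (ε / (8 * (KT + 1))) (by positivity)
  obtain ⟨KH, hKH, hhead⟩ := hHead L η hη
  obtain ⟨KC, hKC, hch⟩ := hCh L η hη
  set K := KH + KC + KV + 1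
  have hK : 0 < K := by positivity
  set δ := min (min δs (1 / 2)) ((ε / (8 * K)) ^ 2)
  have hδ : 0 < δ := lt_min (lt_min hδs (by norm_num)) (by positivity)
  have hδh : δ ≤ 1 / 2 := (min_le_left _ _).trans (min_le_right _ _)
  have hδ1 : δ ≤ 1 := hδh.trans (by norm_num)
  have hsq : √δ ≤ ε / (8 * K) := (sqrt_le_sqrt (min_le_right _ _)).trans_eq (sqrt_sq (by positivity))
  have hδsq : δ ≤ √δ := le_sqrt_of_sq_le (by
    rw [sq]; exact mul_le_of_le_one_left hδ.le hδ1)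
  refine ⟨δ, hδ, fun k w θ hF v hv => ?_⟩
  have hFs : Fine L η δs w θ := ⟨hF.atoms, hF.bd, hF.top, fun i j hij =>
    (hF.fine i j hij).trans ((min_le_left _ _).trans (min_le_left _ _))⟩
  have hB := hF.bdd hη
  obtain ⟨-, -, -, hd, -⟩ := hkap δ hδ hδ1 k w θ hF
  obtain ⟨τ₁, C₁, hτ₁, hC₁, hs⟩ := hself k w θ hFs
  obtain ⟨τ₂, C₂, hτ₂, hC₂, hh⟩ := hhead δ hδ hδ1 k w θ hF (ε / 8) (by positivity)
  obtain ⟨τ₃, C₃, hτ₃, hC₃, hc⟩ := hch δ hδ hδh k w θ hF (ε / 8) (by positivity)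
  refine ⟨min τ₁ (min τ₂ τ₃), KT * C₁ + C₂ + C₃, lt_min hτ₁ (lt_min hτ₂ hτ₃), by positivity, ?_⟩
  intro ι _ _ β R S hR h u hh' hu'
  have hR1 : 1 ≤ R := by omega
  obtain ⟨N₁, hN₁⟩ := hs β R S hR hh' hu'
  obtain ⟨N₂, hN₂⟩ := hh β R S hR hh' hu'
  obtain ⟨N₃, hN₃⟩ := hc β R S hR hh' hu'
  refine ⟨max N₁ (max N₂ N₃), fun N hN _ θ' lab labs hmono hθ hfr hcnt ν₁ ν hν₁ hν => ?_⟩
  have hk : 0 < k := hF.atoms.card_pos
  set o : Fin k := ⟨0, hk⟩
  have := hν.1
  have t₁ : min τ₁ (min τ₂ τ₃) ≤ τ₁ := min_le_left _ _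
  have t₂ : min τ₁ (min τ₂ τ₃) ≤ τ₂ := (min_le_right _ _).trans (min_le_left _ _)
  have t₃ : min τ₁ (min τ₂ τ₃) ≤ τ₃ := (min_le_right _ _).trans (min_le_right _ _)
  -- the three modules
  have a1 := hN₁ N (le_of_max_le_left hN) θ' lab (labs o) o hmono (fun j => (hθ j).trans t₁)
    (fun j => (hfr j).trans t₁) rfl (hcnt o) ν hν
  have a2 := hN₂ N ((le_max_left _ _).trans (le_of_max_le_right hN)) θ' lab (labs o) o hmono
    (fun j => (hθ j).trans t₂) (fun j => (hfr j).trans t₂) rfl (hcnt o) ν₁ ν hν₁ hν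
  have a3 := hN₃ N ((le_max_right _ _).trans (le_of_max_le_right hN)) θ' lab labs o hmono
    (fun j => (hθ j).trans t₃) (fun j => (hfr j).trans t₃) rfl hcnt ν hν
  -- the mean over the removed site
  set P : Fin k → ℝ := fun i => ∫ U, pertU θ' (labs i) R S β h u U ∂ν
  have e1 : (avg fun x : Fin (N + 1) => ∫ U, pertU θ' (lab ∘ x.succAbove) R S β h u U ∂ν) =
      P o + ∑ i, tailW (fun j => freq lab j) i * (P i - P (prv i)) := by
    rw [← tele (fun j => freq lab j) P (o := o) rfl, avg_drop lab P fun x => pertU_counts hν θ' fun j => ?_]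
    · simp only [mul_sub, sum_sub_distrib, ← sum_mul, sum_freq lab (Nat.succ_ne_zero N)]
      ring
    · have h1 := cnt_drop lab x j
      have h2 := hcnt (lab x) j
      simp only [eq_comm (a := lab x)] at h1
      omega
  -- the value
  set q : Mat N → ℕ → ℝ := fun U => qU θ' (labs o) U R S β h u
  have hq : ∀ U, Prof R (q U) 1 := fun U => (qU_prof θ' (labs o) U).1
  have hqc : ∀ l, Continuous fun U => q U l := continuous_qU θ' (labs o)
  have iH : Integrable (fun U => headV w θ R (q U)) ν := integrable_haar hν (continuous_headV hB hd hR1 hq hqc)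
  have iC : Integrable (fun U => chainV w θ R (q U)) ν := integrable_haar hν (continuous_chainV hB hd hR1 hq hqc)
  have iD : Integrable (fun U => dist1 R (q U) (qh R (fieldH w θ R (q U)))) ν :=
    integrable_haar hν (continuous_gap hB hR1 hq hqc)
  set D := ∫ U, dist1 R (q U) (qh R (fieldH w θ R (q U))) ∂ν
  have hmain : v - KT * D - KV * δ ≤ ∫ U, headV w θ R (q U) ∂ν + ∫ U, chainV w θ R (q U) ∂ν := by
    rw [← integral_add iH iC]
    have iL : Integrable (fun U => v - KT * dist1 R (q U) (qh R (fieldH w θ R (q U))) - KV * δ) ν :=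
      ((integrable_const v).sub (iD.const_mul KT)).sub (integrable_const _)
    refine le_trans (le_of_eq ?_) (integral_mono iL (iH.add iC) fun U => ?_)
    · have iL' : Integrable (fun U => v - KT * dist1 R (q U) (qh R (fieldH w θ R (q U)))) ν :=
        (integrable_const v).sub (iD.const_mul KT)
      rw [integral_sub iL' (integrable_const _), integral_sub (integrable_const v) (iD.const_mul KT),
        integral_const_mul]
      simp [D]
    · obtain ⟨hP, hge, -⟩ := htr δ hδ hδ1 k w θ hF R (q U) hR1 (hq U) (qU_prof θ' (labs o) U).2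
      have := hval δ hδ hδ1 k w θ hF R (q U) (hq U) (qU_prof θ' (labs o) U).2
      have := hv R _ _ hR1 hP
      linarith
  -- the deviations
  set T : Fin k → ℝ := fun i => ∫ U, totDev w θ θ' (labs i) U R S β h u ∂ν
  have hT : ∀ i, 0 ≤ T i := fun i => integral_nonneg fun U => totDev_nonneg w θ θ' (labs i) U
  have hTo : T o ≤ ∑ i, T i := single_le_sum (fun i _ => hT i) (mem_univ o)
  have a1' : D ≤ ε / (8 * (KT + 1)) + C₁ * T o := a1
  have b1 : KT * D ≤ ε / 8 + KT * C₁ * ∑ i, T i := by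
    refine (mul_le_mul_of_nonneg_left a1' hKT).trans ?_
    rw [mul_add, ← mul_assoc]
    refine add_le_add ?_ (mul_le_mul_of_nonneg_left hTo (mul_nonneg hKT hC₁))
    rw [← mul_div_assoc, div_le_iff₀ (by positivity), show ε / 8 * (8 * (KT + 1)) = ε * (KT + 1) by ring]
    linarith
  have b2 : C₂ * T o ≤ C₂ * ∑ i, T i := mul_le_mul_of_nonneg_left hTo hC₂
  have b3 : (KH + KC) * √δ + KV * δ ≤ ε / 8 := by
    refine (add_le_add le_rfl (mul_le_mul_of_nonneg_left hδsq hKV)).trans ?_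
    rw [← add_mul]
    refine (mul_le_mul (show KH + KC + KV ≤ K by simp [K]) hsq (sqrt_nonneg _) hK.le).trans_eq ?_
    field_simp
  rw [e1]
  simp only [q, T, P] at *
  linarith

end Vale.Agent.P166.Gen
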