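import Vale.Agent.P166.Gen.LowMoves
import Vale.Agent.P166.Gen.LowCont
import Vale.Agent.P166.Gen.LowStepSum

/-!
# P166 G4: the cost of the moves along the chain of atoms

The base without a site of atom `i` is, in law, the base without a site of the atom before with one row
moved down by one gap. The first order costs of the moves are transported to the bottom base along the
chain by the shifts of the overlaps.
-/

open MeasureTheory Finset Real
open Vale.Agent.P157.Par (Prof adev devOf dist1 dist1_nonneg qlev)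
open Vale.Agent.P168.MP (lin pw spinAt Batch)

noncomputable section

namespace Vale.Agent.P166.Gen

variable {k : ℕ}

lemma tailW_mem {f : Fin k → ℝ} (h0 : ∀ j, 0 ≤ f j) (h1 : ∑ j, f j = 1) (i : Fin k) :
    0 ≤ tailW f i ∧ tailW f i ≤ 1 :=
  ⟨sum_nonneg fun j _ => h0 j,
    h1 ▸ sum_le_sum_of_subset_of_nonneg (filter_subset _ _) fun j _ _ => h0 j⟩

lemma tailW_near {f g : Fin k → ℝ} {e : ℝ} (h : ∀ j, |f j - g j| ≤ e) (i : Fin k) :
    |tailW f i - tailW g i| ≤ k * e := by
  unfold tailW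
  rw [← sum_sub_distrib]
  refine (abs_sum_le_sum_abs _ _).trans ?_
  refine (sum_le_sum_of_subset_of_nonneg (filter_subset _ _) fun j _ _ => abs_nonneg _).trans ?_
  exact (sum_le_sum fun j _ => h j).trans_eq (by simp)

/-- a difference along the chain is at most the sum of the steps -/
lemma abs_chain_le (P : Fin k → ℝ) {o : Fin k} (ho : (o : ℕ) = 0) (p : Fin k) :
    |P p - P o| ≤ ∑ i, |P i - P (prv i)| := by
  have h := tele (fun j => if j = p then (1:ℝ) else 0) P ho
  simp only [ite_mul, one_mul, zero_mul, sum_ite_eq', mem_univ, if_true] at h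
  rw [h]
  refine (abs_sum_le_sum_abs _ _).trans (sum_le_sum fun i _ => ?_)
  have ht := tailW_mem (f := fun j => if j = p then (1:ℝ) else 0)
    (fun j => by split_ifs <;> norm_num) (by simp) i
  rw [abs_mul, abs_of_nonneg ht.1]
  exact mul_le_of_le_one_left (abs_nonneg _) ht.2

/-- the gaps add up to the range of the atoms -/
lemma sum_steps (P : Fin k → ℝ) {o t : Fin k} (ho : (o : ℕ) = 0) (ht : ∀ i, i ≤ t) :
    ∑ i, (P i - P (prv i)) = P t - P o := by
  have h := tele (fun j => if j = t then (1:ℝ) else 0) P ho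
  simp only [ite_mul, one_mul, zero_mul, sum_ite_eq', mem_univ, if_true] at h
  rw [h]
  refine sum_congr rfl fun i _ => ?_
  rw [tailW, sum_ite_eq', if_pos (mem_filter.2 ⟨mem_univ _, ht i⟩), one_mul]

/-- the deviation of a rescaled kernel -/
lemma adev_scale {Ω : Type} [Fintype Ω] [Nonempty Ω] {R : ℕ} {W : List Ω → ℝ} (hW : ∀ p, 0 < W p)
    (hR : 1 ≤ R) {C D : List Ω → List Ω → ℝ} {u v : ℕ → ℝ} {a b : ℝ}
    (h : ∀ l ≤ R, ∀ p p', |C p p' - u l| ≤ a * |D p p' - v l| + b) :
    adev R W C u ≤ a * adev R W D v + 2 * b := by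
  have hd : ∀ l ≤ R, devOf R W C u l ≤ a * devOf R W D v l + b := fun l hl => by
    refine (Vale.Agent.P168.MP.ET_mono hW fun ps => h l hl _ _).trans_eq ?_
    rw [Vale.Agent.P168.MP.ET_add, Vale.Agent.P168.MP.ET_const_mul, Vale.Agent.P168.MP.ET_const hW, devOf]
  have hR' : (0:ℝ) < R := Nat.cast_pos.2 hR
  have h1 : (∑ l ∈ range R, devOf R W C u l) / R ≤ a * ((∑ l ∈ range R, devOf R W D v l) / R) + b := by
    rw [div_le_iff₀ hR', add_mul, mul_assoc, div_mul_cancel₀ _ hR'.ne', mul_sum]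
    refine (sum_le_sum fun l hl => hd l (mem_range.1 hl).le).trans_eq ?_
    rw [sum_add_distrib, sum_const, card_range, nsmul_eq_mul, mul_comm b]
  have h2 := hd R le_rfl
  simp only [adev]
  linarith

/-- the cost of one move, integrated -/
lemma int_value_le {N : ℕ} {ν : Measure (Mat N)} (hν : IsHaarOrthogonal ν) {v d T : Mat N → ℝ}
    (cv : Continuous v) (cd : Continuous d) (cT : Continuous T) {s K₀ Kk Kb A a : ℝ} (hK₀ : 0 ≤ K₀)
    (hKb : 0 ≤ Kb) (hv : ∀ U, |v U| ≤ Kk) (hd : ∀ U, d U ≤ A * T U + a) :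
    ∫ U, (-(s * v U / 2) + K₀ * s ^ 2 * v U ^ 2 + Kb * d U) ∂ν ≤
      -(s * (∫ U, v U ∂ν) / 2) + K₀ * Kk ^ 2 * s ^ 2 + Kb * (A * (∫ U, T U ∂ν) + a) := by
  have := hν.1
  have i1 : Integrable (fun U => -(s * v U / 2)) ν :=
    ((integrable_haar hν cv).const_mul s |>.div_const 2).neg
  have i2 : Integrable (fun U => Kb * (A * T U) + (K₀ * Kk ^ 2 * s ^ 2 + Kb * a)) ν :=
    (((integrable_haar hν cT).const_mul A).const_mul Kb).add (integrable_const _)
  have hb : ∀ U, -(s * v U / 2) + K₀ * s ^ 2 * v U ^ 2 + Kb * d U ≤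
      -(s * v U / 2) + (Kb * (A * T U) + (K₀ * Kk ^ 2 * s ^ 2 + Kb * a)) := fun U => by
    have h1 := mul_le_mul_of_nonneg_left (sq_le_sq' (abs_le.1 (hv U)).1 (abs_le.1 (hv U)).2)
      (mul_nonneg hK₀ (sq_nonneg s))
    have h2 := mul_le_mul_of_nonneg_left (hd U) hKb
    linarith
  refine (integral_mono (integrable_haar hν (by fun_prop)) (i1.add i2) hb).trans_eq ?_
  rw [integral_add' i1 i2, integral_add (((integrable_haar hν cT).const_mul A).const_mul Kb)
    (integrable_const _), integral_neg, integral_div, integral_const_mul, integral_const_mul,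
    integral_const_mul, integral_const, probReal_univ, one_smul]
  ring

/-- the shift by one move, integrated -/
lemma int_shift_le {N : ℕ} {ν : Measure (Mat N)} (hν : IsHaarOrthogonal ν) {v d e T : Mat N → ℝ}
    (cv : Continuous v) (cd : Continuous d) (ce : Continuous e) (cT : Continuous T) {s K₀ Kk Kb A a : ℝ}
    (hK₀ : 0 ≤ K₀) (hKb : 0 ≤ Kb) (hv : ∀ U, |v U| ≤ Kk) (hd : ∀ U, d U ≤ A * T U + a)
    (he : ∀ U, e U ≤ T U) :
    ∫ U, (2 * (K₀ * s ^ 2 * v U ^ 2) + Kb * (2 * d U + e U)) ∂ν ≤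
      2 * (K₀ * Kk ^ 2 * s ^ 2) + Kb * ((2 * A + 1) * (∫ U, T U ∂ν) + 2 * a) := by
  have := hν.1
  have hb : ∀ U, 2 * (K₀ * s ^ 2 * v U ^ 2) + Kb * (2 * d U + e U) ≤
      Kb * ((2 * A + 1) * T U) + (2 * (K₀ * Kk ^ 2 * s ^ 2) + Kb * (2 * a)) := fun U => by
    have h1 := mul_le_mul_of_nonneg_left (sq_le_sq' (abs_le.1 (hv U)).1 (abs_le.1 (hv U)).2)
      (mul_nonneg hK₀ (sq_nonneg s))
    have h2 := mul_le_mul_of_nonneg_left (hd U) hKb
    have h3 := mul_le_mul_of_nonneg_left (he U) hKb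
    linarith
  have i2 : Integrable (fun U => Kb * ((2 * A + 1) * T U)) ν :=
    ((integrable_haar hν cT).const_mul _).const_mul Kb
  refine (integral_mono (integrable_haar hν (by fun_prop)) (i2.add (integrable_const _)) hb).trans_eq ?_
  rw [integral_add' i2 (integrable_const _), integral_const_mul, integral_const_mul, integral_const,
    probReal_univ, one_smul]
  ring

/-- the deviations of a base are continuous in the frame -/
lemma continuous_totDev {N R S : ℕ} [NeZero N] {ι : Type} [Fintype ι] [DecidableEq ι] {β : ι → Batch}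
    {h u : ι → ℝ} {w θ : Fin k → ℝ} {L η : ℝ} (hB : Bdd w θ L η) (hR : 1 ≤ R) (θ' : Fin k → ℝ)
    (lab : Fin N → Fin k) : Continuous fun U => totDev w θ θ' lab U R S β h u := by
  refine Continuous.add (continuous_finsetSum _ fun j _ => ?_) (continuous_devU θ' _)
  have hc' : ∀ l, Continuous fun U => levP w θ j R (qU θ' lab U R S β h u) (min l R) := fun l =>
    continuous_levP hB hR j (min_le_right l R) (fun U => (qU_prof θ' lab U).1) (continuous_qU θ' lab)
  have h' := continuous_adev (R := R) (h := h) (u := u)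
    (C := fun U (p p' : List (Vale.Agent.P168.MP.Mark N S β)) => pov lab U j (spinAt R p) (spinAt R p'))
    (fun p p' => continuous_pov lab j _ _) hc' θ' lab
  refine h'.congr fun U => ?_
  simp only [adev, devOf, min_self]
  refine congrArg₂ (· + ·) (congrArg (· / (R:ℝ)) (sum_congr rfl fun l hl => ?_)) rfl
  rw [min_eq_left (mem_range.1 hl).le]

/-- the deviation of the covariance of a row from the level of its squared coordinate -/
lemma cvR_dev {N R S : ℕ} [NeZero N] {ι : Type} [Fintype ι] [DecidableEq ι] {β : ι → Batch}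
    {h u : ι → ℝ} {w θ : Fin k → ℝ} (hd : ∀ j y, dphiA w θ j y = w j * kap w θ (θ j) y) (hR : 1 ≤ R)
    (θ' : Fin k → ℝ) (lab : Fin N → Fin k) (i : Fin k) {A e : ℝ} (hA : 0 ≤ A) (hf : 1 ≤ A * freq lab i)
    (he : |freq lab i - w i| ≤ e) (U : Mat N)
    (hv : ∀ l ≤ R, |vlev w θ (θ i) R (qU θ' lab U R S β h u) l| ≤ A) :
    adev R (pw (S := S) (β := β) R (wJ θ' lab U) h u) (cvR lab U (spinAt R) i)
        (fun l => vlev w θ (θ i) R (qU θ' lab U R S β h u) (min l R)) ≤
      A * totDev w θ θ' lab U R S β h u + 2 * (A * (A * e)) := by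
  set W := pw (S := S) (β := β) R (wJ θ' lab U) h u
  have hW : ∀ p, 0 < W p := pw_wJ_pos θ' lab U
  set q := qU θ' lab U R S β h u
  set f := freq lab i
  have hfpos : 0 < f := by
    by_contra h0
    linarith [mul_nonpos_of_nonneg_of_nonpos hA (not_lt.1 h0)]
  refine (adev_scale hW hR (D := fun p p' => pov lab U i (spinAt R p) (spinAt R p'))
    (v := levP w θ i R q) (a := A) (b := A * (A * e)) fun l hl p p' => ?_).trans ?_
  · set P := pov lab U i (spinAt R p) (spinAt R p')
    have hvv := hv l hl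
    simp only [min_eq_left hl, levP_vlev hd, cvR]
    generalize vlev w θ (θ i) R q l = vv at hvv ⊢
    show |P / f - vv| ≤ _
    rw [show P / f - vv = (1 / f) * ((P - w i * vv) + (w i - f) * vv) by field_simp; ring, abs_mul,
      abs_of_pos (one_div_pos.2 hfpos), ← mul_add]
    refine mul_le_mul ?_ ((abs_add_le _ _).trans (add_le_add le_rfl ?_)) (abs_nonneg _) hA
    · rw [div_le_iff₀ hfpos]; exact hf
    · rw [abs_mul, abs_sub_comm, mul_comm A]
      exact mul_le_mul he hvv (abs_nonneg _) ((abs_nonneg _).trans he)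
  · refine add_le_add (mul_le_mul_of_nonneg_left ?_ hA) le_rfl
    refine le_trans (single_le_sum (f := fun j => adev R W (fun p p' =>
      pov lab U j (spinAt R p) (spinAt R p')) (levP w θ j R q))
      (fun j _ => P157.Par.adev_nn hW) (mem_univ i)) (le_add_of_nonneg_right ?_)
    exact add_nonneg (P157.Par.adev_nn hW)
      (sum_nonneg fun _ _ => Vale.Agent.P168.MP.ET_nonneg hW fun _ => abs_nonneg _)

/-- summing the steps, with the first order terms transported to the bottom -/
lemma chain_sum {t tw s g dP Vp Vo : Fin k → ℝ} {Kk e r D L1 Q : ℝ} (ht : ∀ i, 0 ≤ t i ∧ t i ≤ 1)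
    (hs : ∀ i, 0 ≤ s i) (hD : 0 ≤ D) (hr : 0 ≤ r) {a : Fin k → ℝ} (ha : ∀ i, 0 ≤ a i)
    (hdP : ∀ i, dP i ≤ -(s i * Vp i / 2) + a i + r) (hV : ∀ i, |Vp i - Vo i| ≤ D) (hVo : ∀ i, |Vo i| ≤ Kk)
    (he : ∀ i, |t i * s i - tw i * g i| ≤ e) (he0 : 0 ≤ e) (hKk : 0 ≤ Kk) (hsum : ∑ i, s i ≤ 2 * L1)
    (hQ : ∑ i, a i ≤ Q) :
    ∑ i, t i * dP i ≤ -(∑ i, tw i * g i * Vo i / 2) + Q + k * r + L1 * D + k * (Kk * e) := by
  have step : ∀ i, t i * dP i ≤ -(tw i * g i * Vo i / 2) + a i + r + s i * D / 2 + Kk * e := fun i => by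
    have h1 := mul_le_mul_of_nonneg_left (hdP i) (ht i).1
    have h2 := mul_le_of_le_one_left (ha i) (ht i).2
    have h2' := mul_le_of_le_one_left hr (ht i).2
    have h3 : t i * s i * (Vo i - D) ≤ t i * s i * Vp i :=
      mul_le_mul_of_nonneg_left (by linarith [(abs_le.1 (hV i)).1]) (mul_nonneg (ht i).1 (hs i))
    have h4 := mul_le_mul_of_nonneg_right (mul_le_of_le_one_left (hs i) (ht i).2) hD
    have h5 := mul_le_mul (he i) (hVo i) (abs_nonneg _) he0
    rw [← abs_mul] at h5
    have h6 := mul_nonneg hKk he0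
    linarith [(abs_le.1 h5).1]
  refine (sum_le_sum fun i _ => step i).trans ?_
  simp only [sum_add_distrib, sum_neg_distrib, ← sum_div, ← sum_mul, sum_const, card_univ,
    Fintype.card_fin, nsmul_eq_mul]
  linarith [mul_le_mul_of_nonneg_right hsum hD]

/-- **the cost of the moves** -/
theorem chain_bound (hKap : StmtKap) (hFr : StmtFrame) (hSt : StmtStep) : StmtChain := by
  intro L η hη
  obtain ⟨K₀, hK₀, hmv⟩ := move_bound hFr hSt
  obtain ⟨Kk, hKk, hkap⟩ := hKap L η hη
  obtain ⟨Kl, hKl, hlip⟩ := maps_lip L η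
  set L1 := |L| + 1
  have hL1 : 0 ≤ L1 := by positivity
  set Q := K₀ * Kk ^ 2 * 3 * (2 * L1)
  have hQ : 0 ≤ Q := by positivity
  refine ⟨Q * (1 + 2 * Kl * L1), by positivity, fun δ hδ hδ2 k w θ hF ε hε => ?_⟩
  have hδ1 : δ ≤ 1 := by linarith
  obtain ⟨-, -, hkb, hd, -⟩ := hkap δ hδ hδ1 k w θ hF
  have hB := hF.bdd hη
  set A0 := ∑ j, 2 / w j
  have hA0 : 0 ≤ A0 := sum_nonneg fun j _ => (div_pos two_pos (hF.atoms.pos j)).le
  set A := Kk + A0 + 1
  have hA : 0 ≤ A := by positivity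
  have hKA : Kk ≤ A := by simp only [A]; linarith
  obtain ⟨Kb, hKb, hm⟩ := hmv k A
  set C1 := 4 * A ^ 2 + 1
  set c := (k:ℝ) * Kb * C1 + L1 * Kl * k * Kb * (2 * C1) + k * Kk * (k + 2)
  have hc : 0 ≤ c := by positivity
  set τ := min (min (1 / 4) δ) (min (ε / (c + 1)) (1 / (2 * A0 + 1)))
  have hτ : 0 < τ := lt_min (lt_min (by norm_num) hδ) (lt_min (by positivity) (by positivity))
  have hτ4 : τ ≤ 1 / 4 := (min_le_left _ _).trans (min_le_left _ _)
  have hτδ : τ ≤ δ := (min_le_left _ _).trans (min_le_right _ _)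
  have hτε : c * τ ≤ ε := by
    have h := (le_div_iff₀ (by positivity)).1
      ((min_le_right _ _).trans (min_le_left _ _) : τ ≤ ε / (c + 1))
    rw [mul_add, mul_one] at h
    linarith
  have hτw : ∀ j, 4 * τ ≤ w j := fun j => by
    have h := (le_div_iff₀ (by positivity)).1
      ((min_le_right _ _).trans (min_le_right _ _) : τ ≤ 1 / (2 * A0 + 1))
    have h2 : 2 / w j ≤ A0 :=
      single_le_sum (fun i _ => (div_pos two_pos (hF.atoms.pos i)).le) (mem_univ j)
    rw [div_le_iff₀ (hF.atoms.pos j)] at h2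
    have e1 := mul_le_mul_of_nonneg_left h2 hτ.le
    have e2 := mul_le_mul_of_nonneg_right h (hF.atoms.pos j).le
    have e3 := mul_pos hτ (hF.atoms.pos j)
    linarith only [e1, e2, e3]
  clear_value τ
  refine ⟨τ, (k:ℝ) * Kb * A + L1 * Kl * k * Kb * (2 * A + 1), hτ, by positivity, ?_⟩
  intro ι _ _ β R S hR h u hh hu
  have hR1 : 1 ≤ R := by omega
  refine ⟨⌈1 / τ ^ 2⌉₊ + 1, fun N hN _ θ' lab labs o hmono hθ hfr ho hcnt ν hν => ?_⟩
  have := hν.1
  have hN0 : (0:ℝ) < N := Nat.cast_pos.2 (NeZero.pos N)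
  have hNτ : 1 / τ ^ 2 ≤ (N:ℝ) :=
    (Nat.le_ceil _).trans (by exact_mod_cast (Nat.le_succ _).trans hN)
  have hsN : 1 / √(N:ℝ) ≤ τ := by
    rw [div_le_iff₀ (sqrt_pos.2 hN0)]
    refine le_trans ?_ (mul_le_mul_of_nonneg_left (sqrt_le_sqrt hNτ) hτ.le)
    rw [sqrt_div zero_le_one, sqrt_one, sqrt_sq hτ.le, mul_one_div, div_self hτ.ne']
  have h1N : 1 / (N:ℝ) ≤ τ := by
    refine le_trans ?_ hsN
    refine one_div_le_one_div_of_le (sqrt_pos.2 hN0) ?_
    have h1 : (1:ℝ) ≤ N := Nat.one_le_cast.2 (NeZero.pos N)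
    exact (sqrt_le_sqrt (le_mul_of_one_le_left hN0.le h1)).trans_eq (sqrt_mul_self hN0.le)
  -- the frequencies of the bases
  have hf0 : ∀ j, 0 ≤ freq lab j := freq_nonneg lab
  have hf1 : ∑ j, freq lab j = 1 := sum_freq lab (Nat.succ_ne_zero N)
  have hfw : ∀ i j, |freq (labs i) j - w j| ≤ 2 * τ := fun i j => by
    have hb1 : freq lab j ≤ 1 := hf1 ▸ single_le_sum (fun a _ => hf0 a) (mem_univ j)
    have he : (cnt lab j : ℝ) = cnt (labs i) j + if j = i then 1 else 0 := by
      rw [hcnt i j]; push_cast; rfl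
    have hd' : freq (labs i) j - freq lab j = (freq lab j - if j = i then 1 else 0) / N := by
      rw [freq_eq_cnt, freq_eq_cnt, he]
      push_cast
      field_simp
      ring
    have hbd : |freq lab j - if j = i then (1:ℝ) else 0| ≤ 1 := by
      have := hf0 j
      split_ifs <;> rw [abs_le] <;> constructor <;> linarith
    have h2 : |freq (labs i) j - freq lab j| ≤ τ := by
      rw [hd', abs_div, abs_of_pos hN0]
      exact (div_le_div_of_nonneg_right hbd hN0.le).trans h1N
    linarith [abs_sub_le (freq (labs i) j) (freq lab j) (w j), hfr j]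
  have hAf : ∀ i j, 1 ≤ A * freq (labs i) j := fun i j => by
    have hw := hF.atoms.pos j
    have h2 : 2 / w j ≤ A :=
      (single_le_sum (fun a _ => (div_pos two_pos (hF.atoms.pos a)).le) (mem_univ j)).trans
        (show A0 ≤ A by simp only [A]; linarith)
    have h3 : w j / 2 ≤ freq (labs i) j := by linarith [(abs_le.1 (hfw i j)).1, hτw j]
    exact le_trans (le_of_eq (by field_simp)) (mul_le_mul h2 h3 (by positivity) hA)
  have hpos : ∀ i j, 0 < cnt (labs i) j := fun i j => Nat.pos_of_ne_zero fun h0 => by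
    have := hAf i j
    rw [freq_eq_cnt, h0] at this
    norm_num at this
  -- the profiles
  have hv : ∀ (i : Fin k) (q : ℕ → ℝ), Prof R q 1 → Prof R (vlev w θ (θ i) R q) A ∧
      (∀ l ≤ R, |vlev w θ (θ i) R q l| ≤ Kk) ∧ 0 ≤ vlev w θ (θ i) R q R := by
    intro i q hq
    have hw := hF.atoms.pos i
    have P := levP_prof hF.atoms hq i
    have e : ∀ l, levP w θ i R q l = w i * vlev w θ (θ i) R q l := levP_vlev hd i q
    have hk : ∀ l ≤ R, |vlev w θ (θ i) R q l| ≤ Kk := fun l hl => by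
      have a := hq.upper hl
      refine (intervalIntegral.norm_integral_le_of_norm_le_const (C := Kk)
        (f := fun s => kap w θ (θ i) (Par.Multi.xiD R q s)) fun s hs => ?_).trans ?_
      · have hs' := Set.uIcc_subset_Icc (Set.left_mem_Icc.2 zero_le_one) a (Set.uIoc_subset_uIcc hs)
        have hx := Par.Multi.xiD_mem hq hs'.1 hs'.2
        have hb := (hkb (θ i) _ (hF.bd i) (fun j hj => hF.atoms.theta_le hj i) hx).1
        rw [Real.norm_eq_abs, abs_of_nonneg hb.1]
        exact hb.2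
      · rw [sub_zero, abs_of_nonneg a.1]
        exact mul_le_of_le_one_right hKk a.2
    refine ⟨⟨?_, fun l hl => ?_, ?_⟩, hk, ?_⟩
    · exact (mul_nonneg_iff_of_pos_left hw).1 (e 0 ▸ P.zero)
    · have := P.mono l hl
      rw [e, e] at this
      exact le_of_mul_le_mul_left this hw
    · exact ((le_abs_self _).trans (hk R le_rfl)).trans (by simp only [A]; linarith)
    · exact (mul_nonneg_iff_of_pos_left hw).1 (e R ▸ (P.upper le_rfl).1)
  set q : Fin k → Mat N → ℕ → ℝ := fun i U => qU θ' (labs i) U R S β h u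
  have hq : ∀ i U, Prof R (q i U) 1 := fun i U => (qU_prof θ' (labs i) U).1
  have hqc : ∀ i l, Continuous fun U => q i U l := fun i => continuous_qU θ' (labs i)
  have hvc : ∀ (a i : Fin k) (l : ℕ), l ≤ R → Continuous fun U => vlev w θ (θ a) R (q i U) l :=
    fun a i l hl => continuous_vlev hB hd hR1 a hl (hq i) (hqc i)
  have hvL : ∀ (a : Fin k) (q₁ q₂ : ℕ → ℝ), Prof R q₁ 1 → Prof R q₂ 1 → q₁ R = 1 → q₂ R = 1 →
      |vlev w θ (θ a) R q₁ R - vlev w θ (θ a) R q₂ R| ≤ Kl * dist1 R q₁ q₂ := by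
    intro a q₁ q₂ h₁ h₂ e₁ e₂
    have hl := (hlip hB R q₁ q₂ hR1 h₁ h₂).2.2 a R le_rfl
    rw [levP_vlev hd, levP_vlev hd, ← mul_sub, abs_mul, abs_of_pos (hF.atoms.pos a), e₁, e₂, sub_self,
      abs_zero, zero_add] at hl
    exact le_of_mul_le_mul_left hl (hF.atoms.pos a)
  -- the deviations
  set T : Fin k → ℝ := fun i => ∫ U, totDev w θ θ' (labs i) U R S β h u ∂ν
  have hT0 : ∀ i, 0 ≤ T i := fun i => integral_nonneg fun U => totDev_nonneg w θ θ' (labs i) U
  have hTs : ∀ i, T i ≤ ∑ j, T j := fun i => single_le_sum (fun j _ => hT0 j) (mem_univ i)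
  set TT := ∑ j, T j
  -- the steps
  set s : Fin k → ℝ := fun i => θ' i - θ' (prv i)
  have hs0 : ∀ i, 0 ≤ s i := fun i => sub_nonneg.2 (hmono.monotone (prv_le i))
  have hsd : ∀ i, s i ≤ δ + 2 * τ := fun i => by
    rcases Nat.eq_zero_or_pos (i : ℕ) with hi | hi
    · have e : prv i = i := Fin.ext (by simp [prv, hi])
      simp only [s, e, sub_self]
      exact add_nonneg hδ.le (mul_nonneg zero_le_two hτ.le)
    · have g := hF.fine (prv i) i (show ((i : ℕ) - 1) + 1 = (i : ℕ) by omega)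
      have a := abs_le.1 (hθ i)
      have b := abs_le.1 (hθ (prv i))
      simp only [s]
      unfold gap at g
      linarith only [g, a.2, b.1]
  have hs1 : ∀ i, s i ≤ 1 := fun i => by linarith [hsd i]
  have hsum : ∑ i, s i ≤ 2 * L1 := by
    obtain ⟨t, ht⟩ := hF.atoms.exists_top
    have e : ∑ i, s i = θ' t - θ' o := sum_steps θ' ho ht
    rw [e]
    have a := abs_le.1 (hθ t)
    have b := abs_le.1 (hθ o)
    have a' := abs_le.1 (hF.bd t)
    have b' := abs_le.1 (hF.bd o)
    have := le_abs_self L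
    simp only [L1]
    linarith [a.2, b.1, a'.2, b'.1]
  have hsq : ∑ i, K₀ * Kk ^ 2 * s i ^ 2 ≤ Q * δ := by
    refine (sum_le_sum (g := fun i => K₀ * Kk ^ 2 * (3 * δ) * s i) fun i _ => ?_).trans ?_
    · rw [sq (s i), ← mul_assoc]
      refine mul_le_mul_of_nonneg_right (mul_le_mul_of_nonneg_left ?_ (by positivity)) (hs0 i)
      linarith [hsd i]
    · rw [← mul_sum]
      refine (mul_le_mul_of_nonneg_left hsum (by positivity)).trans_eq ?_
      simp only [Q]; ring
  -- one move
  set V : Fin k → Fin k → ℝ := fun a i => ∫ U, vlev w θ (θ a) R (q i U) R ∂ν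
  set D : Fin k → ℝ := fun i => 2 * (K₀ * Kk ^ 2 * s i ^ 2) + Kb * ((2 * A + 1) * TT + 2 * C1 * τ)
  have move : ∀ i : Fin k,
      (∫ U, pertU θ' (labs i) R S β h u U ∂ν - ∫ U, pertU θ' (labs (prv i)) R S β h u U ∂ν ≤
        -(s i * V i (prv i) / 2) + K₀ * Kk ^ 2 * s i ^ 2 + Kb * (A * TT + C1 * τ)) ∧
      ∀ a, |V a i - V a (prv i)| ≤ Kl * D i := by
    intro i
    have hex : ∀ j, ∃ x, labs (prv i) x = j := fun j => exists_site (hpos (prv i) j)
    choose e he using hex
    set lb := Function.update (labs (prv i)) (e i) (prv i)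
    have hlb : ∀ j, cnt (labs i) j = cnt lb j := fun j => by
      have h1 := cnt_update (labs (prv i)) (e i) (prv i) j
      rw [he] at h1
      have h2 : (cnt (labs (prv i)) j : ℝ) + (if j = prv i then 1 else 0) =
          cnt (labs i) j + if j = i then 1 else 0 := by
        exact_mod_cast (hcnt (prv i) j).symm.trans (hcnt i j)
      simp only [eq_comm (a := j)] at h2
      refine Nat.cast_injective (R := ℝ) ?_
      simp only [lb]
      rw [h1]
      linarith
    obtain ⟨m1, m2⟩ := hm β hR1 h u θ' (labs (prv i)) e he ν hν i (prv i)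
      (fun qq l => vlev w θ (θ i) R qq (min l R)) (hAf _ i) (hs0 i) (hs1 i)
      (fun qq hqq _ => by
        have P := (hv i qq hqq).1
        refine ⟨by simpa using P.zero, fun l hl => ?_, by simpa using P.top⟩
        show vlev w θ (θ i) R qq (min l R) ≤ vlev w θ (θ i) R qq (min (l + 1) R)
        rw [min_eq_left hl.le, min_eq_left hl]
        exact P.mono l hl)
      (fun l => hvc i (prv i) (min l R) (min_le_right l R))
    simp only [min_self] at m1 m2
    have hdev : ∀ U, adev R (pw (S := S) (β := β) R (wJ θ' (labs (prv i)) U) h u)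
        (cvR (labs (prv i)) U (spinAt R) i) (fun l => vlev w θ (θ i) R (q (prv i) U) (min l R)) +
          1 / √(N:ℝ) ≤ A * totDev w θ θ' (labs (prv i)) U R S β h u + C1 * τ := fun U =>
      (add_le_add (cvR_dev hd hR1 θ' (labs (prv i)) i hA (hAf _ i) (hfw _ i) U fun l hl =>
        ((hv i _ (hq (prv i) U)).2.1 l hl).trans hKA) hsN).trans (le_of_eq (by simp only [C1]; ring))
    have cu : Continuous fun U => vlev w θ (θ i) R (q (prv i) U) R := hvc i (prv i) R le_rfl
    have cd' : Continuous fun U => adev R (pw (S := S) (β := β) R (wJ θ' (labs (prv i)) U) h u)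
        (cvR (labs (prv i)) U (spinAt R) i) (fun l => vlev w θ (θ i) R (q (prv i) U) (min l R)) +
          1 / √(N:ℝ) :=
      (continuous_adev (continuous_cvR (labs (prv i)) i (spinAt R))
        (fun l => hvc i (prv i) (min l R) (min_le_right l R)) θ' (labs (prv i))).add continuous_const
    have ct := continuous_totDev (S := S) (β := β) (h := h) (u := u) hB hR1 θ' (labs (prv i))
    have hvb : ∀ U, |vlev w θ (θ i) R (q (prv i) U) R| ≤ Kk := fun U =>
      (hv i _ (hq (prv i) U)).2.1 R le_rfl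
    refine ⟨?_, fun a => ?_⟩
    · rw [pertU_counts hν θ' hlb]
      refine (m1.trans (int_value_le hν cu cd' ct hK₀ hKb hvb hdev)).trans ?_
      exact add_le_add le_rfl (mul_le_mul_of_nonneg_left
        (add_le_add (mul_le_mul_of_nonneg_left (hTs (prv i)) hA) le_rfl) hKb)
    · have hF' : Continuous fun U => vlev w θ (θ a) R (qU θ' lb U R S β h u) R :=
        continuous_vlev hB hd hR1 a le_rfl (fun U => (qU_prof θ' lb U).1) (continuous_qU θ' lb)
      have e1 : V a i = ∫ U, vlev w θ (θ a) R (qU θ' lb U R S β h u) R ∂ν :=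
        haar_counts hν θ' hlb (F := fun W => vlev w θ (θ a) R
          (qlev R (pw (S := S) (β := β) R W h u) (spinAt R)) R) hF'
      have hid : Integrable (fun U => dist1 R (qU θ' lb U R S β h u) (q (prv i) U)) ν :=
        integrable_haar hν (by
          have := continuous_qU (R := R) (S := S) (β := β) (h := h) (u := u) θ' lb
          have := hqc (prv i)
          unfold dist1; fun_prop)
      rw [e1, ← integral_sub (integrable_haar hν hF') (integrable_haar hν (hvc a (prv i) R le_rfl))]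
      refine (abs_integral_le_integral_abs).trans ((integral_mono
        (integrable_haar hν (hF'.sub (hvc a (prv i) R le_rfl)).abs) (hid.const_mul Kl) fun U =>
          hvL a _ _ (qU_prof θ' lb U).1 (hq (prv i) U) (qU_prof θ' lb U).2 (qU_prof θ' _ U).2).trans ?_)
      rw [integral_const_mul]
      refine mul_le_mul_of_nonneg_left (m2.trans ?_) hKl
      refine (int_shift_le hν cu cd' (continuous_devU θ' (labs (prv i))) ct hK₀ hKb hvb hdev
        fun U => le_add_of_nonneg_left (sum_nonneg fun j _ => P157.Par.adev_nn (pw_wJ_pos θ' _ U))).trans ?_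
      show _ ≤ 2 * (K₀ * Kk ^ 2 * s i ^ 2) + Kb * ((2 * A + 1) * TT + 2 * C1 * τ)
      rw [show 2 * C1 * τ = 2 * (C1 * τ) by ring]
      exact add_le_add le_rfl (mul_le_mul_of_nonneg_left
        (add_le_add (mul_le_mul_of_nonneg_left (hTs (prv i)) (add_nonneg (mul_nonneg zero_le_two hA) zero_le_one)) le_rfl) hKb)
  -- transport to the bottom and sum
  set t : Fin k → ℝ := fun i => tailW (fun j => freq lab j) i
  have ht : ∀ i, 0 ≤ t i ∧ t i ≤ 1 := tailW_mem hf0 hf1
  have htw : ∀ i, 0 ≤ tailW w i ∧ tailW w i ≤ 1 := tailW_mem (fun j => (hF.atoms.pos j).le) hF.atoms.one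
  set DD := ∑ i, Kl * D i
  have hTT : 0 ≤ TT := sum_nonneg fun j _ => hT0 j
  have hA2 : 0 ≤ 2 * A + 1 := add_nonneg (mul_nonneg zero_le_two hA) zero_le_one
  have hC1 : 0 ≤ C1 := add_nonneg (mul_nonneg (by norm_num) (sq_nonneg A)) zero_le_one
  have hsq0 : ∀ i, 0 ≤ K₀ * Kk ^ 2 * s i ^ 2 := fun i =>
    mul_nonneg (mul_nonneg hK₀ (sq_nonneg _)) (sq_nonneg _)
  have hD0 : ∀ i, 0 ≤ D i := fun i =>
    add_nonneg (mul_nonneg zero_le_two (hsq0 i)) (mul_nonneg hKb
      (add_nonneg (mul_nonneg hA2 hTT) (mul_nonneg (mul_nonneg zero_le_two hC1) hτ.le)))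
  have hDD : DD ≤ Kl * (2 * (Q * δ) + k * (Kb * ((2 * A + 1) * TT + 2 * C1 * τ))) := by
    simp only [DD, D, ← mul_sum, sum_add_distrib, sum_const, card_univ, Fintype.card_fin, nsmul_eq_mul]
    refine mul_le_mul_of_nonneg_left (add_le_add (mul_le_mul_of_nonneg_left ?_ zero_le_two) (le_of_eq (by ring))) hKl
    simpa only [← mul_sum] using hsq
  have hVo : ∀ i, |V i o| ≤ Kk := fun i => by
    refine (abs_integral_le_integral_abs).trans ?_
    refine (integral_mono (integrable_haar hν (hvc i o R le_rfl).abs) (integrable_const Kk)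
      fun U => (hv i _ (hq o U)).2.1 R le_rfl).trans_eq ?_
    simp
  have he : ∀ i, |t i * s i - tailW w i * gap θ i| ≤ (k + 2) * τ := fun i => by
    rw [show t i * s i - tailW w i * gap θ i = (t i - tailW w i) * s i + tailW w i * (s i - gap θ i) by ring]
    refine (abs_add_le _ _).trans ((add_le_add ?_ ?_).trans_eq (add_mul _ _ _).symm)
    · rw [abs_mul, abs_of_nonneg (hs0 i)]
      exact (mul_le_of_le_one_right (abs_nonneg _) (hs1 i)).trans (tailW_near hfr i)
    · rw [abs_mul, abs_of_nonneg (htw i).1]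
      refine (mul_le_of_le_one_left (abs_nonneg _) (htw i).2).trans ?_
      have a := abs_le.1 (hθ i)
      have b := abs_le.1 (hθ (prv i))
      simp only [s, gap, abs_le]
      constructor <;> linarith [a.1, a.2, b.1, b.2]
  have hDD0 : 0 ≤ DD := sum_nonneg fun i _ => mul_nonneg hKl (hD0 i)
  have hmain := chain_sum (Vp := fun i => V i (prv i)) (Vo := fun i => V i o)
    (a := fun i => K₀ * Kk ^ 2 * s i ^ 2) ht hs0 hDD0 (mul_nonneg hKb (add_nonneg (mul_nonneg hA hTT) (mul_nonneg hC1 hτ.le)))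
    hsq0 (fun i => (move i).1)
    (fun i => (abs_chain_le (V i) ho (prv i)).trans (sum_le_sum fun m _ => (move m).2 i)) hVo he
    (mul_nonneg (add_nonneg k.cast_nonneg zero_le_two) hτ.le) hKk hsum hsq
  have hch : ∫ U, chainV w θ R (qU θ' (labs o) U R S β h u) ∂ν = ∑ i, tailW w i * gap θ i * V i o / 2 := by
    simp only [chainV, V, sum_div]
    rw [integral_finsetSum _ fun i _ => ((integrable_haar hν (hvc i o R le_rfl)).const_mul _).div_const _]
    exact sum_congr rfl fun i _ => by rw [integral_div, integral_const_mul]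
  refine hmain.trans ?_
  rw [hch]
  have g1 := mul_le_mul_of_nonneg_left hDD hL1
  have g2 : Q * (1 + 2 * Kl * L1) * δ ≤ Q * (1 + 2 * Kl * L1) * √δ :=
    mul_le_mul_of_nonneg_left (le_sqrt_of_sq_le (sq δ ▸ mul_le_of_le_one_left hδ.le hδ1))
      (mul_nonneg hQ (add_nonneg zero_le_one (mul_nonneg (mul_nonneg zero_le_two hKl) hL1)))
  simp only [c] at hτε
  linarith only [g1, g2, hτε]

end Vale.Agent.P166.Gen
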