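import Vale.Agent.P166.Gen.Defs
import Vale.Agent.P157.Full.ProdW
import Vale.Agent.P168.MP.Grow

/-!
# P166 G4: objects and interfaces of the lower bound

The gain of one more site is bounded below by first moments of the base: the corner exponent by the
convexity of the nested logarithm, the change of one eigenvalue by the comparison of the nested mean
with the plain mean. Constants marked `Kb` may depend on the atoms; they only multiply deviations.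
-/

open MeasureTheory ProbabilityTheory Filter Finset Real
open scoped Topology
open Vale.Agent.P150 (gauss)
open Vale.Agent.P157.Full (qh prodW spinPr)
open Vale.Agent.P157.Par (Prof adev devOf dist1 ovK ov qlev)
open Vale.Agent.P168.MP (lin ET nest pw spinAt Batch avg)

noncomputable section

namespace Vale.Agent.P166.Gen

open Par.Multi (xiD)

variable {k N : ℕ}

/-! ### atoms -/

/-- the atom before `i`, or `i` at the bottom -/
def prv (i : Fin k) : Fin k := ⟨(i : ℕ) - 1, lt_of_le_of_lt (Nat.sub_le _ _) i.isLt⟩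

/-- the gap below atom `i`; zero at the bottom -/
def gap (θ : Fin k → ℝ) (i : Fin k) : ℝ := θ i - θ (prv i)

/-- the mass of atom `i` and the atoms above it -/
def tailW (w : Fin k → ℝ) (i : Fin k) : ℝ := ∑ j ∈ univ.filter (fun j => i ≤ j), w j

/-- the move of atom `j` in the corner -/
def aA (r θ : Fin k → ℝ) (j : Fin k) : ℝ := if 0 < (j : ℕ) then root r θ j - θ j else 0

/-- the coupling of atom `j` in the corner -/
def cA (r θ : Fin k → ℝ) (j : Fin k) : ℝ := if 0 < (j : ℕ) then cpl r θ j else 0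

/-- the derivative of `1/(zat y - t)` -/
def kap (w θ : Fin k → ℝ) (t y : ℝ) : ℝ :=
  if 0 < y then 1 / ((zat w θ y - t) ^ 2 * gat2 w θ (zat w θ y)) else 1

/-- the levels of the squared coordinate of a row at `t` -/
def vlev (w θ : Fin k → ℝ) (t : ℝ) (R : ℕ) (q : ℕ → ℝ) : ℕ → ℝ := levF (kap w θ t) R q

/-- the first order part of the value of a trial -/
def Tq (w θ : Fin k → ℝ) (R : ℕ) (q : ℕ → ℝ) : ℝ :=
  ((∑ j, w j * θ j) - ∫ s in (0:ℝ)..1, xiD R q s * dRat w θ (xiD R q s)) / 2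

/-- the value of a trial -/
def trialV (w θ : Fin k → ℝ) (R : ℕ) (q : ℕ → ℝ) : ℝ :=
  Tq w θ R q + P157.Par.Phi Real.cosh R (lin R) (fieldH w θ R q)

/-- the hypotheses on the atoms -/
structure Fine (L η δ : ℝ) (w θ : Fin k → ℝ) : Prop where
  atoms : Atoms w θ
  bd : ∀ j, |θ j| ≤ L
  top : ∀ j : Fin k, (∀ i, i ≤ j) → η ≤ w j
  fine : ∀ i j : Fin k, (i : ℕ) + 1 = j → θ j - θ i ≤ δ

/-- the elementary facts, all bounds uniform in the atoms -/
def StmtKap : Prop :=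
  ∀ L η : ℝ, 0 < η → ∃ K : ℝ, 0 ≤ K ∧ ∀ δ : ℝ, 0 < δ → δ ≤ 1 → ∀ (k : ℕ) (w θ : Fin k → ℝ), Fine L η δ w θ →
    (∀ j, aA w θ j ≤ 0 ∧ -gap θ j ≤ aA w θ j) ∧ (∑ j, cA w θ j ^ 2 ≤ K) ∧
    (∀ t y, |t| ≤ L → (∀ j, (∀ i, i ≤ j) → t ≤ θ j) → y ∈ Set.Icc (0:ℝ) 1 →
      (0 ≤ kap w θ t y ∧ kap w θ t y ≤ K) ∧
      (∀ y' ∈ Set.Icc (0:ℝ) 1, |kap w θ t y - kap w θ t y'| ≤ K * |y - y'|) ∧
      ∀ t', |t'| ≤ L → (∀ j, (∀ i, i ≤ j) → t' ≤ θ j) → |kap w θ t y - kap w θ t' y| ≤ K * |t - t'|) ∧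
    (∀ j y, dphiA w θ j y = w j * kap w θ (θ j) y) ∧
    (∀ y ∈ Set.Icc (0:ℝ) 1,
      (dRat w θ y = ∑ j, cA w θ j ^ 2 * kap w θ (root w θ j) y) ∧
      -(y * dRat w θ y) - K * δ ≤
        (∑ i, tailW w i * gap θ i * kap w θ (θ i) y) + ∑ j, aA w θ j * kap w θ (θ j) y)

/-- the corner data are continuous in the shares and in the atoms -/
def StmtRootNear : Prop :=
  ∀ (k : ℕ) (w θ : Fin k → ℝ), Atoms w θ → ∀ ε : ℝ, 0 < ε → ∃ τ : ℝ, 0 < τ ∧
    ∀ r θ' : Fin k → ℝ, (∀ j, |r j - w j| ≤ τ) → (∀ j, |θ' j - θ j| ≤ τ) → StrictMono θ' →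
      ∀ j, |aA r θ' j - aA w θ j| ≤ ε ∧ |cA r θ' j - cA w θ j| ≤ ε ∧ aA r θ' j ≤ 0

/-- a trial is at least the value of the path it generates, up to its distance from that path -/
def StmtTrial : Prop :=
  ∀ L η : ℝ, 0 < η → ∃ K : ℝ, 0 ≤ K ∧ ∀ δ : ℝ, 0 < δ → δ ≤ 1 → ∀ (k : ℕ) (w θ : Fin k → ℝ), Fine L η δ w θ →
    ∀ (R : ℕ) (q : ℕ → ℝ), 1 ≤ R → Prof R q 1 → q R = 1 →
      Prof R (fieldH w θ R q) K ∧
      aForm w θ R (fieldH w θ R q) - K * dist1 R q (qh R (fieldH w θ R q)) ≤ trialV w θ R q ∧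
      ∀ q' : ℕ → ℝ, Prof R q' 1 → q' R = 1 →
        dist1 R (qh R (fieldH w θ R q)) (qh R (fieldH w θ R q')) ≤ K * dist1 R q q'

/-! ### rows given the base -/

/-- the row of atom `j`, uniform in its eigenspace -/
def xF (lab : Fin N → Fin k) (U : Mat N) (g : Fin N → ℝ) (j : Fin k) (σ : Fin N → Bool) : ℝ :=
  (∑ i ∈ univ.filter (fun i => lab i = j), g i * cd U σ i) /
    √(∑ i ∈ univ.filter (fun i => lab i = j), g i ^ 2)

/-- its Gaussian companion -/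
def yF (lab : Fin N → Fin k) (U : Mat N) (g : Fin N → ℝ) (j : Fin k) (σ : Fin N → Bool) : ℝ :=
  (∑ i ∈ univ.filter (fun i => lab i = j), g i * cd U σ i) /
    √((univ.filter fun i => lab i = j).card : ℝ)

/-- the exponent of the new spin -/
def cE (e₀ : ℝ) (a c : Fin k → ℝ) (x : Fin k → ℝ) (b : Bool) : ℝ :=
  e₀ + ((∑ j, a j * x j ^ 2) / 2 + spin b * ∑ j, c j * x j)

variable {Ω : Type} [Fintype Ω]

/-- the covariance of the row of atom `j` -/
def cvR (lab : Fin N → Fin k) (U : Mat N) (rd : List Ω → Fin N → Bool) (j : Fin k) (p p' : List Ω) : ℝ :=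
  pov lab U j (rd p) (rd p') / freq lab j

/-- its deviation from the profiles `u`, at level `l` and on average -/
def cvDev (R : ℕ) (w : List Ω → ℝ) (lab : Fin N → Fin k) (U : Mat N) (rd : List Ω → Fin N → Bool)
    (u : Fin k → ℕ → ℝ) (l : ℕ) : ℝ :=
  ∑ j, (devOf R w (cvR lab U rd j) (u j) l + adev R w (cvR lab U rd j) (u j))

/-- the gain of one site: its value and the new spin; `κ` pays for the linearisation of the deviations -/
def StmtGain : Prop :=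
  ∀ B : ℝ, ∃ K₀ : ℝ, 0 ≤ K₀ ∧ ∀ (k : ℕ) (A κ : ℝ), 0 < κ → ∃ Kb : ℝ, 0 ≤ Kb ∧
    ∀ {Ω : Type} [Fintype Ω] [Nonempty Ω] {R N : ℕ} [NeZero N], 1 ≤ R →
    ∀ (lab : Fin N → Fin k) (U : Mat N), Matrix.of U ∈ Matrix.orthogonalGroup (Fin N) ℝ →
    ∀ (w : List Ω → ℝ), (∀ p, 0 < w p) → ∀ (rd : List Ω → Fin N → Bool) (e₀ : ℝ) (a c : Fin k → ℝ)
      (u : Fin k → ℕ → ℝ),
      (∀ j, 1 ≤ A * freq lab j) → (∀ j, a j ≤ 0) → (∀ j, |a j| ≤ A) → (∀ j, |c j| ≤ A) →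
      (∀ j, Prof R (u j) A) → ∑ j, |a j| * u j R ≤ B → ∑ j, c j ^ 2 * u j R ≤ B →
      let h := fun l => ∑ j, c j ^ 2 * u j l
      let err := fun l => K₀ * (√(∑ j, a j ^ 2 * u j R ^ 2) + κ) + Kb * (cvDev R w lab U rd u l + 1 / √(N:ℝ))
      e₀ + (∑ j, a j * u j R) / 2 + P157.Par.Phi Real.cosh R (lin R) h - err R ≤
          ∫ g, log (nest (lin R) w
            (fun p => avg fun b : Bool => exp (cE e₀ a c (fun j => xF lab U g j (rd p)) b)) R []) ∂gauss (Fin N) ∧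
      ∀ l, l < R → ∀ q : ℕ → ℝ, |q l| ≤ 1 →
        |(∫ g, ET R (lin R) (prodW R w fun p b => exp (cE e₀ a c (fun j => xF lab U g j (rd p)) b))
            [(0, l), (0, 0)] (spinPr R) ∂gauss (Fin N)) - qh R h l| ≤ err l ∧
        ∫ g, ET R (lin R) (prodW R w fun p b => exp (cE e₀ a c (fun j => xF lab U g j (rd p)) b))
            [(0, l), (0, 0)] (fun ps => |ov (rd ((ps.getD 0 []).map Prod.fst))
              (rd ((ps.getD 1 []).map Prod.fst)) - q l|) ∂gauss (Fin N) ≤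
          K₀ * devOf R w (ovK rd) q l + err l

/-- the change of one eigenvalue by a small gap `s` -/
def StmtStep : Prop :=
  ∃ K₀ : ℝ, 0 ≤ K₀ ∧ ∀ (k : ℕ) (A : ℝ), ∃ Kb : ℝ, 0 ≤ Kb ∧
    ∀ {Ω : Type} [Fintype Ω] [Nonempty Ω] {R N : ℕ} [NeZero N], 1 ≤ R →
    ∀ (lab : Fin N → Fin k) (U : Mat N), Matrix.of U ∈ Matrix.orthogonalGroup (Fin N) ℝ →
    ∀ (w : List Ω → ℝ), (∀ p, 0 < w p) → ∀ (rd : List Ω → Fin N → Bool) (j : Fin k) (s : ℝ) (u : ℕ → ℝ),
      1 ≤ A * freq lab j → 0 ≤ s → s ≤ 1 → Prof R u A →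
      let Y := fun (g : Fin N → ℝ) (p : List Ω) => exp (-(s * xF lab U g j (rd p) ^ 2 / 2))
      let dev := adev R w (cvR lab U rd j) u + 1 / √(N:ℝ)
      ∫ g, log (nest (lin R) w (Y g) R []) ∂gauss (Fin N) ≤
          -(s * u R / 2) + K₀ * s ^ 2 * u R ^ 2 + Kb * dev ∧
      ∀ l, l ≤ R → ∫ g, |qlev R (fun p => w p * Y g p) rd l - qlev R w rd l| ∂gauss (Fin N) ≤
          K₀ * s ^ 2 * u R ^ 2 + Kb * (dev + devOf R w (ovK rd) (qlev R w rd) l)

/-! ### the perturbed system -/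

variable {ι : Type} [Fintype ι] [DecidableEq ι]

/-- overlaps of the perturbed system -/
def qU (θ : Fin k → ℝ) (lab : Fin N → Fin k) [NeZero N] (U : Mat N) (R S : ℕ) (β : ι → Batch)
    (h u : ι → ℝ) : ℕ → ℝ :=
  qlev R (pw (N := N) (S := S) (β := β) R (wJ θ lab U) h u) (spinAt R)

/-- concentration of the overlaps and of the squared projections -/
def devU (θ : Fin k → ℝ) (lab : Fin N → Fin k) [NeZero N] (U : Mat N) (R S : ℕ) (β : ι → Batch)
    (h u : ι → ℝ) : ℝ :=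
  adev R (pw (N := N) (S := S) (β := β) R (wJ θ lab U) h u) (ovK (spinAt R)) (qU θ lab U R S β h u) +
    madJ R lab U (pw (N := N) (S := S) (β := β) R (wJ θ lab U) h u) (spinAt R)

/-- deviation of the projected overlaps from the levels the atoms `w, θ` give -/
def povU (w θ θ' : Fin k → ℝ) (lab : Fin N → Fin k) [NeZero N] (U : Mat N) (R S : ℕ) (β : ι → Batch)
    (h u : ι → ℝ) : ℝ :=
  ∑ j, adev R (pw (N := N) (S := S) (β := β) R (wJ θ' lab U) h u)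
    (fun p p' => pov lab U j (spinAt R p) (spinAt R p')) (levP w θ j R (qU θ' lab U R S β h u))

/-- self-consistency of the overlaps of the base; `C` depends neither on the levels nor on the perturbation -/
def StmtSelfG : Prop :=
  ∀ L η : ℝ, 0 < η → ∀ ε : ℝ, 0 < ε → ∃ δ : ℝ, 0 < δ ∧ δ ≤ 1 ∧
    ∀ (k : ℕ) (w θ : Fin k → ℝ), Fine L η δ w θ → ∃ τ C : ℝ, 0 < τ ∧ 0 ≤ C ∧
    ∀ {ι : Type} [Fintype ι] [DecidableEq ι] (β : ι → Batch) (R S : ℕ), 2 ≤ R →
    ∀ {h u : ι → ℝ}, (∀ i, |h i| ≤ 1) → (∀ i, |u i| ≤ 1) →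
    ∃ N₀ : ℕ, ∀ N, N₀ ≤ N → ∀ [NeZero N] (θ' : Fin k → ℝ) (lab : Fin (N + 1) → Fin k) (lab' : Fin N → Fin k)
      (o : Fin k), StrictMono θ' → (∀ j, |θ' j - θ j| ≤ τ) → (∀ j, |freq lab j - w j| ≤ τ) → (o : ℕ) = 0 →
      (∀ j, (univ.filter fun i => lab i = j).card =
        (univ.filter fun i => lab' i = j).card + if j = o then 1 else 0) →
      ∀ (ν : Measure (Mat N)), IsHaarOrthogonal ν →
      ∫ U, dist1 R (qU θ' lab' U R S β h u) (qh R (fieldH w θ R (qU θ' lab' U R S β h u))) ∂ν ≤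
        ε + C * ∫ U, (povU w θ θ' lab' U R S β h u + devU θ' lab' U R S β h u) ∂ν

end Vale.Agent.P166.Gen
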