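import Vale.Agent.P157.Full.SpinMarg
import Vale.Agent.P157.Par.Site
import Vale.Agent.P157.Par.Shift
import Vale.Agent.P168.MP.NestC

/-!
# P166 G4: tilts by unbounded factors

For a nonnegative `D` the replica mean of `D` under the tilt by `exp (-s D)` is largest at `s = 0`
(convexity of the nested logarithm). So lowering a weight moves bounded observables by the first
moment of the exponent, with no exponential moment.
-/

open MeasureTheory Real Finset
open Vale.Agent.P168.MP (ET ext lin nest Valid Ok ok_lin tilt att valid_single)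

noncomputable section

namespace Vale.Agent.P166.Gen

variable {Ω : Type} [Fintype Ω] [Nonempty Ω] {R : ℕ} {w Y Y' U D : List Ω → ℝ}

/-- one replica of a pair -/
lemma ET_pair_one (hw : ∀ p, 0 < w p) {l : ℕ} (hl : l ≤ R) {i : ℕ} (hi : i < 2) (F : List Ω → ℝ) :
    ET R (lin R) w [(0, l), (0, 0)] (fun ps => F (ps.getD i [])) =
      ET R (lin R) w [(0, 0)] fun ps => F (ps.getD 0 []) :=
  (Vale.Agent.P168.MP.ET_marginal hw (P157.Par.valid2 hl) (p := i) (by simpa using hi) F).trans
    (Vale.Agent.P168.MP.ET_marginal hw (T := [(0, 0)]) valid_single (p := 0) (by simp) F).symm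

/-- a deviation at the top is one of single replicas -/
lemma devOf_top (C : List Ω → List Ω → ℝ) (q : ℕ → ℝ) :
    P157.Par.devOf R w C q R =
      ET R (lin R) w [(0, 0)] fun ps => |C (ps.getD 0 []) (ps.getD 0 []) - q R| := by
  rw [P157.Par.devOf, Vale.Agent.P168.MP.ET_cons]
  refine Vale.Agent.P168.MP.ET_congr valid_single fun ps hs => ?_
  obtain ⟨p, rfl⟩ := List.length_eq_one_iff.1 hs.1
  have hp : p.length = R := by simpa using hs.2.1 0 (by simp)
  simp [List.take_of_length_le hp.le]

/-- the tilted mean of a nonnegative exponent decreases -/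
lemma ET_neg_tilt_mono (hR : 1 ≤ R) (hw : ∀ p, 0 < w p) (D : List Ω → ℝ) {s : ℝ} (hs : 0 ≤ s) :
    ET R (lin R) (tilt w (fun p => -D p) s) [(0, 0)] (fun ps => D (ps.getD 0 [])) ≤
      ET R (lin R) w [(0, 0)] fun ps => D (ps.getD 0 []) := by
  rcases hs.eq_or_lt with rfl | hs
  · refine le_of_eq (congrArg (fun v => ET R (lin R) v [(0, 0)] fun ps => D (ps.getD 0 [])) ?_)
    funext p; simp [tilt]
  set v := tilt w (fun p => -D p) s
  have hv : ∀ p, 0 < v p := fun p => mul_pos (hw p) (exp_pos _)
  have h1 := P157.Par.ext_le_log_nest (ok_lin hR hw) (fun p => -(s * D p)) R [] (by simp)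
  have h2 := P157.Par.ext_le_log_nest (ok_lin hR hv) (fun p => s * D p) R [] (by simp)
  rw [← Vale.Agent.P168.MP.logZ0_mul (R := R) hw fun p => exp_pos _] at h1
  rw [← Vale.Agent.P168.MP.logZ0_mul (R := R) hv fun p => exp_pos _] at h2
  have ev : (fun p => w p * exp (-(s * D p))) = v := funext fun p => by simp [v, tilt]
  have ew : (fun p => v p * exp (s * D p)) = w := funext fun p => by
    simp [v, tilt, mul_assoc, ← exp_add]
  rw [ev, show (fun p => -(s * D p)) = fun p => (-s) * D p from funext fun p => by ring,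
    Vale.Agent.P168.MP.ext_const_mul] at h1
  rw [ew, Vale.Agent.P168.MP.ext_const_mul] at h2
  rw [Vale.Agent.P168.MP.ET_single, Vale.Agent.P168.MP.ET_single]
  simp only [List.getD_cons_zero]
  exact le_of_mul_le_mul_left (by linarith) hs

/-- lowering a weight moves bounded observables by the mean of the exponent -/
theorem ET_exp_neg (hR : 1 ≤ R) (hw : ∀ p, 0 < w p) (hD : ∀ p, 0 ≤ D p)
    {T : List (ℕ × ℕ)} (hT : Valid R T) {F : List (List Ω) → ℝ} {C : ℝ} (hF : ∀ ps, |F ps| ≤ C) :
    |ET R (lin R) (fun p => w p * exp (-D p)) T F - ET R (lin R) w T F| ≤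
      C * (3 * T.length) * ET R (lin R) w [(0, 0)] fun ps => D (ps.getD 0 []) := by
  have h := ok_lin hR hw
  set U := fun p => -D p
  set M := ET R (lin R) w [(0, 0)] fun ps => D (ps.getD 0 [])
  have hC : 0 ≤ C := (abs_nonneg _).trans (hF [])
  have hM : 0 ≤ M := Vale.Agent.P168.MP.ET_nonneg hw fun ps => hD _
  have hd : ∀ s ∈ Set.Icc (0:ℝ) 1, |((att R (lin R) T).map fun c => c.2 * ET R (lin R) (tilt w U s) (c.1 :: T)
      fun ps => F ps.dropLast * U (ps.getLastD [])).sum| ≤ C * (3 * T.length) * M := fun s hs => by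
    have hok := h.tilt U s
    refine (Vale.Agent.P168.MP.abs_sum_map_le _ _).trans ?_
    calc ((att R (lin R) T).map fun c => |c.2 * ET R (lin R) (tilt w U s) (c.1 :: T)
          fun ps => F ps.dropLast * U (ps.getLastD [])|).sum
        ≤ ((att R (lin R) T).map fun c => |c.2| * (C * M)).sum := by
          refine List.sum_le_sum fun c hc => ?_
          rw [abs_mul]
          refine mul_le_mul_of_nonneg_left ?_ (abs_nonneg _)
          have hv := Vale.Agent.P168.MP.att_valid hT hc
          have hlast : ET R (lin R) (tilt w U s) (c.1 :: T) (fun ps => D (ps.getLastD [])) =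
              ET R (lin R) (tilt w U s) [(0, 0)] fun ps => D (ps.getD 0 []) := by
            refine (Vale.Agent.P168.MP.ET_congr hv fun ps hps => ?_).trans
              ((Vale.Agent.P168.MP.ET_marginal hok.wpos hv (p := T.length) (by simp) D).trans
                (Vale.Agent.P168.MP.ET_marginal hok.wpos (T := [(0, 0)]) ⟨rfl, rfl⟩ (p := 0) (by simp) D).symm)
            have hl : ps.length = T.length + 1 := by simpa using hps.1
            obtain ⟨l, a, rfl⟩ := ps.eq_nil_or_concat.resolve_left (by intro e; simp [e] at hl)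
            simp at hl
            simp [hl]
          refine (Vale.Agent.P168.MP.ET_abs_le hok.wpos _ _).trans ?_
          calc ET R (lin R) (tilt w U s) (c.1 :: T) (fun ps => |F ps.dropLast * U (ps.getLastD [])|)
              ≤ ET R (lin R) (tilt w U s) (c.1 :: T) fun ps => C * D (ps.getLastD []) :=
                Vale.Agent.P168.MP.ET_mono hok.wpos fun ps => by
                  rw [abs_mul, abs_neg, abs_of_nonneg (hD _)]
                  exact mul_le_mul_of_nonneg_right (hF _) (hD _)
            _ = C * ET R (lin R) (tilt w U s) [(0, 0)] fun ps => D (ps.getD 0 []) := by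
                rw [Vale.Agent.P168.MP.ET_const_mul, hlast]
            _ ≤ C * M := mul_le_mul_of_nonneg_left (ET_neg_tilt_mono hR hw D hs.1) hC
      _ = ((att R (lin R) T).map fun c => |c.2|).sum * (C * M) := List.sum_map_mul_right ..
      _ ≤ (3 * T.length) * (C * M) :=
          mul_le_mul_of_nonneg_right (P157.Par.att_abs_sum_le T) (mul_nonneg hC hM)
      _ = _ := by ring
  have := Convex.norm_image_sub_le_of_norm_hasDerivWithin_le (s := Set.Icc (0:ℝ) 1)
    (f := fun t => ET R (lin R) (tilt w U t) T F)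
    (fun s _ => (Vale.Agent.P168.MP.hasDerivAt_ET_const (h.tilt U s)
      (Vale.Agent.P168.MP.hasDerivAt_tilt w U s) hT F).hasDerivWithinAt)
    (fun s hs => by rw [Real.norm_eq_abs]; exact hd s hs) (convex_Icc 0 1)
    (Set.left_mem_Icc.2 zero_le_one) (Set.right_mem_Icc.2 zero_le_one)
  have e1 : tilt w U 1 = fun p => w p * exp (-D p) := funext fun p => by simp [tilt, U]
  have e0 : tilt w U 0 = w := funext fun p => by simp [tilt]
  rw [e1, e0] at this
  simpa [Real.norm_eq_abs] using this

/-- two factors above `1` -/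
theorem ET_between (hR : 1 ≤ R) (hw : ∀ p, 0 < w p) (hY : ∀ p, 1 ≤ Y p) (hY' : ∀ p, 1 ≤ Y' p)
    {T : List (ℕ × ℕ)} (hT : Valid R T) {F : List (List Ω) → ℝ} {C : ℝ} (hF : ∀ ps, |F ps| ≤ C) :
    |ET R (lin R) (fun p => w p * Y' p) T F - ET R (lin R) (fun p => w p * Y p) T F| ≤
      C * (3 * T.length) *
        ET R (lin R) w [(0, 0)] fun ps =>
          |log (Y' (ps.getD 0 [])) - log (Y (ps.getD 0 []))| * (Y (ps.getD 0 []) + Y' (ps.getD 0 [])) := by
  set M := fun p => max (Y p) (Y' p)
  have hM : ∀ p, 1 ≤ M p := fun p => (hY p).trans (le_max_left _ _)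
  have hMp : ∀ p, 0 < w p * M p := fun p => mul_pos (hw p) (one_pos.trans_le (hM p))
  have hC : 0 ≤ C := (abs_nonneg _).trans (hF [])
  have key : ∀ Z : List Ω → ℝ, (∀ p, 1 ≤ Z p) → (∀ p, Z p ≤ M p) →
      |ET R (lin R) (fun p => w p * Z p) T F - ET R (lin R) (fun p => w p * M p) T F| ≤
      C * (3 * T.length) * ET R (lin R) w [(0, 0)] fun ps =>
        (log (M (ps.getD 0 [])) - log (Z (ps.getD 0 []))) * M (ps.getD 0 []) := fun Z hZ hZM => by
    have hd : ∀ p, 0 ≤ log (M p) - log (Z p) := fun p =>
      sub_nonneg.2 (log_le_log (one_pos.trans_le (hZ p)) (hZM p))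
    have h := ET_exp_neg hR hMp hd hT hF
    have e : (fun p => w p * M p * exp (-(log (M p) - log (Z p)))) = fun p => w p * Z p := funext fun p => by
      rw [neg_sub, exp_sub, exp_log (one_pos.trans_le (hZ p)), exp_log (one_pos.trans_le (hM p))]
      field_simp [(one_pos.trans_le (hM p)).ne']
    rw [e] at h
    refine h.trans (mul_le_mul_of_nonneg_left ?_ (by positivity))
    simpa using P157.Par.ET_one_tilt hR hw one_pos hM hd
  have h1 := key Y hY fun p => le_max_left _ _
  have h2 := key Y' hY' fun p => le_max_right _ _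
  refine (abs_sub_le _ (ET R (lin R) (fun p => w p * M p) T F) _).trans ?_
  rw [abs_sub_comm (ET R (lin R) (fun p => w p * M p) T F)]
  refine (add_le_add h2 h1).trans ?_
  rw [← mul_add, ← Vale.Agent.P168.MP.ET_add]
  refine mul_le_mul_of_nonneg_left (Vale.Agent.P168.MP.ET_mono hw fun ps => ?_) (by positivity)
  generalize ps.getD 0 [] = p
  have hp : 0 < Y p := one_pos.trans_le (hY p)
  have hp' : 0 < Y' p := one_pos.trans_le (hY' p)
  simp only [M]
  rcases le_total (Y p) (Y' p) with h | h
  · rw [max_eq_right h, sub_self, zero_mul, zero_add, abs_of_nonneg (sub_nonneg.2 (log_le_log hp h))]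
    exact mul_le_mul_of_nonneg_left (le_add_of_nonneg_left hp.le) (sub_nonneg.2 (log_le_log hp h))
  · rw [max_eq_left h, sub_self, zero_mul, add_zero,
      abs_of_nonpos (sub_nonpos.2 (log_le_log hp' h)), neg_sub]
    exact mul_le_mul_of_nonneg_left (le_add_of_nonneg_right hp'.le) (sub_nonneg.2 (log_le_log hp' h))

/-- an exponent bounded above -/
theorem ET_exp_le (hR : 1 ≤ R) (hw : ∀ p, 0 < w p) (hY : ∀ p, 1 ≤ Y p) {b : ℝ} (hb : 0 ≤ b)
    (hU : ∀ p, U p ≤ b) {T : List (ℕ × ℕ)} (hT : Valid R T) {F : List (List Ω) → ℝ} {C : ℝ}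
    (hF : ∀ ps, |F ps| ≤ C) :
    |ET R (lin R) (fun p => w p * Y p * exp (U p)) T F - ET R (lin R) (fun p => w p * Y p) T F| ≤
      C * (3 * T.length) * (exp (2 * b) + 1) *
        ET R (lin R) w [(0, 0)] fun ps => |U (ps.getD 0 [])| * Y (ps.getD 0 []) := by
  have hC : 0 ≤ C := (abs_nonneg _).trans (hF [])
  have hwY : ∀ p, 0 < w p * Y p := fun p => mul_pos (hw p) (one_pos.trans_le (hY p))
  set P := fun p => max (U p) 0
  set Q := fun p => max (-U p) 0
  have h1 : |ET R (lin R) (fun p => w p * Y p * exp (P p)) T F - ET R (lin R) (fun p => w p * Y p) T F| ≤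
      C * exp (2 * b) * (3 * T.length) *
        ET R (lin R) w [(0, 0)] fun ps => |U (ps.getD 0 [])| * Y (ps.getD 0 []) := by
    refine (P157.Full.ET_exp_small (U := P) hR hwY (b := b) (fun p => abs_le.2
      ⟨by linarith [le_max_right (U p) 0], max_le (hU p) hb⟩) hT hF).trans ?_
    refine mul_le_mul_of_nonneg_left ?_ (by positivity)
    refine (P157.Par.ET_one_tilt hR hw one_pos hY (H := fun p => |P p|) fun p => abs_nonneg _).trans ?_
    refine Vale.Agent.P168.MP.ET_mono hw fun ps => ?_
    rw [div_one]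
    exact mul_le_mul_of_nonneg_right (abs_max_le_max_abs_abs.trans (by simp)) (zero_le_one.trans (hY _))
  have hP : ∀ p, 1 ≤ Y p * exp (P p) := fun p => one_le_mul_of_one_le_of_one_le (hY p) (one_le_exp (le_max_right _ _))
  have h2 : |ET R (lin R) (fun p => w p * Y p * exp (U p)) T F -
      ET R (lin R) (fun p => w p * Y p * exp (P p)) T F| ≤
      C * (3 * T.length) * ET R (lin R) w [(0, 0)] fun ps => |U (ps.getD 0 [])| * Y (ps.getD 0 []) := by
    have h := ET_exp_neg (w := fun p => w p * Y p * exp (P p)) hR (fun p => mul_pos (hwY p) (exp_pos _))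
      (D := Q) (fun p => le_max_right _ _) hT hF
    have e : (fun p => w p * Y p * exp (P p) * exp (-Q p)) = fun p => w p * Y p * exp (U p) := funext fun p => by
      rw [mul_assoc _ (exp (P p)), ← exp_add]
      congr 2
      rcases le_total (U p) 0 with h | h <;> simp [P, Q, h]
    rw [e] at h
    refine h.trans (mul_le_mul_of_nonneg_left ?_ (by positivity))
    have h' := P157.Par.ET_one_tilt hR hw one_pos hP (H := Q) fun p => le_max_right _ _
    simp only [← mul_assoc] at h'
    refine h'.trans (Vale.Agent.P168.MP.ET_mono hw fun ps => ?_)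
    generalize ps.getD 0 [] = p
    rcases le_total (U p) 0 with h | h
    · simp [P, Q, h, abs_of_nonpos h]
    · simp only [Q, max_eq_right (neg_nonpos.2 h), zero_mul]
      exact mul_nonneg (abs_nonneg _) (zero_le_one.trans (hY p))
  refine (abs_sub_le _ _ _).trans ((add_le_add h2 h1).trans_eq ?_)
  ring

/-- a constant factor of the weight is invisible -/
lemma ET_scale (hR : 1 ≤ R) (hw : ∀ p, 0 < w p) {c : ℝ} (hc : 0 < c) {T : List (ℕ × ℕ)} (hT : Valid R T)
    {F : List (List Ω) → ℝ} {C : ℝ} (hF : ∀ ps, |F ps| ≤ C) :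
    ET R (lin R) (fun p => w p * c) T F = ET R (lin R) w T F := by
  have key : ∀ (v : List Ω → ℝ) (a : ℝ), (∀ p, 0 < v p) → 0 < a →
      ET R (lin R) (fun p => v p * a) T F ≤ ET R (lin R) v T F := fun v a hv ha => by
    have h := P157.Par.ET_mul_le hR hv ha (Y := fun _ => a) (fun _ => le_rfl) hT (H := fun ps => F ps + C)
      fun ps => by linarith [(abs_le.1 (hF ps)).1]
    simp only [div_self ha.ne', List.map_const', List.prod_replicate, one_pow, mul_one] at h
    rw [Vale.Agent.P168.MP.ET_add, Vale.Agent.P168.MP.ET_add,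
      Vale.Agent.P168.MP.ET_const fun p => mul_pos (hv p) ha, Vale.Agent.P168.MP.ET_const hv] at h
    linarith
  refine (key w c hw hc).antisymm ?_
  have h := key (fun p => w p * c) c⁻¹ (fun p => mul_pos (hw p) hc) (inv_pos.2 hc)
  simpa only [mul_assoc, mul_inv_cancel₀ hc.ne', mul_one] using h

/-- the nested logarithm is below the logarithm of the mean -/
lemma log_nest_le_log_ET (hR : 1 ≤ R) (hw : ∀ p, 0 < w p) (hY : ∀ p, 0 < Y p) :
    log (nest (lin R) w Y R []) ≤ log (ET R (lin R) w [(0, 0)] fun ps => Y (ps.getD 0 [])) := by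
  have hm := ok_lin hR hw
  have key : ∀ (k : ℕ) (pre : List Ω), pre.length + k = R → nest (lin R) w Y k pre ≤ ext (lin R) w k pre Y := by
    intro k
    induction k with
    | zero => intro pre _; simp [nest]
    | succ k ih =>
      intro pre hk
      set M := lin R (pre.length + 1)
      have hM : 0 < M := hm.pos _ (by omega) (by omega)
      have hM1 : M ≤ 1 := by
        simp only [M, lin, if_pos (show pre.length + 1 ≤ R by omega)]
        exact (div_le_one (by exact_mod_cast hR)).2 (by exact_mod_cast (show pre.length + 1 ≤ R by omega))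
      have hn : ∀ o : Ω, 0 < nest (lin R) w Y k (pre ++ [o]) := fun o =>
        Vale.Agent.P168.MP.nest_pos hw hY k _
      rw [nest, Vale.Agent.P168.MP.ext_succ]
      refine (Real.rpow_arith_mean_le_arith_mean_rpow univ _ _
        (fun o _ => Vale.Agent.P168.MP.trans_nonneg hw k pre o) (Vale.Agent.P168.MP.trans_sum hw k pre)
        (fun o _ => rpow_nonneg (hn o).le _) ((one_le_div hM).2 hM1)).trans (sum_le_sum fun o _ => ?_)
      rw [one_div, rpow_rpow_inv (hn o).le hM.ne']
      exact mul_le_mul_of_nonneg_left (ih _ (by simp; omega)) (Vale.Agent.P168.MP.trans_nonneg hw k pre o)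
  rw [Vale.Agent.P168.MP.ET_single]
  exact log_le_log (Vale.Agent.P168.MP.nest_pos hw hY R []) (key R [] (by simp))

/-- a replica mean is measurable in the weight -/
lemma measurable_ET {X : Type*} [MeasurableSpace X] {W : X → List Ω → ℝ} (hW : ∀ p, Measurable fun x => W x p)
    (hpos : ∀ x p, 0 < W x p) (T : List (ℕ × ℕ)) (F : List (List Ω) → ℝ) :
    Measurable fun x => ET R (lin R) (W x) T F := by
  have hc : Continuous fun v : {v : List Ω → ℝ // ∀ p, 0 < v p} => ET R (lin R) v.1 T F :=
    P157.Par.continuous_ET (w := fun v : {v : List Ω → ℝ // ∀ p, 0 < v p} => v.1)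
      (fun p => (continuous_apply p).comp continuous_subtype_val) (fun v => v.2) R T fun _ => continuous_const
  exact hc.measurable.comp ((measurable_pi_iff.2 hW).subtype_mk (h := hpos))

/-- the nested logarithm is measurable in the factor -/
lemma measurable_log_nest {X : Type*} [MeasurableSpace X] (hw : ∀ p, 0 < w p) {W : X → List Ω → ℝ}
    (hW : ∀ p, Measurable fun x => W x p) (hpos : ∀ x p, 0 < W x p) :
    Measurable fun x => log (nest (lin R) w (W x) R []) := by
  have hc : Continuous fun v : {v : List Ω → ℝ // ∀ p, 0 < v p} => log (nest (lin R) w v.1 R []) :=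
    (P157.Par.continuous_nest (m := lin R) (w := fun _ => w) (fun _ => continuous_const) (fun _ => hw)
      (Y := fun v : {v : List Ω → ℝ // ∀ p, 0 < v p} => v.1)
      (fun p => (continuous_apply p).comp continuous_subtype_val) (fun v => v.2) R []).log
      fun v => (Vale.Agent.P168.MP.nest_pos hw v.2 R []).ne'
  exact hc.measurable.comp ((measurable_pi_iff.2 hW).subtype_mk (h := hpos))

end Vale.Agent.P166.Gen
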