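import Vale.Agent.P166.Gen.LowGainCore
import Vale.Agent.P166.Gen.LowGainTilt
import Vale.Agent.P157.Par.Close

/-!
# P166 G4: the gain of one site

The row is replaced by its Gaussian companion and the quadratic part by its mean; both cost one
first moment of the error functional. What is left is the cavity field of the profile.
-/

open MeasureTheory ProbabilityTheory Real Finset
open Vale.Agent.P150 (gauss dot)
open Vale.Agent.P168 (sg)
open Vale.Agent.P157.Full (qh prodW spinPr spinMean wbar leafB)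
open Vale.Agent.P157.Par (Prof adev devOf ovK ov cv fac)
open Vale.Agent.P168.MP (lin ET nest avg Valid valid_single ok_lin)

noncomputable section

namespace Vale.Agent.P166.Gen

variable {k N : ℕ}

lemma spin_eq_sg (b : Bool) : spin b = sg b := rfl

/-- the factor of the new spin, summed out -/
lemma avg_cE (e₀ : ℝ) (a c x : Fin k → ℝ) :
    avg (fun b : Bool => exp (cE e₀ a c x b)) = exp (e₀ + qG a x) * cosh (fG c x) := by
  simp only [avg, Fintype.sum_bool, Fintype.card_bool, cE, qG, fG, spin, if_true, Bool.false_eq_true, if_false,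
    cosh_eq, ← mul_div_assoc, mul_add, ← exp_add]
  push_cast
  ring_nf

/-- the mean of the new spin -/
lemma avg_cE_sg (e₀ : ℝ) (a c x : Fin k → ℝ) :
    avg (fun b : Bool => exp (cE e₀ a c x b) * sg b) = exp (e₀ + qG a x) * sinh (fG c x) := by
  simp only [avg, Fintype.sum_bool, Fintype.card_bool, cE, qG, fG, spin, sg, if_true, Bool.false_eq_true, if_false,
    sinh_eq, ← mul_div_assoc, mul_sub, ← exp_add]
  push_cast
  ring_nf

section spins

variable {Ω : Type} [Fintype Ω] [Nonempty Ω] {R : ℕ} {w : List Ω → ℝ} {rd : List Ω → Fin N → Bool}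

/-- the pair of new spins, with the spins summed out -/
lemma pair_spins (hR : 1 ≤ R) (hw : ∀ p, 0 < w p) (lab : Fin N → Fin k) (U : Mat N) (g : Fin N → ℝ)
    (e₀ : ℝ) (a c : Fin k → ℝ) (G : ℝ) {l : ℕ} (hl : l < R) :
    ET R (lin R) (prodW R w fun p b => exp (cE e₀ a c (fun j => xF lab U g j (rd p)) b)) [(0, l), (0, 0)] (spinPr R) =
      ET R (lin R) (fun p => w p * cosh (fG c fun j => xF lab U g j (rd p)) *
          exp (qG a (fun j => xF lab U g j (rd p)) - G)) [(0, l), (0, 0)]
        (fun ps => tanh (fG c fun j => xF lab U g j (rd (ps.getD 0 []))) *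
          tanh (fG c fun j => xF lab U g j (rd (ps.getD 1 [])))) ∧
    ∀ Ψ : List Ω → List Ω → ℝ, (∃ C, ∀ p p', |Ψ p p'| ≤ C) →
      ET R (lin R) (prodW R w fun p b => exp (cE e₀ a c (fun j => xF lab U g j (rd p)) b)) [(0, l), (0, 0)]
          (fun ps => Ψ ((ps.getD 0 []).map Prod.fst) ((ps.getD 1 []).map Prod.fst)) =
      ET R (lin R) (fun p => w p * cosh (fG c fun j => xF lab U g j (rd p)) *
          exp (qG a (fun j => xF lab U g j (rd p)) - G)) [(0, l), (0, 0)]
        (fun ps => Ψ (ps.getD 0 []) (ps.getD 1 [])) := by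
  set Y := fun (p : List Ω) (b : Bool) => exp (cE e₀ a c (fun j => xF lab U g j (rd p)) b)
  set th := fun p => tanh (fG c fun j => xF lab U g j (rd p))
  set v := fun p => w p * cosh (fG c fun j => xF lab U g j (rd p)) * exp (qG a (fun j => xF lab U g j (rd p)) - G)
  have hY : ∀ p b, 0 < Y p b := fun p b => exp_pos _
  have hv : ∀ p, 0 < v p := fun p => mul_pos (mul_pos (hw p) (cosh_pos _)) (exp_pos _)
  have hwb : wbar w Y = fun p => v p * exp (e₀ + G) := funext fun p => by
    simp only [wbar, Y, avg_cE, v]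
    rw [show e₀ + qG a (fun j => xF lab U g j (rd p)) =
      (qG a (fun j => xF lab U g j (rd p)) - G) + (e₀ + G) by ring, exp_add]
    ring
  have hsm : ∀ p (K : ℝ), spinMean Y (fun _ s => sg s * K) p = th p * K := fun p K => by
    simp only [spinMean, Y, th, avg_cE, tanh_eq_sinh_div_cosh]
    rw [show (fun s => exp (cE e₀ a c (fun j => xF lab U g j (rd p)) s) * (sg s * K)) =
      fun s => K * (exp (cE e₀ a c (fun j => xF lab U g j (rd p)) s) * sg s) from funext fun s => by ring]
    have : avg (fun s => K * (exp (cE e₀ a c (fun j => xF lab U g j (rd p)) s) * sg s)) =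
        K * avg (fun s => exp (cE e₀ a c (fun j => xF lab U g j (rd p)) s) * sg s) := by
      simp only [avg, ← mul_sum, mul_div_assoc]
    rw [this, avg_cE_sg]
    have := (exp_pos (e₀ + qG a fun j => xF lab U g j (rd p))).ne'
    have := (cosh_pos (fG c fun j => xF lab U g j (rd p))).ne'
    field_simp
  have hconst : ∀ p (K : ℝ), spinMean Y (fun _ _ => K) p = K := fun p K => by
    simp only [spinMean, avg, ← sum_mul]
    have : (∑ i, Y p i) / (Fintype.card Bool : ℝ) ≠ 0 := (Vale.Agent.P168.MP.avg_pos (hY p)).ne'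
    rw [mul_div_right_comm, mul_div_cancel_left₀ _ this]
  constructor
  · refine (P157.Full.ET_prodW_pair hl hw hY (fun _ s _ s' => sg s * sg s')).trans ?_
    rw [hwb]
    have e : ∀ ps : List (List Ω), spinMean Y (fun p s => spinMean Y (fun _ s' => sg s * sg s') (ps.getD 1 []))
        (ps.getD 0 []) = th (ps.getD 0 []) * th (ps.getD 1 []) := fun ps => by
      have e1 : ∀ (s : Bool), spinMean Y (fun _ s' => sg s * sg s') (ps.getD 1 []) = sg s * th (ps.getD 1 []) :=
        fun s => by
        rw [show (fun (_ : List Ω) s' => sg s * sg s') = fun _ s' => sg s' * sg s from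
          funext fun _ => funext fun s' => mul_comm _ _, hsm]
        ring
      simp only [e1, hsm]
    simp only [e]
    exact ET_scale hR hv (exp_pos _) (P157.Par.valid2 hl.le) (C := 1) fun ps => by
      rw [abs_mul]; exact mul_le_one₀ (abs_tanh_le_one' _) (abs_nonneg _) (abs_tanh_le_one' _)
  · intro Ψ hΨ
    obtain ⟨C, hC⟩ := hΨ
    refine (P157.Full.ET_prodW_pair hl hw hY (fun p _ p' _ => Ψ p p')).trans ?_
    rw [hwb]
    have e : ∀ ps : List (List Ω), spinMean Y (fun p s => spinMean Y (fun p' _ => Ψ p p') (ps.getD 1 []))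
        (ps.getD 0 []) = Ψ (ps.getD 0 []) (ps.getD 1 []) := fun ps => by
      have e1 : ∀ p p', spinMean Y (fun q _ => Ψ p q) p' = Ψ p p' := fun p p' => hconst p' (Ψ p p')
      simp only [e1]
      exact hconst _ (Ψ (ps.getD 0 []) (ps.getD 1 []))
    simp only [e]
    exact ET_scale hR hv (exp_pos _) (P157.Par.valid2 hl.le) (C := C) fun ps => hC _ _

/-- from the row to its companion -/
lemma pair_move (hR : 1 ≤ R) (hw : ∀ p, 0 < w p) (lab : Fin N → Fin k) (U : Mat N) (g : Fin N → ℝ)
    (a c : Fin k → ℝ) {G b : ℝ} (hb : 0 ≤ b) (ha : ∀ j, a j ≤ 0) (hG : |G| ≤ b) {l : ℕ} (hl : l ≤ R)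
    {F : List (List Ω) → ℝ} {C : ℝ} (hF : ∀ ps, |F ps| ≤ C) :
    |ET R (lin R) (fun p => w p * cosh (fG c fun j => xF lab U g j (rd p)) *
          exp (qG a (fun j => xF lab U g j (rd p)) - G)) [(0, l), (0, 0)] F -
      ET R (lin R) (fun p => w p * cosh (fG c fun j => yF lab U g j (rd p))) [(0, l), (0, 0)] F| ≤
      C * (6 * (exp (2 * b) + 2)) * ET R (lin R) w [(0, 0)] fun ps => gErr lab U a c G g (rd (ps.getD 0 [])) := by
  have hC : 0 ≤ C := (abs_nonneg _).trans (hF [])
  set Yx := fun p => cosh (fG c fun j => xF lab U g j (rd p))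
  set Yy := fun p => cosh (fG c fun j => yF lab U g j (rd p))
  set U' := fun p => qG a (fun j => xF lab U g j (rd p)) - G
  have hUb : ∀ p, U' p ≤ b := fun p => by
    have h0 : qG a (fun j => xF lab U g j (rd p)) ≤ 0 :=
      div_nonpos_of_nonpos_of_nonneg (sum_nonpos fun j _ => mul_nonpos_of_nonpos_of_nonneg (ha j) (sq_nonneg _))
        two_pos.le
    simp only [U']
    linarith [(abs_le.1 hG).1]
  have hT := P157.Par.valid2 (R := R) hl
  have h1 := ET_exp_le (Y := Yx) (U := U') hR hw (fun p => one_le_cosh _) hb hUb hT hF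
  have h2 := ET_between (Y := Yy) (Y' := Yx) hR hw (fun p => one_le_cosh _) (fun p => one_le_cosh _) hT hF
  refine (abs_sub_le _ (ET R (lin R) (fun p => w p * Yx p) [(0, l), (0, 0)] F) _).trans ((add_le_add h1 h2).trans ?_)
  set H := fun ps : List (List Ω) => gErr lab U a c G g (rd (ps.getD 0 []))
  have m1 : ET R (lin R) w [(0, 0)] (fun ps => |U' (ps.getD 0 [])| * Yx (ps.getD 0 [])) ≤ ET R (lin R) w [(0, 0)] H :=
    Vale.Agent.P168.MP.ET_mono hw fun ps => mul_le_mul (le_add_of_nonneg_right (abs_nonneg _))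
      (le_add_of_nonneg_right (cosh_pos _).le) (cosh_pos _).le (by positivity)
  have m2 : ET R (lin R) w [(0, 0)] (fun ps => |log (Yx (ps.getD 0 [])) - log (Yy (ps.getD 0 []))| *
      (Yy (ps.getD 0 []) + Yx (ps.getD 0 []))) ≤ ET R (lin R) w [(0, 0)] H :=
    Vale.Agent.P168.MP.ET_mono hw fun ps => by
      rw [add_comm (Yy _)]
      exact mul_le_mul ((abs_log_cosh_sub_le _ _).trans (le_add_of_nonneg_left (abs_nonneg _))) le_rfl
        (add_nonneg (cosh_pos _).le (cosh_pos _).le) (by positivity)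
  simp only [List.length_cons, List.length_nil]
  push_cast
  have p1 := mul_le_mul_of_nonneg_left m1 (show 0 ≤ C * (3 * 2) * (exp (2 * b) + 1) by positivity)
  have p2 := mul_le_mul_of_nonneg_left m2 (show 0 ≤ C * (3 * 2) by positivity)
  norm_num at p1 p2 ⊢
  linarith

/-- the products of the means of the two spins -/
lemma tanh_move (hR : 1 ≤ R) (hw : ∀ p, 0 < w p) (lab : Fin N → Fin k) (U : Mat N) (g : Fin N → ℝ)
    (a c : Fin k → ℝ) (G : ℝ) {l : ℕ} (hl : l ≤ R) :
    |ET R (lin R) (fun p => w p * cosh (fG c fun j => yF lab U g j (rd p))) [(0, l), (0, 0)]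
        (fun ps => tanh (fG c fun j => xF lab U g j (rd (ps.getD 0 []))) *
          tanh (fG c fun j => xF lab U g j (rd (ps.getD 1 [])))) -
      ET R (lin R) (fun p => w p * cosh (fG c fun j => yF lab U g j (rd p))) [(0, l), (0, 0)]
        (fun ps => tanh (fG c fun j => yF lab U g j (rd (ps.getD 0 []))) *
          tanh (fG c fun j => yF lab U g j (rd (ps.getD 1 []))))| ≤
      2 * ET R (lin R) w [(0, 0)] fun ps => gErr lab U a c G g (rd (ps.getD 0 [])) := by
  set Yy := fun p => cosh (fG c fun j => yF lab U g j (rd p))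
  set D := fun p => |(fG c fun j => xF lab U g j (rd p)) - fG c fun j => yF lab U g j (rd p)|
  have hv : ∀ p, 0 < w p * Yy p := fun p => mul_pos (hw p) (cosh_pos _)
  rw [← Vale.Agent.P168.MP.ET_sub]
  refine (Vale.Agent.P168.MP.ET_abs_le hv _ _).trans ?_
  refine (Vale.Agent.P168.MP.ET_mono hv (G := fun ps => D (ps.getD 0 []) + D (ps.getD 1 [])) fun ps => ?_).trans ?_
  · rw [show ∀ x y x' y' : ℝ, x * y - x' * y' = (x - x') * y + x' * (y - y') from fun _ _ _ _ => by ring]
    refine (abs_add_le _ _).trans (add_le_add ?_ ?_) <;> rw [abs_mul]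
    · exact (mul_le_of_le_one_right (abs_nonneg _) (abs_tanh_le_one' _)).trans (abs_tanh_sub_le _ _)
    · exact (mul_le_of_le_one_left (abs_nonneg _) (abs_tanh_le_one' _)).trans (abs_tanh_sub_le _ _)
  rw [Vale.Agent.P168.MP.ET_add, ET_pair_one hv hl Nat.two_pos D, ET_pair_one hv hl one_lt_two D, ← two_mul]
  refine mul_le_mul_of_nonneg_left ((P157.Par.ET_one_tilt hR hw one_pos (fun p => one_le_cosh _) (H := D)
    fun p => abs_nonneg _).trans (Vale.Agent.P168.MP.ET_mono hw fun ps => ?_)) two_pos.le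
  rw [div_one]
  exact mul_le_mul (le_add_of_nonneg_left (abs_nonneg _)) (le_add_of_nonneg_left (cosh_pos _).le) (cosh_pos _).le
    (by positivity)

/-- the logarithm of the gain, below -/
lemma value_move (hR : 1 ≤ R) (hw : ∀ p, 0 < w p) (lab : Fin N → Fin k) (U : Mat N) (g : Fin N → ℝ)
    (e₀ : ℝ) (a c : Fin k → ℝ) (G : ℝ) :
    log (nest (lin R) w (fun p => cosh (fG c fun j => yF lab U g j (rd p))) R []) + (e₀ + G) -
        ET R (lin R) w [(0, 0)] (fun ps => gErr lab U a c G g (rd (ps.getD 0 []))) ≤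
      log (nest (lin R) w (fun p => avg fun b : Bool => exp (cE e₀ a c (fun j => xF lab U g j (rd p)) b)) R []) := by
  set Yy := fun p => cosh (fG c fun j => yF lab U g j (rd p))
  set Fx := fun p => fG c fun j => xF lab U g j (rd p)
  set Fy := fun p => fG c fun j => yF lab U g j (rd p)
  set Gx := fun p => qG a fun j => xF lab U g j (rd p)
  have hYy : ∀ p, 0 < Yy p := fun p => cosh_pos _
  have hv : ∀ p, 0 < w p * Yy p := fun p => mul_pos (hw p) (hYy p)
  set A := fun p => (e₀ + G) + ((Gx p - G) + (log (cosh (Fx p)) - log (cosh (Fy p))))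
  have h := P157.Par.log_nest_add_ET_le (ok_lin hR hw) hYy A
  have e : (fun p => Yy p * exp (A p)) =
      fun p => avg fun b : Bool => exp (cE e₀ a c (fun j => xF lab U g j (rd p)) b) := funext fun p => by
    rw [avg_cE]
    show cosh (Fy p) * _ = exp (e₀ + Gx p) * cosh (Fx p)
    simp only [A]
    rw [show e₀ + G + (Gx p - G + (log (cosh (Fx p)) - log (cosh (Fy p)))) =
      (e₀ + Gx p) + (log (cosh (Fx p)) - log (cosh (Fy p))) by ring, exp_add, exp_sub, exp_log (cosh_pos _),
      exp_log (cosh_pos _)]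
    field_simp [(cosh_pos (Fy p)).ne']
  rw [e] at h
  refine le_trans ?_ h
  simp only [A]
  rw [Vale.Agent.P168.MP.ET_add, Vale.Agent.P168.MP.ET_const hv]
  set D := fun p => |Gx p - G| + |Fx p - Fy p|
  have h1 : -ET R (lin R) (fun p => w p * Yy p) [(0, 0)] (fun ps => D (ps.getD 0 [])) ≤
      ET R (lin R) (fun p => w p * Yy p) [(0, 0)] (fun ps => (Gx (ps.getD 0 []) - G) +
        (log (cosh (Fx (ps.getD 0 []))) - log (cosh (Fy (ps.getD 0 []))))) := by
    rw [← Vale.Agent.P168.MP.ET_neg]
    refine Vale.Agent.P168.MP.ET_mono hv fun ps => ?_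
    generalize ps.getD 0 [] = p
    have := (abs_le.1 (abs_log_cosh_sub_le (Fx p) (Fy p))).1
    simp only [D]
    linarith [neg_abs_le (Gx p - G)]
  have h2 : ET R (lin R) (fun p => w p * Yy p) [(0, 0)] (fun ps => D (ps.getD 0 [])) ≤
      ET R (lin R) w [(0, 0)] fun ps => gErr lab U a c G g (rd (ps.getD 0 [])) :=
    (P157.Par.ET_one_tilt hR hw one_pos (fun p => one_le_cosh _) (H := D) fun p => by
      simp only [D]; positivity).trans (Vale.Agent.P168.MP.ET_mono hw fun ps => by
      rw [div_one]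
      exact mul_le_mul_of_nonneg_left (le_add_of_nonneg_left (cosh_pos _).le) (by positivity))
  linarith

end spins

/-- the deviation of the covariance of the field -/
lemma cvec_dev [NeZero N] {Ω : Type} [Fintype Ω] [Nonempty Ω] {R : ℕ} (hR : 1 ≤ R) {w : List Ω → ℝ}
    (hw : ∀ p, 0 < w p) (lab : Fin N → Fin k) (U : Mat N) (rd : List Ω → Fin N → Bool) (c : Fin k → ℝ)
    (u : Fin k → ℕ → ℝ) {M : ℝ} (hc : ∀ j, |c j| ≤ M) (l : ℕ) :
    devOf R w (cv fun p => cvec lab U c (rd p)) (fun l => ∑ j, c j ^ 2 * u j l) l +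
      adev R w (cv fun p => cvec lab U c (rd p)) (fun l => ∑ j, c j ^ 2 * u j l) ≤
      M ^ 2 * cvDev R w lab U rd u l := by
  have h : ∀ l, devOf R w (cv fun p => cvec lab U c (rd p)) (fun l => ∑ j, c j ^ 2 * u j l) l ≤
      M ^ 2 * ∑ j, devOf R w (cvR lab U rd j) (u j) l := fun l => by
    simp only [devOf]
    rw [← Vale.Agent.P168.MP.ET_sum, ← Vale.Agent.P168.MP.ET_const_mul]
    refine Vale.Agent.P168.MP.ET_mono hw fun ps => ?_
    rw [cv, dot_cvec_cvec, ← sum_sub_distrib, mul_sum]
    refine (abs_sum_le_sum_abs _ _).trans (sum_le_sum fun j _ => ?_)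
    rw [← mul_sub, abs_mul, abs_of_nonneg (sq_nonneg _)]
    refine mul_le_mul_of_nonneg_right ?_ (abs_nonneg _)
    rw [← sq_abs]; exact pow_le_pow_left₀ (abs_nonneg _) (hc j) 2
  have hR' : (0:ℝ) < R := Nat.cast_pos.2 hR
  have h2 : adev R w (cv fun p => cvec lab U c (rd p)) (fun l => ∑ j, c j ^ 2 * u j l) ≤
      M ^ 2 * ∑ j, adev R w (cvR lab U rd j) (u j) := by
    refine (add_le_add (div_le_div_of_nonneg_right (sum_le_sum fun l _ => h l) hR'.le) (h R)).trans_eq ?_
    unfold adev
    rw [← mul_sum, sum_comm, mul_div_assoc, ← mul_add, sum_add_distrib, sum_div]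
  refine (add_le_add (h l) h2).trans_eq ?_
  rw [cvDev, ← mul_add, ← sum_add_distrib]

/-- the mean deviation of the variances is part of `cvDev` -/
lemma cvDev_ge [NeZero N] {Ω : Type} [Fintype Ω] [Nonempty Ω] {R : ℕ} {w : List Ω → ℝ}
    (hw : ∀ p, 0 < w p) (lab : Fin N → Fin k) (U : Mat N) (rd : List Ω → Fin N → Bool)
    (u : Fin k → ℕ → ℝ) (l : ℕ) :
    ET R (lin R) w [(0, 0)] (fun ps => ∑ j, |vB lab U j (rd (ps.getD 0 [])) - u j R|) ≤
      cvDev R w lab U rd u l := by
  rw [Vale.Agent.P168.MP.ET_sum]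
  refine sum_le_sum fun j _ => ?_
  refine le_trans ?_ (le_add_of_nonneg_left (P157.Par.devOf_nonneg hw _ _ l))
  refine le_trans (le_of_eq (devOf_top (cvR lab U rd j) (u j)).symm) ?_
  exact le_add_of_nonneg_left (div_nonneg (sum_nonneg fun i _ => P157.Par.devOf_nonneg hw _ _ i)
    (Nat.cast_nonneg R))

/-- **the gain of one site** -/
theorem stmt_gain : StmtGain := by
  intro B
  obtain ⟨Kg, hKg, hgain⟩ := gErr_int B
  set Ct := 2 * (6 * (exp (2 * |B|) + 2)) + 2
  refine ⟨Ct * Kg + 1, by positivity, fun k A κ hκ => ?_⟩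
  obtain ⟨Kgb, hKgb, hgi⟩ := hgain k A κ hκ
  set V := max (k * |A| ^ 3) |B|
  obtain ⟨K1, hK1, hval⟩ := P157.Par.value_close P157.Par.sm_logcosh V
  obtain ⟨K2, hK2, hpair⟩ := P157.Par.pair_close P157.Par.sm_logcosh V
  refine ⟨Ct * Kgb + (K1 + 2 * K2) * |A| ^ 2, by positivity, ?_⟩
  intro Ω _ _ R N _ hR lab U hU w hw rd e₀ a c u hfr ha0 ha hc hu haB hcB h err
  have hc' : ∀ j, |c j| ≤ |A| := fun j => (hc j).trans (le_abs_self A)
  set G := (∑ j, a j * u j R) / 2
  have huR : ∀ j, 0 ≤ u j R ∧ u j R ≤ A := fun j => (hu j).mem le_rfl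
  have hG : |G| ≤ |B| := by
    have : |∑ j, a j * u j R| ≤ B := by
      refine (abs_sum_le_sum_abs _ _).trans ((sum_le_sum fun j _ => le_of_eq ?_).trans haB)
      rw [abs_mul, abs_of_nonneg (huR j).1]
    rw [abs_div, abs_two]
    linarith [le_abs_self B, abs_nonneg (∑ j, a j * u j R)]
  -- the profile of the field
  have hh : Prof R h V :=
    ⟨sum_nonneg fun j _ => mul_nonneg (sq_nonneg _) (hu j).zero,
      fun i hi => sum_le_sum fun j _ => mul_le_mul_of_nonneg_left ((hu j).mono i hi) (sq_nonneg _),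
      (hcB.trans (le_abs_self B)).trans (le_max_right _ _)⟩
  set av := fun p => cvec lab U c (rd p)
  have hav : ∀ p, cv av p p ≤ V := fun p => by
    refine le_trans ?_ (le_max_left _ _)
    rw [cv, dot_cvec_cvec]
    refine (sum_le_sum (g := fun _ => |A| ^ 3) fun j _ => ?_).trans_eq (by simp)
    obtain ⟨h0, h1⟩ := vB_bounds hU (hfr j) (rd p)
    calc c j ^ 2 * (pov lab U j (rd p) (rd p) / freq lab j) ≤ |A| ^ 2 * |A| := by
          refine mul_le_mul ?_ (h1.trans (le_abs_self A)) h0 (sq_nonneg _)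
          rw [← sq_abs]; exact pow_le_pow_left₀ (abs_nonneg _) (hc' j) 2
      _ = _ := by ring
  have efac : ∀ g p, fac (fun x => log (cosh x)) av g p = cosh (fG c fun j => yF lab U g j (rd p)) := fun g p => by
    rw [fG_yF, fac, exp_log (cosh_pos _)]
  have eexp : (fun y => exp (log (cosh y))) = cosh := funext fun y => exp_log (cosh_pos y)
  -- the error functional
  set H := fun g p => gErr lab U a c G g (rd p)
  set s := √(∑ j, a j ^ 2 * u j R ^ 2) + κ
  set dev := fun l => cvDev R w lab U rd u l + 1 / √(N : ℝ)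
  have hHp : ∀ p, Integrable (fun g => H g p) (gauss (Fin N)) ∧ ∫ g, H g p ∂gauss (Fin N) ≤
      Kg * s + Kgb * ((∑ j, |vB lab U j (rd p) - u j R|) + 1 / √(N : ℝ)) := fun p =>
    hgi lab U hU hfr a c ha hc (fun j => u j R) huR haB hcB (rd p)
  obtain ⟨iH, eH⟩ := P157.Par.integral_ET_one (R := R) (m := lin R) (w := w) (μ := gauss (Fin N)) H
    fun p => (hHp p).1
  set I := ∫ g, ET R (lin R) w [(0, 0)] (fun ps => H g (ps.getD 0 [])) ∂gauss (Fin N)
  have hI : ∀ l, I ≤ Kg * s + Kgb * dev l := fun l => by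
    rw [eH]
    refine (Vale.Agent.P168.MP.ET_mono hw fun ps => (hHp _).2).trans ?_
    rw [Vale.Agent.P168.MP.ET_add, Vale.Agent.P168.MP.ET_const hw, Vale.Agent.P168.MP.ET_const_mul,
      Vale.Agent.P168.MP.ET_add, Vale.Agent.P168.MP.ET_const hw]
    simp only [dev]
    have := mul_le_mul_of_nonneg_left (cvDev_ge (R := R) hw lab U rd u l) hKgb
    linarith
  have hI0 : 0 ≤ I := integral_nonneg fun g => Vale.Agent.P168.MP.ET_nonneg hw fun ps => gErr_nonneg ..
  have hdev0 : ∀ l, 0 ≤ dev l := fun l => add_nonneg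
    (sum_nonneg fun j _ => add_nonneg (P157.Par.devOf_nonneg hw _ _ l) (add_nonneg
      (div_nonneg (sum_nonneg fun i _ => P157.Par.devOf_nonneg hw _ _ i) (Nat.cast_nonneg R))
      (P157.Par.devOf_nonneg hw _ _ R))) (by positivity)
  have hcd : ∀ l, devOf R w (cv av) h l + adev R w (cv av) h ≤ |A| ^ 2 * dev l := fun l =>
    (cvec_dev hR hw lab U rd c u hc' l).trans (mul_le_mul_of_nonneg_left (le_add_of_nonneg_right (by positivity))
      (sq_nonneg _))
  have hs0 : 0 ≤ s := add_nonneg (Real.sqrt_nonneg _) hκ.le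
  have hCt : 1 ≤ Ct := by simp only [Ct]; linarith [exp_pos (2 * |B|)]
  -- the measurability of the factors
  have hxF : ∀ p, Measurable fun g => fun j => xF lab U g j (rd p) := fun p =>
    measurable_pi_iff.2 fun j => measurable_xF lab U j (rd p)
  have hcEm : ∀ p b, Measurable fun g => exp (cE e₀ a c (fun j => xF lab U g j (rd p)) b) := fun p b => by
    unfold cE; fun_prop
  have hYyc : ∀ p, Continuous fun g => cosh (fG c fun j => yF lab U g j (rd p)) := fun p => by
    simp only [fG_yF]; exact continuous_cosh.comp (P157.Par.continuous_dot_left _)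
  refine ⟨?_, fun l hl q hq => ?_⟩
  · -- the value
    set Yb := fun g p => avg fun b : Bool => exp (cE e₀ a c (fun j => xF lab U g j (rd p)) b)
    have hYb0 : ∀ g p, 0 < Yb g p := fun g p => Vale.Agent.P168.MP.avg_pos fun b => exp_pos _
    have hYbm : ∀ p, Measurable fun g => Yb g p := fun p => by
      simp only [Yb, avg, Fintype.sum_bool]
      exact ((hcEm p true).add (hcEm p false)).div_const _
    set bb := |e₀| + (∑ j : Fin k, |a j| * (N : ℝ)) + ∑ j : Fin k, |c j| * (N : ℝ)
    have hcE : ∀ g p b, |cE e₀ a c (fun j => xF lab U g j (rd p)) b| ≤ bb := fun g p b => by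
      have hN1 : (1:ℝ) ≤ N := by exact_mod_cast NeZero.pos N
      have hx2 : ∀ j, xF lab U g j (rd p) ^ 2 ≤ N := fun j => xF_sq_le hU g j (rd p)
      have hx1 : ∀ j, |xF lab U g j (rd p)| ≤ N := fun j => by
        refine abs_le_of_sq_le_sq ((hx2 j).trans ?_) (Nat.cast_nonneg N)
        nlinarith
      refine (abs_add_le _ _).trans ?_
      rw [show bb = |e₀| + ((∑ j : Fin k, |a j| * (N : ℝ)) + ∑ j : Fin k, |c j| * (N : ℝ)) from add_assoc _ _ _]
      refine add_le_add le_rfl ((abs_add_le _ _).trans (add_le_add ?_ ?_))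
      · rw [abs_div, abs_two]
        refine (half_le_self (abs_nonneg _)).trans ((abs_sum_le_sum_abs _ _).trans (sum_le_sum fun j _ => ?_))
        rw [abs_mul, abs_pow, sq_abs]
        exact mul_le_mul_of_nonneg_left (hx2 j) (abs_nonneg _)
      · rw [abs_mul, show |spin b| = 1 by cases b <;> simp [spin], one_mul]
        refine (abs_sum_le_sum_abs _ _).trans (sum_le_sum fun j _ => ?_)
        rw [abs_mul]
        exact mul_le_mul_of_nonneg_left (hx1 j) (abs_nonneg _)
    have hYbb : ∀ g p, exp (-bb) ≤ Yb g p ∧ Yb g p ≤ exp bb := fun g p =>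
      ⟨(Vale.Agent.P168.MP.avg_const (Ω := Bool) _).symm.trans_le (Vale.Agent.P168.MP.avg_le_avg fun b =>
          exp_le_exp.2 (abs_le.1 (hcE g p b)).1),
        (Vale.Agent.P168.MP.avg_le_avg fun b => exp_le_exp.2 (abs_le.1 (hcE g p b)).2).trans_eq
          (Vale.Agent.P168.MP.avg_const (Ω := Bool) _)⟩
    have iL : Integrable (fun g => log (nest (lin R) w (Yb g) R [])) (gauss (Fin N)) :=
      Integrable.of_bound (measurable_log_nest hw hYbm hYb0).aestronglyMeasurable bb
        (Filter.Eventually.of_forall fun g => by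
          rw [Real.norm_eq_abs]; exact P157.Par.abs_log_nest_le (ok_lin hR hw) (hYbb g))
    have iY : Integrable (fun g => log (nest (lin R) w (fun p => cosh (fG c fun j => yF lab U g j (rd p))) R []))
        (gauss (Fin N)) := by
      have hAb : ∀ p i, |av p i| ≤ ∑ σ : Fin N → Bool, ∑ i, |cvec lab U c σ i| := fun p i =>
        (single_le_sum (f := fun i => |cvec lab U c (rd p) i|) (fun i _ => abs_nonneg _) (mem_univ i)).trans
          (single_le_sum (f := fun σ => ∑ i, |cvec lab U c σ i|) (fun σ _ => sum_nonneg fun i _ => abs_nonneg _)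
            (mem_univ (rd p)))
      refine (P157.Par.integrable_log_coshY hR hw hAb).congr (Filter.Eventually.of_forall fun g => ?_)
      exact congrArg (fun Z => log (nest (lin R) w Z R [])) (funext (efac g))
    have hv := hval hR hw hav hh
    have efac' : ∀ g, fac (fun x => log (cosh x)) av g = fun p => cosh (fG c fun j => yF lab U g j (rd p)) :=
      fun g => funext (efac g)
    simp only [efac', eexp] at hv
    have hpt : ∀ g, log (nest (lin R) w (fun p => cosh (fG c fun j => yF lab U g j (rd p))) R []) + (e₀ + G) -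
        ET R (lin R) w [(0, 0)] (fun ps => H g (ps.getD 0 [])) ≤ log (nest (lin R) w (Yb g) R []) := fun g =>
      value_move hR hw lab U g e₀ a c G
    have i1 := iY.fun_add (integrable_const (e₀ + G))
    have hint := integral_mono (i1.sub' iH) iL hpt
    rw [integral_sub i1 iH, integral_add iY (integrable_const _), integral_const, probReal_univ, one_smul] at hint
    have h1 : adev R w (cv av) h ≤ |A| ^ 2 * dev R :=
      le_trans (le_add_of_nonneg_left (P157.Par.devOf_nonneg hw _ _ R)) (hcd R)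
    have h2 := mul_le_mul_of_nonneg_left h1 hK1
    have h3 : I ≤ Ct * I := le_mul_of_one_le_left hI0 hCt
    have h4 := mul_le_mul_of_nonneg_left (hI R) (zero_le_one.trans hCt)
    have h5 : 0 ≤ 2 * K2 * (|A| ^ 2 * dev R) := mul_nonneg (by positivity) (mul_nonneg (sq_nonneg _) (hdev0 R))
    show e₀ + G + P157.Par.Phi cosh R (lin R) h -
      ((Ct * Kg + 1) * s + (Ct * Kgb + (K1 + 2 * K2) * |A| ^ 2) * dev R) ≤ _
    linarith [(abs_le.1 hv).1]
  · -- pairs
    set W := fun g => prodW R w fun p b => exp (cE e₀ a c (fun j => xF lab U g j (rd p)) b)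
    have hW0 : ∀ g p, 0 < W g p := fun g p => mul_pos (hw _) (exp_pos _)
    have hWm : ∀ p, Measurable fun g => W g p := fun p => (hcEm _ _).const_mul _
    set v := fun g p => w p * cosh (fG c fun j => yF lab U g j (rd p))
    have hv0 : ∀ g p, 0 < v g p := fun g p => mul_pos (hw p) (cosh_pos _)
    have hvc : ∀ p, Continuous fun g => v g p := fun p => continuous_const.mul (hYyc p)
    set Th := fun g (ps : List (List Ω)) =>
      tanh (fG c fun j => yF lab U g j (rd (ps.getD 0 []))) * tanh (fG c fun j => yF lab U g j (rd (ps.getD 1 [])))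
    have hTh : ∀ g ps, |Th g ps| ≤ 1 := fun g ps => by
      rw [abs_mul]; exact mul_le_one₀ (abs_tanh_le_one' _) (abs_nonneg _) (abs_tanh_le_one' _)
    have hThc : ∀ ps, Continuous fun g => Th g ps := fun ps => by
      simp only [Th, fG_yF, tanh_eq_sinh_div_cosh]
      exact ((continuous_sinh.comp (P157.Par.continuous_dot_left _)).div
        (continuous_cosh.comp (P157.Par.continuous_dot_left _)) fun _ => (cosh_pos _).ne').mul
        ((continuous_sinh.comp (P157.Par.continuous_dot_left _)).div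
        (continuous_cosh.comp (P157.Par.continuous_dot_left _)) fun _ => (cosh_pos _).ne')
    have iy : ∀ (F : (Fin N → ℝ) → List (List Ω) → ℝ) (C : ℝ), (∀ ps, Continuous fun g => F g ps) →
        (∀ g ps, |F g ps| ≤ C) →
        Integrable (fun g => ET R (lin R) (v g) [(0, l), (0, 0)] (F g)) (gauss (Fin N)) := fun F C hFc hFb =>
      Integrable.of_bound (P157.Par.continuous_ET (m := lin R) hvc hv0 R _ hFc).aestronglyMeasurable C
        (Filter.Eventually.of_forall fun g => by
          rw [Real.norm_eq_abs]; exact Vale.Agent.P168.MP.ET_bound (hv0 g) (hFb g))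
    have hGam : P157.Par.Gamma (fun y => exp (log (cosh y))) (fun x => sinh x / cosh x) R (lin R) h l = qh R h l := by
      rw [qh, if_pos hl, eexp, show (fun x => sinh x / cosh x) = tanh from funext fun x => (tanh_eq_sinh_div_cosh x).symm]
    have hT := P157.Par.valid2 (R := R) hl.le
    have hd := hcd l
    have hd0 := hdev0 l
    set ed := devOf R w (cv av) h l + adev R w (cv av) h
    have hKd := mul_le_mul_of_nonneg_left hd hK2
    constructor
    · have hp := (hpair hR hw hav hh hl.le (Ψ := fun _ _ => 1) (C := 1) fun _ _ => by simp).1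
      simp only [hGam] at hp
      simp only [one_mul, Vale.Agent.P168.MP.ET_const hw, mul_one, efac, ← tanh_eq_sinh_div_cosh] at hp
      have edot : ∀ g p, dot (av p) g = fG c fun j => yF lab U g j (rd p) := fun g p => (fG_yF lab U c g (rd p)).symm
      simp only [edot] at hp
      set L := fun g => ET R (lin R) (W g) [(0, l), (0, 0)] (spinPr R)
      have hL : ∀ g, |L g - ET R (lin R) (v g) [(0, l), (0, 0)] (Th g)| ≤
          Ct * ET R (lin R) w [(0, 0)] fun ps => H g (ps.getD 0 []) := fun g => by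
        simp only [L, W]
        rw [(pair_spins hR hw lab U g e₀ a c G hl).1]
        refine (abs_sub_le _ _ _).trans ((add_le_add
          (pair_move hR hw lab U g a c (abs_nonneg B) ha0 hG hl.le (C := 1) fun ps => ?_)
          (tanh_move hR hw lab U g a c G hl.le)).trans ?_)
        · rw [abs_mul]; exact mul_le_one₀ (abs_tanh_le_one' _) (abs_nonneg _) (abs_tanh_le_one' _)
        · have h0 : 0 ≤ ET R (lin R) w [(0, 0)] fun ps => H g (ps.getD 0 []) :=
            Vale.Agent.P168.MP.ET_nonneg hw fun ps => gErr_nonneg ..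
          rw [one_mul, ← add_mul]
          exact mul_le_mul_of_nonneg_right (by simp only [Ct]; linarith [exp_pos (2 * |B|)]) h0
      have hLb : ∀ g, |L g| ≤ 1 := fun g => Vale.Agent.P168.MP.ET_bound (hW0 g) fun ps => by
        rw [spinPr, abs_mul]; exact le_of_eq (by cases leafB R (ps.getD 0 []) <;> cases leafB R (ps.getD 1 []) <;> simp [sg])
      have iLg : Integrable L (gauss (Fin N)) := Integrable.of_bound
        (measurable_ET hWm hW0 _ _).aestronglyMeasurable 1 (Filter.Eventually.of_forall fun g => by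
          rw [Real.norm_eq_abs]; exact hLb g)
      have iT := iy Th 1 hThc hTh
      have h1 : |(∫ g, L g ∂gauss (Fin N)) - ∫ g, ET R (lin R) (v g) [(0, l), (0, 0)] (Th g) ∂gauss (Fin N)| ≤
          Ct * I := by
        rw [← integral_sub iLg iT]
        refine abs_integral_le_integral_abs.trans ((integral_mono (iLg.sub' iT).abs (iH.const_mul Ct) hL).trans_eq ?_)
        rw [integral_const_mul]
      refine (abs_sub_le _ _ _).trans ((add_le_add h1 hp).trans ?_)
      have h4 := mul_le_mul_of_nonneg_left (hI l) (zero_le_one.trans hCt)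
      have h5 : 0 ≤ K1 * (|A| ^ 2 * dev l) := mul_nonneg hK1 (mul_nonneg (sq_nonneg _) hd0)
      have h6 : 0 ≤ K2 * (|A| ^ 2 * dev l) := mul_nonneg hK2 (mul_nonneg (sq_nonneg _) hd0)
      show _ ≤ (Ct * Kg + 1) * s + (Ct * Kgb + (K1 + 2 * K2) * |A| ^ 2) * dev l
      linarith
    · set Ψ := fun p p' => |ov (rd p) (rd p') - q l|
      have hΨ : ∀ p p', |Ψ p p'| ≤ 2 := fun p p' => by
        rw [abs_abs]
        exact (abs_sub _ _).trans (by linarith [P157.Par.abs_ov_le (rd p) (rd p')])
      have hp := (hpair hR hw hav hh hl.le (Ψ := Ψ) (C := 2) hΨ).2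
      simp only [efac] at hp
      set L := fun g => ET R (lin R) (W g) [(0, l), (0, 0)]
        (fun ps => Ψ ((ps.getD 0 []).map Prod.fst) ((ps.getD 1 []).map Prod.fst))
      have hL : ∀ g, L g ≤ ET R (lin R) (v g) [(0, l), (0, 0)] (fun ps => Ψ (ps.getD 0 []) (ps.getD 1 [])) +
          Ct * ET R (lin R) w [(0, 0)] fun ps => H g (ps.getD 0 []) := fun g => by
        simp only [L, W]
        rw [(pair_spins hR hw lab U g e₀ a c G hl).2 Ψ ⟨2, hΨ⟩]
        have hm := (abs_le.1 (pair_move (rd := rd) (F := fun ps => Ψ (ps.getD 0 []) (ps.getD 1 [])) hR hw lab U g a c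
          (abs_nonneg B) ha0 hG hl.le (C := 2) fun ps => hΨ _ _)).2
        have h0 : 0 ≤ ET R (lin R) w [(0, 0)] fun ps => H g (ps.getD 0 []) :=
          Vale.Agent.P168.MP.ET_nonneg hw fun ps => gErr_nonneg ..
        have hb : (2:ℝ) * (6 * (exp (2 * |B|) + 2)) * ET R (lin R) w [(0, 0)] (fun ps => H g (ps.getD 0 [])) ≤
            Ct * ET R (lin R) w [(0, 0)] (fun ps => H g (ps.getD 0 [])) :=
          mul_le_mul_of_nonneg_right (by simp only [Ct]; linarith) h0
        simp only [H] at hb ⊢
        show ET R (lin R) _ _ _ ≤ _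
        linarith
      have iLg : Integrable L (gauss (Fin N)) := Integrable.of_bound
        (measurable_ET hWm hW0 _ _).aestronglyMeasurable 2 (Filter.Eventually.of_forall fun g => by
          rw [Real.norm_eq_abs]; exact Vale.Agent.P168.MP.ET_bound (hW0 g) fun ps => hΨ _ _)
      have iP := iy (fun _ ps => Ψ (ps.getD 0 []) (ps.getD 1 [])) 2 (fun _ => continuous_const) fun g ps => hΨ _ _
      show ∫ g, L g ∂gauss (Fin N) ≤ _
      refine (integral_mono iLg (iP.fun_add (iH.const_mul Ct)) hL).trans ?_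
      rw [integral_add iP (iH.const_mul Ct), integral_const_mul]
      have hdl : ET R (lin R) w [(0, l), (0, 0)] (fun ps => Ψ (ps.getD 0 []) (ps.getD 1 [])) ≤
          (Ct * Kg + 1) * devOf R w (ovK rd) q l :=
        le_mul_of_one_le_left (P157.Par.devOf_nonneg hw (ovK rd) q l) (le_add_of_nonneg_left (by positivity))
      have h4 := mul_le_mul_of_nonneg_left (hI l) (zero_le_one.trans hCt)
      have h5 : 0 ≤ K1 * (|A| ^ 2 * dev l) := mul_nonneg hK1 (mul_nonneg (sq_nonneg _) hd0)
      show _ ≤ _ + ((Ct * Kg + 1) * s + (Ct * Kgb + (K1 + 2 * K2) * |A| ^ 2) * dev l)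
      linarith [(abs_le.1 hp).2]

end Vale.Agent.P166.Gen
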