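import Vale.Agent.P166.Gen.LowGainMom
import Vale.Agent.P157.Par.Taylor

/-!
# P166 G4: the error functional of one gain

`gErr` collects, at one configuration, the fluctuation of the quadratic part and the distance of
the field from its Gaussian companion, weighted by the factor of the new spin.
-/

open MeasureTheory ProbabilityTheory Real Finset
open Vale.Agent.P150 (gauss dot)

noncomputable section

namespace Vale.Agent.P166.Gen

variable {k N : ℕ}

/-- quadratic part at the rows `x` -/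
def qG (a : Fin k → ℝ) (x : Fin k → ℝ) : ℝ := (∑ j, a j * x j ^ 2) / 2

/-- field at the rows `x` -/
def fG (c : Fin k → ℝ) (x : Fin k → ℝ) : ℝ := ∑ j, c j * x j

/-- the error functional -/
def gErr (lab : Fin N → Fin k) (U : Mat N) (a c : Fin k → ℝ) (G : ℝ) (g : Fin N → ℝ) (σ : Fin N → Bool) : ℝ :=
  (|qG a (fun j => xF lab U g j σ) - G| +
      |fG c (fun j => xF lab U g j σ) - fG c (fun j => yF lab U g j σ)|) *
    (cosh (fG c fun j => xF lab U g j σ) + cosh (fG c fun j => yF lab U g j σ))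

lemma gErr_nonneg (lab : Fin N → Fin k) (U : Mat N) (a c : Fin k → ℝ) (G : ℝ) (g : Fin N → ℝ)
    (σ : Fin N → Bool) : 0 ≤ gErr lab U a c G g σ :=
  mul_nonneg (add_nonneg (abs_nonneg _) (abs_nonneg _)) (add_nonneg (cosh_pos _).le (cosh_pos _).le)

lemma abs_log_cosh_sub_le (x y : ℝ) : |log (cosh x) - log (cosh y)| ≤ |x - y| := by
  simpa using P157.Par.lip_of_deriv (g := fun x => log (cosh x)) (g' := fun x => sinh x / cosh x) (D := 1)
    P157.Par.sm_logcosh.d0 (fun x => by
      rw [abs_div, abs_of_pos (cosh_pos x), div_le_one (cosh_pos x), abs_le, sinh_eq, cosh_eq]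
      constructor <;> linarith [exp_pos x, exp_pos (-x)]) x y

lemma abs_tanh_le_one' (x : ℝ) : |tanh x| ≤ 1 := by
  rw [tanh_eq_sinh_div_cosh, abs_div, abs_of_pos (cosh_pos x), div_le_one (cosh_pos x), abs_le, sinh_eq, cosh_eq]
  constructor <;> linarith [exp_pos x, exp_pos (-x)]

lemma abs_tanh_sub_le (x y : ℝ) : |tanh x - tanh y| ≤ |x - y| := by
  have h := P157.Par.lip_of_deriv (g := fun x => sinh x / cosh x) (g' := fun x => 1 / cosh x ^ 2) (D := 1)
    P157.Par.sm_logcosh.d1 (fun x => by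
      have h1 := one_le_pow₀ (n := 2) (one_le_cosh x)
      rw [abs_of_nonneg (by positivity), div_le_iff₀ (by positivity), one_mul]
      exact h1) x y
  simpa [tanh_eq_sinh_div_cosh] using h

lemma cosh_le_exp_abs (x : ℝ) : cosh x ≤ exp |x| := by
  rw [← cosh_abs, cosh_eq]
  linarith [exp_le_exp.2 (show -|x| ≤ |x| by linarith [abs_nonneg x])]

lemma abs_cosh_sub_le {x y M : ℝ} (hx : |x| ≤ M) (hy : |y| ≤ M) : |cosh x - cosh y| ≤ |x - y| * exp M := by
  have h := (convex_Icc (-M) M).norm_image_sub_le_of_norm_hasDerivWithin_le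
    (f := cosh) (f' := sinh) (C := exp M) (fun z _ => (hasDerivAt_cosh z).hasDerivWithinAt)
    (fun z hz => by
      rw [Real.norm_eq_abs]
      refine le_trans ?_ ((cosh_le_exp_abs z).trans (exp_le_exp.2 (abs_le.2 hz)))
      rw [abs_le, sinh_eq, cosh_eq]
      constructor <;> linarith [exp_pos z, exp_pos (-z)])
    (abs_le.1 hy) (abs_le.1 hx)
  rw [Real.norm_eq_abs, Real.norm_eq_abs] at h
  rwa [mul_comm]

lemma continuous_qG_yF (lab : Fin N → Fin k) (U : Mat N) (a : Fin k → ℝ) (σ : Fin N → Bool) :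
    Continuous fun g => qG a (fun j => yF lab U g j σ) :=
  (continuous_finsetSum _ fun j _ => continuous_const.mul ((continuous_yF lab U j σ).pow 2)).div_const 2

lemma fG_yF (lab : Fin N → Fin k) (U : Mat N) (c : Fin k → ℝ) (g : Fin N → ℝ) (σ : Fin N → Bool) :
    fG c (fun j => yF lab U g j σ) = dot (cvec lab U c σ) g := (dot_cvec lab U c σ g).symm

lemma measurable_gErr (lab : Fin N → Fin k) (U : Mat N) (a c : Fin k → ℝ) (G : ℝ) (σ : Fin N → Bool) :
    Measurable fun g => gErr lab U a c G g σ := by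
  unfold gErr qG fG
  simp only [cosh_eq]
  fun_prop

/-- the error functional against the Gaussian companion -/
lemma gErr_le [NeZero N] {A M B : ℝ} (lab : Fin N → Fin k) (U : Mat N) (hA : ∀ j, 1 ≤ A * freq lab j)
    (a c : Fin k → ℝ) (G : ℝ) (hM : 0 ≤ M) (hB : 0 ≤ B) (ha : ∀ j, |a j| ≤ M) (hc : ∀ j, |c j| ≤ M)
    (hG : |G| ≤ B) (g : Fin N → ℝ) (σ : Fin N → Bool) :
    gErr lab U a c G g σ ≤ 2 * (|qG a (fun j => yF lab U g j σ) - G| * cosh (fG c fun j => yF lab U g j σ)) +
      (2 * M + (M + B) * M + 2 * M) * (rdev univ lab g * exp ((2 + M) * size univ lab U g σ)) := by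
  set x := fun j => xF lab U g j σ
  set y := fun j => yF lab U g j σ
  set S := size univ lab U g σ
  set D := rdev univ lab g
  have hS : 0 ≤ S := size_nonneg ..
  have hD : 0 ≤ D := rdev_nonneg ..
  have he : 1 ≤ exp S := one_le_exp hS
  have hS1 : S ≤ exp S := by linarith [add_one_le_exp S]
  have hS2 : S ^ 2 ≤ 2 * exp S := by
    have := Real.quadratic_le_exp_of_nonneg hS
    linarith
  have hx : ∀ j, |x j| ≤ S := fun j => (le_size lab U g σ (mem_univ j)).1
  have hy : ∀ j, |y j| ≤ S := fun j => (le_size lab U g σ (mem_univ j)).2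
  have hxs : ∑ j, |x j| ≤ S := sum_le_sum fun j _ => le_add_of_nonneg_right (abs_nonneg _)
  have hys : ∑ j, |y j| ≤ S := sum_le_sum fun j _ => le_add_of_nonneg_left (abs_nonneg _)
  have hF : ∀ z : Fin k → ℝ, ∑ j, |z j| ≤ S → |fG c z| ≤ M * S := fun z hz => by
    refine (abs_sum_le_sum_abs _ _).trans ((sum_le_sum fun j _ => ?_).trans (le_of_eq_of_le (mul_sum _ _ _).symm
      (mul_le_mul_of_nonneg_left hz hM)))
    rw [abs_mul]; exact mul_le_mul_of_nonneg_right (hc j) (abs_nonneg _)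
  have hd : ∀ j, |rdv lab j g| ≤ D := fun j =>
    single_le_sum (f := fun j => |rdv lab j g|) (fun i _ => abs_nonneg _) (mem_univ j)
  have h1 : |fG c x - fG c y| ≤ M * exp S * D := by
    rw [fG, fG, ← sum_sub_distrib]
    refine (abs_sum_le_sum_abs _ _).trans ((sum_le_sum (g := fun j => M * (|x j| * D)) fun j _ => ?_).trans ?_)
    · rw [← mul_sub, abs_mul]
      exact mul_le_mul (hc j) ((xy_close (hA j) g σ).1.trans (mul_le_mul_of_nonneg_left (hd j) (abs_nonneg _)))
        (abs_nonneg _) hM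
    · rw [← mul_sum, ← sum_mul, mul_assoc]
      exact mul_le_mul_of_nonneg_left (mul_le_mul_of_nonneg_right (hxs.trans hS1) hD) hM
  have h2 : |qG a x - qG a y| ≤ M * exp S * D := by
    rw [qG, qG, ← sub_div, ← sum_sub_distrib, abs_div, abs_two, div_le_iff₀ two_pos]
    refine (abs_sum_le_sum_abs _ _).trans ((sum_le_sum (g := fun j => M * (S * |x j| * D)) fun j _ => ?_).trans ?_)
    · rw [← mul_sub, abs_mul, (xy_close (hA j) g σ).2]
      refine mul_le_mul (ha j) (mul_le_mul ?_ (hd j) (abs_nonneg _) (by positivity)) (by positivity) hM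
      rw [← sq_abs, sq]
      exact mul_le_mul_of_nonneg_right (hx j) (abs_nonneg _)
    · rw [← mul_sum, ← sum_mul, ← mul_sum]
      have h : S * ∑ j, |x j| ≤ 2 * exp S :=
        (mul_le_mul_of_nonneg_left hxs hS).trans (by rw [← sq]; exact hS2)
      calc M * (S * (∑ j, |x j|) * D) ≤ M * (2 * exp S * D) :=
            mul_le_mul_of_nonneg_left (mul_le_mul_of_nonneg_right h hD) hM
        _ = _ := by ring
  have h3 : |qG a y - G| ≤ (M + B) * exp S := by
    have hq : |qG a y| ≤ M * exp S := by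
      rw [qG, abs_div, abs_two, div_le_iff₀ two_pos]
      refine (abs_sum_le_sum_abs _ _).trans ((sum_le_sum (g := fun j => M * (S * |y j|)) fun j _ => ?_).trans ?_)
      · rw [abs_mul, abs_pow, sq_abs]
        refine mul_le_mul (ha j) ?_ (sq_nonneg _) hM
        rw [← sq_abs, sq]
        exact mul_le_mul_of_nonneg_right (hy j) (abs_nonneg _)
      · rw [← mul_sum, ← mul_sum, mul_assoc]
        refine mul_le_mul_of_nonneg_left ?_ hM
        rw [mul_comm _ (2:ℝ)]
        exact (mul_le_mul_of_nonneg_left hys hS).trans (by rw [← sq]; exact hS2)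
    calc |qG a y - G| ≤ |qG a y| + |G| := abs_sub _ _
      _ ≤ M * exp S + B * exp S := add_le_add hq (hG.trans (le_mul_of_one_le_right hB he))
      _ = _ := by ring
  set E := exp (M * S)
  have hcx : cosh (fG c x) ≤ E := (cosh_le_exp_abs _).trans (exp_le_exp.2 (hF x hxs))
  have hcy : cosh (fG c y) ≤ E := (cosh_le_exp_abs _).trans (exp_le_exp.2 (hF y hys))
  have h4 : |cosh (fG c x) - cosh (fG c y)| ≤ M * exp S * D * E :=
    (abs_cosh_sub_le (hF x hxs) (hF y hys)).trans (mul_le_mul_of_nonneg_right h1 (exp_pos _).le)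
  have px := (cosh_pos (fG c x)).le
  have py := (cosh_pos (fG c y)).le
  have h5 : |qG a x - G| ≤ |qG a x - qG a y| + |qG a y - G| := abs_sub_le _ _ _
  have key : gErr lab U a c G g σ ≤ 2 * (|qG a y - G| * cosh (fG c y)) +
      ((|qG a x - qG a y| + |fG c x - fG c y|) * (cosh (fG c x) + cosh (fG c y)) +
        |qG a y - G| * |cosh (fG c x) - cosh (fG c y)|) := by
    have h6 := mul_le_mul_of_nonneg_left (le_abs_self (cosh (fG c x) - cosh (fG c y))) (abs_nonneg (qG a y - G))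
    have h7 := mul_le_mul_of_nonneg_right h5 (add_nonneg px py)
    show (|qG a x - G| + |fG c x - fG c y|) * (cosh (fG c x) + cosh (fG c y)) ≤ _
    nlinarith
  refine key.trans (add_le_add le_rfl ?_)
  refine (add_le_add (mul_le_mul (add_le_add h2 h1) (add_le_add hcx hcy) (add_nonneg px py) (by positivity))
    (mul_le_mul h3 h4 (abs_nonneg _) (by positivity))).trans ?_
  have e : exp ((2 + M) * S) = exp S * exp S * E := by rw [← exp_add, ← exp_add]; ring_nf
  rw [e]
  calc (M * exp S * D + M * exp S * D) * (E + E) + (M + B) * exp S * (M * exp S * D * E)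
      = (4 * M) * (D * (exp S * E)) + (M + B) * M * (D * (exp S * exp S * E)) := by ring
    _ ≤ (4 * M) * (D * (exp S * exp S * E)) + (M + B) * M * (D * (exp S * exp S * E)) := by
        refine add_le_add (mul_le_mul_of_nonneg_left (mul_le_mul_of_nonneg_left
          (mul_le_mul_of_nonneg_right (le_mul_of_one_le_right (exp_pos _).le he) (exp_pos _).le) hD)
          (by positivity)) le_rfl
    _ = _ := by ring

/-- the bookkeeping of the quadratic fluctuation -/
lemma quad_arith {q d s κ E1 EK A2 Sm v : ℝ} (hd : 0 ≤ d) (hκ : 0 < κ) (hA2 : 0 ≤ A2)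
    (hq : 0 ≤ q) (hs : q + κ = s) (hsm : s ≤ Sm) (hv : exp (2 * v) ≤ E1 + EK * (A2 * d)) (hEK : 0 ≤ EK)
    (hE1 : 0 ≤ E1) {X : ℝ} {C3 : ℝ} (hC3 : 0 ≤ C3) (hX : X ≤ q ^ 2 / 2 + C3 * d) :
    X / (2 * s) + s / 2 * exp (2 * v) ≤ (1 + E1) * (q + κ) + (C3 / κ + Sm * EK * A2) * d := by
  subst hs
  have hs0 : 0 < q + κ := by linarith
  have h1 : X / (2 * (q + κ)) ≤ (q + κ) + C3 / κ * d := by
    refine (div_le_div_of_nonneg_right hX (by positivity)).trans ?_
    rw [add_div]
    refine add_le_add ?_ ?_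
    · rw [div_le_iff₀ (by positivity)]; nlinarith
    · rw [div_mul_eq_mul_div]
      exact div_le_div_of_nonneg_left (by positivity) hκ (by linarith)
  have h2 := mul_le_mul_of_nonneg_left hv (show 0 ≤ (q + κ) / 2 by positivity)
  have h3 : (q + κ) * (EK * (A2 * d)) ≤ Sm * (EK * (A2 * d)) := mul_le_mul_of_nonneg_right hsm (by positivity)
  have h4 : 0 ≤ (q + κ) * (EK * (A2 * d)) := by positivity
  nlinarith [mul_nonneg hE1 hs0.le]

/-- **the mean of the error functional at one configuration** -/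
theorem gErr_int (B : ℝ) : ∃ K₀ : ℝ, 0 ≤ K₀ ∧ ∀ (k : ℕ) (A κ : ℝ), 0 < κ → ∃ Kb : ℝ, 0 ≤ Kb ∧
    ∀ {N : ℕ} [NeZero N] (lab : Fin N → Fin k) (U : Mat N), Matrix.of U ∈ Matrix.orthogonalGroup (Fin N) ℝ →
    (∀ j, 1 ≤ A * freq lab j) → ∀ (a c : Fin k → ℝ), (∀ j, |a j| ≤ A) → (∀ j, |c j| ≤ A) →
    ∀ (u : Fin k → ℝ), (∀ j, 0 ≤ u j ∧ u j ≤ A) → ∑ j, |a j| * u j ≤ B → ∑ j, c j ^ 2 * u j ≤ B →
    ∀ σ : Fin N → Bool,
      Integrable (fun g => gErr lab U a c ((∑ j, a j * u j) / 2) g σ) (gauss (Fin N)) ∧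
      ∫ g, gErr lab U a c ((∑ j, a j * u j) / 2) g σ ∂gauss (Fin N) ≤
        K₀ * (√(∑ j, a j ^ 2 * u j ^ 2) + κ) +
          Kb * ((∑ j, |vB lab U j σ - u j|) + 1 / √(N : ℝ)) := by
  set E1 := exp (2 * (|B| + 1))
  refine ⟨2 * (1 + E1), by positivity, fun k A κ hκ => ?_⟩
  set M := |A|
  obtain ⟨C, hC, hdev⟩ := dev_exp k A (2 + M)
  set EK := exp (2 * (k * M ^ 3))
  set Sm := √(k * M ^ 4) + κ
  set Cr := (2 * M + (M + |B|) * M + 2 * M) * C
  refine ⟨2 * (M ^ 3 / κ + Sm * EK * M ^ 2 + M / 2 * EK) + Cr, by positivity,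
    fun {N} _ lab U hU hA a c ha hc u hu hau hcu σ => ?_⟩
  set G := (∑ j, a j * u j) / 2
  set v := fun j => vB lab U j σ
  set d := ∑ j, |v j - u j|
  have hd : 0 ≤ d := sum_nonneg fun _ _ => abs_nonneg _
  have hdj : ∀ j, |v j - u j| ≤ d := fun j =>
    single_le_sum (f := fun j => |v j - u j|) (fun i _ => abs_nonneg _) (mem_univ j)
  have hv : ∀ j, 0 ≤ v j ∧ v j ≤ M := fun j =>
    ⟨(vB_bounds hU (hA j) σ).1, (vB_bounds hU (hA j) σ).2.trans (le_abs_self A)⟩
  have hu' : ∀ j, u j ≤ M := fun j => (hu j).2.trans (le_abs_self A)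
  have hM : 0 ≤ M := abs_nonneg A
  have ha' : ∀ j, |a j| ≤ M := fun j => (ha j).trans (le_abs_self A)
  have hc' : ∀ j, |c j| ≤ M := fun j => (hc j).trans (le_abs_self A)
  have ha2 : ∀ j, a j ^ 2 ≤ M ^ 2 := fun j => by rw [← sq_abs]; exact pow_le_pow_left₀ (abs_nonneg _) (ha' j) 2
  have hc2 : ∀ j, c j ^ 2 ≤ M ^ 2 := fun j => by rw [← sq_abs]; exact pow_le_pow_left₀ (abs_nonneg _) (hc' j) 2
  have hG : |G| ≤ |B| := by
    have : |∑ j, a j * u j| ≤ B := by
      refine (abs_sum_le_sum_abs _ _).trans ((sum_le_sum fun j _ => le_of_eq ?_).trans hau)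
      rw [abs_mul, abs_of_nonneg (hu j).1]
    rw [abs_div, abs_two]
    linarith [le_abs_self B, abs_nonneg (∑ j, a j * u j)]
  -- the field
  set b := cvec lab U c σ
  set vv := ∑ j, c j ^ 2 * v j
  have hbb : dot b b = vv := dot_cvec_cvec c σ σ
  have hvvK : vv ≤ k * M ^ 3 := by
    refine (sum_le_sum (g := fun _ => M ^ 3) fun j _ => ?_).trans_eq (by simp)
    calc c j ^ 2 * v j ≤ M ^ 2 * M := mul_le_mul (hc2 j) (hv j).2 (hv j).1 (sq_nonneg M)
      _ = _ := by ring
  have hvvB : vv ≤ |B| + M ^ 2 * d := by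
    have h : vv ≤ ∑ j, c j ^ 2 * u j + M ^ 2 * d := by
      rw [mul_sum, ← sum_add_distrib]
      refine sum_le_sum fun j _ => ?_
      have h1 : c j ^ 2 * (v j - u j) ≤ M ^ 2 * |v j - u j| :=
        (mul_le_mul_of_nonneg_left (le_abs_self _) (sq_nonneg _)).trans
          (mul_le_mul_of_nonneg_right (hc2 j) (abs_nonneg _))
      linarith
    linarith [le_abs_self B]
  have hexp : exp (2 * vv) ≤ E1 + EK * (M ^ 2 * d) := by
    rcases le_or_gt (M ^ 2 * d) 1 with h | h
    · exact (exp_le_exp.2 (by linarith)).trans (le_add_of_nonneg_right (by positivity))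
    · refine le_trans ?_ (le_add_of_nonneg_left (exp_pos _).le)
      exact (exp_le_exp.2 (by linarith)).trans (le_mul_of_one_le_right (exp_pos _).le h.le)
  -- the two moments
  set X := fun g => qG a (fun j => yF lab U g j σ) - (∑ j, a j * v j) / 2
  obtain ⟨iq, eq⟩ := quad_var lab U a σ
  have hXe : ∀ g, X g ^ 2 = (∑ j, a j * (yF lab U g j σ ^ 2 - v j)) ^ 2 / 4 := fun g => by
    simp only [X, qG, mul_sub, sum_sub_distrib]; ring
  have iX : Integrable (fun g => X g ^ 2) (gauss (Fin N)) := by simp only [hXe]; exact iq.div_const 4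
  obtain ⟨ic, ec⟩ := P157.Par.integrable_cosh_sq b
  rw [hbb] at ec
  set q := √(∑ j, a j ^ 2 * u j ^ 2)
  have hq0 : 0 ≤ q := Real.sqrt_nonneg _
  have hq2 : q ^ 2 = ∑ j, a j ^ 2 * u j ^ 2 := Real.sq_sqrt (sum_nonneg fun _ _ => by positivity)
  have hX : ∫ g, X g ^ 2 ∂gauss (Fin N) ≤ q ^ 2 / 2 + M ^ 3 * d := by
    simp only [hXe]
    rw [integral_div, eq, hq2]
    have h : ∑ j, a j ^ 2 * v j ^ 2 ≤ ∑ j, a j ^ 2 * u j ^ 2 + 2 * M ^ 3 * d := by
      rw [mul_sum, ← sum_add_distrib]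
      refine sum_le_sum fun j _ => ?_
      have h1 : v j ^ 2 - u j ^ 2 ≤ 2 * M * |v j - u j| := by
        refine (le_abs_self _).trans ?_
        rw [sq_sub_sq, abs_mul]
        refine mul_le_mul_of_nonneg_right ?_ (abs_nonneg _)
        rw [abs_of_nonneg (add_nonneg (hv j).1 (hu j).1)]
        linarith [(hv j).2, hu' j]
      have h2 := mul_le_mul_of_nonneg_left h1 (sq_nonneg (a j))
      have h3 := mul_le_mul_of_nonneg_right (ha2 j) (show 0 ≤ 2 * M * |v j - u j| by positivity)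
      linarith
    show 2 * (∑ j, a j ^ 2 * v j ^ 2) / 4 ≤ _
    linarith
  set s := q + κ
  have hs : 0 < s := by simp only [s]; linarith
  have hsm : s ≤ Sm := by
    refine add_le_add (Real.sqrt_le_sqrt ?_) le_rfl
    refine (sum_le_sum (g := fun _ => M ^ 4) fun j _ => ?_).trans_eq (by simp)
    calc a j ^ 2 * u j ^ 2 ≤ M ^ 2 * M ^ 2 :=
          mul_le_mul (ha2 j) (pow_le_pow_left₀ (hu j).1 (hu' j) 2) (sq_nonneg _) (sq_nonneg _)
      _ = _ := by ring
  -- the main part
  set P := fun g => X g ^ 2 / (2 * s) + (s / 2 + M * d / 2) * cosh (dot b g) ^ 2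
  have iP : Integrable P (gauss (Fin N)) := (iX.div_const _).fun_add (ic.const_mul _)
  obtain ⟨iD, eD⟩ := hdev univ lab U hU (fun j _ => hA j) σ
  set Cc := 2 * M + (M + |B|) * M + 2 * M
  have hb : ∀ g, gErr lab U a c G g σ ≤ 2 * P g + Cc * (rdev univ lab g * exp ((2 + M) * size univ lab U g σ)) :=
    fun g => by
    refine (gErr_le lab U hA a c G hM (abs_nonneg B) ha' hc' hG g σ).trans (add_le_add ?_ le_rfl)
    refine mul_le_mul_of_nonneg_left ?_ two_pos.le
    rw [fG_yF]
    have h1 : |(∑ j, a j * v j) / 2 - G| ≤ M * d / 2 := by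
      rw [← sub_div, abs_div, abs_two, ← sum_sub_distrib]
      refine div_le_div_of_nonneg_right ((abs_sum_le_sum_abs _ _).trans ?_) two_pos.le
      rw [mul_sum]
      refine sum_le_sum fun j _ => ?_
      rw [← mul_sub, abs_mul]
      exact mul_le_mul_of_nonneg_right (ha' j) (abs_nonneg _)
    have h2 : |qG a (fun j => yF lab U g j σ) - G| ≤ |X g| + M * d / 2 :=
      (abs_sub_le _ ((∑ j, a j * v j) / 2) _).trans (add_le_add le_rfl h1)
    refine (mul_le_mul_of_nonneg_right h2 (cosh_pos _).le).trans ?_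
    set ch := cosh (dot b g)
    have hch : 1 ≤ ch := one_le_cosh _
    have h3 : |X g| * ch ≤ X g ^ 2 / (2 * s) + s / 2 * ch ^ 2 := by
      rw [div_add' _ _ _ (by positivity), le_div_iff₀ (by positivity), ← sq_abs (X g)]
      nlinarith [sq_nonneg (|X g| - s * ch)]
    have h4 : M * d / 2 * ch ≤ M * d / 2 * ch ^ 2 :=
      mul_le_mul_of_nonneg_left (by nlinarith) (by positivity)
    simp only [P]
    linarith
  have isum := (iP.const_mul 2).fun_add (iD.const_mul Cc)
  have hi : Integrable (fun g => gErr lab U a c G g σ) (gauss (Fin N)) :=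
    isum.mono' (measurable_gErr lab U a c G σ).aestronglyMeasurable (Filter.Eventually.of_forall fun g => by
      rw [Real.norm_eq_abs, abs_of_nonneg (gErr_nonneg ..)]; exact hb g)
  refine ⟨hi, (integral_mono hi isum hb).trans ?_⟩
  simp only [P]
  rw [integral_add ((iP).const_mul 2) (iD.const_mul _), integral_const_mul, integral_const_mul,
    integral_add (iX.div_const _) (ic.const_mul _), integral_div, integral_const_mul]
  have hqa := quad_arith hd hκ (sq_nonneg M) hq0 rfl hsm hexp (exp_pos _).le (exp_pos _).le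
    (show 0 ≤ M ^ 3 by positivity) hX
  have h5 : (s / 2 + M * d / 2) * ∫ g, cosh (dot b g) ^ 2 ∂gauss (Fin N) ≤
      s / 2 * exp (2 * vv) + M * d / 2 * EK := by
    refine (mul_le_mul_of_nonneg_left ec (by positivity)).trans ?_
    rw [add_mul]
    exact add_le_add le_rfl (mul_le_mul_of_nonneg_left (exp_le_exp.2 (by linarith)) (by positivity))
  have hN : 0 ≤ (1:ℝ) / √(N : ℝ) := by positivity
  have h6 : Cc * ∫ g, rdev univ lab g * exp ((2 + M) * size univ lab U g σ) ∂gauss (Fin N) ≤ Cr * (1 / √(N : ℝ)) := by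
    refine (mul_le_mul_of_nonneg_left eD (by positivity)).trans_eq ?_
    simp only [Cr, Cc]; ring
  have h7 : 0 ≤ (2 * (M ^ 3 / κ + Sm * EK * M ^ 2 + M / 2 * EK)) * (1 / √(N : ℝ)) := by positivity
  have h8 : 0 ≤ Cr * d := by positivity
  show _ ≤ 2 * (1 + E1) * (q + κ) + _
  linarith

end Vale.Agent.P166.Gen
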