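import Vale.Agent.P166.Gen.LowDefs
import Vale.Agent.P166.Phase.Invariance
import Vale.Agent.P157.Par.SiteMoments

/-!
# P166 G4: moments of one row given the base

`xF` is the normalised row, `yF` its Gaussian companion. Their distance is the deviation of a
chi square from its mean; exponential moments of both are bounded in terms of the shares.
-/

open MeasureTheory ProbabilityTheory Real Finset
open Vale.Agent.P150 (gauss dot)

noncomputable section

namespace Vale.Agent.P166.Gen

variable {k N : ℕ}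

/-- the number of rows of atom `j` -/
def blkC (lab : Fin N → Fin k) (j : Fin k) : ℝ := ((univ.filter fun i => lab i = j).card : ℝ)

/-- the coefficients of the companion of atom `j` -/
def bF (lab : Fin N → Fin k) (U : Mat N) (j : Fin k) (σ : Fin N → Bool) : Fin N → ℝ :=
  fun i => if lab i = j then cd U σ i / √(blkC lab j) else 0

/-- the variance of the row of atom `j` at one configuration -/
def vB (lab : Fin N → Fin k) (U : Mat N) (j : Fin k) (σ : Fin N → Bool) : ℝ := pov lab U j σ σ / freq lab j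

/-- the squared norm of the Gaussian vector in block `j`, centred and scaled -/
def rdv (lab : Fin N → Fin k) (j : Fin k) (g : Fin N → ℝ) : ℝ :=
  (∑ i ∈ univ.filter (fun i => lab i = j), g i ^ 2) / blkC lab j - 1

/-- the rows of the atoms in `S` together -/
def rdev (S : Finset (Fin k)) (lab : Fin N → Fin k) (g : Fin N → ℝ) : ℝ := ∑ j ∈ S, |rdv lab j g|

/-- crude size of the rows and their companions -/
def size (S : Finset (Fin k)) (lab : Fin N → Fin k) (U : Mat N) (g : Fin N → ℝ) (σ : Fin N → Bool) : ℝ :=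
  ∑ j ∈ S, (|xF lab U g j σ| + |yF lab U g j σ|)

/-- the linear combination of the companions with coefficients `c` -/
def cvec (lab : Fin N → Fin k) (U : Mat N) (c : Fin k → ℝ) (σ : Fin N → Bool) : Fin N → ℝ :=
  fun i => ∑ j, c j * bF lab U j σ i

lemma size_nonneg (S : Finset (Fin k)) (lab : Fin N → Fin k) (U : Mat N) (g : Fin N → ℝ) (σ : Fin N → Bool) :
    0 ≤ size S lab U g σ := sum_nonneg fun _ _ => by positivity

lemma rdev_nonneg (S : Finset (Fin k)) (lab : Fin N → Fin k) (g : Fin N → ℝ) : 0 ≤ rdev S lab g := sum_nonneg fun _ _ => abs_nonneg _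

lemma le_size {S : Finset (Fin k)} (lab : Fin N → Fin k) (U : Mat N) (g : Fin N → ℝ) (σ : Fin N → Bool) {j : Fin k}
    (hj : j ∈ S) :
    |xF lab U g j σ| ≤ size S lab U g σ ∧ |yF lab U g j σ| ≤ size S lab U g σ := by
  have h := single_le_sum (f := fun j => |xF lab U g j σ| + |yF lab U g j σ|) (fun i _ => by positivity) hj
  exact ⟨le_trans (le_add_of_nonneg_right (abs_nonneg _)) h, le_trans (le_add_of_nonneg_left (abs_nonneg _)) h⟩

lemma yF_eq (lab : Fin N → Fin k) (U : Mat N) (g : Fin N → ℝ) (j : Fin k) (σ : Fin N → Bool) :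
    yF lab U g j σ = dot (bF lab U j σ) g := by
  simp only [yF, dot, bF, blkC, sum_div, ite_mul, zero_mul, ← sum_filter]
  exact sum_congr rfl fun i _ => by ring

lemma dot_cvec (lab : Fin N → Fin k) (U : Mat N) (c : Fin k → ℝ) (σ : Fin N → Bool) (g : Fin N → ℝ) :
    dot (cvec lab U c σ) g = ∑ j, c j * yF lab U g j σ := by
  simp only [yF_eq, dot, cvec, sum_mul, mul_sum, mul_assoc]
  exact sum_comm

lemma bF_mul (lab : Fin N → Fin k) (U : Mat N) (i j : Fin k) (σ τ : Fin N → Bool) :
    dot (bF lab U i σ) (bF lab U j τ) =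
      if i = j then (∑ x ∈ univ.filter (fun x => lab x = j), cd U σ x * cd U τ x) / blkC lab j else 0 := by
  simp only [dot, bF]
  split_ifs with h
  · subst h
    rw [sum_filter, sum_div]
    refine sum_congr rfl fun x _ => ?_
    split_ifs
    · rw [div_mul_div_comm, Real.mul_self_sqrt (show 0 ≤ blkC lab i from Nat.cast_nonneg _)]
    · simp
  · refine sum_eq_zero fun x _ => ?_
    split_ifs with h1 h2
    · exact absurd (h1.symm.trans h2) h
    all_goals simp

variable {lab : Fin N → Fin k} {U : Mat N} {A : ℝ}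

lemma pov_div_freq [NeZero N] (j : Fin k) (σ τ : Fin N → Bool) :
    pov lab U j σ τ / freq lab j = (∑ x ∈ univ.filter (fun x => lab x = j), cd U σ x * cd U τ x) / blkC lab j := by
  rw [pov, freq, blkC, div_div_div_cancel_right₀ (NeZero.ne (N : ℝ))]

lemma dot_bF_self [NeZero N] (j : Fin k) (σ : Fin N → Bool) :
    dot (bF lab U j σ) (bF lab U j σ) = vB lab U j σ := by
  rw [bF_mul, if_pos rfl, vB, pov_div_freq]

lemma dot_cvec_cvec [NeZero N] (c : Fin k → ℝ) (σ τ : Fin N → Bool) :
    dot (cvec lab U c σ) (cvec lab U c τ) = ∑ j, c j ^ 2 * (pov lab U j σ τ / freq lab j) := by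
  have e : dot (cvec lab U c σ) (cvec lab U c τ) = ∑ i, ∑ j, c i * c j * dot (bF lab U i σ) (bF lab U j τ) := by
    simp only [dot, cvec, sum_mul_sum]
    rw [sum_comm]
    refine sum_congr rfl fun i _ => ?_
    rw [sum_comm]
    refine sum_congr rfl fun j _ => ?_
    rw [mul_sum]
    exact sum_congr rfl fun x _ => by ring
  rw [e]
  refine sum_congr rfl fun i _ => ?_
  simp [bF_mul, pov_div_freq, sq]

lemma blk_pos [NeZero N] {j : Fin k} (hA : 1 ≤ A * freq lab j) :
    0 < A ∧ 0 < blkC lab j ∧ (N : ℝ) ≤ A * blkC lab j := by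
  have hN : (0:ℝ) < N := by exact_mod_cast NeZero.pos N
  have hn : 0 ≤ blkC lab j := Nat.cast_nonneg _
  have h : (N : ℝ) ≤ A * blkC lab j := by
    have := mul_le_mul_of_nonneg_right hA hN.le
    rwa [one_mul, freq, mul_assoc, div_mul_cancel₀ _ hN.ne'] at this
  rcases hn.eq_or_lt with e | e
  · rw [← e, mul_zero] at h; linarith
  · exact ⟨pos_of_mul_pos_left (hN.trans_le h) e.le, e, h⟩

lemma sum_cd_sq (hU : Matrix.of U ∈ Matrix.orthogonalGroup (Fin N) ℝ) (σ : Fin N → Bool) :
    ∑ i, cd U σ i ^ 2 = N := by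
  have h := Phase.ip_app (U := U) hU (fun x => spin (σ x)) fun x => spin (σ x)
  have hs : ∀ x, spin (σ x) * spin (σ x) = 1 := fun x => by cases σ x <;> simp [spin]
  simp only [Phase.ip, Phase.app, hs] at h
  simpa [cd, sq] using h

lemma sum_blk_cd_le (hU : Matrix.of U ∈ Matrix.orthogonalGroup (Fin N) ℝ) (j : Fin k) (σ : Fin N → Bool) :
    ∑ i ∈ univ.filter (fun i => lab i = j), cd U σ i ^ 2 ≤ N :=
  (sum_le_sum_of_subset_of_nonneg (filter_subset _ _) fun _ _ _ => sq_nonneg _).trans_eq (sum_cd_sq hU σ)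

lemma vB_bounds [NeZero N] (hU : Matrix.of U ∈ Matrix.orthogonalGroup (Fin N) ℝ) {j : Fin k}
    (hA : 1 ≤ A * freq lab j) (σ : Fin N → Bool) : 0 ≤ vB lab U j σ ∧ vB lab U j σ ≤ A := by
  obtain ⟨-, hn, hNn⟩ := blk_pos hA
  rw [vB, pov_div_freq]
  simp only [← sq]
  refine ⟨by positivity, ?_⟩
  rw [div_le_iff₀ hn]
  exact (sum_blk_cd_le hU j σ).trans hNn

/-- the companion is the row times the radius -/
lemma yF_eq_xF [NeZero N] {j : Fin k} (hA : 1 ≤ A * freq lab j) (g : Fin N → ℝ) (σ : Fin N → Bool) :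
    yF lab U g j σ = xF lab U g j σ *
      √((∑ i ∈ univ.filter (fun i => lab i = j), g i ^ 2) / blkC lab j) := by
  obtain ⟨-, hn, -⟩ := blk_pos hA
  set Q := ∑ i ∈ univ.filter (fun i => lab i = j), g i ^ 2
  have hQ : 0 ≤ Q := sum_nonneg fun _ _ => sq_nonneg _
  rcases hQ.eq_or_lt with h | h
  · have h0 : ∑ i ∈ univ.filter (fun i => lab i = j), g i * cd U σ i = 0 := sum_eq_zero fun i hi => by
      rw [pow_eq_zero_iff two_ne_zero |>.1 ((sum_eq_zero_iff_of_nonneg fun _ _ => sq_nonneg _).1 h.symm i hi),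
        zero_mul]
    simp [yF, xF, h0]
  · rw [yF, xF, Real.sqrt_div hQ, div_mul_div_comm, mul_div_assoc]
    show _ = _ * (√Q / (√Q * √(blkC lab j)))
    rw [div_mul_eq_div_div, div_self (Real.sqrt_pos.2 h).ne', ← mul_div_assoc, mul_one]
    rfl

/-- a row is within the deviation of the radius of its companion -/
lemma xy_close [NeZero N] {j : Fin k} (hA : 1 ≤ A * freq lab j) (g : Fin N → ℝ) (σ : Fin N → Bool) :
    |xF lab U g j σ - yF lab U g j σ| ≤ |xF lab U g j σ| * |rdv lab j g| ∧
    |xF lab U g j σ ^ 2 - yF lab U g j σ ^ 2| = xF lab U g j σ ^ 2 * |rdv lab j g| := by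
  have hn := (blk_pos hA).2.1
  rw [yF_eq_xF hA]
  set r := √((∑ i ∈ univ.filter (fun i => lab i = j), g i ^ 2) / blkC lab j) with hrdef
  have hr : 0 ≤ r := Real.sqrt_nonneg _
  have hd : rdv lab j g = r ^ 2 - 1 := by
    rw [hrdef, Real.sq_sqrt (div_nonneg (sum_nonneg fun _ _ => sq_nonneg _) hn.le)]; rfl
  rw [hd]
  constructor
  · rw [show ∀ x : ℝ, x - x * r = x * (1 - r) from fun x => by ring, abs_mul,
      show r ^ 2 - 1 = -((1 - r) * (1 + r)) by ring, abs_neg, abs_mul, abs_of_nonneg (show 0 ≤ 1 + r by linarith)]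
    exact mul_le_mul_of_nonneg_left (le_mul_of_one_le_right (abs_nonneg _) (by linarith)) (abs_nonneg _)
  · rw [show ∀ x : ℝ, x ^ 2 - (x * r) ^ 2 = x ^ 2 * -(r ^ 2 - 1) from fun x => by ring, abs_mul, abs_neg,
      abs_of_nonneg (sq_nonneg _)]

lemma xF_sq_le (hU : Matrix.of U ∈ Matrix.orthogonalGroup (Fin N) ℝ) (g : Fin N → ℝ) (j : Fin k)
    (σ : Fin N → Bool) : xF lab U g j σ ^ 2 ≤ N := by
  rw [xF, div_pow, Real.sq_sqrt (sum_nonneg fun _ _ => sq_nonneg _)]
  refine div_le_of_le_mul₀ (sum_nonneg fun _ _ => sq_nonneg _) (Nat.cast_nonneg N) ?_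
  refine (sum_mul_sq_le_sq_mul_sq _ _ _).trans ?_
  rw [mul_comm]
  exact mul_le_mul_of_nonneg_right (sum_blk_cd_le hU j σ) (sum_nonneg fun _ _ => sq_nonneg _)

lemma continuous_yF (lab : Fin N → Fin k) (U : Mat N) (j : Fin k) (σ : Fin N → Bool) :
    Continuous fun g => yF lab U g j σ := by
  simp only [yF_eq]; exact P157.Par.continuous_dot_left _

@[fun_prop]
lemma measurable_yF (lab : Fin N → Fin k) (U : Mat N) (j : Fin k) (σ : Fin N → Bool) :
    Measurable fun g => yF lab U g j σ := (continuous_yF lab U j σ).measurable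

@[fun_prop]
lemma measurable_xF (lab : Fin N → Fin k) (U : Mat N) (j : Fin k) (σ : Fin N → Bool) :
    Measurable fun g => xF lab U g j σ := by
  unfold xF; fun_prop

@[fun_prop]
lemma measurable_size (S : Finset (Fin k)) (lab : Fin N → Fin k) (U : Mat N) (σ : Fin N → Bool) :
    Measurable fun g => size S lab U g σ := by
  unfold size; fun_prop

@[fun_prop]
lemma measurable_rdev (S : Finset (Fin k)) (lab : Fin N → Fin k) : Measurable (rdev (N := N) S lab) := by
  unfold rdev rdv; fun_prop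

/-! ### Gaussian moments -/

lemma moment4 : Integrable (fun t : ℝ => t ^ 4) (gaussianReal 0 1) ∧ ∫ t, t ^ 4 ∂gaussianReal 0 1 = 3 := by
  have hid : Pattern.Poly fun t : ℝ => t := ⟨1, 1, fun x => by simp [Real.norm_eq_abs]⟩
  refine ⟨Pattern.integrable_poly1 (by fun_prop) (hid.pow 4), ?_⟩
  have h4 := Pattern.ibp1 (F := fun t => t ^ 3) (F' := fun t => 3 * t ^ 2)
    (fun t => by simpa using hasDerivAt_pow 3 t) (by fun_prop) (hid.pow 3) ((hid.pow 2).const_mul 3)
  have h2 := Pattern.ibp1 (F := fun t => t) (F' := fun _ => (1:ℝ)) (fun t => hasDerivAt_id t) continuous_const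
    hid (Pattern.Poly.const 1)
  simp only [← sq] at h2
  rw [show (fun t : ℝ => t ^ 4) = fun t => t * t ^ 3 from funext fun t => by ring, h4, integral_const_mul, h2]
  simp

variable {ι : Type} [Fintype ι]

lemma dot_four (a : ι → ℝ) :
    Integrable (fun z => dot a z ^ 4) (gauss ι) ∧ ∫ z, dot a z ^ 4 ∂gauss ι = 3 * dot a a ^ 2 := by
  have hv : 0 ≤ dot a a := sum_nonneg fun i _ => mul_self_nonneg _
  rcases hv.eq_or_lt with h | h
  · have hz : ∀ i, a i = 0 := fun i =>
      mul_self_eq_zero.1 ((sum_eq_zero_iff_of_nonneg fun i _ => mul_self_nonneg _).1 h.symm i (mem_univ i))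
    have e : ∀ z : ι → ℝ, dot a z = 0 := fun z => by simp [dot, hz]
    simp [e, ← h]
  · set r := √(dot a a)
    have hr : r ≠ 0 := (Real.sqrt_pos.2 h).ne'
    set c := fun i => a i / r
    have hc : ∑ i, c i ^ 2 = 1 := by
      simp only [c, div_pow, ← sum_div, Real.sq_sqrt hv, r]
      rw [show ∑ i, a i ^ 2 = dot a a from sum_congr rfl fun i _ => sq _, div_self h.ne']
    have e : ∀ z, dot a z ^ 4 = r ^ 4 * (∑ i, c i * z i) ^ 4 := fun z => by
      rw [← mul_pow]; congr 1
      simp only [c, dot, mul_sum]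
      exact sum_congr rfl fun i _ => by field_simp
    simp only [e]
    refine ⟨(Pattern.integrable_linear c hc (F := fun t => t ^ 4) moment4.1).const_mul _, ?_⟩
    rw [integral_const_mul]
    have h4 : ∫ z, (∑ i, c i * z i) ^ 4 ∂gauss ι = 3 :=
      (Pattern.integral_linear c hc (F := fun t => t ^ 4) (by fun_prop)).trans moment4.2
    rw [h4, show r ^ 4 = (r ^ 2) ^ 2 by ring, Real.sq_sqrt hv]; ring

/-- squares of two orthogonal linear forms -/
lemma dot_sq_sq {a b : ι → ℝ} (h : dot a b = 0) :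
    Integrable (fun z => dot a z ^ 2 * dot b z ^ 2) (gauss ι) ∧
      ∫ z, dot a z ^ 2 * dot b z ^ 2 ∂gauss ι = dot a a * dot b b := by
  obtain ⟨i1, e1⟩ := dot_four (a + b)
  obtain ⟨i2, e2⟩ := dot_four (a - b)
  obtain ⟨i3, e3⟩ := dot_four a
  obtain ⟨i4, e4⟩ := dot_four b
  have hl : ∀ z, dot (a + b) z = dot a z + dot b z ∧ dot (a - b) z = dot a z - dot b z := fun z => by
    simp [dot, add_mul, sub_mul, sum_add_distrib, sum_sub_distrib]
  have e : ∀ z, dot a z ^ 2 * dot b z ^ 2 =
      (dot (a + b) z ^ 4 + dot (a - b) z ^ 4 - 2 * dot a z ^ 4 - 2 * dot b z ^ 4) / 12 := fun z => by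
    rw [(hl z).1, (hl z).2]; ring
  have hs : dot (a + b) (a + b) = dot a a + dot b b ∧ dot (a - b) (a - b) = dot a a + dot b b := by
    have hc : ∀ i, (a i + b i) * (a i + b i) = a i * a i + b i * b i + 2 * (a i * b i) ∧
        (a i - b i) * (a i - b i) = a i * a i + b i * b i - 2 * (a i * b i) := fun i =>
      ⟨by ring, by ring⟩
    unfold dot at h ⊢
    simp [Pi.add_apply, Pi.sub_apply, fun i => (hc i).1, fun i => (hc i).2, sum_add_distrib, sum_sub_distrib,
      ← mul_sum, h]
  simp only [e]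
  refine ⟨(((i1.add i2).sub (i3.const_mul 2)).sub (i4.const_mul 2)).div_const 12, ?_⟩
  have i12 := i1.fun_add i2
  have i123 := Integrable.sub' i12 (i3.const_mul 2)
  rw [integral_div, integral_sub i123 (i4.const_mul 2), integral_sub i12 (i3.const_mul 2), integral_add i1 i2,
    integral_const_mul, integral_const_mul, e1, e2, e3, e4, hs.1, hs.2]
  ring

/-- the variance of the quadratic part -/
lemma quad_var [NeZero N] (lab : Fin N → Fin k) (U : Mat N) (a : Fin k → ℝ) (σ : Fin N → Bool) :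
    Integrable (fun g => (∑ j, a j * (yF lab U g j σ ^ 2 - vB lab U j σ)) ^ 2) (gauss (Fin N)) ∧
      ∫ g, (∑ j, a j * (yF lab U g j σ ^ 2 - vB lab U j σ)) ^ 2 ∂gauss (Fin N) =
        2 * ∑ j, a j ^ 2 * vB lab U j σ ^ 2 := by
  set v := fun j => vB lab U j σ
  set X := fun j (g : Fin N → ℝ) => yF lab U g j σ ^ 2 - v j
  have hy : ∀ j g, yF lab U g j σ = dot (bF lab U j σ) g := fun j g => yF_eq lab U g j σ
  have hy2 : ∀ j, Integrable (fun g => yF lab U g j σ ^ 2) (gauss (Fin N)) ∧
      ∫ g, yF lab U g j σ ^ 2 ∂gauss (Fin N) = v j := fun j => by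
    simp only [hy, v, ← dot_bF_self]; exact P157.Par.integral_dot_sq _
  have hXX : ∀ i j, Integrable (fun g => X i g * X j g) (gauss (Fin N)) ∧
      ∫ g, X i g * X j g ∂gauss (Fin N) = if i = j then 2 * v j ^ 2 else 0 := fun i j => by
    have hi := hy2 i
    have hj := hy2 j
    have hij : Integrable (fun g => yF lab U g i σ ^ 2 * yF lab U g j σ ^ 2) (gauss (Fin N)) ∧
        ∫ g, yF lab U g i σ ^ 2 * yF lab U g j σ ^ 2 ∂gauss (Fin N) =
          if i = j then 3 * v j ^ 2 else v i * v j := by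
      simp only [hy, v, ← dot_bF_self]
      split_ifs with h
      · subst h
        simp only [← pow_add]
        exact dot_four _
      · exact dot_sq_sq (by rw [bF_mul, if_neg h])
    have e : ∀ g, X i g * X j g = yF lab U g i σ ^ 2 * yF lab U g j σ ^ 2 - v j * yF lab U g i σ ^ 2 -
        v i * yF lab U g j σ ^ 2 + v i * v j := fun g => by simp only [X]; ring
    simp only [e]
    have i1 := Integrable.sub' hij.1 (hi.1.const_mul (v j))
    have i2 := Integrable.sub' i1 (hj.1.const_mul (v i))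
    refine ⟨i2.fun_add (integrable_const _), ?_⟩
    rw [integral_add i2 (integrable_const _), integral_sub i1 (hj.1.const_mul _), integral_sub hij.1 (hi.1.const_mul _),
      integral_const_mul, integral_const_mul, hij.2, hi.2, hj.2, integral_const, probReal_univ, one_smul]
    split_ifs with h <;> [subst h; skip] <;> ring
  have e : ∀ g, (∑ j, a j * X j g) ^ 2 = ∑ i, ∑ j, a i * a j * (X i g * X j g) := fun g => by
    rw [sq, sum_mul_sum]; exact sum_congr rfl fun i _ => sum_congr rfl fun j _ => by ring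
  show Integrable (fun g => (∑ j, a j * X j g) ^ 2) _ ∧ ∫ g, (∑ j, a j * X j g) ^ 2 ∂_ = _
  simp only [e]
  refine ⟨integrable_finsetSum _ fun i _ => integrable_finsetSum _ fun j _ => (hXX i j).1.const_mul _, ?_⟩
  rw [integral_finsetSum _ fun i _ => integrable_finsetSum _ fun j _ => (hXX i j).1.const_mul _, mul_sum]
  refine sum_congr rfl fun i _ => ?_
  rw [integral_finsetSum _ fun j _ => (hXX i j).1.const_mul _]
  simp only [integral_const_mul, (hXX i _).2, mul_ite, mul_zero, sum_ite_eq, mem_univ, if_true]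
  ring

/-- exponential moment of the absolute value of a linear form -/
lemma exp_abs_dot (a : ι → ℝ) (t : ℝ) :
    Integrable (fun z => exp (t * |dot a z|)) (gauss ι) ∧
      ∫ z, exp (t * |dot a z|) ∂gauss ι ≤ 2 * exp (t ^ 2 * dot a a / 2) := by
  have hm : ∀ s : ℝ, Integrable (fun z => exp (dot (fun i => s * a i) z)) (gauss ι) ∧
      ∫ z, exp (dot (fun i => s * a i) z) ∂gauss ι = exp (s ^ 2 * dot a a / 2) := fun s => by
    refine ⟨Vale.Agent.P150.integrable_of_bound (C := 1) (M := ∑ i, |s * a i|) (by unfold dot; fun_prop) fun z => ?_, ?_⟩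
    · rw [abs_exp, one_mul]
      exact exp_le_exp.2 ((le_abs_self _).trans (Vale.Agent.P150.abs_dot_le
        (fun i => single_le_sum (fun j _ => abs_nonneg (s * a j)) (mem_univ i)) z))
    · rw [Vale.Agent.P150.mgf_dot]
      congr 2
      simp only [dot, mul_sum]
      exact sum_congr rfl fun i _ => by ring
  have hl : ∀ (s : ℝ) (z : ι → ℝ), dot (fun i => s * a i) z = s * dot a z := fun s z => by
    simp only [dot, mul_sum, mul_assoc]
  have hb : ∀ z, exp (t * |dot a z|) ≤ exp (dot (fun i => t * a i) z) + exp (dot (fun i => -t * a i) z) := fun z => by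
    rw [hl, hl]
    rcases abs_choice (dot a z) with h | h <;> rw [h]
    · linarith [exp_pos (-t * dot a z)]
    · rw [show t * -dot a z = -t * dot a z by ring]; linarith [exp_pos (t * dot a z)]
  have hsum := (hm t).1.fun_add (hm (-t)).1
  have hi : Integrable (fun z => exp (t * |dot a z|)) (gauss ι) :=
    hsum.mono' (by unfold dot; fun_prop : Measurable _).aestronglyMeasurable (Filter.Eventually.of_forall fun z => by
      rw [Real.norm_eq_abs, abs_exp]; exact hb z)
  refine ⟨hi, (integral_mono hi hsum hb).trans_eq ?_⟩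
  rw [integral_add (hm t).1 (hm (-t)).1, (hm t).2, (hm (-t)).2, neg_sq]
  ring

/-- exponential moments of a row -/
lemma exp_abs_xF [NeZero N] (hU : Matrix.of U ∈ Matrix.orthogonalGroup (Fin N) ℝ) {j : Fin k}
    (hA : 1 ≤ A * freq lab j) (σ : Fin N → Bool) {t : ℝ} (ht : 0 ≤ t) :
    Integrable (fun g => exp (t * |xF lab U g j σ|)) (gauss (Fin N)) ∧
      ∫ g, exp (t * |xF lab U g j σ|) ∂gauss (Fin N) ≤
        2 * exp ((2 * t) ^ 2 * A / 2) + exp (t ^ 2 * A / (4 * (log 2 / 2 - 1 / 4))) := by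
  obtain ⟨hA0, hn, hNn⟩ := blk_pos hA
  set n := blkC lab j
  set c := log 2 / 2 - 1 / 4
  have hc : 0 < c := by simp only [c]; linarith [Real.log_two_gt_d9]
  set Q := fun g : Fin N → ℝ => ∑ i ∈ univ.filter (fun i => lab i = j), g i ^ 2
  set s := fun i : Fin N => if lab i = j then (-(1/2) : ℝ) else 0
  have hs : ∀ i, s i < 1 / 2 := fun i => by simp only [s]; split_ifs <;> norm_num
  have eQ : ∀ g, exp (-(Q g / 2)) = ∏ i, exp (s i * g i ^ 2) := fun g => by
    rw [← exp_sum]; congr 1
    simp only [Q, s, ite_mul, zero_mul, ← sum_filter, sum_div, ← sum_neg_distrib]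
    exact sum_congr rfl fun i _ => by ring
  have iQ : Integrable (fun g => exp (-(Q g / 2))) (gauss (Fin N)) := by
    simp only [eQ]
    exact Integrable.fintype_prod (f := fun i (x : ℝ) => exp (s i * x ^ 2))
      fun i => (Vale.Agent.P150.integral_exp_mul_sq (hs i)).1
  have hQ : ∫ g, exp (-(Q g / 2)) ∂gauss (Fin N) = exp (-(n * (log 2 / 2))) := by
    simp only [eQ]
    rw [Vale.Agent.P150.gauss, integral_fintype_prod_eq_prod (fun i (x : ℝ) => exp (s i * x ^ 2))]
    simp only [fun i => (Vale.Agent.P150.integral_exp_mul_sq (hs i)).2]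
    have e : ∀ i, (√(1 - 2 * s i))⁻¹ = if lab i = j then exp (-(log 2 / 2)) else 1 := fun i => by
      simp only [s]; split_ifs
      · rw [exp_neg, exp_half, exp_log two_pos]; norm_num
      · simp
    simp only [e]
    rw [← prod_filter, prod_const, ← exp_nat_mul]
    simp [n, blkC]
  set K := t * √(N : ℝ) + n / 4
  have hb : ∀ g, exp (t * |xF lab U g j σ|) ≤
      exp (2 * t * |dot (bF lab U j σ) g|) + exp K * exp (-(Q g / 2)) := fun g => by
    rw [← yF_eq]
    have h2 := mul_pos (exp_pos K) (exp_pos (-(Q g / 2)))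
    rcases le_total (Q g) (n / 2) with h | h
    · rw [← exp_add]
      refine le_add_of_nonneg_of_le (exp_pos _).le (exp_le_exp.2 ?_)
      have : |xF lab U g j σ| ≤ √(N : ℝ) := by
        rw [← Real.sqrt_sq_eq_abs]; exact Real.sqrt_le_sqrt (xF_sq_le hU g j σ)
      have := mul_le_mul_of_nonneg_left this ht
      simp only [K]
      linarith
    · refine le_add_of_le_of_nonneg (exp_le_exp.2 ?_) h2.le
      rw [mul_comm 2 t, mul_assoc]
      refine mul_le_mul_of_nonneg_left ?_ ht
      have key : xF lab U g j σ ^ 2 ≤ (2 * |yF lab U g j σ|) ^ 2 := by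
        rw [mul_pow, sq_abs, yF_eq_xF hA, mul_pow (xF lab U g j σ),
          Real.sq_sqrt (div_nonneg (sum_nonneg fun _ _ => sq_nonneg _) hn.le)]
        have h' : (1:ℝ) / 2 ≤ Q g / n := by rw [le_div_iff₀ hn]; linarith
        have := mul_le_mul_of_nonneg_left h' (sq_nonneg (xF lab U g j σ))
        simp only [Q, n] at this
        linarith [sq_nonneg (xF lab U g j σ)]
      exact (Real.sqrt_sq_eq_abs (xF lab U g j σ)).symm.trans_le
        ((Real.sqrt_le_sqrt key).trans_eq (Real.sqrt_sq (by positivity)))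
  obtain ⟨i1, e1⟩ := exp_abs_dot (bF lab U j σ) (2 * t)
  have i2 := i1.fun_add (iQ.const_mul (exp K))
  have hi : Integrable (fun g => exp (t * |xF lab U g j σ|)) (gauss (Fin N)) :=
    i2.mono' (by fun_prop : Measurable _).aestronglyMeasurable (Filter.Eventually.of_forall fun g => by
      rw [Real.norm_eq_abs, abs_exp]; exact hb g)
  refine ⟨hi, (integral_mono hi i2 hb).trans ?_⟩
  rw [integral_add i1 (iQ.const_mul _), integral_const_mul, hQ]
  refine add_le_add (e1.trans ?_) ?_
  · refine mul_le_mul_of_nonneg_left (exp_le_exp.2 ?_) two_pos.le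
    rw [dot_bF_self]
    have := mul_le_mul_of_nonneg_left (vB_bounds hU hA σ).2 (sq_nonneg (2 * t))
    linarith
  · rw [← exp_add]
    refine exp_le_exp.2 ?_
    have h1 : √(N : ℝ) ^ 2 ≤ A * n := by rw [Real.sq_sqrt (Nat.cast_nonneg _)]; exact hNn
    have h2 : 0 ≤ (2 * c * √(N : ℝ) - t * A) ^ 2 := sq_nonneg _
    rw [le_div_iff₀ (by positivity)]
    simp only [K]
    have h3 : c * n * A ≥ c * √(N : ℝ) ^ 2 := by nlinarith
    have h4 : (t * √(N : ℝ) + n / 4 + -(n * (log 2 / 2))) = t * √(N : ℝ) - c * n := by simp only [c]; ring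
    rw [h4]
    nlinarith [mul_pos hc hA0]

/-- exponential moments of all rows together -/
theorem size_exp (k : ℕ) (A L : ℝ) : ∃ C : ℝ, 0 ≤ C ∧ ∀ {N : ℕ} [NeZero N] (S : Finset (Fin k)) (lab : Fin N → Fin k) (U : Mat N),
    Matrix.of U ∈ Matrix.orthogonalGroup (Fin N) ℝ → (∀ j ∈ S, 1 ≤ A * freq lab j) → ∀ σ : Fin N → Bool,
    Integrable (fun g => exp (L * size S lab U g σ)) (gauss (Fin N)) ∧
      ∫ g, exp (L * size S lab U g σ) ∂gauss (Fin N) ≤ C := by
  set T := 2 * |L| * k
  set Cx := 2 * exp ((2 * T) ^ 2 * A / 2) + exp (T ^ 2 * A / (4 * (log 2 / 2 - 1 / 4)))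
  set Cy := 2 * exp (T ^ 2 * A / 2)
  refine ⟨1 + k * (Cx + Cy), by positivity, fun {N} _ S lab U hU hA σ => ?_⟩
  have hT : 0 ≤ T := by positivity
  set G := fun (j : Fin k) (g : Fin N → ℝ) => exp (T * |xF lab U g j σ|) + exp (T * |yF lab U g j σ|)
  have hG : ∀ j ∈ S, Integrable (G j) (gauss (Fin N)) ∧ ∫ g, G j g ∂gauss (Fin N) ≤ Cx + Cy := fun j hjS => by
    obtain ⟨i1, e1⟩ := exp_abs_xF hU (hA j hjS) σ hT
    obtain ⟨i2, e2⟩ := exp_abs_dot (bF lab U j σ) T
    simp only [G, yF_eq]
    refine ⟨i1.fun_add i2, (integral_add i1 i2).trans_le (add_le_add e1 (e2.trans ?_))⟩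
    rw [dot_bF_self]
    refine mul_le_mul_of_nonneg_left (exp_le_exp.2 ?_) two_pos.le
    have := mul_le_mul_of_nonneg_left (vB_bounds hU (hA j hjS) σ).2 (sq_nonneg T)
    linarith
  have hb : ∀ g, exp (L * size S lab U g σ) ≤ 1 + ∑ j ∈ S, G j g := fun g => by
    have h0 : 0 ≤ ∑ j ∈ S, G j g := sum_nonneg fun j _ => by positivity
    have hLS : L * size S lab U g σ ≤ |L| * size S lab U g σ :=
      mul_le_mul_of_nonneg_right (le_abs_self L) (size_nonneg ..)
    rcases S.eq_empty_or_nonempty with he | he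
    · simp [size, he]
    obtain ⟨j, hjS, hj⟩ := exists_max_image S (fun j => |xF lab U g j σ| + |yF lab U g j σ|) he
    have hs : size S lab U g σ ≤ k * (|xF lab U g j σ| + |yF lab U g j σ|) := by
      refine (sum_le_sum fun i hi => hj i hi).trans ?_
      rw [sum_const, nsmul_eq_mul]
      refine mul_le_mul_of_nonneg_right ?_ (by positivity)
      exact_mod_cast (card_le_univ S).trans_eq (Fintype.card_fin k)
    have hle : L * size S lab U g σ ≤ max (T * |xF lab U g j σ|) (T * |yF lab U g j σ|) := by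
      refine hLS.trans ((mul_le_mul_of_nonneg_left hs (abs_nonneg L)).trans ?_)
      rw [← mul_assoc]
      have hk : 0 ≤ |L| * k := by positivity
      rcases le_total |xF lab U g j σ| |yF lab U g j σ| with h | h
      · exact le_max_of_le_right (by simp only [T]; nlinarith)
      · exact le_max_of_le_left (by simp only [T]; nlinarith)
    have h1 : exp (L * size S lab U g σ) ≤ G j g := by
      refine (exp_le_exp.2 hle).trans ?_
      rw [exp_monotone.map_max]
      exact max_le (le_add_of_nonneg_right (exp_pos _).le) (le_add_of_nonneg_left (exp_pos _).le)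
    exact h1.trans ((single_le_sum (f := fun j => G j g) (fun i _ => by positivity) hjS).trans
      (le_add_of_nonneg_left zero_le_one))
  have hsum := (integrable_const (1:ℝ)).fun_add (integrable_finsetSum S fun j hj => (hG j hj).1)
  have hi : Integrable (fun g => exp (L * size S lab U g σ)) (gauss (Fin N)) :=
    hsum.mono' (by fun_prop : Measurable _).aestronglyMeasurable (Filter.Eventually.of_forall fun g => by
      rw [Real.norm_eq_abs, abs_exp]; exact hb g)
  refine ⟨hi, (integral_mono hi hsum hb).trans ?_⟩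
  rw [integral_add (integrable_const _) (integrable_finsetSum S fun j hj => (hG j hj).1), integral_finsetSum _
    fun j hj => (hG j hj).1]
  simp only [integral_const, probReal_univ, one_smul]
  refine add_le_add le_rfl ((sum_le_sum fun j hj => (hG j hj).2).trans ?_)
  rw [sum_const, nsmul_eq_mul]
  refine mul_le_mul_of_nonneg_right ?_ (by positivity)
  exact_mod_cast (card_le_univ S).trans_eq (Fintype.card_fin k)

lemma rdv_sq [NeZero N] {j : Fin k} (hA : 1 ≤ A * freq lab j) :
    Integrable (fun g => rdv lab j g ^ 2) (gauss (Fin N)) ∧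
      ∫ g, rdv lab j g ^ 2 ∂gauss (Fin N) ≤ P157.Par.c4 * A / N := by
  obtain ⟨-, hn, hNn⟩ := blk_pos hA
  set F := fun i : Fin N => if lab i = j then (blkC lab j)⁻¹ else 0
  have e : ∀ g : Fin N → ℝ, rdv lab j g = ∑ i, F i * (g i ^ 2 - 1) := fun g => by
    simp only [rdv, F, ite_mul, zero_mul, ← sum_filter, mul_sub, mul_one, sum_sub_distrib, sum_const,
      nsmul_eq_mul, ← mul_sum]
    rw [← show blkC lab j = ((univ.filter fun i => lab i = j).card : ℝ) from rfl, mul_inv_cancel₀ hn.ne',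
      div_eq_inv_mul]
  obtain ⟨hi, he⟩ := P157.Par.integral_sq_sum F
  simp only [e]
  refine ⟨hi, he.trans_le ?_⟩
  simp only [F, ite_pow, zero_pow two_ne_zero, ← sum_filter, sum_const, nsmul_eq_mul]
  rw [← show blkC lab j = ((univ.filter fun i => lab i = j).card : ℝ) from rfl, mul_div_assoc]
  refine mul_le_mul_of_nonneg_left ?_ P157.Par.c4_nonneg
  rw [le_div_iff₀ (by exact_mod_cast NeZero.pos N : (0:ℝ) < N), show blkC lab j * (blkC lab j)⁻¹ ^ 2 * (N:ℝ) =
    N / blkC lab j by field_simp]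
  exact (div_le_iff₀ hn).2 hNn

/-- whatever is small with the radii is small in the mean -/
theorem dev_exp (k : ℕ) (A L : ℝ) : ∃ C : ℝ, 0 ≤ C ∧ ∀ {N : ℕ} [NeZero N] (S : Finset (Fin k)) (lab : Fin N → Fin k) (U : Mat N),
    Matrix.of U ∈ Matrix.orthogonalGroup (Fin N) ℝ → (∀ j ∈ S, 1 ≤ A * freq lab j) → ∀ σ : Fin N → Bool,
    Integrable (fun g => rdev S lab g * exp (L * size S lab U g σ)) (gauss (Fin N)) ∧
      ∫ g, rdev S lab g * exp (L * size S lab U g σ) ∂gauss (Fin N) ≤ C / √(N : ℝ) := by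
  obtain ⟨C, hC, hexp⟩ := size_exp k A (2 * L)
  refine ⟨(k * (k * (P157.Par.c4 * |A|)) + C) / 2, by have := P157.Par.c4_nonneg; positivity,
    fun {N} _ S lab U hU hA σ => ?_⟩
  obtain ⟨ie, ee⟩ := hexp S lab U hU hA σ
  have hN : (0:ℝ) < √(N : ℝ) := Real.sqrt_pos.2 (by exact_mod_cast NeZero.pos N)
  set W := fun g : Fin N → ℝ => √(N : ℝ) / 2 * (k * ∑ j ∈ S, rdv lab j g ^ 2) + exp (2 * L * size S lab U g σ) / (2 * √(N:ℝ))
  have hb : ∀ g, rdev S lab g * exp (L * size S lab U g σ) ≤ W g := fun g => by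
    have h1 : rdev S lab g ^ 2 ≤ k * ∑ j ∈ S, rdv lab j g ^ 2 := by
      have h := sq_sum_le_card_mul_sum_sq (s := S) (f := fun j => |rdv lab j g|)
      simp only [sq_abs] at h
      refine h.trans (mul_le_mul_of_nonneg_right ?_ (sum_nonneg fun _ _ => sq_nonneg _))
      exact_mod_cast (card_le_univ S).trans_eq (Fintype.card_fin k)
    have h2 : exp (2 * L * size S lab U g σ) = exp (L * size S lab U g σ) ^ 2 := by
      rw [← exp_nat_mul]; congr 1; push_cast; ring
    simp only [W, h2]
    rw [div_mul_eq_mul_div, ← sub_nonneg]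
    have key : 0 ≤ (√(N : ℝ) * rdev S lab g - exp (L * size S lab U g σ)) ^ 2 / (2 * √(N:ℝ)) := by positivity
    refine key.trans ?_
    rw [show (√(N : ℝ) * rdev S lab g - exp (L * size S lab U g σ)) ^ 2 / (2 * √(N:ℝ)) =
      √(N : ℝ) * rdev S lab g ^ 2 / 2 + exp (L * size S lab U g σ) ^ 2 / (2 * √(N:ℝ)) -
        rdev S lab g * exp (L * size S lab U g σ) by field_simp; ring]
    have := mul_le_mul_of_nonneg_left h1 hN.le
    linarith
  have hs := fun j (hj : j ∈ S) => rdv_sq (hA j hj)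
  have iS : Integrable (fun g => (k:ℝ) * ∑ j ∈ S, rdv lab j g ^ 2) (gauss (Fin N)) :=
    (integrable_finsetSum _ fun j hj => (hs j hj).1).const_mul _
  have iW : Integrable W (gauss (Fin N)) := (iS.const_mul _).fun_add (ie.div_const _)
  have hi : Integrable (fun g => rdev S lab g * exp (L * size S lab U g σ)) (gauss (Fin N)) :=
    iW.mono' (by fun_prop : Measurable _).aestronglyMeasurable (Filter.Eventually.of_forall fun g => by
      rw [Real.norm_eq_abs, abs_of_nonneg (mul_nonneg (rdev_nonneg ..) (exp_pos _).le)]; exact hb g)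
  refine ⟨hi, (integral_mono hi iW hb).trans ?_⟩
  simp only [W]
  rw [integral_add (iS.const_mul _) (ie.div_const _), integral_const_mul, integral_const_mul, integral_div,
    integral_finsetSum _ fun j hj => (hs j hj).1]
  have h1 : ∑ j ∈ S, ∫ g, rdv lab j g ^ 2 ∂gauss (Fin N) ≤ k * (P157.Par.c4 * |A| / N) := by
    refine (sum_le_sum (g := fun _ => P157.Par.c4 * |A| / N) fun j hj => (hs j hj).2.trans ?_).trans ?_
    · exact div_le_div_of_nonneg_right (mul_le_mul_of_nonneg_left (le_abs_self A) P157.Par.c4_nonneg) (Nat.cast_nonneg N)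
    · rw [sum_const, nsmul_eq_mul]
      refine mul_le_mul_of_nonneg_right ?_ (by have := P157.Par.c4_nonneg; positivity)
      exact_mod_cast (card_le_univ S).trans_eq (Fintype.card_fin k)
  refine (add_le_add (mul_le_mul_of_nonneg_left (mul_le_mul_of_nonneg_left h1 (Nat.cast_nonneg k))
    (by positivity)) (div_le_div_of_nonneg_right ee (by positivity))).trans_eq ?_
  have e : (N:ℝ) = √(N : ℝ) * √(N : ℝ) := (Real.mul_self_sqrt (Nat.cast_nonneg N)).symm
  have hne := hN.ne'
  rw [show ∀ a : ℝ, a / (N:ℝ) = a / (√(N : ℝ) * √(N : ℝ)) from fun a => by rw [← e]]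
  field_simp

end Vale.Agent.P166.Gen
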