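import Vale.Agent.P166.Gen.LowGainMom
import Vale.Agent.P166.Gen.LowGainTilt

/-!
# P166 G4: the change of one eigenvalue

One factor `exp (-s x² / 2)` costs at most its first moment, up to the square of `s x²`, and moves
the overlaps by that square.
-/

open MeasureTheory ProbabilityTheory Real Finset
open Vale.Agent.P150 (gauss dot)
open Vale.Agent.P157.Par (Prof adev devOf ovK qlev)
open Vale.Agent.P168.MP (lin ET nest Valid valid_single ok_lin)

noncomputable section

namespace Vale.Agent.P166.Gen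

variable {k N : ℕ}

lemma exp_neg_le_quad {z : ℝ} (hz : -1 ≤ z) : exp (-z) ≤ 1 - z + z ^ 2 := by
  rcases le_total z 1 with h | h
  · have := (abs_le.1 (Real.abs_exp_sub_one_sub_id_le (x := -z) (abs_le.2 ⟨by linarith, by linarith⟩))).2
    rw [neg_sq] at this
    linarith
  · have : exp (-z) ≤ 1 := exp_le_one_iff.2 (by linarith)
    nlinarith [mul_le_mul_of_nonneg_left h (zero_le_one.trans h)]

/-- the first two moments of the square of a row -/
theorem sq_moments (k : ℕ) (A : ℝ) : ∃ K : ℝ, 0 ≤ K ∧ ∀ {N : ℕ} [NeZero N] (lab : Fin N → Fin k) (U : Mat N),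
    Matrix.of U ∈ Matrix.orthogonalGroup (Fin N) ℝ → ∀ j, 1 ≤ A * freq lab j → ∀ σ : Fin N → Bool,
    Integrable (fun g => xF lab U g j σ ^ 2) (gauss (Fin N)) ∧
    |∫ g, xF lab U g j σ ^ 2 ∂gauss (Fin N) - vB lab U j σ| ≤ K / √(N : ℝ) ∧
    ∀ c : ℝ, |c| ≤ |A| →
      Integrable (fun g => (xF lab U g j σ ^ 2 - c) ^ 2) (gauss (Fin N)) ∧
      ∫ g, (xF lab U g j σ ^ 2 - c) ^ 2 ∂gauss (Fin N) ≤
        3 * vB lab U j σ ^ 2 - 2 * c * vB lab U j σ + c ^ 2 + K / √(N : ℝ) := by
  obtain ⟨C1, hC1, h1⟩ := dev_exp k A 1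
  obtain ⟨C2, hC2, h2⟩ := dev_exp k A 2
  refine ⟨2 * C1 + (8 + 4 * |A|) * C2, by positivity, fun {N} _ lab U hU j hA σ => ?_⟩
  obtain ⟨i1, e1⟩ := h1 {j} lab U hU (by simpa using hA) σ
  obtain ⟨i2, e2⟩ := h2 {j} lab U hU (by simpa using hA) σ
  set x := fun g => xF lab U g j σ
  set y := fun g => yF lab U g j σ
  set v := vB lab U j σ
  set S := fun g => size {j} lab U g σ
  set D := fun g => rdev {j} lab g
  have hN : 0 ≤ (1:ℝ) / √(N : ℝ) := by positivity
  have hv : dot (bF lab U j σ) (bF lab U j σ) = v := dot_bF_self j σ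
  obtain ⟨iy2, ey2⟩ := P157.Par.integral_dot_sq (bF lab U j σ)
  obtain ⟨iy4, ey4⟩ := dot_four (bF lab U j σ)
  simp only [hv, ← yF_eq] at ey2 ey4 iy2 iy4
  have hs : ∀ g, 0 ≤ S g := fun g => size_nonneg ..
  have hsq : ∀ g, x g ^ 2 ≤ 2 * exp (S g) ∧ y g ^ 2 ≤ 2 * exp (S g) := fun g => by
    obtain ⟨hx, hy⟩ := le_size (S := {j}) lab U g σ (mem_singleton_self j)
    have hS : S g ^ 2 ≤ 2 * exp (S g) := by
      have := Real.quadratic_le_exp_of_nonneg (hs g)
      have := hs g
      linarith
    constructor <;> refine le_trans ?_ hS <;> rw [← sq_abs]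
    · exact pow_le_pow_left₀ (abs_nonneg _) hx 2
    · exact pow_le_pow_left₀ (abs_nonneg _) hy 2
  have hd : ∀ g, |x g ^ 2 - y g ^ 2| ≤ 2 * (D g * exp (1 * S g)) := fun g => by
    rw [(xy_close hA g σ).2, one_mul, show D g = |rdv lab j g| by simp [D, rdev]]
    calc x g ^ 2 * |rdv lab j g| ≤ 2 * exp (S g) * |rdv lab j g| :=
          mul_le_mul_of_nonneg_right (hsq g).1 (abs_nonneg _)
      _ = _ := by ring
  have hx2m : Measurable fun g => x g ^ 2 := (measurable_xF lab U j σ).pow_const 2
  have ix2 : Integrable (fun g => x g ^ 2) (gauss (Fin N)) :=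
    (iy2.fun_add (i1.const_mul 2)).mono' hx2m.aestronglyMeasurable (Filter.Eventually.of_forall fun g => by
      rw [Real.norm_eq_abs, abs_of_nonneg (sq_nonneg _)]
      have := (abs_le.1 (hd g)).2
      show x g ^ 2 ≤ y g ^ 2 + 2 * (D g * exp (1 * S g))
      linarith)
  refine ⟨ix2, ?_, fun c hc => ?_⟩
  · rw [← ey2, ← integral_sub ix2 iy2]
    refine abs_integral_le_integral_abs.trans ((integral_mono (ix2.sub' iy2).abs (i1.const_mul 2) hd).trans ?_)
    rw [integral_const_mul]
    have : 0 ≤ (8 + 4 * |A|) * C2 / √(N : ℝ) := by positivity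
    rw [add_div, mul_div_assoc]
    linarith [mul_le_mul_of_nonneg_left e1 (two_pos (α := ℝ)).le]
  · have hb : ∀ g, (x g ^ 2 - c) ^ 2 ≤
        (y g ^ 2 * y g ^ 2 - 2 * c * y g ^ 2 + c ^ 2) + (8 + 4 * |A|) * (D g * exp (2 * S g)) := fun g => by
      have h1 : |x g ^ 2 + y g ^ 2 - 2 * c| ≤ (4 + 2 * |A|) * exp (S g) := by
        have := one_le_exp (hs g)
        have := abs_le.1 hc
        have hA' := mul_le_mul_of_nonneg_left (one_le_exp (hs g)) (abs_nonneg A)
        rw [abs_le]
        constructor <;> nlinarith [hsq g, sq_nonneg (x g), sq_nonneg (y g)]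
      have h2 := mul_le_mul (hd g) h1 (abs_nonneg _) (by
        have : 0 ≤ D g := rdev_nonneg ..
        positivity)
      rw [← abs_mul, one_mul] at h2
      have e : exp (2 * S g) = exp (S g) * exp (S g) := by rw [← exp_add]; ring_nf
      rw [e]
      have := (le_abs_self _).trans h2
      nlinarith
    have iy4' : Integrable (fun g => y g ^ 2 * y g ^ 2) (gauss (Fin N)) := by
      simpa only [← pow_add] using iy4
    have iy : Integrable (fun g => y g ^ 2 * y g ^ 2 - 2 * c * y g ^ 2 + c ^ 2) (gauss (Fin N)) :=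
      (iy4'.sub' (iy2.const_mul (2 * c))).fun_add (integrable_const _)
    have isum := iy.fun_add (i2.const_mul (8 + 4 * |A|))
    have hi : Integrable (fun g => (x g ^ 2 - c) ^ 2) (gauss (Fin N)) :=
      isum.mono' ((hx2m.sub_const c).pow_const 2).aestronglyMeasurable (Filter.Eventually.of_forall fun g => by
        rw [Real.norm_eq_abs, abs_of_nonneg (sq_nonneg _)]; exact hb g)
    refine ⟨hi, (integral_mono hi isum hb).trans ?_⟩
    rw [integral_add iy (i2.const_mul _), integral_add (iy4'.sub' (iy2.const_mul _)) (integrable_const _),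
      integral_sub iy4' (iy2.const_mul _), integral_const_mul, integral_const_mul, ey2, integral_const,
      probReal_univ, one_smul]
    have e4 : ∫ g, y g ^ 2 * y g ^ 2 ∂gauss (Fin N) = 3 * v ^ 2 := by
      rw [← ey4]; exact integral_congr_ae (Filter.Eventually.of_forall fun g => by ring)
    rw [e4, add_div, mul_div_assoc, mul_div_assoc]
    have : 0 ≤ 2 * (C1 / √(N : ℝ)) := by positivity
    linarith [mul_le_mul_of_nonneg_left e2 (show 0 ≤ 8 + 4 * |A| by positivity)]

/-- the change of one eigenvalue -/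
theorem stmt_step : StmtStep := by
  refine ⟨14, by norm_num, fun k A => ?_⟩
  obtain ⟨K, hK, hmom⟩ := sq_moments k A
  refine ⟨14 * (K + 6 * |A| + 6) + exp 4, by positivity, ?_⟩
  intro Ω _ _ R N _ hR lab U hU w hw rd j s u hA hs hs1 hu Y dev
  have hA0 := (blk_pos hA).1
  have hAA : |A| = A := abs_of_pos hA0
  obtain ⟨hu0, huA⟩ := hu.mem le_rfl
  have hu' : |u R| ≤ |A| := by rw [abs_of_nonneg hu0, hAA]; exact huA
  set x := fun g p => xF lab U g j (rd p)
  have hxm : ∀ p, Measurable fun g => x g p := fun p => measurable_xF lab U j (rd p)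
  have hYm : ∀ p, Measurable fun g => Y g p := fun p => by
    simp only [Y]; exact ((((hxm p).pow_const 2).const_mul s).div_const 2).neg.exp
  have hY0 : ∀ g p, 0 < Y g p := fun g p => exp_pos _
  have hY1 : ∀ g p, Y g p ≤ 1 := fun g p => exp_le_one_iff.2 (by
    have := mul_nonneg hs (sq_nonneg (xF lab U g j (rd p))); linarith)
  set v := fun p => vB lab U j (rd p)
  set d := fun p => |v p - u R|
  set dd := ET R (lin R) w [(0, 0)] fun ps => d (ps.getD 0 [])
  have hdd0 : 0 ≤ dd := Vale.Agent.P168.MP.ET_nonneg hw fun _ => abs_nonneg _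
  have hN0 : 0 ≤ (1:ℝ) / √(N : ℝ) := by positivity
  have hdd : dd + 1 / √(N : ℝ) ≤ dev := by
    simp only [dev, adev]
    rw [devOf_top]
    have : 0 ≤ (∑ l ∈ range R, devOf R w (cvR lab U rd j) u l) / R :=
      div_nonneg (sum_nonneg fun l _ => P157.Par.devOf_nonneg hw _ _ l) (Nat.cast_nonneg R)
    show dd + _ ≤ _
    simp only [dd, d, v, vB, cvR]
    linarith
  have hdev : 0 ≤ dev := le_trans (add_nonneg hdd0 hN0) hdd
  have hq : ∀ p, |∫ g, x g p ^ 2 ∂gauss (Fin N) - u R| ≤ d p + K / √(N : ℝ) ∧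
      ∫ g, (x g p ^ 2 - u R) ^ 2 ∂gauss (Fin N) ≤ 2 * u R ^ 2 + 6 * |A| * d p + K / √(N : ℝ) ∧
      ∫ g, (x g p ^ 2 - 0) ^ 2 ∂gauss (Fin N) ≤ 3 * u R ^ 2 + 6 * |A| * d p + K / √(N : ℝ) := fun p => by
    obtain ⟨-, h1, h2⟩ := hmom lab U hU j hA (rd p)
    obtain ⟨hv0, hvA⟩ := vB_bounds hU hA (rd p)
    have h2u := (h2 (u R) hu').2
    have h20 := (h2 0 (by simp)).2
    have hsum : |v p + u R| ≤ 2 * |A| := by
      rw [abs_of_nonneg (add_nonneg hv0 hu0), hAA]; linarith
    have hd0 : 0 ≤ d p := abs_nonneg _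
    have hsq : v p ^ 2 - u R ^ 2 ≤ 2 * |A| * d p := by
      refine (le_abs_self _).trans ?_
      rw [show v p ^ 2 - u R ^ 2 = (v p + u R) * (v p - u R) by ring, abs_mul]
      exact mul_le_mul_of_nonneg_right hsum (abs_nonneg _)
    have hdA : d p ≤ |A| := by
      simp only [d, v, abs_le]; rw [hAA]; constructor <;> linarith
    have hsq2 : (v p - u R) ^ 2 ≤ |A| * d p := by
      rw [← sq_abs, sq]; exact mul_le_mul_of_nonneg_right hdA hd0
    refine ⟨(abs_sub_le _ (v p) _).trans (by simp only [d]; linarith), h2u.trans ?_, h20.trans ?_⟩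
    · have := mul_nonneg (abs_nonneg A) hd0
      simp only [v, d] at *
      nlinarith
    · simp only [v, d] at *
      nlinarith
  refine ⟨?_, fun l hl => ?_⟩
  · -- the value
    have him : Measurable fun g => log (nest (lin R) w (Y g) R []) := measurable_log_nest hw hYm hY0
    have hle0 : ∀ g, log (nest (lin R) w (Y g) R []) ≤ 0 := fun g =>
      (log_nest_le_log_ET hR hw (hY0 g)).trans (log_nonpos (Vale.Agent.P168.MP.ET_nonneg hw fun ps => (hY0 g _).le)
        ((Vale.Agent.P168.MP.ET_mono hw fun ps => hY1 g _).trans_eq (Vale.Agent.P168.MP.ET_const hw _ _)))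
    have hii : Integrable (fun g => log (nest (lin R) w (Y g) R [])) (gauss (Fin N)) := by
      refine Integrable.of_bound him.aestronglyMeasurable (s * N / 2) (Filter.Eventually.of_forall fun g => ?_)
      rw [Real.norm_eq_abs]
      refine P157.Par.abs_log_nest_le (ok_lin hR hw) fun p => ⟨exp_le_exp.2 ?_, (hY1 g p).trans (one_le_exp (by positivity))⟩
      have := mul_le_mul_of_nonneg_left (xF_sq_le (lab := lab) hU g j (rd p)) hs
      linarith
    by_cases hsu : s * u R ≤ 1
    · set z := fun g p => s * (x g p ^ 2 - u R) / 2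
      have hz : ∀ g p, -1 ≤ z g p := fun g p => by
        have := mul_nonneg hs (sq_nonneg (x g p)); simp only [z]; linarith
      set W := fun g p => -z g p + z g p ^ 2
      have hpt : ∀ g, log (nest (lin R) w (Y g) R []) ≤
          -(s * u R / 2) + ET R (lin R) w [(0, 0)] fun ps => W g (ps.getD 0 []) := fun g => by
        refine (log_nest_le_log_ET hR hw (hY0 g)).trans ?_
        set c := exp (s * u R / 2)
        set E := ET R (lin R) w [(0, 0)] fun ps => Y g (ps.getD 0 [])
        have hb : exp (-(s * N / 2)) ≤ E := by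
          simp only [E]
          rw [← Vale.Agent.P168.MP.ET_const (R := R) (m := lin R) hw [(0, 0)] (exp (-(s * N / 2)))]
          refine Vale.Agent.P168.MP.ET_mono hw fun ps => exp_le_exp.2 ?_
          have := mul_le_mul_of_nonneg_left (xF_sq_le (lab := lab) hU g j (rd (ps.getD 0 []))) hs
          linarith
        have hE : 0 < E := (exp_pos _).trans_le hb
        have h1 := log_le_sub_one_of_pos (mul_pos (exp_pos (s * u R / 2)) hE)
        rw [log_mul (exp_pos _).ne' hE.ne', log_exp] at h1
        have h2 : c * E ≤ 1 + ET R (lin R) w [(0, 0)] fun ps => W g (ps.getD 0 []) := by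
          simp only [E]
          rw [← Vale.Agent.P168.MP.ET_const_mul, ← Vale.Agent.P168.MP.ET_const (R := R) (m := lin R) hw [(0, 0)] (1:ℝ),
            ← Vale.Agent.P168.MP.ET_add]
          refine Vale.Agent.P168.MP.ET_mono hw fun ps => ?_
          simp only [c, Y, ← exp_add, W]
          refine le_trans (le_of_eq ?_) ((exp_neg_le_quad (hz g (ps.getD 0 []))).trans_eq (by ring))
          congr 1; simp only [z, x]; ring
        linarith
      have hWi : ∀ p, Integrable (fun g => W g p) (gauss (Fin N)) ∧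
          ∫ g, W g p ∂gauss (Fin N) ≤ s ^ 2 / 2 * u R ^ 2 + 2 * |A| * d p + d p + K / √(N : ℝ) := fun p => by
        obtain ⟨h0, -, h2⟩ := hmom lab U hU j hA (rd p)
        have i2 := (h2 (u R) hu').1
        obtain ⟨q1, q2, -⟩ := hq p
        have e : ∀ g, W g p = -(s / 2) * (x g p ^ 2 - u R) + s ^ 2 / 4 * (x g p ^ 2 - u R) ^ 2 := fun g => by
          simp only [W, z]; ring
        have ia : Integrable (fun g => x g p ^ 2 - u R) (gauss (Fin N)) := h0.sub' (integrable_const _)
        simp only [e]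
        refine ⟨(ia.const_mul _).fun_add (i2.const_mul _), ?_⟩
        rw [integral_add (ia.const_mul _) (i2.const_mul _), integral_const_mul, integral_const_mul,
          integral_sub h0 (integrable_const _), integral_const, probReal_univ, one_smul]
        have hd0 : 0 ≤ d p := abs_nonneg _
        have hKN : 0 ≤ K / √(N : ℝ) := by positivity
        have a1 : -(s / 2) * (∫ g, x g p ^ 2 ∂gauss (Fin N) - u R) ≤ 1 / 2 * (d p + K / √(N : ℝ)) := by
          refine (le_abs_self _).trans ?_
          rw [abs_mul, abs_neg, abs_of_nonneg (show 0 ≤ s / 2 by positivity)]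
          exact mul_le_mul (by linarith) q1 (abs_nonneg _) (by norm_num)
        have hs2 : s ^ 2 / 4 ≤ 1 / 4 := by
          have := pow_le_one₀ (n := 2) hs hs1
          linarith
        have a2 : s ^ 2 / 4 * ∫ g, (x g p ^ 2 - u R) ^ 2 ∂gauss (Fin N) ≤
            s ^ 2 / 2 * u R ^ 2 + 1 / 4 * (6 * |A| * d p + K / √(N : ℝ)) := by
          refine (mul_le_mul_of_nonneg_left q2 (by positivity)).trans ?_
          have := mul_le_mul_of_nonneg_right hs2
            (show 0 ≤ 6 * |A| * d p + K / √(N : ℝ) by positivity)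
          linarith
        have := mul_nonneg (abs_nonneg A) hd0
        linarith
      obtain ⟨iE, eE⟩ := P157.Par.integral_ET_one (R := R) (m := lin R) (w := w) (μ := gauss (Fin N)) W
        fun p => (hWi p).1
      refine (integral_mono hii ((integrable_const _).fun_add iE) hpt).trans ?_
      rw [integral_add (integrable_const _) iE, integral_const, probReal_univ, one_smul, eE]
      have h3 := Vale.Agent.P168.MP.ET_mono (R := R) (m := lin R) hw (T := [(0, 0)])
        (F := fun ps => ∫ g, W g (ps.getD 0 []) ∂gauss (Fin N))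
        (G := fun ps => (s ^ 2 / 2 * u R ^ 2 + K / √(N : ℝ)) + (2 * |A| + 1) * d (ps.getD 0 [])) fun ps => by
          refine (hWi _).2.trans_eq ?_; ring
      rw [Vale.Agent.P168.MP.ET_add, Vale.Agent.P168.MP.ET_const hw, Vale.Agent.P168.MP.ET_const_mul] at h3
      have h4 : K / √(N : ℝ) + (2 * |A| + 1) * dd ≤ (14 * (K + 6 * |A| + 6) + exp 4) * dev := by
        have p1 := mul_le_mul_of_nonneg_left hdd (show 0 ≤ 14 * (K + 6 * |A| + 6) + exp 4 by positivity)
        rw [mul_add, mul_one_div] at p1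
        have p2 : K / √(N : ℝ) ≤ (14 * (K + 6 * |A| + 6) + exp 4) / √(N : ℝ) :=
          div_le_div_of_nonneg_right (by linarith [abs_nonneg A, exp_pos (4:ℝ)]) (Real.sqrt_nonneg _)
        have p3 : (2 * |A| + 1) * dd ≤ (14 * (K + 6 * |A| + 6) + exp 4) * dd :=
          mul_le_mul_of_nonneg_right (by linarith [abs_nonneg A, exp_pos (4:ℝ)]) hdd0
        linarith
      have := mul_nonneg (sq_nonneg s) (sq_nonneg (u R))
      linarith
    · have h : 0 ≤ (14 * (K + 6 * |A| + 6) + exp 4) * dev := mul_nonneg (by positivity) hdev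
      refine (integral_mono hii (integrable_const (0:ℝ)) hle0).trans ?_
      simp only [integral_const, smul_zero]
      nlinarith
  · -- the overlaps
    set Yt := fun g p => exp (-min (s * x g p ^ 2 / 2) 1)
    set Dp := fun g p => max (s * x g p ^ 2 / 2 - 1) 0
    have hm0 : ∀ g p, 0 ≤ min (s * x g p ^ 2 / 2) 1 := fun g p =>
      le_min (div_nonneg (mul_nonneg hs (sq_nonneg _)) two_pos.le) zero_le_one
    have hYt : ∀ g p, exp (-1) ≤ Yt g p ∧ Yt g p ≤ exp 1 := fun g p =>
      ⟨exp_le_exp.2 (neg_le_neg (min_le_right _ _)), exp_le_exp.2 (by linarith [hm0 g p])⟩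
    have hwt : ∀ g p, 0 < w p * Yt g p := fun g p => mul_pos (hw p) (exp_pos _)
    have eY : ∀ g, (fun p => w p * Y g p) = fun p => w p * Yt g p * exp (-Dp g p) := fun g => funext fun p => by
      simp only [Y, Yt, Dp, x, mul_assoc, ← exp_add]
      congr 2
      rcases le_total (s * xF lab U g j (rd p) ^ 2 / 2) 1 with h | h
      · rw [min_eq_left h, max_eq_right (by linarith)]; ring
      · rw [min_eq_right h, max_eq_left (by linarith)]; ring
    set dev2 := devOf R w (ovK rd) (qlev R w rd) l
    set H := fun g p => (x g p ^ 2 - 0) ^ 2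
    have hpt : ∀ g, |qlev R (fun p => w p * Y g p) rd l - qlev R w rd l| ≤
        exp 4 * dev2 + 9 / 2 * s ^ 2 * ET R (lin R) w [(0, 0)] (fun ps => H g (ps.getD 0 [])) := fun g => by
      refine (abs_sub_le _ (qlev R (fun p => w p * Yt g p) rd l) _).trans ?_
      have h2 := (P157.Par.rep_tilt hR hw (hYt g) rd (ovK rd) (qlev R w rd) hl).2
      rw [show (4:ℝ) * 1 = 4 by norm_num] at h2
      rw [add_comm (exp 4 * dev2)]
      refine add_le_add ?_ h2
      have h := ET_exp_neg (w := fun p => w p * Yt g p) hR (hwt g) (D := Dp g) (fun p => le_max_right _ _)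
        (P157.Par.valid2 hl) (F := fun ps => ovK rd (ps.getD 0 []) (ps.getD 1 [])) (C := 1)
        fun ps => P157.Par.abs_ov_le _ _
      rw [← eY] at h
      refine h.trans ?_
      have h1 := P157.Par.ET_one_tilt hR hw (exp_pos (-1)) (fun p => (hYt g p).1) (H := Dp g)
        fun p => le_max_right _ _
      have h2 := Vale.Agent.P168.MP.ET_mono (R := R) (m := lin R) hw (T := [(0, 0)])
        (F := fun ps => Dp g (ps.getD 0 []) * (Yt g (ps.getD 0 []) / exp (-1)))
        (G := fun ps => 3 * (s ^ 2 / 4) * H g (ps.getD 0 [])) fun ps => by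
          generalize ps.getD 0 [] = p
          have a1 : Yt g p / exp (-1) ≤ 3 := by
            rw [exp_neg, div_inv_eq_mul]
            have : Yt g p ≤ 1 := exp_le_one_iff.2 (by linarith [hm0 g p])
            have := mul_le_mul_of_nonneg_right this (exp_pos (1:ℝ)).le
            linarith [Real.exp_one_lt_d9]
          have a2 : Dp g p ≤ s ^ 2 / 4 * H g p := by
            simp only [Dp, H, sub_zero]
            refine max_le ?_ (by positivity)
            have := sq_nonneg (s * x g p ^ 2 / 2 - 1 / 2)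
            linarith
          calc Dp g p * (Yt g p / exp (-1)) ≤ s ^ 2 / 4 * H g p * 3 :=
                mul_le_mul a2 a1 (div_nonneg (exp_pos _).le (exp_pos _).le) (le_trans (le_max_right _ _) a2)
            _ = _ := by ring
      rw [Vale.Agent.P168.MP.ET_const_mul] at h2
      have h3 := mul_le_mul_of_nonneg_left (h1.trans h2)
        (show (0:ℝ) ≤ 1 * (3 * ([(0, l), (0, 0)] : List (ℕ × ℕ)).length) by positivity)
      refine h3.trans_eq ?_
      norm_num
      ring
    have hHi : ∀ p, Integrable (fun g => H g p) (gauss (Fin N)) := fun p =>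
      ((hmom lab U hU j hA (rd p)).2.2 0 (by simp)).1
    obtain ⟨iE, eE⟩ := P157.Par.integral_ET_one (R := R) (m := lin R) (w := w) (μ := gauss (Fin N)) H hHi
    have hqm : Measurable fun g => qlev R (fun p => w p * Y g p) rd l :=
      measurable_ET (fun p => (hYm p).const_mul _) (fun g p => mul_pos (hw p) (hY0 g p)) _ _
    have isum := (integrable_const (exp 4 * dev2)).fun_add (iE.const_mul (9 / 2 * s ^ 2))
    have hi : Integrable (fun g => |qlev R (fun p => w p * Y g p) rd l - qlev R w rd l|) (gauss (Fin N)) :=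
      isum.mono' (continuous_abs.measurable.comp (hqm.sub_const _)).aestronglyMeasurable
        (Filter.Eventually.of_forall fun g => by rw [Real.norm_eq_abs, abs_abs]; exact hpt g)
    refine (integral_mono hi isum hpt).trans ?_
    rw [integral_add (integrable_const _) (iE.const_mul _), integral_const, probReal_univ, one_smul,
      integral_const_mul, eE]
    have h3 := Vale.Agent.P168.MP.ET_mono (R := R) (m := lin R) hw (T := [(0, 0)])
      (F := fun ps => ∫ g, H g (ps.getD 0 []) ∂gauss (Fin N))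
      (G := fun ps => (3 * u R ^ 2 + K / √(N : ℝ)) + 6 * |A| * d (ps.getD 0 [])) fun ps => by
        refine (hq _).2.2.trans_eq ?_; ring
    rw [Vale.Agent.P168.MP.ET_add, Vale.Agent.P168.MP.ET_const hw, Vale.Agent.P168.MP.ET_const_mul] at h3
    have h4 := mul_le_mul_of_nonneg_left h3 (show (0:ℝ) ≤ 9 / 2 * s ^ 2 by positivity)
    set Kb := 14 * (K + 6 * |A| + 6) + exp 4
    have hKN : 0 ≤ K / √(N : ℝ) := by positivity
    have h5 : 9 / 2 * s ^ 2 * (K / √(N : ℝ) + 6 * |A| * dd) ≤ Kb * dev := by
      have hs2 : 9 / 2 * s ^ 2 ≤ 9 / 2 := by have := pow_le_one₀ (n := 2) hs hs1; linarith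
      refine (mul_le_mul_of_nonneg_right hs2 (by positivity)).trans ?_
      have p1 := mul_le_mul_of_nonneg_left hdd (show 0 ≤ Kb by positivity)
      rw [mul_add, mul_one_div] at p1
      have p2 : 9 / 2 * K / √(N : ℝ) ≤ Kb / √(N : ℝ) :=
        div_le_div_of_nonneg_right (by simp only [Kb]; linarith [abs_nonneg A, exp_pos (4:ℝ)]) (Real.sqrt_nonneg _)
      have p3 : 9 / 2 * (6 * |A|) * dd ≤ Kb * dd :=
        mul_le_mul_of_nonneg_right (by simp only [Kb]; linarith [abs_nonneg A, exp_pos (4:ℝ)]) hdd0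
      rw [mul_div_assoc] at p2
      linarith
    have h6 : exp 4 * dev2 ≤ Kb * dev2 := mul_le_mul_of_nonneg_right
      (by simp only [Kb]; linarith [abs_nonneg A]) (P157.Par.devOf_nonneg hw _ _ l)
    have := mul_nonneg (sq_nonneg s) (sq_nonneg (u R))
    linarith

end Vale.Agent.P166.Gen
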