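import Vale.Agent.P166.Gen.LowParts
import Vale.Agent.P166.Gen.Algebra
import Vale.Agent.P157.Par.GridRep

/-! P166 G4: deviations on average over the windows, and the rotation identities made linear. -/

open MeasureTheory Finset Real
open Vale.Agent.P157.Par (adev ovK qlev)
open Vale.Agent.P168.MP (lin pw spinAt Batch avg gu)

noncomputable section

namespace Vale.Agent.P166.Gen

variable {k n S R : ℕ}

lemma avg_comm {A B : Type*} [Fintype A] [Fintype B] (F : A → B → ℝ) :
    avg (fun a => avg fun b => F a b) = avg fun b => avg fun a => F a b := by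
  simp only [avg, ← sum_div]
  rw [sum_comm, div_div, div_div, mul_comm]

lemma avg_add {A : Type*} [Fintype A] (f g : A → ℝ) : avg (fun a => f a + g a) = avg f + avg g := by
  simp only [avg, sum_add_distrib, add_div]

lemma avg_sub {A : Type*} [Fintype A] (f g : A → ℝ) : avg (fun a => f a - g a) = avg f - avg g := by
  simp only [avg, sum_sub_distrib, sub_div]

lemma avg_sum {A B : Type*} [Fintype A] (s : Finset B) (F : B → A → ℝ) :
    avg (fun a => ∑ b ∈ s, F b a) = ∑ b ∈ s, avg (F b) := by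
  simp only [avg, ← sum_div]
  rw [sum_comm]

lemma avg_integral {A X : Type*} [Fintype A] [MeasurableSpace X] {μ : Measure X} {F : A → X → ℝ}
    (hF : ∀ a, Integrable (F a) μ) : avg (fun a => ∫ x, F a x ∂μ) = ∫ x, avg (fun a => F a x) ∂μ := by
  simp only [avg]
  rw [integral_div, integral_finsetSum _ fun a _ => hF a]

lemma integrable_avg {A X : Type*} [Fintype A] [MeasurableSpace X] {μ : Measure X} {F : A → X → ℝ}
    (hF : ∀ a, Integrable (F a) μ) : Integrable (fun x => avg fun a => F a x) μ :=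
  (integrable_finsetSum _ fun a _ => hF a).div_const _

/-- the rotation identities, linear in the deviations -/
theorem sd_linear (hSd : StmtSd) {w θ : Fin k → ℝ} (ha : Atoms w θ) {ε : ℝ} (hε : 0 < ε) :
    ∃ τ C : ℝ, 0 < τ ∧ 0 ≤ C ∧ ∀ R : ℕ, 1 ≤ R → ∃ N₀ : ℕ, ∀ N, N₀ ≤ N → ∀ [NeZero N]
      (θ' : Fin k → ℝ) (lab : Fin N → Fin k), (∀ j, |θ' j - θ j| ≤ τ) → (∀ j, |freq lab j - w j| ≤ τ) →
      ∀ {ι : Type} [Fintype ι] [DecidableEq ι] (S : ℕ) (β : ι → Batch) (h u : ι → ℝ) (ν : Measure (Mat N)),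
        IsHaarOrthogonal ν →
        ∫ U, totDev w θ θ' lab U R S β h u ∂ν ≤ ε + C * ∫ U, devU θ' lab U R S β h u ∂ν := by
  obtain ⟨δ, hδ, hR⟩ := hSd k w θ ha ε hε
  refine ⟨δ, 4 * k / δ + 1, hδ, by positivity, fun R hR1 => ?_⟩
  obtain ⟨N₀, hN⟩ := hR R hR1
  refine ⟨N₀, fun N hN' _ θ' lab hθ hw ι _ _ S β h u ν hν => ?_⟩
  have := hν.1
  have hlev : ∀ U j, ∀ l ≤ R, |levP w θ j R (qU θ' lab U R S β h u) l| ≤ 1 := fun U j l hl => by
    have h := (levP_prof ha (qU_prof (R := R) (S := S) (β := β) (h := h) (u := u) θ' lab U).1 j).upper hl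
    rw [abs_of_nonneg h.1]; exact h.2
  have hp0 : ∀ U, 0 ≤ povU w θ θ' lab U R S β h u := fun U =>
    sum_nonneg fun j _ => P157.Par.adev_nn (pw_wJ_pos θ' lab U)
  have hd0 : ∀ U, 0 ≤ devU θ' lab U R S β h u := fun U => add_nonneg
    (P157.Par.adev_nn (pw_wJ_pos θ' lab U))
    (sum_nonneg fun j _ => Vale.Agent.P168.MP.ET_nonneg (pw_wJ_pos θ' lab U) fun _ => abs_nonneg _)
  have hdi : Integrable (fun U => devU θ' lab U R S β h u) ν := integrable_haar hν (continuous_devU θ' lab)
  have hD : 0 ≤ ∫ U, devU θ' lab U R S β h u ∂ν := integral_nonneg hd0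
  have hP : ∫ U, povU w θ θ' lab U R S β h u ∂ν ≤ ε + 4 * k / δ * ∫ U, devU θ' lab U R S β h u ∂ν := by
    by_cases hc : ∫ U, devU θ' lab U R S β h u ∂ν ≤ δ
    · refine le_add_of_le_of_nonneg ?_ (by positivity)
      have := hN N hN' θ' lab hθ hw (gainW (S := S) (β := β) R h u) (fun p => gainW_pos p) (spinAt R) ν hν
      simp only [← pw_eq_wU] at this
      exact this hc
    · refine (integral_mono_of_nonneg (Filter.Eventually.of_forall hp0) (integrable_const (4 * k : ℝ))
        (hν.2.1.mono fun U hU => povU_le hR1 hU (hlev U))).trans ?_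
      rw [integral_const, probReal_univ, one_smul]
      refine le_add_of_nonneg_of_le hε.le ?_
      rw [div_mul_eq_mul_div, le_div_iff₀ hδ]
      exact mul_le_mul_of_nonneg_left (le_of_not_ge hc) (by positivity)
  by_cases hi : Integrable (fun U => povU w θ θ' lab U R S β h u) ν
  · simp only [totDev]
    rw [integral_add hi hdi]
    linarith
  · rw [integral_undef fun H => hi ((H.sub hdi).congr (Filter.Eventually.of_forall fun U => by simp [totDev]))]
    positivity

/-- the deviations are small on average over both windows -/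
lemma devU_avg {ι : Type} [Fintype ι] [DecidableEq ι] {β : ι → Batch} {N Mp Mw : ℕ} [NeZero N] {R : ℕ}
    {ν : Measure (Mat N)} (hν : IsHaarOrthogonal ν) (θ : Fin k → ℝ) (lab : Fin N → Fin k) (h : ι → ℝ)
    {ubp ubw e₁ e₂ : ℝ} [NeZero Mp] [NeZero Mw]
    (hgrid : ∀ W : (Fin N → Bool) → ℝ, (∀ σ, 0 < W σ) → avg (fun g : ι → Fin Mp =>
      adev R (pw (S := S) (β := β) R W h (gu ubp Mp g)) (ovK (spinAt R))
        (qlev R (pw (S := S) (β := β) R W h (gu ubp Mp g)) (spinAt R))) ≤ e₁)
    (hwin : ∀ (g : ι → Fin Mp) (U : Mat N), Matrix.of U ∈ Matrix.orthogonalGroup (Fin N) ℝ →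
      avg (fun g' : Fin k → Fin Mw => madJ R lab U (wU (fun j => θ j + gu ubw Mw g' j) lab U
        (gainW (S := S) (β := β) R h (gu ubp Mp g)) (spinAt R)) (spinAt R)) ≤ e₂) :
    avg (fun g' : Fin k → Fin Mw => avg fun g : ι → Fin Mp =>
      ∫ U, devU (fun j => θ j + gu ubw Mw g' j) lab U R S β h (gu ubp Mp g) ∂ν) ≤ e₁ + e₂ := by
  have := hν.1
  have hi : ∀ (g' : Fin k → Fin Mw) (g : ι → Fin Mp), Integrable
      (fun U => devU (fun j => θ j + gu ubw Mw g' j) lab U R S β h (gu ubp Mp g)) ν := fun g' g =>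
    integrable_haar hν (continuous_devU _ lab)
  simp only [avg_integral (hi _)]
  rw [avg_integral fun g' => integrable_avg (hi g')]
  refine (integral_mono_ae (integrable_avg fun g' => integrable_avg (hi g')) (integrable_const (e₁ + e₂))
    (hν.2.1.mono fun U hU => ?_)).trans_eq (by simp)
  simp only [devU, qU, avg_add]
  refine add_le_add ?_ ?_
  · refine (Vale.Agent.P168.MP.avg_le_avg fun g' => ?_).trans_eq (Vale.Agent.P168.MP.avg_const _)
    exact hgrid _ (wJ_pos (fun j => θ j + gu ubw Mw g' j) lab U)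
  · rw [avg_comm]
    refine (Vale.Agent.P168.MP.avg_le_avg fun g => ?_).trans_eq (Vale.Agent.P168.MP.avg_const _)
    simp only [pw_eq_wU]
    exact hwin g U hU

end Vale.Agent.P166.Gen
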