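import Vale.Agent.P166.Gen.LowMoves
import Vale.Agent.P166.Gen.LowShr
import Vale.Agent.P166.Gen.LowParts

/-! P166 G4: one more site is the base without a bottom site and the factor of the new spin. -/

open MeasureTheory ProbabilityTheory Filter Finset Real
open scoped Topology
open Vale.Agent.P150 (gauss)
open Vale.Agent.P168.MP (lin pw spinAt Batch logZ0 nest Mark nestC avg growC gainCap)

noncomputable section

namespace Vale.Agent.P166.Gen

variable {k n N S R : ℕ}

/-- the factor of the new spin, as a function of the configuration -/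
def cY (e₀ : ℝ) (a c : Fin k → ℝ) (X : Fin k → (Fin n → Bool) → ℝ) (σ : Fin n → Bool) : ℝ :=
  avg fun b : Bool => exp (cE e₀ a c (fun j => X j σ) b)

lemma cY_pos (e₀ : ℝ) (a c : Fin k → ℝ) (X : Fin k → (Fin n → Bool) → ℝ) (σ : Fin n → Bool) :
    0 < cY e₀ a c X σ :=
  Vale.Agent.P168.MP.avg_pos fun _ => exp_pos _

lemma cornerE_eqH (r θ : Fin k → ℝ) (b : Bool) (x : Fin k → ℝ) :
    cornerE r θ b x = cE ((∑ j, r j * θ j) / 2) (aA r θ) (cA r θ) x b := by
  rw [cornerE, cE]
  congr 1
  rw [sum_filter, sum_div, mul_sum, ← sum_add_distrib]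
  refine sum_congr rfl fun j _ => ?_
  simp only [aA, cA]
  split_ifs <;> ring

/-- without the field the factor is smaller -/
lemma cY_zero_le (e₀ : ℝ) (a c : Fin k → ℝ) (X : Fin k → (Fin n → Bool) → ℝ) (σ : Fin n → Bool) :
    cY e₀ a 0 X σ ≤ cY e₀ a c X σ := by
  simp only [cY, avg, Fintype.sum_bool, Fintype.card_bool, cE, spin, Pi.zero_apply, zero_mul, sum_const_zero,
    mul_zero, add_zero, if_true, one_mul, Bool.false_eq_true, if_false, neg_mul]
  refine div_le_div_of_nonneg_right ?_ (by norm_num)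
  set y := ∑ j, c j * X j σ
  set z := e₀ + (∑ j, a j * X j σ ^ 2) / 2
  have h1 := add_one_le_exp y
  have h2 := add_one_le_exp (-y)
  have h3 := mul_le_mul_of_nonneg_left (show 2 ≤ exp y + exp (-y) by linarith) (exp_pos z).le
  rw [mul_add, ← exp_add, ← exp_add] at h3
  simp only [z, ← add_assoc] at h3 ⊢
  linarith

lemma abs_log_cY {e₀ A : ℝ} {a c : Fin k → ℝ} (he : |e₀| ≤ A) (ha : ∀ j, |a j| ≤ A) (hc : ∀ j, |c j| ≤ A)
    (hn : 1 ≤ n) {X : Fin k → (Fin n → Bool) → ℝ} (hX : ∀ j σ, X j σ ^ 2 ≤ (n:ℝ)) (σ : Fin n → Bool) :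
    |log (cY e₀ a c X σ)| ≤ A + 2 * k * A * n := by
  have hn' : (1:ℝ) ≤ n := by exact_mod_cast hn
  have hA0 : 0 ≤ A := (abs_nonneg _).trans he
  have key : ∀ b, |cE e₀ a c (fun j => X j σ) b| ≤ A + 2 * k * A * n := fun b => by
    have hb : |spin b| = 1 := by cases b <;> simp [spin]
    have h1 : |∑ j, a j * X j σ ^ 2| ≤ k * (A * n) :=
      (abs_sum_le_sum_abs _ _).trans ((sum_le_sum (g := fun _ => A * (n:ℝ)) fun j _ => by
        rw [abs_mul, abs_of_nonneg (sq_nonneg (X j σ))]
        exact mul_le_mul (ha j) (hX j σ) (sq_nonneg _) hA0).trans_eq (by simp))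
    have h2 : |∑ j, c j * X j σ| ≤ k * (A * n) :=
      (abs_sum_le_sum_abs _ _).trans ((sum_le_sum (g := fun _ => A * (n:ℝ)) fun j _ => by
        rw [abs_mul]
        refine mul_le_mul (hc j) ?_ (abs_nonneg _) hA0
        nlinarith [hX j σ, sq_abs (X j σ), abs_nonneg (X j σ)]).trans_eq (by simp))
    refine (abs_add_le _ _).trans (add_le_add he ((abs_add_le _ _).trans ?_))
    rw [abs_div, abs_two, abs_mul, hb, one_mul]
    linarith [abs_nonneg (∑ j, a j * X j σ ^ 2)]
  have hp := cY_pos e₀ a c X σ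
  rw [abs_le]
  constructor
  · rw [le_log_iff_exp_le hp]
    exact (Vale.Agent.P168.MP.avg_const _).symm.trans_le
      (Vale.Agent.P168.MP.avg_le_avg fun b => exp_le_exp.2 (abs_le.1 (key b)).1)
  · rw [log_le_iff_le_exp hp]
    exact (Vale.Agent.P168.MP.avg_le_avg fun b => exp_le_exp.2 (abs_le.1 (key b)).2).trans_eq
      (Vale.Agent.P168.MP.avg_const _)

variable {ι : Type} [Fintype ι] [DecidableEq ι] {β : ι → Batch} {h u : ι → ℝ}

/-- the nested logarithm of the factor of the new spin -/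
def headN [NeZero n] (R S : ℕ) (β : ι → Batch) (h u : ι → ℝ) (e₀ : ℝ) (a c : Fin k → ℝ)
    (W : (Fin n → Bool) → ℝ) (X : Fin k → (Fin n → Bool) → ℝ) : ℝ :=
  nestC (S := S) (β := β) R W h u (cY e₀ a c X)

lemma continuousOn_headN [NeZero n] (e₀ : ℝ) (a c : Fin k → ℝ) :
    ContinuousOn (fun p : ((Fin n → Bool) → ℝ) × (Fin k → (Fin n → Bool) → ℝ) =>
      headN R S β h u e₀ a c p.1 p.2) {p | ∀ σ, 0 < p.1 σ} := by
  rw [continuousOn_iff_continuous_domRestrict]
  refine (P157.Par.continuous_nest (fun q => ?_) (fun x q => ?_) (fun q => ?_) (fun x q => ?_) R []).log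
    fun x => (Vale.Agent.P168.MP.nest_pos (fun q => ?_) (fun q => ?_) R []).ne'
  · exact continuous_pw (fun σ => by fun_prop) q
  · exact mul_pos (x.2 _) (exp_pos _)
  · unfold cY avg cE; fun_prop
  · exact cY_pos ..
  · exact mul_pos (x.2 _) (exp_pos _)
  · exact cY_pos ..

/-- the rows are uniform given the base -/
theorem head_rows [NeZero n] (hFr : StmtFrame) (hR : 1 ≤ R) {θ : Fin k → ℝ} {lab : Fin n → Fin k}
    {e : Fin k → Fin n} (he : ∀ j, lab (e j) = j) {ν : Measure (Mat n)} (hν : IsHaarOrthogonal ν)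
    {e₀ A : ℝ} {a c : Fin k → ℝ} (h0 : |e₀| ≤ A) (ha : ∀ j, |a j| ≤ A) (hc : ∀ j, |c j| ≤ A) {b : Mat n → ℝ}
    (hb : Continuous b) (hs : ∀ U : Mat n, Matrix.of U ∈ Matrix.orthogonalGroup (Fin n) ℝ →
      b U ≤ ∫ g, headN R S β h u e₀ a c (wJ θ lab U) (xF lab U g) ∂gauss (Fin n)) :
    ∫ U, b U ∂ν ≤ ∫ U, headN R S β h u e₀ a c (wJ θ lab U) (fun j σ => cd U σ (e j)) ∂ν := by
  have := hν.1
  obtain ⟨hi, heq, -⟩ := frame_int (θ := θ) hFr he hν (F := headN R S β h u e₀ a c)
    (continuousOn_headN _ _ _) (C := A + 2 * k * A * n) fun U hU X hX =>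
      Vale.Agent.P168.MP.abs_nestC_le hR (wJ_pos θ lab U) (cY_pos _ _ _ _)
        (abs_log_cY h0 ha hc (NeZero.one_le) hX)
  rw [heq]
  exact integral_mono_ae (integrable_haar hν hb) hi (hν.2.1.mono hs)

/-- the corner data depend continuously on the shares -/
lemma continuousOn_corner (hRN : StmtRootNear) {θ : Fin k → ℝ} (hθ : StrictMono θ) (j : Fin k) :
    ContinuousOn (fun r => aA r θ j) {r : Fin k → ℝ | (∀ j, 0 < r j) ∧ ∑ j, r j = 1} ∧
      ContinuousOn (fun r => cA r θ j) {r : Fin k → ℝ | (∀ j, 0 < r j) ∧ ∑ j, r j = 1} := by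
  constructor <;> intro r hr <;> rw [Metric.continuousWithinAt_iff] <;> intro ε hε <;>
    obtain ⟨τ, hτ, hn⟩ := hRN k r θ ⟨hr.1, hr.2, hθ⟩ (ε / 2) (half_pos hε) <;>
    refine ⟨τ, hτ, fun {r'} _ hd => ?_⟩ <;>
    have h := hn r' θ (fun i => ((Real.dist_eq _ _).symm.trans_le (dist_le_pi_dist r' r i)).trans hd.le)
      (fun i => by simp [hτ.le]) hθ j <;>
    rw [Real.dist_eq]
  · linarith [h.1]
  · linarith [h.2.1]

/-- the corner data of the shares of a Gaussian vector -/
def crn (lab : Fin n → Fin k) (θ : Fin k → ℝ) (g : Fin n → ℝ) : ℝ × (Fin k → ℝ) × (Fin k → ℝ) :=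
  ((∑ j, shr lab g j * θ j) / 2, aA (shr lab g) θ, cA (shr lab g) θ)

lemma aemeasurable_crn (hRN : StmtRootNear) {θ : Fin k → ℝ} (hθ : StrictMono θ) {lab : Fin n → Fin k}
    (hn : 0 < n) (hl : ∀ j, 0 < cnt lab j) : AEMeasurable (crn lab θ) (gauss (Fin n)) := by
  set s : Set (Fin n → ℝ) := {g | ∀ i, g i ≠ 0}
  have hs : MeasurableSet s := by
    rw [show s = ⋂ i, {g : Fin n → ℝ | g i ≠ 0} by ext g; simp [s]]
    exact MeasurableSet.iInter fun i => (measurableSet_eq_fun (measurable_pi_apply i) measurable_const).compl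
  have hmap : Set.MapsTo (fun g => shr lab g) s {r : Fin k → ℝ | (∀ j, 0 < r j) ∧ ∑ j, r j = 1} :=
    fun g hg => ⟨fun j => shr_pos hl hg j, shr_one lab hg hn⟩
  have hsh : ContinuousOn (fun g => shr lab g) s := continuousOn_pi.2 fun j => shr_continuousOn lab hn j
  have h1 : ContinuousOn (crn lab θ) s :=
    ContinuousOn.prodMk ((continuousOn_finsetSum _ fun j _ => (shr_continuousOn lab hn j).mul
      continuousOn_const).div_const _)
      ((continuousOn_pi.2 fun j => (continuousOn_corner hRN hθ j).1.comp hsh hmap).prodMk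
        (continuousOn_pi.2 fun j => (continuousOn_corner hRN hθ j).2.comp hsh hmap))
  have h2 := h1.aemeasurable (μ := gauss (Fin n)) hs
  rwa [Measure.restrict_eq_self_of_ae_mem (show ∀ᵐ g ∂gauss (Fin n), g ∈ s from ae_ne_zero)] at h2

/-- the logarithm of the system with the new spin -/
def cornL [NeZero N] (θ : Fin k → ℝ) (lab : Fin N → Fin k) (e : Fin k → Fin N) (R S : ℕ) (β : ι → Batch)
    (h u : ι → ℝ) (x : (ℝ × (Fin k → ℝ) × (Fin k → ℝ)) × Mat N) : ℝ :=
  logZ0 R (lin R) (pw (N := N + 1) (S := S) (β := β) R (fun τ => wJ θ lab x.2 (fun i => τ i.castSucc) *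
    exp (cE x.1.1 x.1.2.1 x.1.2.2 (fun j => cd x.2 (fun i => τ i.castSucc) (e j)) (τ (Fin.last N)))) h u)

lemma continuous_cornL [NeZero N] (θ : Fin k → ℝ) (lab : Fin N → Fin k) (e : Fin k → Fin N) :
    Continuous (cornL θ lab e R S β h u) :=
  P157.Par.continuous_logZ0 (fun p => continuous_pw (fun σ => by unfold wJ cE cd; fun_prop) p)
    (fun x p => mul_pos (mul_pos (wJ_pos _ _ _ _) (exp_pos _)) (exp_pos _)) R

/-- the new site is worth the nested mean of its factor, with any lower bound `low` of the latter -/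
theorem corner_low [NeZero N] (hCo : StmtCorner) (hRN : StmtRootNear) (hR : 2 ≤ R)
    (hh : ∀ i, |h i| ≤ 1) (hu : ∀ i, |u i| ≤ 1) {θ : Fin k → ℝ} (hθ : StrictMono θ) {L A : ℝ}
    (hL : ∀ j, |θ j| ≤ L) {lab : Fin (N + 1) → Fin k} {lab' : Fin N → Fin k} {o : Fin k} (ho : (o : ℕ) = 0)
    {e : Fin k → Fin N} (he : ∀ j, lab' (e j) = j)
    (hc : ∀ j, cnt lab j = cnt lab' j + if j = o then 1 else 0)
    {ν₁ : Measure (Mat (N + 1))} {ν : Measure (Mat N)} (hν₁ : IsHaarOrthogonal ν₁) (hν : IsHaarOrthogonal ν)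
    {low : (Fin (N + 1) → ℝ) → ℝ} (hli : Integrable low (gauss (Fin (N + 1))))
    (hlow : ∀ g : Fin (N + 1) → ℝ, (∀ i, g i ≠ 0) → |(crn lab θ g).1| ≤ A ∧ (∀ j, |(crn lab θ g).2.1 j| ≤ A) ∧
      ∃ c : Fin k → ℝ, (c = (crn lab θ g).2.2 ∨ c = 0) ∧ (∀ j, |c j| ≤ A) ∧
        low g ≤ ∫ U, headN R S β h u (crn lab θ g).1 (crn lab θ g).2.1 c (wJ θ lab' U)
          (fun j σ => cd U σ (e j)) ∂ν) :
    ∫ g, low g ∂gauss (Fin (N + 1)) - growC R S β / ((N:ℝ) + 1) ≤
      ∫ U, pertU θ lab R S β h u U ∂ν₁ - ∫ U, pertU θ lab' R S β h u U ∂ν := by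
  have hP1 := hν₁.1
  have hP := hν.1
  have hR1 : 1 ≤ R := by omega
  have hl : ∀ j, 0 < cnt lab j := fun j => by
    rw [hc j]
    exact Nat.add_pos_left (card_pos.2 ⟨e j, mem_filter.2 ⟨mem_univ _, he j⟩⟩) _
  set M := gainCap S β + L * N / 2 + (A + 2 * k * A * N) with hM
  set G := growC R S β / ((N:ℝ) + 1)
  set F : ((Fin (N + 1) → Bool) → ℝ) → ℝ := fun f => min (logZ0 R (lin R) (pw (S := S) (β := β) R f h u)) M
  have hF : ContinuousOn F {f | ∀ σ, 0 < f σ} := by
    rw [continuousOn_iff_continuous_domRestrict]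
    exact (P157.Par.continuous_logZ0
      (w := fun (x : {f : (Fin (N + 1) → Bool) → ℝ | ∀ σ, 0 < f σ}) => pw (S := S) (β := β) R x.1 h u)
      (fun p => continuous_pw (fun σ => (continuous_apply σ).comp continuous_subtype_val) p)
      (fun x p => mul_pos (x.2 _) (exp_pos _)) R).min continuous_const
  have hlhs : ∫ U, F (wJ θ lab U) ∂ν₁ ≤ ∫ U, pertU θ lab R S β h u U ∂ν₁ :=
    integral_mono (integrable_haar hν₁ ((continuous_pertU θ lab).min continuous_const))
      (integrable_haar hν₁ (continuous_pertU θ lab)) fun U => min_le_left _ _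
  set I : (Fin (N + 1) → ℝ) → ℝ := fun g => ∫ U, min (cornL θ lab' e R S β h u (crn lab θ g, U)) M ∂ν
  have heq : ∫ U, F (wJ θ lab U) ∂ν₁ = ∫ g, I g ∂gauss (Fin (N + 1)) := by
    rw [hCo k N θ hθ lab lab' o e ho he hc ν₁ ν hν₁ hν F hF]
    refine integral_congr_ae (Eventually.of_forall fun g => integral_congr_ae (Eventually.of_forall fun U => ?_))
    simp only [F, cornL, crn, cornerE_eqH]
  set P' := ∫ U, pertU θ lab' R S β h u U ∂ν
  have hpt : ∀ g : Fin (N + 1) → ℝ, (∀ i, g i ≠ 0) →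
      low g + P' - G ≤ I g ∧ -(2 * M + |G|) ≤ I g ∧ I g ≤ M := by
    intro g hg
    obtain ⟨b1, b2, c, hcc, b3, hlg⟩ := hlow g hg
    set e₀ := (crn lab θ g).1
    set a := (crn lab θ g).2.1
    set X := fun (U : Mat N) (j : Fin k) (σ : Fin N → Bool) => cd U σ (e j)
    have hN1 : 1 ≤ N := NeZero.one_le
    have hpair : Continuous fun U : Mat N => (wJ θ lab' U, X U) :=
      (continuous_pi fun σ => continuous_wJU θ lab' σ).prodMk
        (continuous_pi fun j => continuous_pi fun σ => continuous_cd σ (e j))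
    have hNc : Continuous fun U : Mat N => headN R S β h u e₀ a c (wJ θ lab' U) (X U) :=
      (continuousOn_headN e₀ a c).comp_continuous hpair fun U σ => wJ_pos θ lab' U σ
    have hmain : ∀ U : Mat N, Matrix.of U ∈ Matrix.orthogonalGroup (Fin N) ℝ →
        pertU θ lab' R S β h u U + headN R S β h u e₀ a c (wJ θ lab' U) (X U) - G ≤
          min (cornL θ lab' e R S β h u (crn lab θ g, U)) M ∧
        -(2 * M + |G|) ≤ pertU θ lab' R S β h u U + headN R S β h u e₀ a c (wJ θ lab' U) (X U) - G := by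
      intro U hU
      have hb1 := abs_le.1 (abs_pertU_le (S := S) (β := β) (lab := lab') hR1 hL hh hu hU)
      have hb2 := abs_le.1 (Vale.Agent.P168.MP.abs_nestC_le (S := S) (β := β) (h := h) (u := u) hR1
        (wJ_pos θ lab' U) (cY_pos e₀ a c (X U)) (abs_log_cY b1 b2 b3 hN1 fun j σ => cd_sq_le hU σ (e j)))
      have hgr := abs_le.1 (Vale.Agent.P168.MP.grow_bound (S := S) (β := β) hR (wJ_pos θ lab' U)
        (c := fun σ s => exp (cE e₀ a (crn lab θ g).2.2 (fun j => cd U σ (e j)) s))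
        (fun σ s => exp_pos _) hh hu)
      have hmul := Vale.Agent.P168.MP.logZ0_pw_mul (S := S) (β := β) (R := R) (h := h) (u := u)
        (wJ_pos θ lab' U) (cY_pos e₀ a (crn lab θ g).2.2 (X U))
      have hmono : headN R S β h u e₀ a c (wJ θ lab' U) (X U) ≤
          headN R S β h u e₀ a (crn lab θ g).2.2 (wJ θ lab' U) (X U) :=
        Vale.Agent.P168.MP.nestC_mono hR1 (wJ_pos θ lab' U) (cY_pos _ _ _ _) fun σ => by
          rcases hcc with rfl | rfl
          · exact le_rfl
          · exact cY_zero_le ..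
      have hG0 : 0 ≤ G := by
        simp only [G, growC]
        positivity
      refine ⟨le_min ?_ ?_, ?_⟩
      · simp only [pertU, headN, cornL, cY, X] at *
        linarith [hgr.1]
      · simp only [headN, hM] at *
        linarith [hb1.2, hb2.2]
      · simp only [headN, hM] at *
        linarith [hb1.1, hb2.1, le_abs_self G]
    have i1 : Integrable (fun U => pertU θ lab' R S β h u U + headN R S β h u e₀ a c (wJ θ lab' U) (X U) - G) ν :=
      integrable_haar hν (((continuous_pertU θ lab').add hNc).sub continuous_const)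
    have i2 : Integrable (fun U => min (cornL θ lab' e R S β h u (crn lab θ g, U)) M) ν :=
      integrable_haar hν (((continuous_cornL θ lab' e).comp (Continuous.prodMk continuous_const continuous_id)).min
        continuous_const)
    refine ⟨?_, ?_, ?_⟩
    · have h1 : ∫ U, (pertU θ lab' R S β h u U + headN R S β h u e₀ a c (wJ θ lab' U) (X U) - G) ∂ν ≤ I g :=
        integral_mono_ae i1 i2 (hν.2.1.mono fun U hU => (hmain U hU).1)
      rw [integral_sub ((integrable_haar hν (continuous_pertU θ lab')).fun_add (integrable_haar hν hNc))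
        (integrable_const _), integral_add (integrable_haar hν (continuous_pertU θ lab'))
        (integrable_haar hν hNc), integral_const, probReal_univ, one_smul] at h1
      linarith
    · refine le_trans ?_ (integral_mono_ae (integrable_const (-(2 * M + |G|))) i2
        (hν.2.1.mono fun U hU => (hmain U hU).2.trans (hmain U hU).1))
      simp
    · refine (integral_mono i2 (integrable_const M) fun U => min_le_right _ _).trans_eq ?_
      simp
  have hImeas : AEStronglyMeasurable I (gauss (Fin (N + 1))) := by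
    have h1 : StronglyMeasurable fun p : ℝ × (Fin k → ℝ) × (Fin k → ℝ) =>
        ∫ U, min (cornL θ lab' e R S β h u (p, U)) M ∂ν :=
      (((continuous_cornL θ lab' e).min continuous_const).measurable.stronglyMeasurable).integral_prod_right'
        (f := fun x => min (cornL θ lab' e R S β h u x) M)
    exact (h1.measurable.comp_aemeasurable (aemeasurable_crn hRN hθ (Nat.succ_pos N) hl)).aestronglyMeasurable
  have hIi : Integrable I (gauss (Fin (N + 1))) :=
    Integrable.of_bound hImeas (2 * |M| + |M| + |G|) (ae_ne_zero.mono fun g hg => by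
      obtain ⟨-, h1, h2⟩ := hpt g hg
      rw [Real.norm_eq_abs, abs_le]
      constructor <;> linarith [le_abs_self M, abs_nonneg M, abs_nonneg G])
  have hint : ∫ g, low g ∂gauss (Fin (N + 1)) + P' - G ≤ ∫ g, I g ∂gauss (Fin (N + 1)) := by
    refine le_of_eq_of_le ?_ (integral_mono_ae ((hli.fun_add (integrable_const P')).sub (integrable_const G)) hIi
      (ae_ne_zero.mono fun g hg => (hpt g hg).1))
    rw [integral_sub' (hli.fun_add (integrable_const P')) (integrable_const G),
      integral_add hli (integrable_const P'), integral_const, integral_const, probReal_univ, one_smul, one_smul]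
  linarith

end Vale.Agent.P166.Gen
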