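import Vale.Agent.P166.Gen.LowHeadValue
import Vale.Agent.P166.Gen.LowHeadCorner

/-!
# P166 G4: the gain of the new site

The corner gives the new site as the nested mean of the new spin's factor at shares near the weights;
away from them the field is dropped and the event has probability `O(1/N)`.
-/

open MeasureTheory ProbabilityTheory Filter Finset Real
open scoped Topology
open Vale.Agent.P150 (gauss)
open Vale.Agent.P157.Par (Prof adev devOf c4)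
open Vale.Agent.P168.MP (lin pw spinAt Batch growC)

noncomputable section

namespace Vale.Agent.P166.Gen

variable {k : ℕ} {w θ : Fin k → ℝ} {L η δ K : ℝ}

lemma sqrt_sum_sq_le {a u : Fin k → ℝ} {m S K : ℝ} (hm : 0 ≤ m) (hK : 0 ≤ K) (ha : ∀ j, |a j| ≤ m)
    (hs : ∑ j, |a j| ≤ S) (hu : ∀ j, 0 ≤ u j ∧ u j ≤ K) : √(∑ j, a j ^ 2 * u j ^ 2) ≤ √(m * S) * K := by
  have hS : 0 ≤ S := (sum_nonneg fun j _ => abs_nonneg _).trans hs
  rw [sqrt_le_left (by positivity), mul_pow, sq_sqrt (mul_nonneg hm hS)]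
  refine (sum_le_sum (g := fun j => m * |a j| * K ^ 2) fun j _ => ?_).trans ?_
  · refine mul_le_mul ?_ (pow_le_pow_left₀ (hu j).1 (hu j).2 2) (sq_nonneg _) (by positivity)
    rw [← sq_abs, sq]
    exact mul_le_mul_of_nonneg_right (ha j) (abs_nonneg _)
  · rw [← sum_mul, ← mul_sum]
    exact mul_le_mul_of_nonneg_right (mul_le_mul_of_nonneg_left hs hm) (sq_nonneg _)

lemma sqrt_add_le {x y : ℝ} (hx : 0 ≤ x) (hy : 0 ≤ y) : √(x + y) ≤ √x + √y := by
  rw [sqrt_le_left (by positivity), add_sq, sq_sqrt hx, sq_sqrt hy]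
  nlinarith [mul_nonneg (sqrt_nonneg x) (sqrt_nonneg y)]

lemma abs_mean_le {r θ : Fin k → ℝ} {M : ℝ} (hr : ∀ j, 0 < r j) (h1 : ∑ j, r j = 1) (hM : ∀ j, |θ j| ≤ M) :
    |∑ j, r j * θ j| ≤ M := by
  refine (abs_sum_le_sum_abs _ _).trans ((sum_le_sum (g := fun j => r j * M) fun j _ => ?_).trans_eq
    (by rw [← sum_mul, h1, one_mul]))
  rw [abs_mul, abs_of_pos (hr j)]
  exact mul_le_mul_of_nonneg_left (hM j) (hr j).le

/-- the sum of the moves -/
lemma sum_move {r θ : Fin k → ℝ} {M : ℝ} (hr : ∀ j, 0 < r j) (hθ : StrictMono θ) (hM : ∀ j, |θ j| ≤ M)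
    {o t : Fin k} (ho : (o : ℕ) = 0) (ht : ∀ i, i ≤ t) : ∑ j, |aA r θ j| ≤ 2 * M := by
  refine (sum_le_sum fun j _ => abs_le.2 ⟨(aA_mem hr hθ j).1, ?_⟩).trans ((sum_gap θ ho ht).trans_le ?_)
  · linarith [(aA_mem hr hθ j).1, (aA_mem hr hθ j).2]
  · linarith [(abs_le.1 (hM t)).2, (abs_le.1 (hM o)).1]

/-- the shares of one site less -/
lemma freq_drop {N : ℕ} [NeZero N] {lab : Fin (N + 1) → Fin k} {lab' : Fin N → Fin k} {o : Fin k}
    (hc : ∀ j, cnt lab j = cnt lab' j + if j = o then 1 else 0) (j : Fin k) :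
    |freq lab' j - freq lab j| ≤ 2 / N := by
  have hN : (1:ℝ) ≤ N := by exact_mod_cast NeZero.one_le
  set b : ℝ := if j = o then 1 else 0
  have hb : 0 ≤ b ∧ b ≤ 1 := by simp only [b]; split_ifs <;> constructor <;> norm_num
  have hle : (cnt lab' j : ℝ) ≤ N := by
    exact_mod_cast (card_filter_le (univ : Finset (Fin N)) fun i => lab' i = j).trans_eq (by simp)
  have h0 : (0:ℝ) ≤ cnt lab' j := Nat.cast_nonneg _
  have e : freq lab' j - freq lab j = ((cnt lab' j : ℝ) - N * b) / (N * (N + 1)) := by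
    rw [freq_eq_cnt, freq_eq_cnt, hc j]
    simp only [b]
    push_cast
    field_simp
    ring
  rw [e, abs_div, abs_of_pos (show (0:ℝ) < N * (N + 1) by positivity), div_le_div_iff₀ (by positivity) (by linarith)]
  have h1 : |(cnt lab' j : ℝ) - N * b| ≤ 2 * N := by
    rw [abs_le]; constructor <;> nlinarith
  nlinarith [mul_le_mul_of_nonneg_right h1 (show (0:ℝ) ≤ N by linarith)]

/-- the field of the new spin: that of the corner near the weights (`f = 0`), none away from them (`f = 1`) -/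
theorem head_data (H : HeadH L η δ K w θ) (hδ : 0 ≤ δ) (hfine : ∀ i j : Fin k, (i : ℕ) + 1 = j → θ j - θ i ≤ δ)
    {θ' r : Fin k → ℝ} {o : Fin k} (ho : (o : ℕ) = 0) (hθ' : StrictMono θ') {M τ ε₁ ε' A KP K₀ f : ℝ}
    (hKP : 0 ≤ KP) (hK₀ : 0 ≤ K₀) (hε₁ : 0 < ε₁) (hε₁1 : ε₁ ≤ 1) (hτ : 0 ≤ τ)
    (hM : ∀ j, |θ j| ≤ M) (hM' : ∀ j, |θ' j| ≤ M) (hA : K + 2 ≤ A)
    (hτe : τ * (k * M + 1) ≤ ε₁) (he : ε' * (2 * A) * k ≤ ε₁ ∧ ε' * k ≤ ε₁ ∧ ε' ≤ ε₁)
    (hr0 : ∀ j, 0 < r j) (hr1 : ∑ j, r j = 1)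
    (hf : f = 1 ∨ f = 0 ∧ ∀ j, |r j - w j| ≤ 2 * τ ∧ |θ' j - θ j| ≤ τ ∧
      |aA r θ' j - aA w θ j| ≤ ε' ∧ |cA r θ' j - cA w θ j| ≤ ε') :
    ∃ c : Fin k → ℝ, (c = cA r θ' ∨ c = 0) ∧ (∀ j, |c j| ≤ A) ∧ ∑ j, c j ^ 2 ≤ K + 1 ∧
      |(∑ j, r j * θ' j) / 2 - (∑ j, w j * θ j) / 2| + K * (∑ j, |aA r θ' j - aA w θ j|) +
          2 * KP * (K * ∑ j, |c j ^ 2 - cA w θ j ^ 2|) ≤
        (1 + K + 2 * KP * K) * √ε₁ + (M + K * (2 * (2 * M)) + 2 * KP * (K * K)) * f ∧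
      ∀ u : Fin k → ℝ, (∀ j, 0 ≤ u j ∧ u j ≤ K) → K₀ * √(∑ j, aA r θ' j ^ 2 * u j ^ 2) ≤
        K₀ * (√(2 * M) * K) * √δ + K₀ * (√(2 * M) * K) * √ε₁ + K₀ * ((2 * M) * K) * f := by
  have hK := H.pos
  obtain ⟨t, ht⟩ := H.bdd.1.exists_top
  have hM0 : 0 ≤ M := (abs_nonneg _).trans (hM t)
  have hsa : ∑ j, |aA r θ' j| ≤ 2 * M := sum_move hr0 hθ' hM' ho ht
  rcases hf with rfl | ⟨rfl, hn⟩
  · refine ⟨0, Or.inr rfl, fun j => by simp only [Pi.zero_apply, abs_zero]; linarith, by simp; linarith, ?_,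
      fun u hu => ?_⟩
    · have h1 : |(∑ j, r j * θ' j) / 2 - (∑ j, w j * θ j) / 2| ≤ M := by
        have a := abs_le.1 (abs_mean_le hr0 hr1 hM')
        have b := abs_le.1 (abs_mean_le H.bdd.1.pos H.bdd.1.one hM)
        rw [abs_le]
        constructor <;> linarith
      have h2 : ∑ j, |aA r θ' j - aA w θ j| ≤ 2 * (2 * M) := by
        refine (sum_le_sum fun j _ => abs_sub _ _).trans ?_
        rw [sum_add_distrib]
        linarith [sum_move H.bdd.1.pos H.bdd.1.mono hM ho ht]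
      have h3 : ∑ j, |(0 : Fin k → ℝ) j ^ 2 - cA w θ j ^ 2| ≤ K := by
        refine (sum_congr rfl fun j _ => ?_).trans_le H.csum
        simp
      have := mul_le_mul_of_nonneg_left h2 hK
      have := mul_le_mul_of_nonneg_left h3 (show 0 ≤ 2 * KP * K by positivity)
      have : 0 ≤ (1 + K + 2 * KP * K) * √ε₁ := by positivity
      linarith
    · have hS : 0 ≤ 2 * M := by positivity
      have h1 := sqrt_sum_sq_le hS hK (fun j =>
        (single_le_sum (f := fun j => |aA r θ' j|) (fun j _ => abs_nonneg _) (mem_univ j)).trans hsa) hsa hu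
      rw [sqrt_mul_self hS] at h1
      have := mul_le_mul_of_nonneg_left h1 hK₀
      have : 0 ≤ K₀ * (√(2 * M) * K) * √δ + K₀ * (√(2 * M) * K) * √ε₁ := by positivity
      linarith
  · have hcA : ∀ j, |cA w θ j| ≤ K + 1 := fun j => by
      have h1 := (single_le_sum (f := fun j => cA w θ j ^ 2) (fun j _ => sq_nonneg _) (mem_univ j)).trans H.csum
      nlinarith [sq_abs (cA w θ j), abs_nonneg (cA w θ j)]
    have hcb : ∀ j, |cA r θ' j| ≤ A := fun j => by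
      have := abs_sub_abs_le_abs_sub (cA r θ' j) (cA w θ j)
      linarith [(hn j).2.2.2, hcA j, he.2.2]
    have hdc : ∑ j, |cA r θ' j ^ 2 - cA w θ j ^ 2| ≤ ε₁ := by
      refine (sum_le_sum (g := fun _ => ε' * (2 * A)) fun j _ => ?_).trans (le_of_eq_of_le (by simp; ring) he.1)
      rw [sq_sub_sq, abs_mul, mul_comm]
      exact mul_le_mul (hn j).2.2.2 ((abs_add_le _ _).trans (by linarith [hcb j, hcA j])) (abs_nonneg _)
        ((abs_nonneg _).trans (hn j).2.2.2)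
    have hc2 : ∑ j, cA r θ' j ^ 2 ≤ K + 1 := by
      have h1 : ∑ j, cA r θ' j ^ 2 ≤ ∑ j, (cA w θ j ^ 2 + |cA r θ' j ^ 2 - cA w θ j ^ 2|) :=
        sum_le_sum fun j _ => by linarith [le_abs_self (cA r θ' j ^ 2 - cA w θ j ^ 2)]
      rw [sum_add_distrib] at h1
      linarith [H.csum]
    have hs : ε₁ ≤ √ε₁ := le_sqrt_of_sq_le (by nlinarith)
    refine ⟨cA r θ', Or.inl rfl, hcb, hc2, ?_, fun u hu => ?_⟩
    · have h1 : |(∑ j, r j * θ' j) / 2 - (∑ j, w j * θ j) / 2| ≤ ε₁ := by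
        have h : |(∑ j, r j * θ' j) - ∑ j, w j * θ j| ≤ 2 * τ * (k * M) + τ := by
          rw [← sum_sub_distrib]
          refine (abs_sum_le_sum_abs _ _).trans
            ((sum_le_sum (g := fun j => 2 * τ * M + w j * τ) fun j _ => ?_).trans_eq ?_)
          · rw [show r j * θ' j - w j * θ j = (r j - w j) * θ' j + w j * (θ' j - θ j) by ring]
            refine (abs_add_le _ _).trans ?_
            rw [abs_mul, abs_mul, abs_of_pos (H.bdd.1.pos j)]
            exact add_le_add (mul_le_mul (hn j).1 (hM' j) (abs_nonneg _) (by positivity))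
              (mul_le_mul_of_nonneg_left (hn j).2.1 (H.bdd.1.pos j).le)
          · rw [sum_add_distrib, sum_const, card_univ, Fintype.card_fin, nsmul_eq_mul, ← sum_mul,
              H.bdd.1.one, one_mul]
            ring
        rw [← sub_div, abs_div, abs_two]
        linarith
      have h2 : ∑ j, |aA r θ' j - aA w θ j| ≤ ε₁ :=
        (sum_le_sum fun j _ => (hn j).2.2.1).trans (le_of_eq_of_le (by simp; ring) he.2.1)
      have := mul_le_mul_of_nonneg_left (h2.trans hs) hK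
      have := mul_le_mul_of_nonneg_left (hdc.trans hs) (show 0 ≤ 2 * KP * K by positivity)
      linarith
    · have hm : ∀ j, |aA r θ' j| ≤ δ + ε₁ := fun j => by
        have hg : |aA w θ j| ≤ δ := abs_le.2
          ⟨by linarith [(H.move j).1, gap_le hδ hfine j], (H.move j).2.trans hδ⟩
        linarith [abs_sub_abs_le_abs_sub (aA r θ' j) (aA w θ j), (hn j).2.2.1, he.2.2]
      have h1 := (sqrt_sum_sq_le (add_nonneg hδ hε₁.le) hK hm hsa hu).trans_eq
        (congrArg (· * K) (sqrt_mul (add_nonneg hδ hε₁.le) (2 * M)))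
      have h2 := mul_le_mul_of_nonneg_right (sqrt_add_le hδ hε₁.le) (show 0 ≤ √(2 * M) * K by positivity)
      rw [mul_assoc] at h1
      have := mul_le_mul_of_nonneg_left (h1.trans h2) hK₀
      linarith

variable {N R S : ℕ} [NeZero N] {ι : Type} [Fintype ι] [DecidableEq ι] {β : ι → Batch} {h u : ι → ℝ}

lemma continuous_povU (hB : Bdd w θ L η) (hR : 1 ≤ R) (θ' : Fin k → ℝ) (lab : Fin N → Fin k) :
    Continuous fun U => povU w θ θ' lab U R S β h u := by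
  have hd : ∀ j, ∀ l ≤ R, Continuous fun U => devOf R (pw (S := S) (β := β) R (wJ θ' lab U) h u)
      (fun p p' => pov lab U j (spinAt R p) (spinAt R p')) (levP w θ j R (qU θ' lab U R S β h u)) l := fun j l hl =>
    P157.Par.continuous_ET (continuous_pw_wJ θ' lab) (pw_wJ_pos θ' lab) R _ fun ps =>
      ((continuous_pov lab j _ _).sub
        (continuous_levP hB hR j hl (fun U => (qU_prof θ' lab U).1) (continuous_qU θ' lab))).abs
  exact continuous_finsetSum _ fun j _ =>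
    ((continuous_finsetSum _ fun l hl => hd j l (mem_range.1 hl).le).div_const _).add (hd j R le_rfl)

lemma povU_le_totDev (θ' : Fin k → ℝ) (lab : Fin N → Fin k) (U : Mat N) :
    povU w θ θ' lab U R S β h u ≤ totDev w θ θ' lab U R S β h u := by
  refine le_add_of_nonneg_right ?_
  have h0 : ∀ l, 0 ≤ devOf R (pw (S := S) (β := β) R (wJ θ' lab U) h u)
      (P157.Par.ovK (spinAt R)) (qU θ' lab U R S β h u) l := fun l =>
    Vale.Agent.P168.MP.ET_nonneg (pw_wJ_pos θ' lab U) fun _ => abs_nonneg _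
  exact add_nonneg (add_nonneg (div_nonneg (sum_nonneg fun l _ => h0 l) (Nat.cast_nonneg R)) (h0 R))
    (sum_nonneg fun j _ => Vale.Agent.P168.MP.ET_nonneg (pw_wJ_pos θ' lab U) fun _ => abs_nonneg _)

/-- the tolerances -/
lemma head_tol {Z K₀ ε : ℝ} (hZ : 0 ≤ Z) (hK₀ : 0 ≤ K₀) (hε : 0 < ε) :
    ∃ e : ℝ, 0 < e ∧ e ≤ 1 ∧ Z * √e ≤ ε / 6 ∧ ∃ κ : ℝ, 0 < κ ∧ K₀ * κ ≤ ε / 6 := by
  refine ⟨min 1 ((ε / (6 * (Z + 1))) ^ 2), lt_min one_pos (by positivity), min_le_left _ _, ?_,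
    ε / (6 * (K₀ + 1)), by positivity, ?_⟩
  · refine (mul_le_mul_of_nonneg_left ((sqrt_le_left (by positivity)).2 (min_le_right _ _)) hZ).trans ?_
    rw [mul_div_assoc', div_le_iff₀ (by positivity)]
    linarith
  · rw [mul_div_assoc', div_le_iff₀ (by positivity)]
    linarith

/-- the distance of the corner data of a fine step -/
lemma head_step {k : ℕ} {A ε₁ : ℝ} (hA : 0 < A) (h2A : 1 ≤ 2 * A) (hε₁ : 0 < ε₁) :
    ∃ e : ℝ, 0 < e ∧ e * (2 * A) * k ≤ ε₁ ∧ e * k ≤ ε₁ ∧ e ≤ ε₁ := by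
  obtain ⟨e, he⟩ : ∃ e, e = ε₁ / (2 * A * (k + 1)) := ⟨_, rfl⟩
  have h0 : 0 < e := by rw [he]; positivity
  have e0 : e * (2 * A) * (k + 1) = ε₁ := by rw [he]; field_simp
  have hk : (0:ℝ) ≤ k := Nat.cast_nonneg k
  have h1 : e * (2 * A) * k ≤ ε₁ :=
    (mul_le_mul_of_nonneg_left (le_add_of_nonneg_right zero_le_one) (by positivity)).trans_eq e0
  exact ⟨e, h0, h1, (mul_le_mul_of_nonneg_right (le_mul_of_one_le_right h0.le h2A) hk).trans h1,
    (le_mul_of_one_le_right h0.le h2A).trans ((le_mul_of_one_le_right (by positivity) (by linarith)).trans_eq e0)⟩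

/-- the width of the windows -/
lemma head_tau {k : ℕ} {τR ε₁ ε M Q A : ℝ} (hτR : 0 < τR) (hε₁ : 0 < ε₁) (hε : 0 < ε) (hM : 0 ≤ M) (hQ : 0 ≤ Q)
    (h2A : 1 ≤ 2 * A) :
    ∃ τ : ℝ, 0 < τ ∧ 2 * τ ≤ τR ∧ 2 * (A * τ) ≤ 1 ∧ τ ≤ 1 ∧ τ * (k * M + 1) ≤ ε₁ ∧ Q * τ ≤ ε / 6 := by
  obtain ⟨m, hm⟩ : ∃ m, m = min (min (τR / 2) (1 / (2 * A))) (min (ε₁ / (k * M + 1)) (ε / (6 * (Q + 1)))) :=
    ⟨_, rfl⟩
  have hA : 0 < A := by linarith
  have h0 : 0 < m := hm ▸ lt_min (lt_min (half_pos hτR) (by positivity)) (lt_min (by positivity) (by positivity))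
  have h := hm.le
  simp only [le_min_iff] at h
  obtain ⟨⟨h1, h2⟩, h3, h4⟩ := h
  rw [le_div_iff₀ (by positivity)] at h2 h3 h4
  exact ⟨m, h0, by linarith, by linarith, (le_mul_of_one_le_right h0.le h2A).trans h2, h3, by linarith⟩

/-- one base configuration: the gain against the value of the corner of the atoms -/
theorem head_site (H : HeadH L η δ K w θ) (hδ : 0 ≤ δ) (hR : 1 ≤ R) {θ' : Fin k → ℝ} {lab : Fin N → Fin k}
    {A κ K₀ Kb Bg KP τ e₀ : ℝ} {a c : Fin k → ℝ} (hKb : 0 ≤ Kb) (hKP : 0 ≤ KP) (hKA : K ≤ A)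
    (hGain : ∀ {Ω : Type} [Fintype Ω] [Nonempty Ω] {R N : ℕ} [NeZero N], 1 ≤ R →
      ∀ (lab : Fin N → Fin k) (U : Mat N), Matrix.of U ∈ Matrix.orthogonalGroup (Fin N) ℝ →
      ∀ (w : List Ω → ℝ), (∀ p, 0 < w p) → ∀ (rd : List Ω → Fin N → Bool) (e₀ : ℝ) (a c : Fin k → ℝ)
        (u : Fin k → ℕ → ℝ),
        (∀ j, 1 ≤ A * freq lab j) → (∀ j, a j ≤ 0) → (∀ j, |a j| ≤ A) → (∀ j, |c j| ≤ A) →
        (∀ j, Prof R (u j) A) → ∑ j, |a j| * u j R ≤ Bg → ∑ j, c j ^ 2 * u j R ≤ Bg →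
        e₀ + (∑ j, a j * u j R) / 2 + P157.Par.Phi Real.cosh R (lin R) (fun l => ∑ j, c j ^ 2 * u j l) -
            (K₀ * (√(∑ j, a j ^ 2 * u j R ^ 2) + κ) + Kb * (cvDev R w lab U rd u R + 1 / √(N:ℝ))) ≤
          ∫ g, log (Vale.Agent.P168.MP.nest (lin R) w
            (fun p => Vale.Agent.P168.MP.avg fun b : Bool => exp (cE e₀ a c (fun j => xF lab U g j (rd p)) b)) R [])
            ∂gauss (Fin N))
    (hP : ∀ (R : ℕ) (h h' : ℕ → ℝ), 1 ≤ R → Prof R h (4 * L ^ 2 / η ^ 4 + (K + 1) * K) →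
      Prof R h' (4 * L ^ 2 / η ^ 4 + (K + 1) * K) →
      |P157.Par.Phi cosh R (lin R) h - P157.Par.Phi cosh R (lin R) h'| ≤ KP * P157.Par.dist1 R h h')
    (hAf : ∀ j, 1 ≤ A * freq lab j) (hfr : ∀ j, |freq lab j - w j| ≤ τ) (ha : ∀ j, a j ≤ 0) (haA : ∀ j, |a j| ≤ A)
    (hcA : ∀ j, |c j| ≤ A) (hc2 : ∑ j, c j ^ 2 ≤ K + 1) (hB1 : (∑ j, |a j|) * K ≤ Bg) (hB2 : (K + 1) * K ≤ Bg)
    {E s : ℝ}
    (hdiff : |e₀ - (∑ j, w j * θ j) / 2| + K * (∑ j, |a j - aA w θ j|) +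
      2 * KP * (K * ∑ j, |c j ^ 2 - cA w θ j ^ 2|) ≤ E)
    (hsq : ∀ u : Fin k → ℝ, (∀ j, 0 ≤ u j ∧ u j ≤ K) → K₀ * √(∑ j, a j ^ 2 * u j ^ 2) ≤ s)
    (U : Mat N) (hU : Matrix.of U ∈ Matrix.orthogonalGroup (Fin N) ℝ) :
    headV w θ R (qU θ' lab U R S β h u) -
        (E + s + 2 * KP * (K * K) * δ + K₀ * κ + Kb * (4 * A * k * K) * τ + Kb / √(N:ℝ) +
          Kb * (2 * A) * povU w θ θ' lab U R S β h u) ≤
      ∫ g, headN R S β h u e₀ a c (wJ θ' lab U) (xF lab U g) ∂gauss (Fin N) := by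
  set q := qU θ' lab U R S β h u
  have hqp : Prof R q 1 := (qU_prof θ' lab U).1
  have hu0 : ∀ j, 0 ≤ vlev w θ (θ j) R q R ∧ vlev w θ (θ j) R q R ≤ K := fun j =>
    (H.vlev_prof hqp j).upper le_rfl
  have hg := hGain hR lab U hU (pw (S := S) (β := β) R (wJ θ' lab U) h u) (pw_wJ_pos θ' lab U) (spinAt R)
    e₀ a c (fun j => vlev w θ (θ j) R q) hAf ha haA hcA (fun j => (H.vlev_prof hqp j).weaken hKA)
    ((sum_le_sum fun j _ => mul_le_mul_of_nonneg_left (hu0 j).2 (abs_nonneg _)).trans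
      (le_of_eq_of_le (sum_mul _ _ _).symm hB1))
    ((sum_le_sum fun j _ => mul_le_mul_of_nonneg_left (hu0 j).2 (sq_nonneg _)).trans
      (((sum_mul _ _ _).symm.trans_le (mul_le_mul_of_nonneg_right hc2 H.pos)).trans hB2))
  have hv := H.value_near hKP hP le_rfl hδ hR hqp e₀ a c hc2
  have hcv : cvDev R (pw (S := S) (β := β) R (wJ θ' lab U) h u) lab U (spinAt R)
      (fun j => vlev w θ (θ j) R q) R ≤ 2 * A * (povU w θ θ' lab U R S β h u + 2 * k * (K * τ)) :=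
    H.cvDev_le hR hqp U (pw_wJ_pos θ' lab U) (spinAt R) hAf hfr
  have hcv' := mul_le_mul_of_nonneg_left hcv hKb
  have hs := hsq _ hu0
  refine le_trans ?_ hg
  rw [mul_add Kb _ (1 / _), mul_one_div]
  linarith

/-- the gain of the new site over the base without a bottom site -/
theorem head_bound : StmtRootNear → StmtKap → StmtGain → StmtCorner → StmtFrame → StmtHead := by
  intro hRN hKap hGa hCo hFr L η hη
  obtain ⟨K, hK, hKap⟩ := hKap L η hη
  obtain ⟨KP, hKP, hP⟩ :=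
    Vale.Agent.P157.Par.Phi_lip Vale.Agent.P157.Par.sm_logcosh (4 * L ^ 2 / η ^ 4 + (K + 1) * K)
  rw [Vale.Agent.P157.Par.cosh_eq_exp] at hP
  obtain ⟨M, hM0, hLM⟩ : ∃ M : ℝ, 1 ≤ M ∧ L + 1 ≤ M :=
    ⟨|L| + 1, le_add_of_nonneg_left (abs_nonneg L), by linarith [le_abs_self L]⟩
  obtain ⟨K₀, hK₀, hGa⟩ := hGa ((2 * M + (K + 1)) * K)
  obtain ⟨Y, hY⟩ : ∃ Y, Y = K₀ * (√(2 * M) * K) := ⟨_, rfl⟩
  have hY0 : 0 ≤ Y := by rw [hY]; positivity
  refine ⟨2 * KP * (K * K) + Y, by positivity, fun δ hδ hδ1 k w θ hF ε hε => ?_⟩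
  obtain ⟨hmv, hcs, hk, hd, hr⟩ := hKap δ hδ hδ1 k w θ hF
  have H := headH_of hη hK hδ.le hF hmv hcs hk hd fun y hy => (hr y hy).1
  have hδs : 2 * KP * (K * K) * δ ≤ 2 * KP * (K * K) * √δ :=
    mul_le_mul_of_nonneg_left (le_sqrt_of_sq_le (by nlinarith)) (by positivity)
  obtain ⟨D, hD⟩ : ∃ D, D = M + K * (2 * (2 * M)) + 2 * KP * (K * K) + K₀ * ((2 * M) * K) := ⟨_, rfl⟩
  have hD0 : 0 ≤ D := by rw [hD]; positivity
  obtain ⟨Z, hZ⟩ : ∃ Z, Z = 1 + K + 2 * KP * K + Y := ⟨_, rfl⟩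
  have hZ0 : 0 ≤ Z := by rw [hZ]; positivity
  obtain ⟨ε₁, hε₁, hε₁1, hZε, κ, hκ, hκε⟩ := head_tol hZ0 hK₀ hε
  have hw0 := hF.atoms.pos
  obtain ⟨A, hA, hKA, hwA⟩ : ∃ A : ℝ, 2 * M ≤ A ∧ K + 2 ≤ A ∧ ∀ j, 2 ≤ A * w j := by
    have hp : ∀ j, 0 ≤ 2 / w j := fun j => by have := hw0 j; positivity
    have hs : 0 ≤ ∑ j, 2 / w j := sum_nonneg fun j _ => hp j
    refine ⟨2 * M + (K + 2) + ∑ j, 2 / w j, by linarith, by linarith, fun j => ?_⟩
    rw [← div_le_iff₀ (hw0 j)]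
    linarith [single_le_sum (f := fun j => 2 / w j) (fun j _ => hp j) (mem_univ j)]
  have hA2 : 2 ≤ A := by linarith
  obtain ⟨Kb, hKb, hGain⟩ := hGa k A κ hκ
  obtain ⟨ε', hε', he'⟩ := head_step (k := k) (show 0 < A by linarith) (show 1 ≤ 2 * A by linarith) hε₁
  obtain ⟨τR, hτR, hnear⟩ := hRN k w θ hF.atoms ε' hε'
  obtain ⟨Q, hQ⟩ : ∃ Q, Q = Kb * (4 * A * k * K) := ⟨_, rfl⟩
  have hQ0 : 0 ≤ Q := by rw [hQ]; positivity
  obtain ⟨τ, hτ, hτ1, hτA, hτ11, hτe, hτQ⟩ := head_tau (k := k) hτR hε₁ hε (show 0 ≤ M by linarith) hQ0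
    (show 1 ≤ 2 * A by linarith)
  refine ⟨τ, Kb * (2 * A), hτ, by positivity, ?_⟩
  intro ι _ _ β R S hR h u hh hu
  obtain ⟨cF, hcF⟩ : ∃ c, c = (k:ℝ) * (4 * c4 * (1 + 1 / τ ^ 2)) := ⟨_, rfl⟩
  obtain ⟨G, hG⟩ : ∃ G, G = growC R S β := ⟨_, rfl⟩
  have lim : Tendsto (fun N : ℕ => G / ((N:ℝ) + 1) + Q * (2 / N) + Kb / √(N:ℝ) + D * (cF / ((N:ℝ) + 1)))
      atTop (𝓝 0) := by
    have h1 : Tendsto (fun N : ℕ => (N:ℝ) + 1) atTop atTop :=
      tendsto_atTop_add_const_right _ 1 tendsto_natCast_atTop_atTop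
    have h2 : ∀ c : ℝ, Tendsto (fun N : ℕ => c / ((N:ℝ) + 1)) atTop (𝓝 0) := fun c =>
      tendsto_const_nhds.div_atTop h1
    simpa using (((h2 G).add ((tendsto_const_div_atTop_nhds_zero_nat (2:ℝ)).const_mul Q)).add
      ((tendsto_const_nhds (x := Kb)).div_atTop (tendsto_sqrt_atTop.comp tendsto_natCast_atTop_atTop))).add
      ((h2 cF).const_mul D)
  obtain ⟨N₀, hN₀⟩ := eventually_atTop.1 ((lim.eventually (eventually_le_nhds (half_pos hε))).and
    ((tendsto_const_div_atTop_nhds_zero_nat (2:ℝ)).eventually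
      (eventually_le_nhds (show (0:ℝ) < 1 / (2 * A) by positivity))))
  refine ⟨N₀, fun N hN _ θ' lab lab' o hmono hθ' hfr ho hc ν₁ ν hν₁ hν => ?_⟩
  have hP' := hν.1
  obtain ⟨hsmall, hN2⟩ := hN₀ N hN
  have hR1 : 1 ≤ R := by omega
  have hLM' : ∀ j, |θ' j| ≤ M := fun j => by
    linarith [abs_sub_abs_le_abs_sub (θ' j) (θ j), hθ' j, hF.bd j]
  have hfr' : ∀ j, |freq lab' j - w j| ≤ τ + 2 / N := fun j =>
    (abs_sub_le _ (freq lab j) _).trans (by linarith [freq_drop hc j, hfr j])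
  have hAf : ∀ j, 1 ≤ A * freq lab' j := fun j => by
    rw [le_div_iff₀ (by positivity)] at hN2
    linarith [hwA j, mul_le_mul_of_nonneg_left (abs_le.1 (hfr' j)).1 (show 0 ≤ A by linarith)]
  have hpos' : ∀ j, 0 < cnt lab' j := fun j => by
    rcases Nat.eq_zero_or_pos (cnt lab' j) with h0 | h0
    · have := hAf j
      rw [freq_eq_cnt, h0] at this
      norm_num at this
    · exact h0
  have hpos : ∀ j, 0 < cnt lab j := fun j => by
    rw [hc j]; exact Nat.add_pos_left (hpos' j) _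
  choose e he using fun j => exists_site (hpos' j)
  have hVc : Continuous fun U => headV w θ R (qU θ' lab' U R S β h u) :=
    continuous_headV H.bdd H.dphi hR1 (fun U => (qU_prof θ' lab' U).1) (continuous_qU θ' lab')
  have hpc := continuous_povU (S := S) (β := β) (h := h) (u := u) H.bdd hR1 θ' lab'
  obtain ⟨err, herr⟩ : ∃ x, x = (2 * KP * (K * K) + Y) * √δ + K₀ * κ + Z * √ε₁ + Q * (τ + 2 / N) + Kb / √(N:ℝ) :=
    ⟨_, rfl⟩
  set V := ∫ U, headV w θ R (qU θ' lab' U R S β h u) ∂ν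
  set P := ∫ U, povU w θ θ' lab' U R S β h u ∂ν
  have key := corner_low (S := S) (β := β) (A := A) hCo hRN hR hh hu hmono hLM' ho he hc hν₁ hν
    (low := fun g => V - (err + Kb * (2 * A) * P) - D * farS lab τ g)
    ((integrable_const _).sub ((integrable_farS lab τ).const_mul D)) ?_
  · rw [integral_sub (integrable_const _) ((integrable_farS lab τ).const_mul D),
      integral_const, probReal_univ, one_smul, integral_const_mul] at key
    have hfar : ∫ g, farS lab τ g ∂gauss (Fin (N + 1)) ≤ cF / ((N:ℝ) + 1) := by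
      simpa [hcF] using farS_tail lab hτ (Nat.succ_pos N)
    have hfar' := mul_le_mul_of_nonneg_left hfar hD0
    have htot : P ≤ ∫ U, totDev w θ θ' lab' U R S β h u ∂ν :=
      integral_mono (integrable_haar hν hpc) (integrable_haar hν (hpc.add (continuous_devU θ' lab')))
        (povU_le_totDev θ' lab')
    have htot' := mul_le_mul_of_nonneg_left htot (show 0 ≤ Kb * (2 * A) by positivity)
    rw [← hG] at key
    linarith
  intro g hg
  have hr0 : ∀ j, 0 < shr lab g j := fun j => shr_pos hpos hg j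
  have hr1 : ∑ j, shr lab g j = 1 := shr_one lab hg (Nat.succ_pos N)
  obtain ⟨t, ht⟩ := hF.atoms.exists_top
  have hsa : ∑ j, |aA (shr lab g) θ' j| ≤ 2 * M := sum_move hr0 hmono hLM' ho ht
  have haA : ∀ j, |aA (shr lab g) θ' j| ≤ A := fun j =>
    (single_le_sum (f := fun j => |aA (shr lab g) θ' j|) (fun j _ => abs_nonneg _) (mem_univ j)).trans
      (hsa.trans hA)
  have he0 : |(∑ j, shr lab g j * θ' j) / 2| ≤ A := by
    rw [abs_div, abs_two]
    linarith [abs_mean_le hr0 hr1 hLM']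
  have hcase : farS lab τ g = 1 ∨ farS lab τ g = 0 ∧ ∀ j, |shr lab g j - w j| ≤ 2 * τ ∧ |θ' j - θ j| ≤ τ ∧
      |aA (shr lab g) θ' j - aA w θ j| ≤ ε' ∧ |cA (shr lab g) θ' j - cA w θ j| ≤ ε' := by
    by_cases hfs : ∃ j, τ < |shr lab g j - freq lab j|
    · exact Or.inl (if_pos hfs)
    · have h0 : farS lab τ g = 0 := if_neg hfs
      push Not at hfs
      have hclose : ∀ j, |shr lab g j - w j| ≤ 2 * τ := fun j =>
        (abs_sub_le _ (freq lab j) _).trans (by linarith [hfs j, hfr j])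
      refine Or.inr ⟨h0, fun j => ⟨hclose j, hθ' j, ?_⟩⟩
      have := hnear (shr lab g) θ' (fun i => (hclose i).trans hτ1) (fun i => (hθ' i).trans (by linarith)) hmono j
      exact ⟨this.1, this.2.1⟩
  obtain ⟨c, hcc, hcb, hc2, hdiff, hsq⟩ := head_data H hδ.le hF.fine ho hmono hKP hK₀ hε₁ hε₁1 hτ.le
    (fun j => by linarith [hF.bd j]) hLM' hKA hτe he' hr0 hr1 hcase
  refine ⟨he0, haA, c, hcc, hcb, le_trans ?_ (head_rows hFr hR1 he hν he0 haA hcb
    (b := fun U => headV w θ R (qU θ' lab' U R S β h u) -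
      (err + D * farS lab τ g + Kb * (2 * A) * povU w θ θ' lab' U R S β h u))
    (hVc.sub (continuous_const.add (continuous_const.mul hpc))) ?_)⟩
  · have i2 : Integrable (fun U => Kb * (2 * A) * povU w θ θ' lab' U R S β h u) ν :=
      (integrable_haar hν hpc).const_mul _
    rw [integral_sub (integrable_haar hν hVc) ((integrable_const _).fun_add i2),
      integral_add (integrable_const _) i2, integral_const_mul, integral_const, probReal_univ, one_smul]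
    linarith
  intro U hU
  refine le_trans ?_ (head_site H hδ.le hR1 hKb hKP (by linarith)
    (fun hR lab U hU W hW rd e₀ a c u h1 h2 h3 h4 h5 h6 h7 => (hGain hR lab U hU W hW rd e₀ a c u h1 h2 h3 h4 h5 h6 h7).1)
    (fun R q q' a b c => (hP R q q' a b c).1) hAf hfr' (fun j => (aA_mem hr0 hmono j).2) haA hcb hc2
    (mul_le_mul_of_nonneg_right (by linarith) hK) (mul_le_mul_of_nonneg_right (by linarith) hK) hdiff hsq U hU)
  rw [← hY, ← hQ]
  simp only [herr, hZ, hD]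
  linarith

end Vale.Agent.P166.Gen
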