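import Vale.Agent.P166.Gen.LowParts
import Vale.Agent.P166.Gen.LowShr
import Vale.Agent.P166.Gen.LowCont

/-! P166 G4: the value of the new site as a function of the corner data and of the overlaps. -/

open MeasureTheory Finset Real
open scoped Topology
open Vale.Agent.P157.Par (Prof dist1 devOf adev)
open Vale.Agent.P168.MP (lin ET)

noncomputable section

namespace Vale.Agent.P166.Gen

open Par.Multi (xiD xiD_mem)

variable {k R : ℕ} {w θ : Fin k → ℝ} {L η δ K : ℝ} {q : ℕ → ℝ}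

/-- the facts on the atoms that the value of the new site uses -/
structure HeadH (L η δ K : ℝ) (w θ : Fin k → ℝ) : Prop where
  bdd : Bdd w θ L η
  pos : 0 ≤ K
  move : ∀ j, -gap θ j ≤ aA w θ j ∧ aA w θ j ≤ 0
  csum : ∑ j, cA w θ j ^ 2 ≤ K
  mem : ∀ j, ∀ y ∈ Set.Icc (0:ℝ) 1, 0 ≤ kap w θ (θ j) y ∧ kap w θ (θ j) y ≤ K
  dphi : ∀ j y, dphiA w θ j y = w j * kap w θ (θ j) y
  near : ∀ y ∈ Set.Icc (0:ℝ) 1, |dRat w θ y - ∑ j, cA w θ j ^ 2 * kap w θ (θ j) y| ≤ K * K * δ

lemma sum_gap (θ : Fin k → ℝ) {o t : Fin k} (ho : (o : ℕ) = 0) (ht : ∀ i, i ≤ t) :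
    ∑ j, gap θ j = θ t - θ o := by
  classical
  have h := tele (fun j => if j = t then (1:ℝ) else 0) θ ho
  simp only [ite_mul, one_mul, zero_mul, sum_ite_eq', mem_univ, if_true] at h
  rw [h]
  refine sum_congr rfl fun i _ => ?_
  simp [gap, tailW, sum_ite_eq', ht i]

lemma gap_le (hδ : 0 ≤ δ) (hf : ∀ i j : Fin k, (i : ℕ) + 1 = j → θ j - θ i ≤ δ) (j : Fin k) :
    gap θ j ≤ δ := by
  unfold gap
  rcases Nat.eq_zero_or_pos (j : ℕ) with h | h
  · rw [show prv j = j from Fin.ext (by simp [prv, h]), sub_self]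
    exact hδ
  · exact hf (prv j) j (by simp [prv]; omega)

/-- the atoms of a fine grid satisfy these facts -/
lemma headH_of (hη : 0 < η) (hK : 0 ≤ K) (hδ : 0 ≤ δ) (hF : Fine L η δ w θ)
    (hmv : ∀ j, aA w θ j ≤ 0 ∧ -gap θ j ≤ aA w θ j) (hc : ∑ j, cA w θ j ^ 2 ≤ K)
    (hk : ∀ t y, |t| ≤ L → (∀ j, (∀ i, i ≤ j) → t ≤ θ j) → y ∈ Set.Icc (0:ℝ) 1 →
      (0 ≤ kap w θ t y ∧ kap w θ t y ≤ K) ∧
      (∀ y' ∈ Set.Icc (0:ℝ) 1, |kap w θ t y - kap w θ t y'| ≤ K * |y - y'|) ∧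
      ∀ t', |t'| ≤ L → (∀ j, (∀ i, i ≤ j) → t' ≤ θ j) → |kap w θ t y - kap w θ t' y| ≤ K * |t - t'|)
    (hd : ∀ j y, dphiA w θ j y = w j * kap w θ (θ j) y)
    (hr : ∀ y ∈ Set.Icc (0:ℝ) 1, dRat w θ y = ∑ j, cA w θ j ^ 2 * kap w θ (root w θ j) y) :
    HeadH L η δ K w θ := by
  have htop : ∀ a : Fin k, ∀ j, (∀ i, i ≤ j) → θ a ≤ θ j := fun a j hj => hF.atoms.mono.monotone (hj a)
  refine ⟨⟨hF.atoms, hF.bd, hη, hF.top⟩, hK, fun j => ⟨(hmv j).2, (hmv j).1⟩, hc,
    fun j y hy => (hk _ y (hF.bd j) (htop j) hy).1, hd, fun y hy => ?_⟩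
  rw [hr y hy, ← sum_sub_distrib]
  refine (abs_sum_le_sum_abs _ _).trans ((sum_le_sum (g := fun j => cA w θ j ^ 2 * (K * δ)) fun j _ => ?_).trans ?_)
  · rw [← mul_sub, abs_mul, abs_of_nonneg (sq_nonneg _)]
    rcases Nat.eq_zero_or_pos (j : ℕ) with h | h
    · simp [cA, h]
    · obtain ⟨a, b⟩ := root_mem hF.atoms.pos hF.atoms.mono h
      have h1 : |root w θ j| ≤ L := abs_le.2
        ⟨(abs_le.1 (hF.bd (prv j))).1.trans a, b.trans (abs_le.1 (hF.bd j)).2⟩
      refine mul_le_mul_of_nonneg_left (((hk _ y h1 (fun i hi => b.trans (htop j i hi)) hy).2.2 _ (hF.bd j)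
        (htop j)).trans (mul_le_mul_of_nonneg_left ?_ hK)) (sq_nonneg _)
      have hg := gap_le hδ hF.fine j
      unfold gap at hg
      rw [abs_le]
      constructor <;> linarith
  · rw [← sum_mul, mul_assoc]
    exact mul_le_mul_of_nonneg_right hc (mul_nonneg hK hδ)

namespace HeadH

variable (H : HeadH L η δ K w θ)
include H

lemma cont_kap (j : Fin k) : ContinuousOn (kap w θ (θ j)) (Set.Ici 0) :=
  ((H.bdd.1.continuousOn_dphiA j).div_const (w j)).congr fun y _ => by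
    show kap w θ (θ j) y = dphiA w θ j y / w j
    rw [H.dphi, mul_div_cancel_left₀ _ (H.bdd.1.pos j).ne']

lemma vlev_prof (hq : Prof R q 1) (j : Fin k) : Prof R (vlev w θ (θ j) R q) K :=
  levF_prof hq (H.cont_kap j) (fun x hx => (H.mem j x hx).1) fun x hx => (H.mem j x hx).2

lemma field_near (hq : Prof R q 1) (hδ : 0 ≤ δ) {l : ℕ} (hl : l ≤ R) :
    |fieldH w θ R q l - ∑ j, cA w θ j ^ 2 * vlev w θ (θ j) R q l| ≤ K * K * δ := by
  have z0 : (0:ℝ) ∈ Set.Icc (0:ℝ) 1 := Set.left_mem_Icc.2 zero_le_one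
  have a := hq.upper hl
  have hi : ∀ j ∈ (univ : Finset (Fin k)), IntervalIntegrable
      (fun s => cA w θ j ^ 2 * kap w θ (θ j) (xiD R q s)) volume 0 (q l) := fun j _ =>
    (ii_along hq (H.cont_kap j) z0 a).const_mul _
  rw [fieldH, levF]
  simp only [vlev, levF, ← intervalIntegral.integral_const_mul]
  rw [← intervalIntegral.integral_finsetSum hi,
    ← intervalIntegral.integral_sub (ii_along hq H.bdd.1.continuousOn_dRat z0 a)
      (IntervalIntegrable.sum univ hi |>.congr (by intro s _; simp))]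
  refine (intervalIntegral.norm_integral_le_of_norm_le_const (C := K * K * δ)
    (f := fun s => dRat w θ (xiD R q s) - ∑ j, cA w θ j ^ 2 * kap w θ (θ j) (xiD R q s)) fun s hs => ?_).trans ?_
  · have h := Set.uIcc_subset_Icc z0 a (Set.uIoc_subset_uIcc hs)
    exact H.near _ (xiD_mem hq h.1 h.2)
  · rw [sub_zero, abs_of_nonneg a.1]
    exact mul_le_of_le_one_right (mul_nonneg (mul_nonneg H.pos H.pos) hδ) a.2

lemma sum_prof (hq : Prof R q 1) (c : Fin k → ℝ) :
    Prof R (fun l => ∑ j, c j ^ 2 * vlev w θ (θ j) R q l) ((∑ j, c j ^ 2) * K) :=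
  ⟨sum_nonneg fun j _ => mul_nonneg (sq_nonneg _) (H.vlev_prof hq j).zero,
    fun l hl => sum_le_sum fun j _ => mul_le_mul_of_nonneg_left ((H.vlev_prof hq j).mono l hl) (sq_nonneg _),
    (sum_le_sum fun j _ => mul_le_mul_of_nonneg_left (H.vlev_prof hq j).top (sq_nonneg _)).trans_eq
      (sum_mul _ _ _).symm⟩

/-- the value against the value of the corner of the atoms -/
theorem value_near {V KP : ℝ} (hKP : 0 ≤ KP) (hP : ∀ (R : ℕ) (h h' : ℕ → ℝ), 1 ≤ R → Prof R h V → Prof R h' V →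
      |P157.Par.Phi cosh R (lin R) h - P157.Par.Phi cosh R (lin R) h'| ≤ KP * dist1 R h h')
    (hV : 4 * L ^ 2 / η ^ 4 + (K + 1) * K ≤ V) (hδ : 0 ≤ δ) (hR : 1 ≤ R) (hq : Prof R q 1) (e₀ : ℝ)
    (a c : Fin k → ℝ) (hc : ∑ j, c j ^ 2 ≤ K + 1) :
    headV w θ R q - (|e₀ - (∑ j, w j * θ j) / 2| + K * (∑ j, |a j - aA w θ j|) +
        2 * KP * (K * (∑ j, |c j ^ 2 - cA w θ j ^ 2|) + K * K * δ)) ≤
      e₀ + (∑ j, a j * vlev w θ (θ j) R q R) / 2 +
        P157.Par.Phi cosh R (lin R) (fun l => ∑ j, c j ^ 2 * vlev w θ (θ j) R q l) := by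
  have hK := H.pos
  set u := fun j => vlev w θ (θ j) R q
  have hu : ∀ j, ∀ l ≤ R, |u j l| ≤ K := fun j l hl => by
    obtain ⟨a, b⟩ := (H.vlev_prof hq j).upper hl
    rw [abs_of_nonneg a]; exact b
  set P := P157.Par.Phi cosh R (lin R)
  set Sa := ∑ j, |a j - aA w θ j|
  set d := K * (∑ j, |c j ^ 2 - cA w θ j ^ 2|) + K * K * δ
  have h1 : |(∑ j, a j * u j R) - ∑ j, aA w θ j * u j R| ≤ K * Sa := by
    rw [← sum_sub_distrib, mul_sum]
    refine (abs_sum_le_sum_abs _ _).trans (sum_le_sum fun j _ => ?_)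
    rw [← sub_mul, abs_mul, mul_comm]
    exact mul_le_mul_of_nonneg_right (hu j R le_rfl) (abs_nonneg _)
  have hl : ∀ l ≤ R, |(∑ j, c j ^ 2 * u j l) - fieldH w θ R q l| ≤ d := fun l hl => by
    have h2 : |(∑ j, c j ^ 2 * u j l) - ∑ j, cA w θ j ^ 2 * u j l| ≤ K * ∑ j, |c j ^ 2 - cA w θ j ^ 2| := by
      rw [← sum_sub_distrib, mul_sum]
      refine (abs_sum_le_sum_abs _ _).trans (sum_le_sum fun j _ => ?_)
      rw [← sub_mul, abs_mul, mul_comm]
      exact mul_le_mul_of_nonneg_right (hu j l hl) (abs_nonneg _)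
    have h3 := H.field_near hq hδ hl
    rw [abs_le] at h2 h3 ⊢
    constructor <;> linarith [h2.1, h2.2, h3.1, h3.2]
  have hdist : dist1 R (fun l => ∑ j, c j ^ 2 * u j l) (fieldH w θ R q) ≤ 2 * d := by
    unfold dist1
    refine (add_le_add ((div_le_iff₀ (by exact_mod_cast hR)).2 ?_) (hl R le_rfl)).trans_eq (two_mul d).symm
    refine (sum_le_sum fun l h => hl l (mem_range.1 h).le).trans_eq ?_
    rw [sum_const, card_range, nsmul_eq_mul, mul_comm]
  have hFp : Prof R (fieldH w θ R q) V := (fieldH_prof H.bdd hq).weaken (by nlinarith)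
  have hgp : Prof R (fun l => ∑ j, c j ^ 2 * u j l) V :=
    (H.sum_prof hq c).weaken (le_trans (mul_le_mul_of_nonneg_right hc hK)
      (le_trans (le_add_of_nonneg_left (by positivity)) hV))
  have h4 := (hP R _ _ hR hgp hFp).trans (mul_le_mul_of_nonneg_left hdist hKP)
  have hSa : 0 ≤ K * Sa := mul_nonneg hK (sum_nonneg fun j _ => abs_nonneg _)
  have h5 := le_abs_self ((∑ j, w j * θ j) / 2 - e₀)
  rw [abs_sub_comm] at h5
  unfold headV
  rw [abs_le] at h1 h4
  linarith [h1.1, h1.2, h4.1, h4.2]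

/-- the deviation of the covariances from the profiles, in the deviation of the projected overlaps -/
theorem cvDev_le {N : ℕ} {Ω : Type} [Fintype Ω] [Nonempty Ω] (hR : 1 ≤ R) (hq : Prof R q 1)
    {lab : Fin N → Fin k} (U : Mat N) {W : List Ω → ℝ} (hW : ∀ p, 0 < W p) (rd : List Ω → Fin N → Bool)
    {A τ : ℝ} (hA : ∀ j, 1 ≤ A * freq lab j) (hτ : ∀ j, |freq lab j - w j| ≤ τ) :
    cvDev R W lab U rd (fun j => vlev w θ (θ j) R q) R ≤
      2 * A * ((∑ j, adev R W (fun p p' => pov lab U j (rd p) (rd p')) (levP w θ j R q)) + 2 * k * (K * τ)) := by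
  have hd : ∀ j, ∀ l ≤ R, devOf R W (cvR lab U rd j) (vlev w θ (θ j) R q) l ≤
      A * (devOf R W (fun p p' => pov lab U j (rd p) (rd p')) (levP w θ j R q) l + K * τ) := fun j l hl => by
    set f := freq lab j
    set v := vlev w θ (θ j) R q l
    have hf0 : 0 < f := lt_of_le_of_ne (freq_nonneg lab j) fun h => by
      have := hA j; rw [← show f = freq lab j from rfl, ← h] at this; linarith
    have hA0 : 0 ≤ A := nonneg_of_mul_nonneg_left (zero_le_one.trans (hA j)) hf0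
    have hv : |v| ≤ K := by
      obtain ⟨a, b⟩ := (H.vlev_prof hq j).upper hl
      rw [abs_of_nonneg a]; exact b
    have e : devOf R W (fun p p' => pov lab U j (rd p) (rd p')) (levP w θ j R q) l + K * τ =
        ET R (lin R) W [(0, l), (0, 0)] fun ps =>
          |pov lab U j (rd (ps.getD 0 [])) (rd (ps.getD 1 [])) - w j * v| + K * τ := by
      rw [Vale.Agent.P168.MP.ET_add, Vale.Agent.P168.MP.ET_const hW, devOf]
      simp only [levP_vlev H.dphi, v]
    rw [e, ← Vale.Agent.P168.MP.ET_const_mul, devOf]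
    refine Vale.Agent.P168.MP.ET_mono hW fun ps => ?_
    simp only [cvR]
    set x := pov lab U j (rd (ps.getD 0 [])) (rd (ps.getD 1 []))
    have e2 : x / f - v = ((x - w j * v) + v * (w j - f)) / f := by field_simp; ring
    rw [e2, abs_div, abs_of_pos hf0, div_le_iff₀ hf0]
    have h1 : |(x - w j * v) + v * (w j - f)| ≤ |x - w j * v| + K * τ := by
      refine (abs_add_le _ _).trans (add_le_add le_rfl ?_)
      rw [abs_mul, abs_sub_comm]
      exact mul_le_mul hv (hτ j) (abs_nonneg _) H.pos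
    refine h1.trans ?_
    calc |x - w j * v| + K * τ ≤ (|x - w j * v| + K * τ) * (A * f) :=
          le_mul_of_one_le_right ((abs_nonneg _).trans h1) (hA j)
      _ = _ := by ring
  refine (sum_le_sum (g := fun j => 2 * A *
    (adev R W (fun p p' => pov lab U j (rd p) (rd p')) (levP w θ j R q) + 2 * (K * τ))) fun j _ => ?_).trans_eq ?_
  · set D := fun l => devOf R W (fun p p' => pov lab U j (rd p) (rd p')) (levP w θ j R q) l
    have hR' : (0:ℝ) < R := by exact_mod_cast hR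
    have h1 : (∑ l ∈ range R, devOf R W (cvR lab U rd j) (vlev w θ (θ j) R q) l) / R ≤
        A * ((∑ l ∈ range R, D l) / R + K * τ) := by
      refine (div_le_div_of_nonneg_right (sum_le_sum fun l hl => hd j l (mem_range.1 hl).le) hR'.le).trans_eq ?_
      rw [← mul_sum, sum_add_distrib, sum_const, card_range, nsmul_eq_mul]
      field_simp
      rfl
    have h2 := hd j R le_rfl
    have hA0 : 0 ≤ A := nonneg_of_mul_nonneg_left (zero_le_one.trans (hA j))
      (lt_of_le_of_ne (freq_nonneg lab j) fun h => by have := hA j; rw [← h] at this; linarith)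
    have h3 : 0 ≤ A * ((∑ l ∈ range R, D l) / R) := mul_nonneg hA0
      (div_nonneg (sum_nonneg fun l _ => Vale.Agent.P168.MP.ET_nonneg hW fun _ => abs_nonneg _) hR'.le)
    have h4 : 0 ≤ A * (K * τ) := mul_nonneg hA0 (mul_nonneg H.pos ((abs_nonneg _).trans (hτ j)))
    simp only [adev, D] at h1 h2 h3 ⊢
    linarith
  · rw [← mul_sum, sum_add_distrib, sum_const, card_univ, Fintype.card_fin, nsmul_eq_mul]
    ring

end HeadH

end Vale.Agent.P166.Gen
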