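import Vale.Agent.P166.Gen.LowKap

/-!
# P166 G4: the levels of the squared coordinates, and trials

`vlev` of an atom is the level of its projected overlaps divided by its weight; the field is the sum of the
levels at the roots weighted by the squared couplings.
-/

open MeasureTheory Finset Real
open scoped Topology
open Vale.Agent.P157.Par (Prof dist1)
open Vale.Agent.P157.Full (qh psiH dotH qh_prof)

noncomputable section

namespace Vale.Agent.P166.Gen

open Par.Multi (xiD xiD_mem)

variable {k R : ℕ} {q : ℕ → ℝ}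

/-! ### levels of functions -/

/-- levels only see the function on `[0,1]` -/
lemma levF_congr {f g : ℝ → ℝ} (hq : Prof R q 1) (h : ∀ x ∈ Set.Icc (0:ℝ) 1, f x = g x) {l : ℕ} (hl : l ≤ R) :
    levF f R q l = levF g R q l :=
  intervalIntegral.integral_congr fun s hs => by
    rw [Set.uIcc_of_le (hq.upper hl).1] at hs
    exact h _ (xiD_mem hq hs.1 (hs.2.trans (hq.upper hl).2))

/-- levels are linear in the function -/
lemma levF_lincomb {α : Type*} (t : Finset α) (c : α → ℝ) {f : α → ℝ → ℝ} (hq : Prof R q 1)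
    (hf : ∀ i ∈ t, ContinuousOn (f i) (Set.Ici 0)) {l : ℕ} (hl : l ≤ R) :
    levF (fun y => ∑ i ∈ t, c i * f i y) R q l = ∑ i ∈ t, c i * levF (f i) R q l := by
  simp only [levF, ← intervalIntegral.integral_const_mul]
  exact intervalIntegral.integral_finsetSum fun i hi =>
    (ii_along hq (hf i hi) (Set.left_mem_Icc.2 zero_le_one) (hq.upper hl)).const_mul _

/-- levels are Lipschitz in the function -/
lemma levF_near {f g : ℝ → ℝ} (hq : Prof R q 1) (hf : ContinuousOn f (Set.Ici 0)) (hg : ContinuousOn g (Set.Ici 0))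
    {e : ℝ} (h : ∀ x ∈ Set.Icc (0:ℝ) 1, |f x - g x| ≤ e) {l : ℕ} (hl : l ≤ R) :
    |levF f R q l - levF g R q l| ≤ e := by
  have z0 : (0:ℝ) ∈ Set.Icc (0:ℝ) 1 := Set.left_mem_Icc.2 zero_le_one
  have a := hq.upper hl
  rw [levF, levF, ← intervalIntegral.integral_sub (ii_along hq hf z0 a) (ii_along hq hg z0 a)]
  refine (intervalIntegral.norm_integral_le_of_norm_le_const (C := e)
    (f := fun s => f (xiD R q s) - g (xiD R q s)) fun s hs => ?_).trans ?_
  · have hs' := Set.uIcc_subset_Icc z0 a (Set.uIoc_subset_uIcc hs)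
    exact h _ (xiD_mem hq hs'.1 hs'.2)
  · rw [sub_zero, abs_of_nonneg a.1]
    exact mul_le_of_le_one_right ((abs_nonneg _).trans (h 0 z0)) a.2

variable {w θ : Fin k → ℝ} {L η δ : ℝ}

/-- the levels of the projected overlaps are the weight times those of the squared coordinate -/
lemma levP_eq_vlev (j : Fin k) (l : ℕ) : levP w θ j R q l = w j * vlev w θ (θ j) R q l := by
  simp only [levP, vlev, levF, dphiA_eq_kap, intervalIntegral.integral_const_mul]

namespace Fine

variable (F : Fine L η δ w θ) (hη : 0 < η)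
include F hη

lemma atom_le (j : Fin k) : ∀ i : Fin k, (∀ a, a ≤ i) → θ j ≤ θ i := fun _ hi => F.atoms.theta_le hi j

lemma root_le (j : Fin k) (hj : 0 < (j : ℕ)) : ∀ i : Fin k, (∀ a, a ≤ i) → root w θ j ≤ θ i :=
  fun i hi => ((root_mem F.atoms.pos F.atoms.mono hj).2).trans (F.atoms.theta_le hi j)

/-- the levels of a squared coordinate form a profile -/
lemma vlev_prof {t : ℝ} (ht : ∀ j, (∀ i, i ≤ j) → t ≤ θ j) (hq : Prof R q 1) :
    Prof R (vlev w θ t R q) (1 / η ^ 2) :=
  levF_prof hq (F.continuousOn_kap hη ht) (fun _ hx => (F.kap_mem hη ht hx.1).1)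
    fun _ hx => (F.kap_mem hη ht hx.1).2

/-- they are Lipschitz in the point -/
lemma vlev_lip_arg {t t' : ℝ} (ht : ∀ j, (∀ i, i ≤ j) → t ≤ θ j) (ht' : ∀ j, (∀ i, i ≤ j) → t' ≤ θ j)
    (hq : Prof R q 1) {l : ℕ} (hl : l ≤ R) :
    |vlev w θ t R q l - vlev w θ t' R q l| ≤ 2 / η ^ 3 * |t - t'| :=
  levF_near hq (F.continuousOn_kap hη ht) (F.continuousOn_kap hη ht')
    (fun _ hx => F.kap_lip_arg hη ht ht' hx) hl

/-- the field is the sum of the levels at the roots -/
lemma fieldH_eq_vlev (hq : Prof R q 1) {l : ℕ} (hl : l ≤ R) :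
    fieldH w θ R q l = ∑ j, cA w θ j ^ 2 * vlev w θ (root w θ j) R q l := by
  have e : ∀ j ∈ upAtoms k, ContinuousOn (kap w θ (root w θ j)) (Set.Ici 0) := fun j hj =>
    F.continuousOn_kap hη (F.root_le hη j (mem_filter.1 hj).2)
  rw [fieldH, levF_congr hq (g := fun y => ∑ j ∈ upAtoms k, cA w θ j ^ 2 * kap w θ (root w θ j) y)
    (fun x hx => (dRat_eq_kap F.atoms hx.1).trans
      (sum_cA _ _ (fun j hj => by simp [cA, hj]) fun j _ => rfl)) hl,
    levF_lincomb _ _ hq e hl, sum_cA _ _ (fun j hj => by simp [cA, hj]) fun j _ => rfl]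
  rfl

end Fine

/-- a trial is at least the value of the path it generates, up to its distance from that path -/
theorem stmt_trial : StmtTrial := by
  intro L η hη
  obtain ⟨C₁, hC₁, hc₁⟩ := maps_lip L η
  obtain ⟨C₂, hC₂, hc₂⟩ := spin_lip (4 * L ^ 2 / η ^ 4)
  refine ⟨4 * L ^ 2 / η ^ 4 + C₂ * C₁, by positivity, fun δ _ _ k w θ F R q hR hq htop => ?_⟩
  set V := 4 * L ^ 2 / η ^ 4 with hV
  have V0 : 0 ≤ V := by positivity
  have hCC : 0 ≤ C₂ * C₁ := mul_nonneg hC₂ hC₁
  have H := F.bdd hη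
  have hp := fieldH_prof H hq
  refine ⟨⟨hp.zero, hp.mono, hp.top.trans (by linarith)⟩, ?_, fun q' hq' _ => ?_⟩
  · set h := fieldH w θ R q with hh
    have hinc := increment F.atoms hq hR htop
    rw [← hh] at hinc
    have hnear := (abs_le.1 (aForm_near H hR hp hq)).2
    have hd : |dotH R h (qh R h) - dotH R h q| ≤ V * dist1 R q (qh R h) := by
      rw [dotH, dotH, ← sub_div, ← sum_sub_distrib, abs_div, Nat.abs_cast]
      refine le_trans (div_le_div_of_nonneg_right ((abs_sum_le_sum_abs _ _).trans (sum_le_sum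
        (g := fun l => V * |q l - qh R h l|) fun l hl => ?_)) (Nat.cast_nonneg R)) ?_
      · rw [← mul_sub, abs_mul, abs_sub_comm]
        exact mul_le_mul_of_nonneg_right (by
          rw [abs_of_nonneg (hp.upper (mem_range.1 hl).le).1]
          exact (hp.upper (mem_range.1 hl).le).2) (abs_nonneg _)
      · rw [← mul_sum, mul_div_assoc]
        exact mul_le_mul_of_nonneg_left (mean_le_dist1 q _) V0
    have hsymm : dist1 R (qh R h) q = dist1 R q (qh R h) := by
      simp only [dist1, abs_sub_comm]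
    have hd0 := Vale.Agent.P157.Par.dist1_nonneg R q (qh R h)
    have h1 : 0 ≤ C₂ * C₁ * dist1 R q (qh R h) := mul_nonneg hCC hd0
    have h2 : 0 ≤ V * dist1 R q (qh R h) := mul_nonneg V0 hd0
    have e : 2 * L ^ 2 / η ^ 4 = V / 2 := by rw [hV]; ring
    rw [hsymm, e] at hnear
    have hd' := (abs_le.1 hd).2
    simp only [trialV, Tq, spinH, psiH, ← hh] at *
    linarith
  · refine (hc₂ R _ _ hR hp (fieldH_prof H hq')).1.trans ?_
    refine (mul_le_mul_of_nonneg_left (hc₁ H R q q' hR hq hq').1 hC₂).trans ?_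
    rw [← mul_assoc]
    exact mul_le_mul_of_nonneg_right (by linarith) (Vale.Agent.P157.Par.dist1_nonneg R q q')

end Vale.Agent.P166.Gen
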