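import Vale.Agent.P166.Gen.LowDefs

/-! P166 G4: labels drawn with the weights, and labels with one site less. -/

open Finset Real

noncomputable section

namespace Vale.Agent.P166.Gen

variable {k n : ℕ}

/-- the number of sites of atom `j` -/
def cnt (lab : Fin n → Fin k) (j : Fin k) : ℕ := (univ.filter fun i => lab i = j).card

lemma freq_eq_cnt (lab : Fin n → Fin k) (j : Fin k) : freq lab j = (cnt lab j : ℝ) / n := rfl

lemma cnt_eq_sum (lab : Fin n → Fin k) (j : Fin k) : cnt lab j = ∑ i, if lab i = j then 1 else 0 := by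
  simp [cnt]

lemma sum_cnt_mul (lab : Fin n → Fin k) (P : Fin k → ℝ) : ∑ i, P (lab i) = ∑ j, (cnt lab j : ℝ) * P j := by
  rw [← sum_fiberwise univ lab fun i => P (lab i)]
  refine sum_congr rfl fun j _ => ?_
  rw [cnt, ← nsmul_eq_mul, ← sum_const]
  exact sum_congr rfl fun i hi => by rw [(mem_filter.1 hi).2]

lemma sum_freq_mul (lab : Fin n → Fin k) (P : Fin k → ℝ) :
    (∑ i, P (lab i)) / n = ∑ j, freq lab j * P j := by
  rw [sum_cnt_mul, sum_div]
  exact sum_congr rfl fun j _ => by rw [freq_eq_cnt]; ring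

lemma freq_nonneg (lab : Fin n → Fin k) (j : Fin k) : 0 ≤ freq lab j := by rw [freq_eq_cnt]; positivity

lemma sum_freq (lab : Fin n → Fin k) (hn : n ≠ 0) : ∑ j, freq lab j = 1 := by
  have h := sum_freq_mul lab fun _ => 1
  simp only [sum_const, card_univ, Fintype.card_fin, nsmul_eq_mul, mul_one] at h
  rw [← h, div_self (Nat.cast_ne_zero.2 hn)]

lemma cnt_drop (lab : Fin (n + 1) → Fin k) (x : Fin (n + 1)) (j : Fin k) :
    cnt lab j = cnt (lab ∘ x.succAbove) j + if lab x = j then 1 else 0 := by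
  simp only [cnt_eq_sum, Function.comp_apply]
  rw [Fin.sum_univ_succAbove (fun i => if lab i = j then 1 else 0) x, add_comm]

lemma exists_site {lab : Fin n → Fin k} {j : Fin k} (h : 0 < cnt lab j) : ∃ i, lab i = j := by
  obtain ⟨i, hi⟩ := card_pos.1 h
  exact ⟨i, (mem_filter.1 hi).2⟩

lemma cnt_update (lab : Fin n → Fin k) (e : Fin n) (p j : Fin k) :
    (cnt (Function.update lab e p) j : ℝ) =
      cnt lab j + (if p = j then 1 else 0) - if lab e = j then 1 else 0 := by
  simp only [cnt_eq_sum, Nat.cast_sum, Nat.cast_ite, Nat.cast_one, Nat.cast_zero]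
  rw [← add_sum_erase univ _ (mem_univ e), ← add_sum_erase univ (fun i => if lab i = j then (1:ℝ) else 0) (mem_univ e),
    Function.update_self]
  rw [sum_congr rfl fun i hi => by rw [Function.update_of_ne (ne_of_mem_erase hi)]]
  ring

/-- labels with equal counts differ by a permutation -/
lemma exists_perm {lab lab' : Fin n → Fin k} (h : ∀ j, cnt lab j = cnt lab' j) :
    ∃ e : Equiv.Perm (Fin n), ∀ i, lab (e i) = lab' i := by
  have e : ∀ j, Nonempty ({i // lab' i = j} ≃ {i // lab i = j}) := fun j => by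
    refine Fintype.card_eq.1 ?_
    rw [Fintype.card_subtype, Fintype.card_subtype]
    exact (h j).symm
  exact ⟨Equiv.ofFiberEquiv fun j => (e j).some, fun i => Equiv.ofFiberEquiv_map (fun j => (e j).some) i⟩

/-- the bottom of the chain of atoms -/
lemma prv_le (i : Fin k) : prv i ≤ i := Nat.sub_le (i : ℕ) 1

/-- the telescoping over the atoms -/
lemma tele (f P : Fin k → ℝ) {o : Fin k} (ho : (o : ℕ) = 0) :
    ∑ j, f j * (P j - P o) = ∑ i, tailW f i * (P i - P (prv i)) := by
  have key : ∀ (m : ℕ) (j : Fin k), (j : ℕ) = m →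
      P j - P o = ∑ i, if i ≤ j then P i - P (prv i) else 0 := by
    intro m
    induction m with
    | zero =>
      intro j hj
      rw [show j = o from Fin.ext (hj.trans ho.symm), sub_self]
      refine (sum_eq_zero fun i _ => ?_).symm
      split_ifs with h
      · have : i = o := Fin.ext (by have : (i : ℕ) ≤ (o : ℕ) := h; omega)
        have e : prv o = o := Fin.ext (by simp [prv, ho])
        rw [this, e, sub_self]
      · rfl
    | succ m ih =>
      intro j hj
      have hp : (prv j : ℕ) = m := by simp [prv, hj]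
      have h1 := ih (prv j) hp
      have e : ∀ i : Fin k, (if i ≤ j then P i - P (prv i) else 0) =
          (if i ≤ prv j then P i - P (prv i) else 0) + if i = j then P i - P (prv i) else 0 := fun i => by
        rcases lt_trichotomy (i : ℕ) j with h | h | h
        · rw [if_pos (Fin.le_def.2 h.le), if_pos (Fin.le_def.2 (by omega)), if_neg (Fin.ne_of_val_ne h.ne), add_zero]
        · rw [if_pos (Fin.le_def.2 h.le), if_neg (by rw [Fin.le_def]; omega), if_pos (Fin.ext h), zero_add]
        · rw [if_neg (by rw [Fin.le_def]; omega), if_neg (by rw [Fin.le_def]; omega),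
            if_neg (Fin.ne_of_val_ne h.ne'), add_zero]
      rw [sum_congr rfl fun i _ => e i, sum_add_distrib, sum_ite_eq', if_pos (mem_univ j), ← h1]
      ring
  calc ∑ j, f j * (P j - P o) = ∑ j, ∑ i, if i ≤ j then f j * (P i - P (prv i)) else 0 :=
        sum_congr rfl fun j _ => by rw [key _ j rfl, mul_sum]; simp only [mul_ite, mul_zero]
    _ = _ := by
        rw [sum_comm]
        refine sum_congr rfl fun i _ => ?_
        rw [tailW, sum_mul, sum_filter]

variable {w : Fin k → ℝ}

/-- the labels without one site have the same law -/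
lemma lab_drop (hw1 : ∑ j, w j = 1) (F : (Fin n → Fin k) → ℝ) (x : Fin (n + 1)) :
    ∑ lab : Fin (n + 1) → Fin k, (∏ i, w (lab i)) * F (lab ∘ x.succAbove) =
      ∑ lab : Fin n → Fin k, (∏ i, w (lab i)) * F lab := by
  rw [← Equiv.sum_comp (Fin.insertNthEquiv (fun _ => Fin k) x), Fintype.sum_prod_type]
  simp only [Fin.insertNthEquiv, Equiv.coe_fn_mk, Fin.prod_univ_succAbove _ x, Fin.insertNth_apply_same,
    Fin.insertNth_apply_succAbove]
  have e : ∀ (a : Fin k) (l : Fin n → Fin k),
      (Fin.insertNth (α := fun _ => Fin k) x a l) ∘ x.succAbove = l := fun a l => funext fun i => by simp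
  simp only [e, mul_assoc, ← mul_sum, ← sum_mul, hw1, one_mul]

lemma lab_mass (hw1 : ∑ j, w j = 1) : ∑ lab : Fin n → Fin k, ∏ i, w (lab i) = 1 := by
  rw [← Fintype.prod_sum (fun _ : Fin n => w), hw1, prod_const_one]

/-- the generating function of one count -/
lemma lab_mgf (hw : ∀ j, 0 ≤ w j) (hw1 : ∑ j, w j = 1) (j : Fin k) {s : ℝ} (hs : |s| ≤ 1) :
    ∑ lab : Fin n → Fin k, (∏ i, w (lab i)) * exp (s * ((cnt lab j : ℝ) - n * w j)) ≤ exp (n * s ^ 2) := by
  set t : Fin k → ℝ := fun a => (if a = j then 1 else 0) - w j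
  have e : ∀ lab : Fin n → Fin k, (∏ i, w (lab i)) * exp (s * ((cnt lab j : ℝ) - n * w j)) =
      ∏ i, w (lab i) * exp (s * t (lab i)) := fun lab => by
    rw [prod_mul_distrib, ← exp_sum, ← mul_sum, sum_sub_distrib, cnt_eq_sum]
    simp
  rw [sum_congr rfl fun lab _ => e lab, ← Fintype.prod_sum fun (_ : Fin n) a => w a * exp (s * t a),
    prod_const, card_univ, Fintype.card_fin, exp_nat_mul]
  refine pow_le_pow_left₀ (sum_nonneg fun a _ => mul_nonneg (hw a) (exp_pos _).le) ?_ n
  have hwj : w j ≤ 1 := hw1 ▸ single_le_sum (fun a _ => hw a) (mem_univ j)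
  have ht : ∀ a, |t a| ≤ 1 := fun a => by
    simp only [t, abs_le]
    have := hw j
    split_ifs <;> constructor <;> linarith
  have h2 : ∑ a, w a * t a = 0 := by
    simp only [t, mul_sub, sum_sub_distrib, mul_ite, mul_one, mul_zero, sum_ite_eq', mem_univ, if_true,
      ← sum_mul, hw1, one_mul, sub_self]
  have hb : ∀ a, w a * exp (s * t a) ≤ w a * (1 + s * t a + s ^ 2) := fun a => by
    refine mul_le_mul_of_nonneg_left ?_ (hw a)
    have h1 : |s * t a| ≤ 1 := by
      rw [abs_mul]; exact mul_le_one₀ hs (abs_nonneg _) (ht a)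
    have h := (abs_le.1 (abs_exp_sub_one_sub_id_le h1)).2
    have h3 : (s * t a) ^ 2 ≤ s ^ 2 := by
      rw [mul_pow]
      exact mul_le_of_le_one_right (sq_nonneg s) ((sq_le_one_iff_abs_le_one _).2 (ht a))
    linarith
  refine (sum_le_sum fun a _ => hb a).trans ?_
  simp only [mul_add, mul_one, sum_add_distrib, hw1, mul_left_comm (w _) s, ← mul_sum, h2, mul_zero,
    ← sum_mul, one_mul, add_zero]
  linarith [add_one_le_exp (s ^ 2)]

/-- the labels away from the weights are exponentially rare -/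
lemma lab_tail (hw : ∀ j, 0 ≤ w j) (hw1 : ∑ j, w j = 1) {τ : ℝ} (hτ : 0 < τ) (hτ2 : τ ≤ 2) (hn : 0 < n) :
    ∑ lab ∈ (univ : Finset (Fin n → Fin k)).filter (fun lab => ∃ j, τ < |freq lab j - w j|), ∏ i, w (lab i) ≤
      2 * k * exp (-(τ ^ 2 / 4) * n) := by
  have hn' : (0:ℝ) < n := by exact_mod_cast hn
  set s := τ / 2
  have hs : |s| ≤ 1 := by rw [abs_of_pos (by positivity)]; simp only [s]; linarith
  set d : (Fin n → Fin k) → Fin k → ℝ := fun lab j => (cnt lab j : ℝ) - n * w j
  set m : (Fin n → Fin k) → Fin k → ℝ := fun lab j =>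
    exp (-(s * τ * n)) * (exp (s * d lab j) + exp (-s * d lab j))
  have hm : ∀ lab j, 0 ≤ m lab j := fun lab j => by positivity
  have hp : ∀ lab : Fin n → Fin k, 0 ≤ ∏ i, w (lab i) := fun lab => prod_nonneg fun i _ => hw _
  have hmark : ∀ lab ∈ (univ : Finset (Fin n → Fin k)).filter (fun lab => ∃ j, τ < |freq lab j - w j|),
      ∏ i, w (lab i) ≤ ∑ j, (∏ i, w (lab i)) * m lab j := by
    intro lab hlab
    obtain ⟨j, hj⟩ := (mem_filter.1 hlab).2
    rw [← mul_sum]
    refine le_mul_of_one_le_right (hp lab) (le_trans ?_ (single_le_sum (fun j _ => hm lab j) (mem_univ j)))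
    have hd : τ * n < |d lab j| := by
      have e : d lab j = (freq lab j - w j) * n := by simp only [d, freq_eq_cnt]; field_simp
      rw [e, abs_mul, abs_of_pos hn']
      exact mul_lt_mul_of_pos_right hj hn'
    have hs0 : 0 < s := by positivity
    simp only [m, mul_add, ← exp_add]
    rcases lt_abs.1 hd with h | h
    · refine le_add_of_le_of_nonneg (one_le_exp ?_) (exp_pos _).le
      linarith [mul_le_mul_of_nonneg_left h.le hs0.le]
    · refine le_add_of_nonneg_of_le (exp_pos _).le (one_le_exp ?_)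
      linarith [mul_le_mul_of_nonneg_left h.le hs0.le]
  refine (sum_le_sum hmark).trans ((sum_le_sum_of_subset_of_nonneg (filter_subset _ _)
    fun lab _ _ => sum_nonneg fun j _ => mul_nonneg (hp lab) (hm lab j)).trans ?_)
  rw [sum_comm]
  refine (sum_le_sum fun j _ => ?_).trans_eq (show ∑ _j : Fin k, 2 * exp (-(τ ^ 2 / 4) * n) = _ by
    rw [sum_const, card_univ, Fintype.card_fin, nsmul_eq_mul]; ring)
  have e : ∀ lab : Fin n → Fin k, (∏ i, w (lab i)) * m lab j = exp (-(s * τ * n)) *
      ((∏ i, w (lab i)) * exp (s * d lab j) + (∏ i, w (lab i)) * exp (-s * d lab j)) := fun lab => by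
    simp only [m]; ring
  rw [sum_congr rfl fun lab _ => e lab, ← mul_sum, sum_add_distrib]
  refine (mul_le_mul_of_nonneg_left (add_le_add (lab_mgf hw hw1 j hs)
    (lab_mgf hw hw1 j (by rwa [abs_neg]))) (exp_pos _).le).trans_eq ?_
  rw [neg_sq, ← two_mul, mul_left_comm, ← exp_add]
  simp only [s]
  ring_nf

end Vale.Agent.P166.Gen
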