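import Vale.Agent.P166.Gen.LowBase

/-! P166 G4: rows given the base, and the move of one eigenvalue. -/

open MeasureTheory ProbabilityTheory Finset Real
open Vale.Agent.P150 (gauss)
open Vale.Agent.P157.Par (Prof adev devOf dist1 qlev ovK)
open Vale.Agent.P168.MP (lin pw spinAt Batch logZ0 nest Mark nestC)

noncomputable section

namespace Vale.Agent.P166.Gen

variable {k n S R : ℕ} {θ : Fin k → ℝ} {lab : Fin n → Fin k}

lemma sqrt_sum_sq_zero {α : Type*} (s : Finset α) (g c : α → ℝ) :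
    ((∑ i ∈ s, g i * c i) / √(∑ i ∈ s, g i ^ 2)) ^ 2 ≤ ∑ i ∈ s, c i ^ 2 := by
  rw [div_pow, sq_sqrt (sum_nonneg fun i _ => sq_nonneg _)]
  refine div_le_of_le_mul₀ (sum_nonneg fun i _ => sq_nonneg _) (sum_nonneg fun i _ => sq_nonneg _) ?_
  rw [mul_comm]
  exact sum_mul_sq_le_sq_mul_sq s g c

lemma xF_sq_leU {U : Mat n} (hU : Matrix.of U ∈ Matrix.orthogonalGroup (Fin n) ℝ) (g : Fin n → ℝ) (j : Fin k)
    (σ : Fin n → Bool) : xF lab U g j σ ^ 2 ≤ n :=
  (sqrt_sum_sq_zero _ _ _).trans (sum_cdU_sq hU σ ▸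
    sum_le_sum_of_subset_of_nonneg (filter_subset _ _) fun _ _ _ => sq_nonneg _)

lemma measurable_xFU (j : Fin k) (σ : Fin n → Bool) :
    Measurable fun q : Mat n × (Fin n → ℝ) => xF lab q.1 q.2 j σ := by
  unfold xF cd; fun_prop

/-- `StmtFrame` for a bounded functional -/
theorem frame_int (hFr : StmtFrame) {e : Fin k → Fin n} (he : ∀ j, lab (e j) = j) {ν : Measure (Mat n)}
    (hν : IsHaarOrthogonal ν) {F : ((Fin n → Bool) → ℝ) → (Fin k → (Fin n → Bool) → ℝ) → ℝ}
    (hF : ContinuousOn (fun p : ((Fin n → Bool) → ℝ) × (Fin k → (Fin n → Bool) → ℝ) => F p.1 p.2)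
      {p | ∀ σ, 0 < p.1 σ}) {C : ℝ}
    (hb : ∀ U : Mat n, Matrix.of U ∈ Matrix.orthogonalGroup (Fin n) ℝ →
      ∀ X : Fin k → (Fin n → Bool) → ℝ, (∀ j σ, X j σ ^ 2 ≤ (n:ℝ)) → |F (wJ θ lab U) X| ≤ C) :
    Integrable (fun U => ∫ g, F (wJ θ lab U) (xF lab U g) ∂gauss (Fin n)) ν ∧
      ∫ U, F (wJ θ lab U) (fun j σ => cd U σ (e j)) ∂ν = ∫ U, ∫ g, F (wJ θ lab U) (xF lab U g) ∂gauss (Fin n) ∂ν ∧
      ∀ U : Mat n, Matrix.of U ∈ Matrix.orthogonalGroup (Fin n) ℝ →
        Integrable (fun g => F (wJ θ lab U) (xF lab U g)) (gauss (Fin n)) := by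
  have := hν.1
  set m : Mat n × (Fin n → ℝ) →
      {p : ((Fin n → Bool) → ℝ) × (Fin k → (Fin n → Bool) → ℝ) // ∀ σ, 0 < p.1 σ} :=
    fun q => ⟨(wJ θ lab q.1, xF lab q.1 q.2), fun σ => wJ_pos θ lab q.1 σ⟩
  have hm : Measurable m := by
    refine Measurable.subtype_mk (Measurable.prodMk ?_ ?_)
    · exact measurable_pi_lambda _ fun σ => (continuous_wJU θ lab σ).measurable.comp measurable_fst
    · exact measurable_pi_lambda _ fun j => measurable_pi_lambda _ fun σ => measurable_xFU j σ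
  have hj : Measurable fun q : Mat n × (Fin n → ℝ) => F (wJ θ lab q.1) (xF lab q.1 q.2) :=
    (continuousOn_iff_continuous_domRestrict.1 hF).measurable.comp hm
  refine ⟨Integrable.of_bound (hj.stronglyMeasurable.integral_prod_right').aestronglyMeasurable C
    (hν.2.1.mono fun U hU => ?_), hFr k n θ lab e he ν hν F hF, fun U hU => ?_⟩
  · refine (norm_integral_le_of_norm_le_const (μ := gauss (Fin n)) (C := C) (Filter.Eventually.of_forall fun g =>
      hb U hU _ fun j σ => xF_sq_leU hU g j σ)).trans_eq (by simp)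
  · exact Integrable.of_bound (hj.comp measurable_prodMk_left).aestronglyMeasurable C
      (Filter.Eventually.of_forall fun g => hb U hU _ fun j σ => xF_sq_leU hU g j σ)

variable {ι : Type} [Fintype ι] [DecidableEq ι] {β : ι → Batch} {h u : ι → ℝ} [NeZero n]

omit [DecidableEq ι] in
lemma continuous_pw {X : Type*} [TopologicalSpace X] {W : X → (Fin n → Bool) → ℝ}
    (hW : ∀ σ, Continuous fun x => W x σ) (p : List (Mark n S β)) :
    Continuous fun x => pw R (W x) h u p :=
  (hW _).mul continuous_const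

/-- the factor of a moved row -/
def movY (s : ℝ) (x : (Fin n → Bool) → ℝ) (σ : Fin n → Bool) : ℝ := exp (-(s * x σ ^ 2 / 2))

omit [NeZero n] in
lemma movY_pos (s : ℝ) (x : (Fin n → Bool) → ℝ) (σ : Fin n → Bool) : 0 < movY s x σ := exp_pos _

omit [NeZero n] in
lemma wJ_update_eq (θ : Fin k → ℝ) (lab : Fin n → Fin k) (e : Fin n) (p : Fin k) (U : Mat n) :
    wJ θ (Function.update lab e p) U =
      fun σ => wJ θ lab U σ * movY (θ (lab e) - θ p) (fun σ => cd U σ e) σ :=
  funext fun σ => wJ_update θ lab e p U σ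

/-- the nested logarithm of the moved factor, as a functional of the weight and the rows -/
def movN (R S : ℕ) (β : ι → Batch) (h u : ι → ℝ) (s : ℝ) (i : Fin k) (W : (Fin n → Bool) → ℝ)
    (X : Fin k → (Fin n → Bool) → ℝ) : ℝ :=
  nestC (S := S) (β := β) R W h u (movY s (X i))

/-- the shift of the overlaps, as a functional of the weight and the rows -/
def movQ (R S : ℕ) (β : ι → Batch) (h u : ι → ℝ) (s : ℝ) (i : Fin k) (l : ℕ) (W : (Fin n → Bool) → ℝ)
    (X : Fin k → (Fin n → Bool) → ℝ) : ℝ :=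
  |qlev R (fun q : List (Mark n S β) => pw R W h u q * movY s (X i) (spinAt R q)) (spinAt R) l -
    qlev R (pw (S := S) (β := β) R W h u) (spinAt R) l|

lemma continuousOn_movN (s : ℝ) (i : Fin k) :
    ContinuousOn (fun p : ((Fin n → Bool) → ℝ) × (Fin k → (Fin n → Bool) → ℝ) =>
      movN R S β h u s i p.1 p.2) {p | ∀ σ, 0 < p.1 σ} := by
  rw [continuousOn_iff_continuous_domRestrict]
  refine (P157.Par.continuous_nest (fun q => ?_) (fun x q => ?_) (fun q => ?_) (fun x q => ?_) R []).log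
    fun x => (Vale.Agent.P168.MP.nest_pos (fun q => ?_) (fun q => ?_) R []).ne'
  · exact continuous_pw (fun σ => by fun_prop) q
  · exact mul_pos (x.2 _) (exp_pos _)
  · unfold movY; fun_prop
  · exact movY_pos s _ _
  · exact mul_pos (x.2 _) (exp_pos _)
  · exact movY_pos s _ _

lemma continuousOn_movQ (s : ℝ) (i : Fin k) (l : ℕ) :
    ContinuousOn (fun p : ((Fin n → Bool) → ℝ) × (Fin k → (Fin n → Bool) → ℝ) =>
      movQ R S β h u s i l p.1 p.2) {p | ∀ σ, 0 < p.1 σ} := by
  rw [continuousOn_iff_continuous_domRestrict]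
  set X := {x : ((Fin n → Bool) → ℝ) × (Fin k → (Fin n → Bool) → ℝ) // ∀ σ, 0 < x.1 σ}
  have c0 : ∀ q : List (Mark n S β), Continuous fun x : X => pw R x.1.1 h u q :=
    fun q => continuous_pw (fun σ => by fun_prop) q
  have p0 : ∀ (x : X) (q : List (Mark n S β)), 0 < pw R x.1.1 h u q := fun x q => mul_pos (x.2 _) (exp_pos _)
  have c1 : ∀ q : List (Mark n S β), Continuous fun x : X => pw R x.1.1 h u q * movY s (x.1.2 i) (spinAt R q) :=
    fun q => (c0 q).mul (by unfold movY; fun_prop)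
  have H : ∀ ps : List (List (Mark n S β)),
      Continuous fun _ : X => ovK (spinAt R) (ps.getD 0 []) (ps.getD 1 []) := fun _ => continuous_const
  exact ((P157.Par.continuous_ET (m := lin R) c1 (fun x q => mul_pos (p0 x q) (movY_pos s _ _)) R
    [(0, l), (0, 0)] H).sub (P157.Par.continuous_ET (m := lin R) c0 p0 R [(0, l), (0, 0)] H)).abs

section bound
variable {ν : Measure (Mat n)} {e : Fin k → Fin n} {i p : Fin k} {b : Mat n → ℝ}

lemma pertU_update (he : ∀ j, lab (e j) = j) (U : Mat n) :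
    pertU θ (Function.update lab (e i) p) R S β h u U = pertU θ lab R S β h u U +
      movN R S β h u (θ i - θ p) i (wJ θ lab U) (fun j σ => cd U σ (e j)) := by
  rw [pertU, wJ_update_eq, he]
  exact Vale.Agent.P168.MP.logZ0_pw_mul (wJ_pos θ lab U) (movY_pos _ _)

lemma qU_update (he : ∀ j, lab (e j) = j) (U : Mat n) (l : ℕ) :
    |qU θ (Function.update lab (e i) p) U R S β h u l - qU θ lab U R S β h u l| =
      movQ R S β h u (θ i - θ p) i l (wJ θ lab U) (fun j σ => cd U σ (e j)) := by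
  rw [movQ, qU, qU, wJ_update_eq, he]
  congr 2
  refine congrArg (fun w => qlev R w (spinAt R) l) (funext fun q => ?_)
  simp only [pw]
  ring

/-- the first order bound of a move, integrated -/
lemma move_value (hR : 1 ≤ R) (hFr : StmtFrame) (he : ∀ j, lab (e j) = j) (hν : IsHaarOrthogonal ν)
    (h0 : 0 ≤ θ i - θ p) (hb : Continuous b)
    (hs : ∀ U : Mat n, Matrix.of U ∈ Matrix.orthogonalGroup (Fin n) ℝ →
      ∫ g, movN R S β h u (θ i - θ p) i (wJ θ lab U) (xF lab U g) ∂gauss (Fin n) ≤ b U) :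
    ∫ U, pertU θ (Function.update lab (e i) p) R S β h u U ∂ν - ∫ U, pertU θ lab R S β h u U ∂ν ≤
      ∫ U, b U ∂ν := by
  have := hν.1
  obtain ⟨hi, heq, -⟩ := frame_int (θ := θ) hFr he hν (F := movN R S β h u (θ i - θ p) i)
    (continuousOn_movN _ _) (C := (θ i - θ p) * n / 2) fun U hU X hX =>
      Vale.Agent.P168.MP.abs_nestC_le hR (wJ_pos θ lab U) (movY_pos _ _) fun σ => by
        rw [movY, log_exp, abs_neg, abs_of_nonneg (by positivity)]
        exact div_le_div_of_nonneg_right (mul_le_mul_of_nonneg_left (hX i σ) h0) zero_le_two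
  rw [← integral_sub (integrable_haar hν (continuous_pertU θ _)) (integrable_haar hν (continuous_pertU θ lab))]
  simp only [pertU_update he, add_sub_cancel_left]
  exact heq.trans_le (integral_mono_ae hi (integrable_haar hν hb) (hν.2.1.mono hs))

/-- the shift of the overlaps by a move, integrated -/
lemma move_shift {l : ℕ} (hl : l ≤ R) (hFr : StmtFrame) (he : ∀ j, lab (e j) = j) (hν : IsHaarOrthogonal ν)
    (hb : Continuous b)
    (hs : ∀ U : Mat n, Matrix.of U ∈ Matrix.orthogonalGroup (Fin n) ℝ →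
      ∫ g, movQ R S β h u (θ i - θ p) i l (wJ θ lab U) (xF lab U g) ∂gauss (Fin n) ≤ b U) :
    ∫ U, |qU θ (Function.update lab (e i) p) U R S β h u l - qU θ lab U R S β h u l| ∂ν ≤ ∫ U, b U ∂ν := by
  have := hν.1
  have hp : ∀ {w : List (Mark n S β) → ℝ}, (∀ q, 0 < w q) →
      0 ≤ qlev R w (spinAt R) l ∧ qlev R w (spinAt R) l ≤ 1 := fun hw =>
    (P157.Par.qlev_prof hw).1.upper hl
  obtain ⟨hi, heq, -⟩ := frame_int (θ := θ) hFr he hν (F := movQ R S β h u (θ i - θ p) i l)
    (continuousOn_movQ _ _ _) (C := 1) fun U hU X _ => by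
      have a := hp fun q => mul_pos (pw_wJ_pos (R := R) (h := h) (u := u) θ lab U q) (movY_pos (θ i - θ p) (X i) (spinAt R q))
      have b := hp (pw_wJ_pos (R := R) (h := h) (u := u) θ lab U)
      rw [movQ, abs_abs, abs_le]
      constructor <;> linarith [a.1, a.2, b.1, b.2]
  simp only [qU_update he]
  exact heq.trans_le (integral_mono_ae hi (integrable_haar hν hb) (hν.2.1.mono hs))

end bound

omit [NeZero n] [Fintype ι] [DecidableEq ι] in
lemma continuous_cvR (lab : Fin n → Fin k) (j : Fin k) {Ω : Type} [Fintype Ω] (rd : List Ω → Fin n → Bool)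
    (q q' : List Ω) : Continuous fun U => cvR lab U rd j q q' := by
  unfold cvR pov cd; fun_prop

/-- the effect of moving one row from atom `i` down to atom `p` -/
theorem move_bound (hFr : StmtFrame) (hSt : StmtStep) : ∃ K₀ : ℝ, 0 ≤ K₀ ∧ ∀ (k : ℕ) (A : ℝ), ∃ Kb : ℝ, 0 ≤ Kb ∧
    ∀ {ι : Type} [Fintype ι] [DecidableEq ι] (β : ι → Batch) {R S n : ℕ} [NeZero n], 1 ≤ R →
    ∀ (h u : ι → ℝ) (θ : Fin k → ℝ) (lab : Fin n → Fin k) (e : Fin k → Fin n), (∀ j, lab (e j) = j) →
    ∀ (ν : Measure (Mat n)), IsHaarOrthogonal ν → ∀ (i p : Fin k) (uf : (ℕ → ℝ) → ℕ → ℝ),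
      1 ≤ A * freq lab i → 0 ≤ θ i - θ p → θ i - θ p ≤ 1 →
      (∀ q, Prof R q 1 → q R = 1 → Prof R (uf q) A) →
      (∀ l, Continuous fun U : Mat n => uf (qU θ lab U R S β h u) l) →
      let u1 := fun U => uf (qU θ lab U R S β h u)
      let dev := fun U => adev R (pw (S := S) (β := β) R (wJ θ lab U) h u) (cvR lab U (spinAt R) i) (u1 U) +
        1 / √(n:ℝ)
      ∫ U, pertU θ (Function.update lab (e i) p) R S β h u U ∂ν - ∫ U, pertU θ lab R S β h u U ∂ν ≤
          ∫ U, (-((θ i - θ p) * u1 U R / 2) + K₀ * (θ i - θ p) ^ 2 * u1 U R ^ 2 + Kb * dev U) ∂ν ∧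
      ∫ U, dist1 R (qU θ (Function.update lab (e i) p) U R S β h u) (qU θ lab U R S β h u) ∂ν ≤
          ∫ U, (2 * (K₀ * (θ i - θ p) ^ 2 * u1 U R ^ 2) + Kb * (2 * dev U + devU θ lab U R S β h u)) ∂ν := by
  obtain ⟨K₀, hK₀, hK⟩ := hSt
  refine ⟨K₀, hK₀, fun k A => ?_⟩
  obtain ⟨Kb, hKb, hS⟩ := hK k A
  refine ⟨Kb, hKb, ?_⟩
  intro ι _ _ β R S n _ hR h u θ lab e he ν hν i p uf hA h0 h1 huf hc u1 dev
  have := hν.1
  set s := θ i - θ p
  have hdev : Continuous dev :=
    (continuous_adev (continuous_cvR lab i (spinAt R)) hc θ lab).add continuous_const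
  have hstep := fun (U : Mat n) (hU : Matrix.of U ∈ Matrix.orthogonalGroup (Fin n) ℝ) =>
    hS hR lab U hU (pw (S := S) (β := β) R (wJ θ lab U) h u) (pw_wJ_pos θ lab U) (spinAt R) i s
      (u1 U) hA h0 h1 (huf _ (qU_prof θ lab U).1 (qU_prof θ lab U).2)
  have hsq : Continuous fun U => K₀ * s ^ 2 * u1 U R ^ 2 := ((hc R).pow 2).const_mul _
  refine ⟨move_value hR hFr he hν h0 (((((hc R).const_mul s).div_const 2).neg.add hsq).add (hdev.const_mul Kb))
    fun U hU => (hstep U hU).1, ?_⟩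
  set dq : ℕ → Mat n → ℝ := fun l U =>
    |qU θ (Function.update lab (e i) p) U R S β h u l - qU θ lab U R S β h u l|
  set dl : ℕ → Mat n → ℝ := fun l U =>
    devOf R (pw (S := S) (β := β) R (wJ θ lab U) h u) (ovK (spinAt R)) (qU θ lab U R S β h u) l
  set b : ℕ → Mat n → ℝ := fun l U => K₀ * s ^ 2 * u1 U R ^ 2 + Kb * (dev U + dl l U)
  have hbc : ∀ l, Continuous (b l) := fun l => hsq.add ((hdev.add (P157.Par.continuous_ET
    (continuous_pw_wJ θ lab) (pw_wJ_pos θ lab) R _ fun _ =>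
      (continuous_const.sub (continuous_qU θ lab l)).abs)).const_mul Kb)
  have hb : ∀ l ≤ R, ∫ U, dq l U ∂ν ≤ ∫ U, b l U ∂ν := fun l hl =>
    move_shift hl hFr he hν (hbc l) fun U hU => (hstep U hU).2 l hl
  have hdi : ∀ l, Integrable (dq l) ν := fun l =>
    integrable_haar hν ((continuous_qU θ _ l).sub (continuous_qU θ lab l)).abs
  have hbi : ∀ l, Integrable (b l) ν := fun l => integrable_haar hν (hbc l)
  have hb' : ∀ U, (∑ l ∈ range R, b l U) / R + b R U ≤
      2 * (K₀ * s ^ 2 * u1 U R ^ 2) + Kb * (2 * dev U + devU θ lab U R S β h u) := fun U => by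
    have hR' : (R:ℝ) ≠ 0 := Nat.cast_ne_zero.2 (by omega)
    have hm : 0 ≤ madJ R lab U (pw (S := S) (β := β) R (wJ θ lab U) h u) (spinAt R) :=
      sum_nonneg fun j _ => Vale.Agent.P168.MP.ET_nonneg (pw_wJ_pos θ lab U) fun _ => abs_nonneg _
    have hm' := mul_nonneg hKb hm
    have e1 : (∑ l ∈ range R, b l U) / R =
        K₀ * s ^ 2 * u1 U R ^ 2 + Kb * (dev U + (∑ l ∈ range R, dl l U) / R) := by
      simp only [b, sum_add_distrib, ← mul_sum, sum_const, card_range, nsmul_eq_mul]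
      field_simp
    rw [e1]
    simp only [b, dl, devU, adev] at hm' ⊢
    linarith
  calc ∫ U, dist1 R (qU θ (Function.update lab (e i) p) U R S β h u) (qU θ lab U R S β h u) ∂ν
      = (∑ l ∈ range R, ∫ U, dq l U ∂ν) / R + ∫ U, dq R U ∂ν := by
        rw [← integral_finsetSum _ fun l _ => hdi l, ← integral_div,
          ← integral_add ((integrable_finsetSum _ fun l _ => hdi l).div_const _) (hdi R)]
        rfl
    _ ≤ (∑ l ∈ range R, ∫ U, b l U ∂ν) / R + ∫ U, b R U ∂ν := add_le_add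
        (div_le_div_of_nonneg_right (sum_le_sum fun l hl => hb l (mem_range.1 hl).le) (Nat.cast_nonneg R))
        (hb R le_rfl)
    _ = ∫ U, ((∑ l ∈ range R, b l U) / R + b R U) ∂ν := by
        rw [← integral_finsetSum _ fun l _ => hbi l, ← integral_div,
          ← integral_add ((integrable_finsetSum _ fun l _ => hbi l).div_const _) (hbi R)]
    _ ≤ _ := integral_mono (((integrable_finsetSum _ fun l _ => hbi l).div_const _).add (hbi R))
        (integrable_haar hν ((hsq.const_mul 2).add (((hdev.const_mul 2).add (continuous_devU θ lab)).const_mul Kb)))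
        hb'

end Vale.Agent.P166.Gen
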