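import Vale.Agent.P166.Gen.LowDefs
import Vale.Agent.P166.Gen.CornerRoot

/-!
# P166 G4: identities of the bordered frame, and continuity of the corner

The frame of `CornerRoot` is complete; tested on resolvents and on single atoms it gives the identities
between the roots, the couplings and the transform above the atoms.
-/

open Finset Real Filter
open scoped Topology

noncomputable section

namespace Vale.Agent.P166.Gen

variable {k : ℕ} {r θ : Fin k → ℝ}

section frame

variable (hθ : StrictMono θ) (hr : ∀ i, 0 < r i) (h1 : ∑ l, r l = 1)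
include hθ hr h1

/-- Parseval in the bordered frame -/
lemma frame_parseval (v : Fin k → ℝ) :
    ∑ l, v l ^ 2 = (∑ l, √(r l) * v l) ^ 2 +
      ∑ j ∈ upAtoms k, (∑ l, √(r l) * v l * (cpl r θ j / (θ l - root r θ j))) ^ 2 := by
  rcases Nat.eq_zero_or_pos k with rfl | hk
  · simp
  set o : Fin k := ⟨0, hk⟩
  let S : (Fin k → ℝ) →ₗ[ℝ] Fin k → ℝ :=
    { toFun := fun z => sFr r θ o z
      map_add' := fun a b => funext fun l => by
        simp only [sFr, Pi.add_apply, add_mul, Finset.sum_add_distrib]; ring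
      map_smul' := fun c a => funext fun l => by
        simp only [sFr, Pi.smul_apply, smul_eq_mul, RingHom.id_apply, mul_assoc, ← Finset.mul_sum]; ring }
  have hn : ∀ z, ∑ l, S z l ^ 2 = z o ^ 2 + ∑ j ∈ upAtoms k, z j ^ 2 := fun z => sFr_norm hθ hr h1 o z
  have hinj : Function.Injective S := by
    rw [injective_iff_map_eq_zero]
    intro z hz
    have h := hn z
    simp only [hz, Pi.zero_apply, ne_eq, OfNat.ofNat_ne_zero, not_false_eq_true, zero_pow,
      Finset.sum_const_zero] at h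
    have h' := (add_eq_zero_iff_of_nonneg (sq_nonneg (z o)) (sum_nonneg fun j _ => sq_nonneg (z j))).1 h.symm
    funext j
    rcases Nat.eq_zero_or_pos (j : ℕ) with e | e
    · rw [show j = o from Fin.ext e]
      exact pow_eq_zero_iff two_ne_zero |>.1 h'.1
    · exact pow_eq_zero_iff two_ne_zero |>.1
        ((sum_eq_zero_iff_of_nonneg fun j _ => sq_nonneg (z j)).1 h'.2 j (by simp [e]))
  obtain ⟨z, rfl⟩ := LinearMap.surjective_of_injective hinj v
  have sq : ∀ l, √(r l) * √(r l) = r l := fun l => mul_self_sqrt (hr l).le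
  have e0 : ∑ l, √(r l) * S z l = z o := by
    have e : ∀ l, √(r l) * S z l = z o * r l +
        ∑ j ∈ upAtoms k, z j * cpl r θ j * (r l / (θ l - root r θ j)) := fun l => by
      show √(r l) * sFr r θ o z l = _
      rw [sFr, ← mul_assoc, sq, mul_add, Finset.mul_sum]
      congr 1
      · ring
      · exact sum_congr rfl fun j _ => by ring
    rw [sum_congr rfl fun l _ => e l, sum_add_distrib, ← mul_sum, h1, mul_one, sum_comm,
      sum_eq_zero fun j hj => by rw [← mul_sum, sum_one hθ hr (mem_filter.1 hj).2, mul_zero], add_zero]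
  have ej : ∀ i ∈ upAtoms k, ∑ l, √(r l) * S z l * (cpl r θ i / (θ l - root r θ i)) = z i := by
    intro i hi
    have hi' := (mem_filter.1 hi).2
    have e : ∀ l, √(r l) * S z l * (cpl r θ i / (θ l - root r θ i)) =
        z o * cpl r θ i * (r l / (θ l - root r θ i)) + ∑ j ∈ upAtoms k,
          z j * cpl r θ j * cpl r θ i * (r l / ((θ l - root r θ j) * (θ l - root r θ i))) := fun l => by
      show √(r l) * sFr r θ o z l * _ = _
      rw [sFr, ← mul_assoc, sq, mul_add, Finset.mul_sum, add_mul, Finset.sum_mul]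
      congr 1
      · ring
      · exact sum_congr rfl fun j _ => by rw [← div_div]; ring
    rw [sum_congr rfl fun l _ => e l, sum_add_distrib, ← mul_sum, sum_one hθ hr hi', mul_zero, zero_add,
      sum_comm, sum_congr rfl fun j hj => by rw [← mul_sum, sum_two hθ hr (mem_filter.1 hj).2 hi'],
      sum_eq_single i (fun j _ hne => by simp [hne]) (fun h => absurd hi h), if_pos rfl,
      mul_assoc (z i), mul_assoc (z i), cpl_sq hθ hr hi', mul_one]
  rw [hn, e0, sum_congr rfl fun j hj => by rw [← ej j hj]]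

/-- the frame at one atom -/
lemma frame_atom (l : Fin k) :
    r l + ∑ j ∈ upAtoms k, cpl r θ j ^ 2 * (r l / (θ l - root r θ j) ^ 2) = 1 := by
  have h := frame_parseval hθ hr h1 (Pi.single l 1)
  have a : ∑ i, (Pi.single l (1:ℝ) : Fin k → ℝ) i ^ 2 = 1 := by
    rw [sum_eq_single l (fun i _ hi => by simp [hi]) (by simp), Pi.single_eq_same, one_pow]
  have b : ∀ f : Fin k → ℝ, ∑ i, √(r i) * (Pi.single l (1:ℝ) : Fin k → ℝ) i * f i = √(r l) * f l := fun f => by
    rw [sum_eq_single l (fun i _ hi => by simp [hi]) (by simp), Pi.single_eq_same, mul_one]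
  have b0 := b fun _ => 1
  simp only [mul_one] at b0
  rw [a, b0, sq_sqrt (hr l).le, sum_congr rfl fun j _ => by rw [b]] at h
  rw [eq_comm, h]
  refine congrArg (r l + ·) (sum_congr rfl fun j _ => ?_)
  rw [mul_pow, sq_sqrt (hr l).le, div_pow]
  ring

/-- the couplings carry the variance of the atoms -/
lemma sum_cpl_sq : ∑ j ∈ upAtoms k, cpl r θ j ^ 2 = (∑ l, r l * θ l ^ 2) - (∑ l, r l * θ l) ^ 2 := by
  have h := frame_parseval hθ hr h1 fun l => √(r l) * θ l
  have a : ∀ l, (√(r l) * θ l) ^ 2 = r l * θ l ^ 2 := fun l => by rw [mul_pow, sq_sqrt (hr l).le]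
  have b : ∀ l, √(r l) * (√(r l) * θ l) = r l * θ l := fun l => by
    rw [← mul_assoc, mul_self_sqrt (hr l).le]
  simp only [a, b] at h
  rw [h, add_sub_cancel_left]
  refine sum_congr rfl fun j hj => ?_
  have hj' := (mem_filter.1 hj).2
  have e : ∀ l, r l * θ l * (cpl r θ j / (θ l - root r θ j)) =
      cpl r θ j * r l + cpl r θ j * root r θ j * (r l / (θ l - root r θ j)) := fun l => by
    have := root_ne_atom hθ hr hj' l
    field_simp
    ring
  rw [sum_congr rfl fun l _ => e l, sum_add_distrib, ← mul_sum, ← mul_sum, h1, sum_one hθ hr hj', mul_zero,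
    add_zero, mul_one]

/-- the derivative of `z - γ - 1/G` above the atoms -/
lemma sum_cpl_div {z : ℝ} (hz : ∀ l, θ l < z) :
    gat2 r θ z = gat r θ z ^ 2 * (1 + ∑ j ∈ upAtoms k, cpl r θ j ^ 2 / (z - root r θ j) ^ 2) := by
  have h := frame_parseval hθ hr h1 fun l => √(r l) / (z - θ l)
  have a : ∀ l, (√(r l) / (z - θ l)) ^ 2 = r l / (z - θ l) ^ 2 := fun l => by rw [div_pow, sq_sqrt (hr l).le]
  have b : ∀ l, √(r l) * (√(r l) / (z - θ l)) = r l / (z - θ l) := fun l => by
    rw [← mul_div_assoc, mul_self_sqrt (hr l).le]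
  simp only [a, b] at h
  rw [show gat2 r θ z = ∑ l, r l / (z - θ l) ^ 2 from rfl, h, gat, mul_add, mul_one, Finset.mul_sum]
  refine congrArg (_ + ·) (sum_congr rfl fun j hj => ?_)
  have hj' := (mem_filter.1 hj).2
  have hzb : z - root r θ j ≠ 0 := (sub_pos.2 (((root_spec hθ hr hj').2.1).trans (hz j))).ne'
  have e : ∀ l, r l / (z - θ l) * (cpl r θ j / (θ l - root r θ j)) =
      cpl r θ j / (z - root r θ j) * (r l / (θ l - root r θ j)) +
        cpl r θ j / (z - root r θ j) * (r l / (z - θ l)) := fun l => by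
    have := root_ne_atom hθ hr hj' l
    have := (sub_pos.2 (hz l)).ne'
    field_simp
    ring
  rw [sum_congr rfl fun l _ => e l, sum_add_distrib, ← mul_sum, ← mul_sum, sum_one hθ hr hj', mul_zero, zero_add,
    ← div_pow]
  ring

/-- the trace of the resolvent -/
lemma sum_inv_sub {z : ℝ} (hz : ∀ l, θ l < z) :
    ∑ l, 1 / (z - θ l) = (∑ j ∈ upAtoms k, 1 / (z - root r θ j)) + gat2 r θ z / gat r θ z := by
  have hG : 0 < gat r θ z := by
    rcases Nat.eq_zero_or_pos k with rfl | hk
    · simp at h1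
    · exact sum_pos (fun l _ => div_pos (hr l) (sub_pos.2 (hz l))) ⟨⟨0, hk⟩, mem_univ _⟩
  have hsum : ∑ l, 1 / (z - θ l) =
      ∑ l, (r l + ∑ j ∈ upAtoms k, cpl r θ j ^ 2 * (r l / (θ l - root r θ j) ^ 2)) / (z - θ l) :=
    sum_congr rfl fun l _ => by rw [frame_atom hθ hr h1]
  simp only [add_div, sum_add_distrib, Finset.sum_div] at hsum
  rw [Finset.sum_comm (s := univ) (t := upAtoms k)] at hsum
  have key : ∀ j ∈ upAtoms k, ∑ l, cpl r θ j ^ 2 * (r l / (θ l - root r θ j) ^ 2) / (z - θ l) =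
      1 / (z - root r θ j) + gat r θ z * (cpl r θ j ^ 2 / (z - root r θ j) ^ 2) := by
    intro j hj
    have hj' := (mem_filter.1 hj).2
    set b := root r θ j
    have hzb : z - b ≠ 0 := (sub_pos.2 (((root_spec hθ hr hj').2.1).trans (hz j))).ne'
    have e : ∀ l, cpl r θ j ^ 2 * (r l / (θ l - b) ^ 2) / (z - θ l) =
        cpl r θ j ^ 2 / (z - b) * (r l / ((θ l - b) * (θ l - b))) +
        cpl r θ j ^ 2 / (z - b) ^ 2 * (r l / (θ l - b)) +
        cpl r θ j ^ 2 / (z - b) ^ 2 * (r l / (z - θ l)) := fun l => by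
      have : θ l - b ≠ 0 := root_ne_atom hθ hr hj' l
      have := (sub_pos.2 (hz l)).ne'
      field_simp
      ring
    rw [sum_congr rfl fun l _ => e l, sum_add_distrib, sum_add_distrib, ← mul_sum, ← mul_sum, ← mul_sum,
      sum_one hθ hr hj', sum_two hθ hr hj' hj', if_pos rfl, mul_zero, add_zero, div_mul_eq_mul_div,
      sq (cpl r θ j), cpl_sq hθ hr hj', gat]
    ring
  rw [hsum, sum_congr rfl key, sum_add_distrib, ← mul_sum, sum_cpl_div hθ hr h1 hz, ← gat]
  field_simp
  ring

/-- the trace -/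
lemma sum_root : ∑ j ∈ upAtoms k, root r θ j = (∑ l, θ l) - ∑ l, r l * θ l := by
  have hsum : ∑ l, θ l =
      ∑ l, θ l * (r l + ∑ j ∈ upAtoms k, cpl r θ j ^ 2 * (r l / (θ l - root r θ j) ^ 2)) :=
    sum_congr rfl fun l _ => by rw [frame_atom hθ hr h1, mul_one]
  simp only [mul_add, sum_add_distrib, Finset.mul_sum] at hsum
  rw [Finset.sum_comm (s := univ) (t := upAtoms k)] at hsum
  rw [hsum, show ∑ l, θ l * r l = ∑ l, r l * θ l from sum_congr rfl fun l _ => mul_comm _ _,
    add_sub_cancel_left]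
  refine sum_congr rfl fun j hj => ?_
  have hj' := (mem_filter.1 hj).2
  set b := root r θ j
  have e : ∀ l, θ l * (cpl r θ j ^ 2 * (r l / (θ l - b) ^ 2)) =
      cpl r θ j ^ 2 * (r l / (θ l - b)) + b * cpl r θ j ^ 2 * (r l / ((θ l - b) * (θ l - b))) := fun l => by
    have : θ l - b ≠ 0 := root_ne_atom hθ hr hj' l
    field_simp
    ring
  rw [sum_congr rfl fun l _ => e l, sum_add_distrib, ← mul_sum, ← mul_sum, sum_one hθ hr hj',
    sum_two hθ hr hj' hj', if_pos rfl, mul_zero, zero_add, mul_assoc, sq, cpl_sq hθ hr hj', mul_one]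

end frame

/-- positive shares and increasing atoms -/
private def adm (k : ℕ) : Set ((Fin k → ℝ) × (Fin k → ℝ)) := {p | (∀ i, 0 < p.1 i) ∧ StrictMono p.2}

/-- the roots are continuous -/
lemma root_tendsto {w θ : Fin k → ℝ} (hθ : StrictMono θ) (hw : ∀ i, 0 < w i) {j : Fin k} (hj : 0 < (j : ℕ)) :
    Tendsto (fun p : (Fin k → ℝ) × (Fin k → ℝ) => root p.1 p.2 j) (𝓝[adm k] (w, θ)) (𝓝 (root w θ j)) := by
  obtain ⟨hlo, hhi, hzero⟩ := root_spec hθ hw hj
  set b := root w θ j
  have hev : ∀ x : ℝ, (∀ i, i < j → θ i < x) → x < θ j →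
      ∀ᶠ p : (Fin k → ℝ) × (Fin k → ℝ) in 𝓝 (w, θ),
        (∀ i, i < j → p.2 i < x) ∧ x < p.2 j := fun x h1 h2 => by
    refine (eventually_all.2 fun i => ?_).and ?_
    · by_cases hi : i < j
      · exact (((continuous_apply i).comp continuous_snd).tendsto (w, θ)).eventually
          (eventually_lt_nhds (h1 i hi)) |>.mono fun p hp _ => hp
      · exact Eventually.of_forall fun p h => absurd h hi
    · exact (((continuous_apply j).comp continuous_snd).tendsto (w, θ)).eventually (eventually_gt_nhds h2)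
  have hc : ∀ x : ℝ, (∀ i, i < j → θ i < x) → x < θ j →
      ContinuousAt (fun p : (Fin k → ℝ) × (Fin k → ℝ) => gat p.1 p.2 x) (w, θ) := fun x h1 h2 => by
    refine tendsto_finsetSum _ fun i _ => ?_
    refine (((continuous_apply i).comp continuous_fst).tendsto _).div
      ((continuous_const.sub ((continuous_apply i).comp continuous_snd)).tendsto _) ?_
    show x - θ i ≠ 0
    rcases lt_or_ge i j with h | h
    · exact (sub_pos.2 (h1 i h)).ne'
    · exact (sub_neg.2 (h2.trans_le (hθ.monotone h))).ne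
  refine tendsto_order.2 ⟨fun x hx => ?_, fun x hx => ?_⟩
  · obtain ⟨m, hm1, hm2⟩ : ∃ m, (∀ i, i < j → θ i < m) ∧ x < m ∧ m < b := by
      set pr : Fin k := ⟨(j : ℕ) - 1, by omega⟩
      refine ⟨max ((x + b) / 2) ((θ pr + b) / 2), fun i hi => lt_max_of_lt_right ?_,
        lt_max_of_lt_left (by linarith), max_lt (by linarith) ?_⟩
      · have : θ i ≤ θ pr := hθ.monotone (by
          simp only [pr, Fin.le_def, Fin.lt_def] at hi ⊢; omega)
        linarith [hlo pr (by simp only [pr, Fin.lt_def]; omega)]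
      · linarith [hlo pr (by simp only [pr, Fin.lt_def]; omega)]
    have hpos : 0 < gat w θ m := hzero ▸ gat_strictAnti_between j hw hm2.2 hm1
      fun i hi => hhi.trans_le (hθ.monotone hi)
    filter_upwards [nhdsWithin_le_nhds (hev m hm1 (hm2.2.trans hhi)),
      nhdsWithin_le_nhds ((hc m hm1 (hm2.2.trans hhi)).eventually (eventually_gt_nhds hpos)),
      self_mem_nhdsWithin] with p h1 h2 hp
    obtain ⟨hl, hu, hz⟩ := root_spec hp.2 hp.1 hj
    by_contra hcon
    have hle : root p.1 p.2 j < m := (not_lt.1 hcon).trans_lt hm2.1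
    linarith [gat_strictAnti_between j hp.1 hle hl fun i hi => h1.2.trans_le (hp.2.monotone hi)]
  · set m := min ((x + b) / 2) ((θ j + b) / 2)
    have hm1 : b < m := lt_min (by linarith) (by linarith)
    have hm2 : m < x := (min_le_left _ _).trans_lt (by linarith)
    have hm3 : m < θ j := (min_le_right _ _).trans_lt (by linarith)
    have hneg : gat w θ m < 0 := hzero ▸ gat_strictAnti_between j hw hm1 hlo
      fun i hi => hm3.trans_le (hθ.monotone hi)
    filter_upwards [nhdsWithin_le_nhds (hev m (fun i hi => (hlo i hi).trans hm1) hm3),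
      nhdsWithin_le_nhds ((hc m (fun i hi => (hlo i hi).trans hm1) hm3).eventually (eventually_lt_nhds hneg)),
      self_mem_nhdsWithin] with p h1 h2 hp
    obtain ⟨hl, hu, hz⟩ := root_spec hp.2 hp.1 hj
    by_contra hcon
    have hle : m < root p.1 p.2 j := hm2.trans_le (not_lt.1 hcon)
    linarith [gat_strictAnti_between j hp.1 hle h1.1 fun i hi => hu.trans_le (hp.2.monotone hi)]

/-- the couplings are continuous -/
lemma cpl_tendsto {w θ : Fin k → ℝ} (hθ : StrictMono θ) (hw : ∀ i, 0 < w i) {j : Fin k} (hj : 0 < (j : ℕ)) :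
    Tendsto (fun p : (Fin k → ℝ) × (Fin k → ℝ) => cpl p.1 p.2 j) (𝓝[adm k] (w, θ)) (𝓝 (cpl w θ j)) := by
  have ht := root_tendsto hθ hw hj
  have hg : Tendsto (fun p : (Fin k → ℝ) × (Fin k → ℝ) => gat2 p.1 p.2 (root p.1 p.2 j)) (𝓝[adm k] (w, θ))
      (𝓝 (gat2 w θ (root w θ j))) := by
    unfold gat2
    refine tendsto_finsetSum _ fun i _ => ?_
    have h1 : Tendsto (fun p : (Fin k → ℝ) × (Fin k → ℝ) => p.1 i) (𝓝[adm k] (w, θ)) (𝓝 (w i)) :=
      (((continuous_apply i).comp continuous_fst).tendsto (w, θ)).mono_left nhdsWithin_le_nhds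
    have h2 : Tendsto (fun p : (Fin k → ℝ) × (Fin k → ℝ) => p.2 i) (𝓝[adm k] (w, θ)) (𝓝 (θ i)) :=
      (((continuous_apply i).comp continuous_snd).tendsto (w, θ)).mono_left nhdsWithin_le_nhds
    exact h1.div ((ht.sub h2).pow 2)
      (pow_ne_zero 2 (sub_ne_zero.2 (sub_ne_zero.1 (root_ne_atom hθ hw hj i)).symm))
  unfold cpl
  exact (Real.continuous_sqrt.tendsto _).comp
    (tendsto_const_nhds.div hg (gat2_root_pos hθ hw hj).ne')

/-- the corner data are continuous in the shares and in the atoms -/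
theorem stmt_rootNear : StmtRootNear := by
  intro k w θ ha ε hε
  have hnear : ∀ j : Fin k, ∀ᶠ p : (Fin k → ℝ) × (Fin k → ℝ) in 𝓝[adm k] (w, θ),
      |aA p.1 p.2 j - aA w θ j| ≤ ε ∧ |cA p.1 p.2 j - cA w θ j| ≤ ε ∧ aA p.1 p.2 j ≤ 0 := by
    intro j
    by_cases hj : 0 < (j : ℕ)
    · simp only [aA, cA, if_pos hj]
      have ht := root_tendsto ha.mono ha.pos hj
      have hθj : Tendsto (fun p : (Fin k → ℝ) × (Fin k → ℝ) => p.2 j) (𝓝[adm k] (w, θ)) (𝓝 (θ j)) :=
        (((continuous_apply j).comp continuous_snd).tendsto _).mono_left nhdsWithin_le_nhds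
      have hcp := cpl_tendsto ha.mono ha.pos hj
      filter_upwards [Metric.tendsto_nhds.1 (ht.sub hθj) ε hε, Metric.tendsto_nhds.1 hcp ε hε,
        self_mem_nhdsWithin] with p h1 h2 hp
      rw [Real.dist_eq] at h1 h2
      exact ⟨h1.le, h2.le, (sub_nonpos.2 (root_spec hp.2 hp.1 hj).2.1.le)⟩
    · simp only [aA, cA, if_neg hj, sub_self, abs_zero, le_refl, and_true]
      exact Eventually.of_forall fun p => ⟨hε.le, hε.le⟩
  obtain ⟨τ, hτ, hball⟩ := Metric.mem_nhdsWithin_iff.1 (eventually_all.2 hnear)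
  have hpos : ∀ᶠ p : (Fin k → ℝ) × (Fin k → ℝ) in 𝓝 (w, θ), ∀ i, 0 < p.1 i :=
    eventually_all.2 fun i => (((continuous_apply i).comp continuous_fst).tendsto (w, θ)).eventually
      (eventually_gt_nhds (ha.pos i))
  obtain ⟨τ', hτ', hp'⟩ := Metric.eventually_nhds_iff.1 hpos
  refine ⟨min τ τ' / 2, by positivity, fun r θ' hr hθ' hmono j => ?_⟩
  have hd : dist (r, θ') (w, θ) ≤ min τ τ' / 2 := by
    simp only [Prod.dist_eq, max_le_iff]
    constructor <;> refine (dist_pi_le_iff (by positivity)).2 fun i => ?_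
    · rw [Real.dist_eq]; exact hr i
    · rw [Real.dist_eq]; exact hθ' i
  have hm : 0 < min τ τ' := lt_min hτ hτ'
  have hmem : (r, θ') ∈ Metric.ball (w, θ) τ ∩ adm k :=
    ⟨Metric.mem_ball.2 (by linarith [min_le_left τ τ']), ⟨hp' (by linarith [min_le_right τ τ']), hmono⟩⟩
  exact hball hmem j

end Vale.Agent.P166.Gen
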