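import Vale.Agent.P166.Gen.LowSelfStep
import Vale.Agent.P166.Gen.LowShr
import Vale.Agent.P166.Gen.LowMoves
import Vale.Agent.P166.Gen.LowCont

/-! P166 G4 self-consistency: the law of the grown system over its base, and the map of the field. -/

open MeasureTheory Finset Real
open Vale.Agent.P150 (gauss)
open Vale.Agent.P168.MP (Batch)
open Vale.Agent.P157.Par (Prof dist1)
open Vale.Agent.P157.Full (qh qh_prof)

noncomputable section

namespace Vale.Agent.P166.Gen

set_option linter.unusedSectionVars false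

variable {k N : ℕ} {w θ θ' : Fin k → ℝ}

/-- the overlaps the field of `q` generates, uniformly Lipschitz -/
lemma field_lip (L η : ℝ) : ∃ K : ℝ, 0 ≤ K ∧ ∀ {k : ℕ} {w θ : Fin k → ℝ}, Bdd w θ L η →
    ∀ (R : ℕ) (q q' : ℕ → ℝ), 1 ≤ R → Prof R q 1 → Prof R q' 1 →
      dist1 R (qh R (fieldH w θ R q)) (qh R (fieldH w θ R q')) ≤ K * dist1 R q q' := by
  obtain ⟨C, hC, hc⟩ := spin_lip (4 * L ^ 2 / η ^ 4)
  obtain ⟨M, hM, hm⟩ := maps_lip L η
  refine ⟨C * M, by positivity, fun {k w θ} hB R q q' hR hq hq' => ?_⟩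
  refine ((hc R _ _ hR (fieldH_prof hB hq) (fieldH_prof hB hq')).1).trans ?_
  rw [mul_assoc]
  exact mul_le_mul_of_nonneg_left (hm hB R q q' hR hq hq').1 hC

lemma field_mem {L η : ℝ} (hB : Bdd w θ L η) {R : ℕ} (hR : 1 ≤ R) {q : ℕ → ℝ} (hq : Prof R q 1) {l : ℕ}
    (hl : l ≤ R) : 0 ≤ qh R (fieldH w θ R q) l ∧ qh R (fieldH w θ R q) l ≤ 1 :=
  (qh_prof hR (fieldH_prof hB hq)).1.upper hl

lemma continuousOn_field {L η : ℝ} (hB : Bdd w θ L η) {n R S : ℕ} [NeZero n] {ι : Type} [Fintype ι]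
    [DecidableEq ι] {β : ι → Batch} {h u : ι → ℝ} (hR : 1 ≤ R) {l : ℕ} (hl : l < R) :
    ContinuousOn (fun f : (Fin n → Bool) → ℝ => qh R (fieldH w θ R (qW R S β h u f)) l)
      {f | ∀ σ, 0 < f σ} := by
  obtain ⟨K, hK, hlip⟩ := field_lip L η
  rw [continuousOn_iff_continuous_domRestrict]
  have hR' : (0:ℝ) < R := by exact_mod_cast hR
  refine cont_lev (F := fun q => qh R (fieldH w θ R q) l) (K := R * K) (l := l) (R := R)
    (q := fun x : {f : (Fin n → Bool) → ℝ | ∀ σ, 0 < f σ} => qW R S β h u x.1)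
    (fun a b ha hb => ?_) (fun x => (qW_prof x.2).1)
    fun m => continuousOn_iff_continuous_domRestrict.1 (continuousOn_qW m)
  set x := qh R (fieldH w θ R a)
  set y := qh R (fieldH w θ R b)
  have h1 := single_le_sum (f := fun j => |x j - y j|) (fun j _ => abs_nonneg _) (mem_range.2 hl)
  have h2 : ∑ j ∈ range R, |x j - y j| ≤ R * dist1 R x y := by
    rw [dist1, mul_add, mul_div_cancel₀ _ hR'.ne']
    exact le_add_of_nonneg_right (by positivity)
  refine (h1.trans h2).trans ?_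
  rw [mul_assoc]
  exact mul_le_mul_of_nonneg_left ((hlip hB R a b hR ha hb).trans
    (mul_le_mul_of_nonneg_left (le_add_of_nonneg_left (abs_nonneg _)) hK)) hR'.le

/-! ### the corner data as measurable functions of the shares -/

open Classical in
/-- the moves of the corner, set to those of the atoms where a coordinate vanishes -/
def aG (w θ θ' : Fin k → ℝ) (lab : Fin N → Fin k) (g : Fin N → ℝ) (j : Fin k) : ℝ :=
  if ∀ i, g i ≠ 0 then aA (shr lab g) θ' j else aA w θ j

open Classical in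
/-- the couplings of the corner, likewise -/
def cG (w θ θ' : Fin k → ℝ) (lab : Fin N → Fin k) (g : Fin N → ℝ) (j : Fin k) : ℝ :=
  if ∀ i, g i ≠ 0 then cA (shr lab g) θ' j else cA w θ j

/-- the weight of the grown system over shares, base and companion vector -/
def fW (w θ θ' : Fin k → ℝ) (lab : Fin (N + 1) → Fin k) (lab' : Fin N → Fin k)
    (x : (Fin (N + 1) → ℝ) × (Mat N × (Fin N → ℝ))) : (Fin (N + 1) → Bool) → ℝ :=
  fX ((∑ j, shr lab x.1 j * θ' j) / 2) (aG w θ θ' lab x.1) (cG w θ θ' lab x.1) θ' lab' x.2.1 x.2.2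

lemma fW_pos (lab : Fin (N + 1) → Fin k) (lab' : Fin N → Fin k)
    (x : (Fin (N + 1) → ℝ) × (Mat N × (Fin N → ℝ))) (σ : Fin (N + 1) → Bool) :
    0 < fW w θ θ' lab lab' x σ := mul_pos (exp_pos _) (exp_pos _)

lemma measurable_corner (hRN : StmtRootNear) (hθ : StrictMono θ') {lab : Fin N → Fin k}
    (hl : ∀ j, 0 < cnt lab j) (hn : 0 < N) (j : Fin k) :
    Measurable (fun g => aG w θ θ' lab g j) ∧ Measurable (fun g => cG w θ θ' lab g j) := by
  classical
  set s : Set (Fin N → ℝ) := {g | ∀ i, g i ≠ 0}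
  have hs : MeasurableSet s := by
    rw [show s = ⋂ i, {g | g i ≠ 0} by ext; simp [s]]
    exact MeasurableSet.iInter fun i => (measurableSet_eq_fun (measurable_pi_apply i) measurable_const).compl
  have key : ∀ φ : (Fin k → ℝ) → ℝ, (∀ r₀ : Fin k → ℝ, Atoms r₀ θ' → ∀ ε > 0, ∃ τ > 0, ∀ r,
      (∀ i, |r i - r₀ i| ≤ τ) → |φ r - φ r₀| ≤ ε) → ContinuousOn (fun g => φ (shr lab g)) s := by
    intro φ hφ g hg
    have h0 : Atoms (shr lab g) θ' := ⟨shr_pos hl hg, shr_one lab hg hn, hθ⟩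
    have hc : ContinuousAt φ (shr lab g) := Metric.continuousAt_iff.2 fun ε hε => by
      obtain ⟨τ, hτ, h⟩ := hφ _ h0 (ε / 2) (by linarith)
      refine ⟨τ, hτ, fun {r} hr => ?_⟩
      rw [Real.dist_eq]
      refine (h r fun i => ?_).trans_lt (by linarith)
      exact (dist_le_pi_dist r _ i).trans hr.le
    exact hc.comp_continuousWithinAt ((continuousOn_pi.2 fun i => shr_continuousOn lab hn i) g hg)
  constructor
  · refine (key (fun r => aA r θ' j) fun r₀ h0 ε hε => ?_).measurable_piecewise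
      (g := fun _ => aA w θ j) continuousOn_const hs
    obtain ⟨τ, hτ, h⟩ := hRN k r₀ θ' h0 ε hε
    exact ⟨τ, hτ, fun r hr => (h r θ' hr (fun i => by simpa using hτ.le) hθ j).1⟩
  · refine (key (fun r => cA r θ' j) fun r₀ h0 ε hε => ?_).measurable_piecewise
      (g := fun _ => cA w θ j) continuousOn_const hs
    obtain ⟨τ, hτ, h⟩ := hRN k r₀ θ' h0 ε hε
    exact ⟨τ, hτ, fun r hr => (h r θ' hr (fun i => by simpa using hτ.le) hθ j).2.1⟩

lemma measurable_fW (hRN : StmtRootNear) (hθ : StrictMono θ') {lab : Fin (N + 1) → Fin k}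
    (hl : ∀ j, 0 < cnt lab j) (lab' : Fin N → Fin k) : Measurable (fW w θ θ' lab lab') := by
  refine measurable_pi_lambda _ fun σ => ?_
  have ha : ∀ j, Measurable fun x : (Fin (N + 1) → ℝ) × (Mat N × (Fin N → ℝ)) => aG w θ θ' lab x.1 j :=
    fun j => (measurable_corner hRN hθ hl N.succ_pos j).1.comp measurable_fst
  have hc : ∀ j, Measurable fun x : (Fin (N + 1) → ℝ) × (Mat N × (Fin N → ℝ)) => cG w θ θ' lab x.1 j :=
    fun j => (measurable_corner hRN hθ hl N.succ_pos j).2.comp measurable_fst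
  have he : ∀ j, Measurable fun x : (Fin (N + 1) → ℝ) × (Mat N × (Fin N → ℝ)) => shr lab x.1 j :=
    fun j => (measurable_shr lab j).comp measurable_fst
  have hx : ∀ j τ, Measurable fun x : (Fin (N + 1) → ℝ) × (Mat N × (Fin N → ℝ)) => xF lab' x.2.1 x.2.2 j τ :=
    fun j τ => (measurable_xFU j τ).comp measurable_snd
  have hw : Measurable fun x : (Fin (N + 1) → ℝ) × (Mat N × (Fin N → ℝ)) =>
      wJ θ' lab' x.2.1 fun i => σ i.castSucc :=
    (continuous_wJU θ' lab' _).measurable.comp (measurable_fst.comp measurable_snd)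
  simp only [fW, fX, cE]
  fun_prop

/-- **The law of one more site over its base** -/
theorem transfer (hCo : StmtCorner) (hFr : StmtFrame) (hRN : StmtRootNear) [NeZero N] (hθ : StrictMono θ')
    {lab : Fin (N + 1) → Fin k} {lab' : Fin N → Fin k} {o : Fin k} (ho : (o : ℕ) = 0)
    (hcard : ∀ j, (univ.filter fun i => lab i = j).card =
      (univ.filter fun i => lab' i = j).card + if j = o then 1 else 0)
    (hl : ∀ j, 0 < cnt lab' j) {ν₁ : Measure (Mat (N + 1))} {ν : Measure (Mat N)}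
    (hν₁ : IsHaarOrthogonal ν₁) (hν : IsHaarOrthogonal ν) {Ψ : ((Fin (N + 1) → Bool) → ℝ) → ℝ}
    (hc : ContinuousOn Ψ {f | ∀ σ, 0 < f σ}) {C : ℝ} (hb : ∀ f, (∀ σ, 0 < f σ) → |Ψ f| ≤ C) :
    ∫ U, Ψ (wJ θ' lab U) ∂ν₁ =
      ∫ x, Ψ (fW w θ θ' lab lab' x) ∂(gauss (Fin (N + 1))).prod (ν.prod (gauss (Fin N))) := by
  have := hν.1
  set e : Fin k → Fin N := fun j => (exists_site (hl j)).choose
  have he : ∀ j, lab' (e j) = j := fun j => (exists_site (hl j)).choose_spec
  have hl1 : ∀ j, 0 < cnt lab j := fun j => by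
    have : cnt lab j = cnt lab' j + if j = o then 1 else 0 := hcard j
    have := hl j
    omega
  have hm : Measurable fun x => Ψ (fW w θ θ' lab lab' x) :=
    measurable_of_pos hc (measurable_fW hRN hθ hl1 lab') (fW_pos lab lab')
  have hi : Integrable (fun x => Ψ (fW w θ θ' lab lab' x)) ((gauss (Fin (N + 1))).prod (ν.prod (gauss (Fin N)))) :=
    Integrable.of_bound hm.aestronglyMeasurable C (.of_forall fun x => hb _ (fW_pos lab lab' x))
  rw [hCo k N θ' hθ lab lab' o e ho he hcard ν₁ ν hν₁ hν Ψ hc, integral_prod _ hi]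
  refine integral_congr_ae (ae_ne_zero.mono fun g hg => ?_)
  have h2 : Integrable (fun y => Ψ (fW w θ θ' lab lab' (g, y))) (ν.prod (gauss (Fin N))) :=
    Integrable.of_bound (hm.comp measurable_prodMk_left).aestronglyMeasurable C
      (.of_forall fun x => hb _ (fW_pos lab lab' _))
  simp only
  rw [integral_prod _ h2]
  set F : ((Fin N → Bool) → ℝ) → (Fin k → (Fin N → Bool) → ℝ) → ℝ := fun W X => Ψ fun σ =>
    W (fun i => σ i.castSucc) * exp (cE ((∑ j, shr lab g j * θ' j) / 2) (aA (shr lab g) θ')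
      (cA (shr lab g) θ') (fun j => X j fun i => σ i.castSucc) (σ (Fin.last N)))
  have hF : ContinuousOn (fun p : ((Fin N → Bool) → ℝ) × (Fin k → (Fin N → Bool) → ℝ) => F p.1 p.2)
      {p | ∀ σ, 0 < p.1 σ} :=
    hc.comp (Continuous.continuousOn (by unfold cE; fun_prop)) fun p hp σ => mul_pos (hp _) (exp_pos _)
  obtain ⟨-, heq, -⟩ := frame_int (θ := θ') hFr he hν hF (C := C) fun U _ X _ =>
    hb _ fun σ => mul_pos (wJ_pos θ' lab' U _) (exp_pos _)
  simp only [cornerE_eq]
  have ea : aG w θ θ' lab g = aA (shr lab g) θ' := funext fun j => if_pos hg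
  have ec : cG w θ θ' lab g = cA (shr lab g) θ' := funext fun j => if_pos hg
  simp only [fW, ea, ec]
  exact heq

end Vale.Agent.P166.Gen
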