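import Vale.Agent.P166.Gen.LowSelfAbs
import Vale.Agent.P166.Gen.LowSelfLaw
import Vale.Agent.P166.Haar

/-! P166 G4: the overlaps of the base are self-consistent, from the symmetry of the sites and one step. -/

open MeasureTheory Finset Real
open Vale.Agent.P150 (gauss)
open Vale.Agent.P168.MP (Batch spinAt)
open Vale.Agent.P157.Par (Prof dist1 c4 c4_nonneg)
open Vale.Agent.P157.Full (qh)

noncomputable section

namespace Vale.Agent.P166.Gen

set_option linter.unusedSectionVars false

/-- a mean over three coordinates, bounded off a bad set of the first -/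
lemma mean_split {α β γ : Type*} [MeasurableSpace α] [MeasurableSpace β] [MeasurableSpace γ] (μ : Measure α)
    (ν : Measure β) (ρ : Measure γ) [IsProbabilityMeasure μ] [IsProbabilityMeasure ν] [IsProbabilityMeasure ρ]
    {G : α × (β × γ) → ℝ} (hm : Measurable G) {M : ℝ} (hb : ∀ x, |G x| ≤ M) {bad : α → ℝ}
    (hbad : Integrable bad μ) (h01 : ∀ g, bad g = 0 ∨ bad g = 1) {err : β → ℝ} (herr : Integrable err ν)
    (herr0 : 0 ≤ ∫ U, err U ∂ν) (h : ∀ g, bad g = 0 → ∀ᵐ U ∂ν, ∫ z, G (g, U, z) ∂ρ ≤ err U) :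
    ∫ x, G x ∂μ.prod (ν.prod ρ) ≤ ∫ U, err U ∂ν + M * ∫ g, bad g ∂μ := by
  have hi : Integrable G (μ.prod (ν.prod ρ)) :=
    Integrable.of_bound hm.aestronglyMeasurable M (.of_forall fun x => (Real.norm_eq_abs _).trans_le (hb x))
  rw [integral_prod _ hi]
  refine (integral_mono hi.integral_prod_left ((integrable_const _).add (hbad.const_mul M)) fun g => ?_).trans_eq
    (by rw [integral_add' (integrable_const _) (hbad.const_mul M), integral_const, probReal_univ, one_smul,
      integral_const_mul])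
  have h2 : Integrable (fun y => G (g, y)) (ν.prod ρ) := Integrable.of_bound
    (hm.comp measurable_prodMk_left).aestronglyMeasurable M (.of_forall fun x => (Real.norm_eq_abs _).trans_le (hb _))
  simp only [Pi.add_apply]
  rcases h01 g with hg | hg
  · rw [hg, mul_zero, add_zero, integral_prod _ h2]
    exact integral_mono_ae h2.integral_prod_left herr (h g hg)
  · rw [hg, mul_one]
    refine le_trans ?_ (le_add_of_nonneg_left herr0)
    refine (le_abs_self _).trans ((norm_integral_le_of_norm_le_const (C := M)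
      (.of_forall fun y => (Real.norm_eq_abs _).trans_le (hb _))).trans_eq (by simp))

lemma farS_01 {k n : ℕ} (lab : Fin n → Fin k) (τ : ℝ) (g : Fin n → ℝ) :
    farS lab τ g = 0 ∨ farS lab τ g = 1 := by
  unfold farS; split_ifs <;> simp

lemma dist_top {R : ℕ} {a b : ℕ → ℝ} (ha : a R = 1) (hb : b R = 1) :
    dist1 R a b = (∑ l ∈ range R, |a l - b l|) / R := by
  simp [dist1, ha, hb]

lemma qh_top (R : ℕ) (f : ℕ → ℝ) : qh R f R = 1 := by simp [qh]

section bound
variable {k N R S : ℕ} [NeZero N] {ι : Type} [Fintype ι] [DecidableEq ι] {β : ι → Batch} {h u : ι → ℝ}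
  {w θ θ' : Fin k → ℝ} {L η : ℝ} {lab' : Fin N → Fin k}

lemma continuous_povUS (hB : Bdd w θ L η) (hR : 1 ≤ R) :
    Continuous fun U => povU w θ θ' lab' U R S β h u := by
  refine continuous_finsetSum _ fun j _ => continuous_adev
    (C := fun U p p' => pov lab' U j (spinAt R p) (spinAt R p'))
    (q := fun U => levP w θ j R (qU θ' lab' U R S β h u)) (fun p p' => continuous_pov lab' j _ _) (fun l => ?_) θ' lab'
  rcases le_total l R with hl | hl
  · exact continuous_levP hB hR j hl (fun U => (qU_prof θ' lab' U).1) (continuous_qU θ' lab')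
  · have e : ∀ U, levP w θ j R (qU θ' lab' U R S β h u) l = levP w θ j R (qU θ' lab' U R S β h u) R := fun U => by
      have : qU θ' lab' U R S β h u l = qU θ' lab' U R S β h u R := (qW_min l).trans (by rw [min_eq_right hl]; rfl)
      simp only [levP, levF, this]
    simp only [e]
    exact continuous_levP hB hR j le_rfl (fun U => (qU_prof θ' lab' U).1) (continuous_qU θ' lab')

/-- the self-consistency at fixed size: the errors are those of one step and of unlikely shares -/
theorem self_bound (hCo : StmtCorner) (hFr : StmtFrame) (hRN : StmtRootNear) (hB : Bdd w θ L η) (hR : 1 ≤ R)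
    (hθ' : StrictMono θ') {lab : Fin (N + 1) → Fin k} {o : Fin k} (ho : (o : ℕ) = 0)
    (hcard : ∀ j, (univ.filter fun i => lab i = j).card =
      (univ.filter fun i => lab' i = j).card + if j = o then 1 else 0)
    (hl : ∀ j, 0 < cnt lab' j) {ν : Measure (Mat N)} (hν : IsHaarOrthogonal ν) {KQ : ℝ} (hKQ : 0 ≤ KQ)
    (hQ : ∀ q q', Prof R q 1 → Prof R q' 1 →
      dist1 R (qh R (fieldH w θ R q)) (qh R (fieldH w θ R q')) ≤ KQ * dist1 R q q')
    {t A₀ Kb C : ℝ} (hA₀ : 0 ≤ A₀) (hKb : 0 ≤ Kb) (hC : 0 ≤ C)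
    (hstep : ∀ g : Fin (N + 1) → ℝ, farS lab t g = 0 → ∀ U : Mat N,
      Matrix.of U ∈ Matrix.orthogonalGroup (Fin N) ℝ →
      ∫ z, (∑ l ∈ range R, |qW R S β h u (fW w θ θ' lab lab' (g, U, z)) l - qU θ' lab' U R S β h u l|)
          ∂gauss (Fin N) ≤ R * stepErr w θ θ' lab' U R S β h u A₀ Kb C ∧
      ∑ l ∈ range R, |(∫ z, oW R S β h u (fW w θ θ' lab lab' (g, U, z)) l (Fin.last N) ∂gauss (Fin N)) -
          qh R (fieldH w θ R (qU θ' lab' U R S β h u)) l| ≤ R * stepErr w θ θ' lab' U R S β h u A₀ Kb C)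
    {θ₀ : ℝ} (hθ₀ : 0 < θ₀) :
    ∫ U, dist1 R (qU θ' lab' U R S β h u) (qh R (fieldH w θ R (qU θ' lab' U R S β h u))) ∂ν ≤
      θ₀ + ((3 + 3 * KQ) / (4 * θ₀) + (1 + KQ)) *
        ((A₀ + Kb * ((∫ U, (povU w θ θ' lab' U R S β h u + devU θ' lab' U R S β h u) ∂ν) +
          (∑ j, |w j - freq lab' j|) + 1 / √(N:ℝ)) + C / ((N:ℝ) + 1)) +
          2 * ∫ g, farS lab t g ∂gauss (Fin (N + 1))) := by
  obtain ⟨ν₁, hν₁⟩ := exists_haar (N + 1)
  have := hν.1
  have hl1 : ∀ j, 0 < cnt lab j := fun j => by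
    have : cnt lab j = cnt lab' j + if j = o then 1 else 0 := hcard j
    have := hl j
    omega
  set μ := (gauss (Fin (N + 1))).prod (ν.prod (gauss (Fin N)))
  set Q : (ℕ → ℝ) → ℕ → ℝ := fun p => qh R (fieldH w θ R p)
  set q := fun x => qW R S β h u (fW w θ θ' lab lab' x)
  set b := fun x : (Fin (N + 1) → ℝ) × (Mat N × (Fin N → ℝ)) => qU θ' lab' x.2.1 R S β h u
  set O := fun x (l : ℕ) => oW R S β h u (fW w θ θ' lab lab' x) l (Fin.last N)
  have hfm := measurable_fW (w := w) (θ := θ) hRN hθ' hl1 lab'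
  have hfp := fW_pos (w := w) (θ := θ) (θ' := θ') lab lab'
  have hwm : Measurable fun x : (Fin (N + 1) → ℝ) × (Mat N × (Fin N → ℝ)) => wJ θ' lab' x.2.1 :=
    (cont_wJ θ' lab').measurable.comp (measurable_fst.comp measurable_snd)
  have hwp := fun (x : (Fin (N + 1) → ℝ) × (Mat N × (Fin N → ℝ))) σ => wJ_pos θ' lab' x.2.1 σ
  have hq : ∀ x, Prof R (q x) 1 ∧ q x R = 1 := fun x => qW_prof (hfp x)
  have hb : ∀ x, Prof R (b x) 1 ∧ b x R = 1 := fun x => qW_prof (hwp x)
  have hQ01 : ∀ p, Prof R p 1 → ∀ l < R, 0 ≤ Q p l ∧ Q p l ≤ 1 := fun p hp l hl' => field_mem hB hR hp hl'.le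
  have hO : ∀ x, ∀ l < R, |O x l| ≤ 1 := fun x l _ => oW_le (hfp x) l _
  have mq : ∀ l, Measurable fun x => q x l := fun l => measurable_of_pos (continuousOn_qW l) hfm hfp
  have mb : ∀ l, Measurable fun x => b x l := fun l => measurable_of_pos (continuousOn_qW l) hwm hwp
  have mO : ∀ l, Measurable fun x => O x l := fun l => measurable_of_pos (continuousOn_oW l _) hfm hfp
  have mQq : ∀ l < R, Measurable fun x => Q (q x) l := fun l hl' =>
    measurable_of_pos (continuousOn_field hB hR hl') hfm hfp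
  have mQb : ∀ l < R, Measurable fun x => Q (b x) l := fun l hl' =>
    measurable_of_pos (continuousOn_field hB hR hl') hwm hwp
  have hR' : (0:ℝ) < R := by exact_mod_cast hR
  -- the Lipschitz bound without the top
  have hQlip : ∀ p p', Prof R p 1 → Prof R p' 1 → p R = 1 → p' R = 1 →
      ∑ l ∈ range R, |Q p l - Q p' l| ≤ KQ * ∑ l ∈ range R, |p l - p' l| := fun p p' hp hp' e e' => by
    have := hQ p p' hp hp'
    rw [dist_top (qh_top _ _) (qh_top _ _), dist_top e e', ← mul_div_assoc] at this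
    exact (div_le_div_iff_of_pos_right hR').1 this
  -- the symmetry of the sites
  have hsym : ∀ l < R, ∫ x, (q x l - Q (q x) l) * q x l ∂μ = ∫ x, (q x l - Q (q x) l) * O x l ∂μ := by
    intro l hl'
    have hsub := fun f : (Fin (N + 1) → Bool) → ℝ => fun (hf : ∀ σ, 0 < f σ) => by
      have a1 := (qW_prof (R := R) (S := S) (β := β) (h := h) (u := u) hf).1.upper hl'.le
      have a2 := hQ01 _ (qW_prof (R := R) (S := S) (β := β) (h := h) (u := u) hf).1 l hl'
      exact show |qW R S β h u f l - Q (qW R S β h u f) l| ≤ 1 ∧ |qW R S β h u f l| ≤ 1 from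
        ⟨abs_le.2 ⟨by linarith, by linarith⟩, abs_le.2 ⟨by linarith, a1.2⟩⟩
    have hcF := (continuousOn_qW (n := N + 1) (R := R) (S := S) (β := β) (h := h) (u := u) l).sub
      (continuousOn_field (n := N + 1) (S := S) (β := β) (h := h) (u := u) hB hR hl')
    have t1 := transfer (w := w) (θ := θ) hCo hFr hRN hθ' ho hcard hl hν₁ hν
      (Ψ := fun f => (qW R S β h u f l - Q (qW R S β h u f) l) * qW R S β h u f l) (C := 1)
      (hcF.mul (continuousOn_qW l)) fun f hf => by
        rw [abs_mul]; exact mul_le_one₀ (hsub f hf).1 (abs_nonneg _) (hsub f hf).2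
    have t2 := transfer (w := w) (θ := θ) hCo hFr hRN hθ' ho hcard hl hν₁ hν
      (Ψ := fun f => (qW R S β h u f l - Q (qW R S β h u f) l) * oW R S β h u f l (Fin.last N)) (C := 1)
      (hcF.mul (continuousOn_oW l _)) fun f hf => by
        rw [abs_mul]; exact mul_le_one₀ (hsub f hf).1 (abs_nonneg _) (oW_le hf l _)
    exact t1.symm.trans ((site_symG θ' lab hν₁ hR (Fin.last N) (F := fun p => p l - Q p l) (C := 1) hcF
      (fun U => (hsub _ (wJ_pos θ' lab U)).1) hl'.le).trans t2)
  -- one step, averaged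
  set Φ := fun U => povU w θ θ' lab' U R S β h u + devU θ' lab' U R S β h u
  set err := fun U => stepErr w θ θ' lab' U R S β h u A₀ Kb C
  set d := ∑ j, |w j - freq lab' j|
  have hΦc : Continuous Φ := (continuous_povUS hB hR).add (continuous_devU θ' lab')
  have hΦi : Integrable Φ ν := integrable_haar hν hΦc
  have e : err = fun U => A₀ + Kb * (Φ U + d + 1 / √(N:ℝ)) + C / ((N:ℝ) + 1) := rfl
  have hei : Integrable err ν := integrable_haar hν (by rw [e]; fun_prop)
  set E := (A₀ + Kb * ((∫ U, Φ U ∂ν) + d + 1 / √(N:ℝ)) + C / ((N:ℝ) + 1)) +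
    2 * ∫ g, farS lab t g ∂gauss (Fin (N + 1)) with hE
  have hei' : ∫ U, (R:ℝ) * err U ∂ν + R * 2 * ∫ g, farS lab t g ∂gauss (Fin (N + 1)) = R * E := by
    have i2 : Integrable (fun U => Φ U + d) ν := hΦi.add (integrable_const _)
    have i3 : Integrable (fun U => Φ U + d + 1 / √(N:ℝ)) ν := i2.add (integrable_const _)
    have i4 : Integrable (fun U => A₀ + Kb * (Φ U + d + 1 / √(N:ℝ))) ν :=
      (integrable_const _).add (i3.const_mul _)
    rw [integral_const_mul, e, integral_add i4 (integrable_const _), integral_add (integrable_const _) (i3.const_mul _),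
      integral_const_mul, integral_add i2 (integrable_const _), integral_add hΦi (integrable_const _), hE]
    simp only [integral_const, probReal_univ, one_smul]
    ring
  have herr0 : 0 ≤ ∫ U, (R:ℝ) * err U ∂ν := integral_nonneg fun U => by
    have h1 := povU_nonneg (R := R) (S := S) (β := β) (h := h) (u := u) w θ θ' lab' U
    have h2 : 0 ≤ devU θ' lab' U R S β h u :=
      (P157.Par.adev_nn (pw_wJ_pos θ' lab' U)).trans (devU_ge hR θ' lab' U)
    simp only [e, Φ, Pi.zero_apply]
    have : 0 ≤ d := sum_nonneg fun _ _ => abs_nonneg _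
    positivity
  have hclose : ∫ x, ∑ l ∈ range R, |q x l - b x l| ∂μ ≤ R * E := by
    refine (mean_split _ ν _ (Finset.measurable_sum _ fun l _ => ((mq l).sub (mb l)).abs) (M := R * 2) (fun x => ?_)
      (integrable_farS lab t) (farS_01 lab t) (hei.const_mul (R:ℝ)) herr0
      fun g hg => hν.2.1.mono fun U hU => (hstep g hg U hU).1).trans_eq hei'
    refine (abs_sum_le_sum_abs _ _).trans ((sum_le_sum (g := fun _ => (2:ℝ)) fun l hl' => ?_).trans_eq (by simp))
    have a1 := (hq x).1.upper (mem_range.1 hl').le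
    have a2 := (hb x).1.upper (mem_range.1 hl').le
    simp only [Pi.sub_apply, abs_abs]
    rw [abs_le]; constructor <;> linarith
  have hXb : ∀ x, ∀ l < R, |(b x l - Q (b x) l) * (O x l - Q (b x) l)| ≤ 2 := fun x l hl' => by
    have a1 := (hb x).1.upper hl'.le
    have a2 := hQ01 _ (hb x).1 l hl'
    have a3 := abs_le.1 (hO x l hl')
    rw [abs_mul]
    exact (mul_le_of_le_one_left (abs_nonneg _) (abs_le.2 ⟨by linarith, by linarith⟩)).trans
      (abs_le.2 ⟨by linarith, by linarith⟩)
  have mX : ∀ l < R, Measurable fun x => (b x l - Q (b x) l) * (O x l - Q (b x) l) := fun l hl' =>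
    ((mb l).sub (mQb l hl')).mul ((mO l).sub (mQb l hl'))
  have hbase : ∑ l ∈ range R, ∫ x, (b x l - Q (b x) l) * (O x l - Q (b x) l) ∂μ ≤ R * E := by
    rw [← integral_finsetSum _ fun l hl' => Integrable.of_bound (mX l (mem_range.1 hl')).aestronglyMeasurable 2
      (.of_forall fun x => (Real.norm_eq_abs _).trans_le (hXb x l (mem_range.1 hl')))]
    refine (mean_split _ ν _ (Finset.measurable_sum _ fun l hl' => mX l (mem_range.1 hl')) (M := R * 2) (fun x => ?_)
      (integrable_farS lab t) (farS_01 lab t) (hei.const_mul (R:ℝ)) herr0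
      fun g hg => hν.2.1.mono fun U hU => ?_).trans_eq hei'
    · exact (abs_sum_le_sum_abs _ _).trans
        ((sum_le_sum fun l hl' => hXb x l (mem_range.1 hl')).trans_eq (by simp))
    · refine le_trans ?_ (hstep g hg U hU).2
      have hz : ∀ l, Integrable (fun z => oW R S β h u (fW w θ θ' lab lab' (g, U, z)) l (Fin.last N))
          (gauss (Fin N)) := fun l => Integrable.of_bound
        ((mO l).comp (measurable_prodMk_left.comp measurable_prodMk_left)).aestronglyMeasurable 1
        (.of_forall fun z => (Real.norm_eq_abs _).trans_le (oW_le (hfp _) l _))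
      simp only [b, O]
      rw [integral_finsetSum]
      swap
      · intro l _; exact ((hz l).sub (integrable_const _)).const_mul _
      refine sum_le_sum fun l hl' => ?_
      rw [integral_const_mul, integral_sub (hz l) (integrable_const _), integral_const, probReal_univ, one_smul]
      refine (le_abs_self _).trans ?_
      rw [abs_mul]
      have a1 := (hb (g, U, fun _ => 0)).1.upper (mem_range.1 hl').le
      have a2 := hQ01 _ (hb (g, U, fun _ => 0)).1 l (mem_range.1 hl')
      exact mul_le_of_le_one_left (abs_nonneg _) (abs_le.2 ⟨by linarith, by linarith⟩)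
  have hmain := (self_abstract μ hR Q hKQ (fun p hp _ => hQ01 p hp) hQlip q b O hq hb hO
    (fun l _ => (mq l).aestronglyMeasurable) (fun l hl' => (mQq l hl').aestronglyMeasurable)
    (fun l _ => (mb l).aestronglyMeasurable) (fun l hl' => (mQb l hl').aestronglyMeasurable)
    (fun l _ => (mO l).aestronglyMeasurable) hsym hclose hbase).2 θ₀ hθ₀
  -- from the grown system back to the base
  set G := fun U => dist1 R (qU θ' lab' U R S β h u) (Q (qU θ' lab' U R S β h u))
  have hGb : ∀ U, |G U| ≤ 2 := fun U => by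
    rw [abs_of_nonneg (P157.Par.dist1_nonneg _ _ _)]
    exact P157.Par.dist1_le_two hR (qU_prof θ' lab' U).1
      (P157.Full.qh_prof hR (fieldH_prof hB (qU_prof θ' lab' U).1)).1
  have hGc : Continuous G := continuous_gap hB hR (fun U => (qU_prof θ' lab' U).1) (continuous_qU θ' lab')
  have hGx : Integrable (fun x : (Fin (N + 1) → ℝ) × (Mat N × (Fin N → ℝ)) => G x.2.1) μ :=
    Integrable.of_bound (hGc.measurable.comp (measurable_fst.comp measurable_snd)).aestronglyMeasurable 2
      (.of_forall fun x => (Real.norm_eq_abs _).trans_le (hGb _))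
  have hlift : ∫ U, G U ∂ν = ∫ x, G x.2.1 ∂μ := by
    rw [integral_fun_snd (fun y : Mat N × (Fin N → ℝ) => G y.1), integral_fun_fst G]
    simp
  have hpt : ∀ x : (Fin (N + 1) → ℝ) × (Mat N × (Fin N → ℝ)), G x.2.1 ≤
      (∑ l ∈ range R, |q x l - Q (q x) l|) / R + (1 + KQ) / R * ∑ l ∈ range R, |q x l - b x l| := fun x => by
    simp only [G]
    rw [dist_top (qU_prof θ' lab' _).2 (qh_top _ _), div_mul_eq_mul_div, ← add_div]
    refine div_le_div_of_nonneg_right ?_ hR'.le
    have h1 := hQlip _ _ (hq x).1 (hb x).1 (hq x).2 (hb x).2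
    rw [add_mul, one_mul, ← add_assoc]
    refine le_trans ?_ (add_le_add le_rfl h1)
    rw [← sum_add_distrib, ← sum_add_distrib]
    refine sum_le_sum fun l _ => ?_
    refine (abs_sub_le _ (q x l) _).trans ?_
    rw [abs_sub_comm (qU θ' lab' x.2.1 R S β h u l)]
    linarith [abs_sub_le (q x l) (Q (q x) l) (Q (b x) l)]
  have i1 : Integrable (fun x => (∑ l ∈ range R, |q x l - Q (q x) l|) / R) μ := by
    refine (integrable_finsetSum _ fun l hl' => ?_).div_const _
    refine Integrable.of_bound ((mq l).sub (mQq l (mem_range.1 hl'))).abs.aestronglyMeasurable 1 (.of_forall fun x => ?_)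
    have a1 := (hq x).1.upper (mem_range.1 hl').le
    have a2 := hQ01 _ (hq x).1 l (mem_range.1 hl')
    simp only [Real.norm_eq_abs, abs_abs]
    rw [abs_le]; constructor <;> linarith
  have i2 : Integrable (fun x => ∑ l ∈ range R, |q x l - b x l|) μ := by
    refine integrable_finsetSum _ fun l hl' => ?_
    refine Integrable.of_bound ((mq l).sub (mb l)).abs.aestronglyMeasurable 1 (.of_forall fun x => ?_)
    have a1 := (hq x).1.upper (mem_range.1 hl').le
    have a2 := (hb x).1.upper (mem_range.1 hl').le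
    simp only [Real.norm_eq_abs, abs_abs]
    rw [abs_le]; constructor <;> linarith
  change ∫ U, G U ∂ν ≤ _
  rw [hlift]
  refine (integral_mono hGx (i1.add (i2.const_mul _)) hpt).trans ?_
  rw [integral_add' i1 (i2.const_mul _), integral_const_mul]
  have h3 := mul_le_mul_of_nonneg_left hclose (show 0 ≤ (1 + KQ) / (R:ℝ) by positivity)
  rw [← mul_assoc ((1 + KQ) / (R:ℝ)), div_mul_cancel₀ _ hR'.ne'] at h3
  refine (add_le_add hmain h3).trans (le_of_eq ?_)
  simp only [E, Φ, d]
  field_simp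
  ring

end bound

/-- **Self-consistency of the overlaps of the base** -/
theorem self_gen : StmtKap → StmtRootNear → StmtTrial → StmtGain → StmtCorner → StmtFrame → StmtSelfG := by
  intro hK hRN _ hG hCo hFr L η hη ε hε
  obtain ⟨K, hK0, hkap⟩ := kapFacts_of hK L η hη
  obtain ⟨K₁, hK₁, hstep⟩ := step_self hG L η K
  obtain ⟨KQ, hKQ, hlip⟩ := field_lip L η
  set c := (3 + 3 * KQ) / (4 * (ε / 2)) + (1 + KQ)
  have hc : 0 ≤ c := by positivity
  set b := ε / (8 * (c * K₁ + 1))
  have hb : 0 < b := by positivity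
  refine ⟨min 1 (b ^ 2), lt_min one_pos (by positivity), min_le_left _ _, fun k w θ hF => ?_⟩
  set δ := min 1 (b ^ 2)
  have hδ : 0 < δ := lt_min one_pos (by positivity)
  have H := hkap δ hδ (min_le_left _ _) k w θ hF
  have hB : Bdd w θ L η := ⟨hF.atoms, hF.bd, hη, hF.top⟩
  obtain ⟨top, -⟩ := hF.atoms.exists_top
  set S₁ := ∑ j, 1 / w j with hS
  have hS1 : ∀ j, 1 / w j ≤ S₁ := fun j =>
    single_le_sum (f := fun i => 1 / w i) (fun i _ => (one_div_pos.2 (hF.atoms.pos i)).le) (mem_univ j)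
  have hS0 : 0 < S₁ := (one_div_pos.2 (hF.atoms.pos top)).trans_le (hS1 top)
  set A := 2 * L + 1 + (K + 2) + 2 * S₁
  obtain ⟨Kb, hKb, hst⟩ := hstep k A b hb (by linarith)
  set e := δ / ((k:ℝ) + 1)
  have he : 0 < e := by positivity
  obtain ⟨τ₁, hτ₁, hnear⟩ := hRN k w θ hF.atoms e he
  set τ := min (τ₁ / 2) (min (1 / (4 * S₁)) (ε / (32 * (c * Kb * k + 1))))
  have hτ : 0 < τ := lt_min (by positivity) (lt_min (by positivity) (by positivity))
  have hτ2 : τ ≤ τ₁ / 2 := min_le_left _ _
  have hτS : τ ≤ 1 / (4 * S₁) := (min_le_right _ _).trans (min_le_left _ _)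
  have hτε : τ ≤ ε / (32 * (c * Kb * k + 1)) := (min_le_right _ _).trans (min_le_right _ _)
  refine ⟨τ, c * Kb, hτ, by positivity, ?_⟩
  intro ι _ _ β R S hR h u hh hu
  have hR1 : 1 ≤ R := by omega
  obtain ⟨C, hC, hst'⟩ := hst β R S hR
  set far := (k:ℝ) * (4 * c4 * (1 + 1 / (τ₁ / 2) ^ 2))
  have hfar : 0 ≤ far := by have := c4_nonneg; positivity
  set T := c * (Kb + C + 2 * far)
  obtain ⟨m, hm⟩ := exists_nat_ge (max ((16 * T / ε) ^ 2) (1 / τ))
  refine ⟨m + 1, fun N hN => ?_⟩
  intro _ θ' lab lab' o hθ' hθd hfd ho hcard ν hν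
  have hNm : max ((16 * T / ε) ^ 2) (1 / τ) ≤ (N:ℝ) := hm.trans (by exact_mod_cast (show m ≤ N by omega))
  have hN0 : (0:ℝ) < N := by exact_mod_cast NeZero.pos N
  have hNτ : 1 / (N:ℝ) ≤ τ := by
    rw [div_le_iff₀ hN0, ← div_le_iff₀' hτ]; exact (le_max_right _ _).trans hNm
  -- the frequencies of the base
  have hcnt : ∀ j, cnt lab j = cnt lab' j + if j = o then 1 else 0 := hcard
  have hf' : ∀ j, |w j - freq lab' j| ≤ 2 * τ := fun j => by
    refine (abs_sub_le _ (freq lab j) _).trans ?_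
    rw [abs_sub_comm, two_mul]
    refine add_le_add (hfd j) (le_trans ?_ hNτ)
    rw [freq_eq_cnt, freq_eq_cnt, hcnt, div_sub_div _ _ (Nat.cast_ne_zero.2 N.succ_ne_zero) hN0.ne', abs_div,
      abs_of_pos (show (0:ℝ) < ((N + 1 : ℕ) : ℝ) * N by positivity), div_le_div_iff₀ (by positivity) hN0]
    have h1 : (cnt lab' j : ℝ) ≤ N := by
      exact_mod_cast (card_filter_le _ _).trans_eq (by simp)
    have h2 : (0:ℝ) ≤ cnt lab' j := Nat.cast_nonneg _
    push_cast
    refine le_trans (mul_le_mul_of_nonneg_right (show |_| ≤ (N:ℝ) from abs_le.2 ?_) hN0.le) (by nlinarith)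
    split_ifs <;> constructor <;> linarith
  have hfr : ∀ j, 1 ≤ A * freq lab' j ∧ w j / 2 ≤ freq lab' j := fun j => by
    have h0 := hF.atoms.pos j
    have h1 := (div_le_iff₀ h0).1 (hS1 j)
    have h2 : 4 * τ ≤ w j := by
      have := (le_div_iff₀ (by positivity)).1 hτS
      nlinarith [mul_le_mul_of_nonneg_left h1 hτ.le]
    have h3 : w j / 2 ≤ freq lab' j := by linarith [(abs_le.1 (hf' j)).2]
    refine ⟨le_trans ?_ (mul_le_mul_of_nonneg_left h3 (by linarith [H.L0])), h3⟩
    have : 0 ≤ (2 * L + 1 + (K + 2)) * (w j / 2) := mul_nonneg (by linarith [H.L0]) (by linarith)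
    linarith
  have hl : ∀ j, 0 < cnt lab' j := fun j => by
    have h := (half_pos (hF.atoms.pos j)).trans_le (hfr j).2
    rw [freq_eq_cnt] at h
    rcases Nat.eq_zero_or_pos (cnt lab' j) with h0 | h0
    · simp [h0] at h
    · exact h0
  have hbound := self_bound (L := L) (η := η) (R := R) (S := S) (β := β) (h := h) (u := u) (w := w) (θ := θ)
    hCo hFr hRN hB hR1 hθ' ho hcard hl hν hKQ (fun q q' => hlip hB R q q' hR1) (t := τ₁ / 2)
    (A₀ := K₁ * (√δ + b)) (Kb := Kb) (C := C) (by positivity) hKb hC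
    (fun g hg U hU => ?_) (half_pos hε)
  · refine hbound.trans ?_
    set Pd := ∫ U, (povU w θ θ' lab' U R S β h u + devU θ' lab' U R S β h u) ∂ν
    set d := ∑ j, |w j - freq lab' j|
    set Far := ∫ g, farS lab (τ₁ / 2) g ∂gauss (Fin (N + 1))
    have h1 : √δ ≤ b := (Real.sqrt_le_sqrt (min_le_right _ _)).trans_eq (sqrt_sq hb.le)
    have h2 : c * (K₁ * (√δ + b)) ≤ ε / 4 := by
      have h3 := mul_le_mul_of_nonneg_left h1 (mul_nonneg hc hK₁)
      have h4 : c * K₁ * b ≤ ε / 8 := by
        simp only [b]; rw [← mul_div_assoc, div_le_div_iff₀ (by positivity) (by norm_num)]; linarith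
      linarith
    have hd : d ≤ k * (2 * τ) := (sum_le_sum fun j _ => hf' j).trans_eq (by simp)
    have h5 : c * Kb * d ≤ ε / 16 := by
      refine (mul_le_mul_of_nonneg_left hd (by positivity)).trans ?_
      refine (mul_le_mul_of_nonneg_left (mul_le_mul_of_nonneg_left (mul_le_mul_of_nonneg_left hτε zero_le_two)
        (Nat.cast_nonneg k)) (by positivity)).trans ?_
      rw [show c * Kb * (k * (2 * (ε / (32 * (c * Kb * k + 1))))) = c * Kb * k / (c * Kb * k + 1) * (ε / 16) by
        field_simp; ring]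
      exact mul_le_of_le_one_left (by positivity) ((div_le_one (by positivity)).2 (by linarith))
    have hN1 : 1 / ((N:ℝ) + 1) ≤ 1 / √(N:ℝ) := by
      refine one_div_le_one_div_of_le (sqrt_pos.2 hN0) ?_
      rw [Real.sqrt_le_iff]; constructor <;> nlinarith
    have h6 : T * (1 / √(N:ℝ)) ≤ ε / 16 := by
      have hsq : 16 * T / ε ≤ √(N:ℝ) := Real.le_sqrt_of_sq_le ((le_max_left _ _).trans hNm)
      rw [mul_one_div, div_le_iff₀ (sqrt_pos.2 hN0)]
      rw [div_le_iff₀ hε] at hsq
      linarith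
    have hFar : Far ≤ far * (1 / √(N:ℝ)) := by
      refine (farS_tail lab (half_pos hτ₁) N.succ_pos).trans ?_
      rw [← mul_one_div]
      push_cast
      exact mul_le_mul_of_nonneg_left hN1 hfar
    have h7 := mul_le_mul_of_nonneg_left (mul_le_mul_of_nonneg_left hN1 hC) hc
    have h8 := mul_le_mul_of_nonneg_left hFar hc
    rw [mul_one_div] at h7
    simp only [T] at h6
    linarith
  · have hnf : ∀ j, |shr lab g j - freq lab j| ≤ τ₁ / 2 := by
      intro j
      by_contra hj
      have : farS lab (τ₁ / 2) g = 1 := if_pos ⟨j, not_le.1 hj⟩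
      linarith
    have hr := hnear (shr lab g) θ'
      (fun j => (abs_sub_le _ (freq lab j) _).trans (by linarith [hnf j, hfd j]))
      (fun j => (hθd j).trans (by linarith)) hθ'
    have hek : ((k:ℝ) + 1) * e ≤ δ := (mul_div_cancel₀ _ (show (k:ℝ) + 1 ≠ 0 by positivity)).le
    have ha : ∀ j, |aG w θ θ' lab g j - aA w θ j| ≤ e := fun j => by
      unfold aG; split_ifs
      · exact (hr j).1
      · rw [sub_self, abs_zero]; exact he.le
    have hcg : ∀ j, |cG w θ θ' lab g j - cA w θ j| ≤ e := fun j => by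
      unfold cG; split_ifs
      · exact (hr j).2.1
      · rw [sub_self, abs_zero]; exact he.le
    have ha0 : ∀ j, aG w θ θ' lab g j ≤ 0 := fun j => by
      unfold aG; split_ifs
      · exact (hr j).2.2
      · exact (H.move j).1
    exact hst' hh hu w θ hη hδ (min_le_left _ _) H θ' lab' U hU (fun j => (hfr j).1)
      ((∑ j, shr lab g j * θ' j) / 2) e (aG w θ θ' lab g) (cG w θ θ' lab g) he.le hek ha hcg ha0

end Vale.Agent.P166.Gen
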