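import Vale.Agent.P157.Par.Lip

/-! The self-consistency argument with the model stripped off: a profile `q` that may be read at a
distinguished site `O`, close to a base profile `b`, while `O` given the base is `Q b`. -/

open MeasureTheory Finset
open Vale.Agent.P157.Par (dist1 Prof)

namespace Vale.Agent.P166.Gen

variable {X : Type*} [MeasurableSpace X]

/-- the pointwise split of one cross term -/
lemma self_split {a a' b b' o : ℝ} (ha' : 0 ≤ a') (ha'1 : a' ≤ 1)
    (hb : 0 ≤ b) (hb1 : b ≤ 1) (hb' : 0 ≤ b') (hb'1 : b' ≤ 1) (ho : |o| ≤ 1) :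
    (a - a') * (o - a') ≤ 2 * |a - b| + 3 * |a' - b'| + (b - b') * (o - b') := by
  obtain ⟨o1, o2⟩ := abs_le.1 ho
  have e1 : |o - a'| ≤ 2 := abs_le.2 ⟨by linarith, by linarith⟩
  have e2 : |b - b'| ≤ 1 := abs_le.2 ⟨by linarith, by linarith⟩
  have h1 : ((a - b) - (a' - b')) * (o - a') ≤ (|a - b| + |a' - b'|) * 2 := by
    refine (le_abs_self _).trans ?_
    rw [abs_mul]
    exact mul_le_mul (abs_sub _ _) e1 (abs_nonneg _) (add_nonneg (abs_nonneg _) (abs_nonneg _))
  have h2 : (b - b') * -(a' - b') ≤ |a' - b'| := by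
    refine (le_abs_self _).trans ?_
    rw [abs_mul, abs_neg]
    exact mul_le_of_le_one_left (abs_nonneg _) e2
  rw [show (a - a') * (o - a') = ((a - b) - (a' - b')) * (o - a') + (b - b') * -(a' - b') +
    (b - b') * (o - b') by ring]
  linarith

/-- **Self-consistency from one step**: `hsym` is the symmetry of the sites, `hclose` the closeness to
the base, `hbase` the law of the distinguished site given the base -/
theorem self_abstract (μ : Measure X) [IsProbabilityMeasure μ] {R : ℕ} (hR : 1 ≤ R)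
    (Q : (ℕ → ℝ) → ℕ → ℝ) {KQ : ℝ} (hKQ : 0 ≤ KQ)
    (hQ01 : ∀ p, Prof R p 1 → p R = 1 → ∀ l < R, 0 ≤ Q p l ∧ Q p l ≤ 1)
    (hQlip : ∀ p p', Prof R p 1 → Prof R p' 1 → p R = 1 → p' R = 1 →
      ∑ l ∈ range R, |Q p l - Q p' l| ≤ KQ * ∑ l ∈ range R, |p l - p' l|)
    (q b O : X → ℕ → ℝ) (hq : ∀ x, Prof R (q x) 1 ∧ q x R = 1) (hb : ∀ x, Prof R (b x) 1 ∧ b x R = 1)
    (hO : ∀ x, ∀ l < R, |O x l| ≤ 1)
    (mq : ∀ l < R, AEStronglyMeasurable (fun x => q x l) μ)
    (mQq : ∀ l < R, AEStronglyMeasurable (fun x => Q (q x) l) μ)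
    (mb : ∀ l < R, AEStronglyMeasurable (fun x => b x l) μ)
    (mQb : ∀ l < R, AEStronglyMeasurable (fun x => Q (b x) l) μ)
    (mO : ∀ l < R, AEStronglyMeasurable (fun x => O x l) μ)
    (hsym : ∀ l < R, ∫ x, (q x l - Q (q x) l) * q x l ∂μ = ∫ x, (q x l - Q (q x) l) * O x l ∂μ)
    {E₁ E₂ : ℝ} (hclose : ∫ x, ∑ l ∈ range R, |q x l - b x l| ∂μ ≤ R * E₁)
    (hbase : ∑ l ∈ range R, ∫ x, (b x l - Q (b x) l) * (O x l - Q (b x) l) ∂μ ≤ R * E₂) :
    ∑ l ∈ range R, ∫ x, (q x l - Q (q x) l) ^ 2 ∂μ ≤ R * ((2 + 3 * KQ) * E₁ + E₂) ∧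
      ∀ θ : ℝ, 0 < θ →
        ∫ x, (∑ l ∈ range R, |q x l - Q (q x) l|) / R ∂μ ≤ θ + ((2 + 3 * KQ) * E₁ + E₂) / (4 * θ) := by
  have hR' : (0:ℝ) < R := by exact_mod_cast hR
  have bd : ∀ {f : X → ℝ} (C : ℝ), AEStronglyMeasurable f μ → (∀ x, |f x| ≤ C) → Integrable f μ :=
    fun {f} C hf hC => Integrable.of_bound hf C (.of_forall fun x => by rw [Real.norm_eq_abs]; exact hC x)
  have u := fun x l (hl : l < R) => (hq x).1.upper hl.le
  have ub := fun x l (hl : l < R) => (hb x).1.upper hl.le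
  have aq := fun x l (hl : l < R) => hQ01 _ (hq x).1 (hq x).2 l hl
  have ab := fun x l (hl : l < R) => hQ01 _ (hb x).1 (hb x).2 l hl
  have hX : ∀ x, ∀ l < R, |q x l - Q (q x) l| ≤ 1 := fun x l hl => by
    rw [abs_le]; constructor <;> linarith [(u x l hl).1, (u x l hl).2, (aq x l hl).1, (aq x l hl).2]
  have hBx : ∀ x, ∀ l < R, |b x l - Q (b x) l| ≤ 1 := fun x l hl => by
    rw [abs_le]; constructor <;> linarith [(ub x l hl).1, (ub x l hl).2, (ab x l hl).1, (ab x l hl).2]
  have hC : ∀ x, ∀ l < R, |O x l - Q (q x) l| ≤ 2 := fun x l hl => by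
    obtain ⟨o1, o2⟩ := abs_le.1 (hO x l hl)
    rw [abs_le]; constructor <;> linarith [(aq x l hl).1, (aq x l hl).2]
  have hD : ∀ x, ∀ l < R, |O x l - Q (b x) l| ≤ 2 := fun x l hl => by
    obtain ⟨o1, o2⟩ := abs_le.1 (hO x l hl)
    rw [abs_le]; constructor <;> linarith [(ab x l hl).1, (ab x l hl).2]
  have i1 : ∀ l < R, Integrable (fun x => (q x l - Q (q x) l) * q x l) μ := fun l hl =>
    bd 1 (((mq l hl).sub (mQq l hl)).mul (mq l hl)) fun x => by
      rw [abs_mul]
      exact mul_le_one₀ (hX x l hl) (abs_nonneg _) (abs_le.2 ⟨by linarith [(u x l hl).1], (u x l hl).2⟩)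
  have i2 : ∀ l < R, Integrable (fun x => (q x l - Q (q x) l) * Q (q x) l) μ := fun l hl =>
    bd 1 (((mq l hl).sub (mQq l hl)).mul (mQq l hl)) fun x => by
      rw [abs_mul]
      exact mul_le_one₀ (hX x l hl) (abs_nonneg _) (abs_le.2 ⟨by linarith [(aq x l hl).1], (aq x l hl).2⟩)
  have i3 : ∀ l < R, Integrable (fun x => (q x l - Q (q x) l) * O x l) μ := fun l hl =>
    bd 1 (((mq l hl).sub (mQq l hl)).mul (mO l hl)) fun x => by
      rw [abs_mul]; exact mul_le_one₀ (hX x l hl) (abs_nonneg _) (hO x l hl)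
  have i4 : ∀ l < R, Integrable (fun x => (q x l - Q (q x) l) * (O x l - Q (q x) l)) μ := fun l hl =>
    ((i3 l hl).sub (i2 l hl)).congr (.of_forall fun x => by simp only [Pi.sub_apply]; ring)
  have i5 : ∀ l < R, Integrable (fun x => (b x l - Q (b x) l) * (O x l - Q (b x) l)) μ := fun l hl =>
    bd (1 * 2) (((mb l hl).sub (mQb l hl)).mul ((mO l hl).sub (mQb l hl))) fun x => by
      rw [abs_mul]; exact mul_le_mul (hBx x l hl) (hD x l hl) (abs_nonneg _) zero_le_one
  have i6 : ∀ l < R, Integrable (fun x => |q x l - b x l|) μ := fun l hl =>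
    bd 1 ((mq l hl).sub (mb l hl)).norm fun x => by
      rw [abs_abs, abs_le]
      constructor <;> linarith [(u x l hl).1, (u x l hl).2, (ub x l hl).1, (ub x l hl).2]
  have hsq : ∀ l < R, ∫ x, (q x l - Q (q x) l) ^ 2 ∂μ = ∫ x, (q x l - Q (q x) l) * (O x l - Q (q x) l) ∂μ := by
    intro l hl
    calc ∫ x, (q x l - Q (q x) l) ^ 2 ∂μ
        = ∫ x, ((q x l - Q (q x) l) * q x l - (q x l - Q (q x) l) * Q (q x) l) ∂μ :=
          integral_congr_ae (.of_forall fun x => by ring)
      _ = (∫ x, (q x l - Q (q x) l) * O x l ∂μ) - ∫ x, (q x l - Q (q x) l) * Q (q x) l ∂μ := by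
          rw [integral_sub (i1 l hl) (i2 l hl), hsym l hl]
      _ = _ := by
          rw [← integral_sub (i3 l hl) (i2 l hl)]
          exact integral_congr_ae (.of_forall fun x => by ring)
  have hpt : ∀ x, ∑ l ∈ range R, (q x l - Q (q x) l) * (O x l - Q (q x) l) ≤
      (2 + 3 * KQ) * ∑ l ∈ range R, |q x l - b x l| +
        ∑ l ∈ range R, (b x l - Q (b x) l) * (O x l - Q (b x) l) := fun x => by
    have hl := hQlip _ _ (hq x).1 (hb x).1 (hq x).2 (hb x).2
    refine (sum_le_sum fun l hl => self_split (b := b x l) (b' := Q (b x) l)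
      (aq x l (mem_range.1 hl)).1 (aq x l (mem_range.1 hl)).2 (ub x l (mem_range.1 hl)).1
      (ub x l (mem_range.1 hl)).2 (ab x l (mem_range.1 hl)).1 (ab x l (mem_range.1 hl)).2
      (hO x l (mem_range.1 hl))).trans ?_
    simp only [sum_add_distrib, ← mul_sum]
    linarith
  have hmain : ∑ l ∈ range R, ∫ x, (q x l - Q (q x) l) ^ 2 ∂μ ≤ R * ((2 + 3 * KQ) * E₁ + E₂) := by
    rw [sum_congr rfl fun l hl => hsq l (mem_range.1 hl),
      ← integral_finsetSum _ fun l hl => i4 l (mem_range.1 hl)]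
    have j1 := integrable_finsetSum (range R) fun l hl => i6 l (mem_range.1 hl)
    have j2 := integrable_finsetSum (range R) fun l hl => i5 l (mem_range.1 hl)
    refine (integral_mono (integrable_finsetSum _ fun l hl => i4 l (mem_range.1 hl))
      ((j1.const_mul _).add j2) hpt).trans ?_
    rw [integral_add' (j1.const_mul _) j2, integral_const_mul,
      integral_finsetSum _ fun l hl => i5 l (mem_range.1 hl)]
    have := mul_le_mul_of_nonneg_left hclose (show 0 ≤ 2 + 3 * KQ by positivity)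
    linarith
  refine ⟨hmain, fun θ hθ => ?_⟩
  set S := fun x => ∑ l ∈ range R, (q x l - Q (q x) l) ^ 2
  have iS : ∀ l < R, Integrable (fun x => (q x l - Q (q x) l) ^ 2) μ := fun l hl =>
    bd 1 ((mq l hl).sub (mQq l hl) |>.pow 2) fun x => by
      rw [abs_pow]; exact pow_le_one₀ (abs_nonneg _) (hX x l hl)
  have jS : Integrable S μ := integrable_finsetSum _ fun l hl => iS l (mem_range.1 hl)
  have hp : ∀ x, (∑ l ∈ range R, |q x l - Q (q x) l|) / R ≤ θ + 1 / (4 * θ * R) * S x := fun x => by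
    have : ∀ t : ℝ, |t| ≤ θ + 1 / (4 * θ) * t ^ 2 := fun t => by
      rw [div_mul_eq_mul_div, one_mul, ← sub_le_iff_le_add', le_div_iff₀ (by positivity), ← sq_abs t]
      nlinarith [sq_nonneg (|t| - 2 * θ)]
    rw [div_le_iff₀ hR']
    refine (sum_le_sum fun l _ => this _).trans_eq ?_
    simp only [S, sum_add_distrib, ← mul_sum, sum_const, card_range, nsmul_eq_mul]
    field_simp
  refine (integral_mono_of_nonneg (.of_forall fun x => by positivity)
    ((integrable_const θ).add (jS.const_mul _)) (.of_forall hp)).trans ?_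
  rw [integral_add' (integrable_const θ) (jS.const_mul _), integral_const_mul,
    integral_finsetSum _ fun l hl => iS l (mem_range.1 hl)]
  simp only [integral_const, probReal_univ, one_smul]
  refine add_le_add le_rfl ?_
  rw [div_mul_eq_mul_div, one_mul, div_le_div_iff₀ (by positivity) (by positivity)]
  nlinarith [mul_le_mul_of_nonneg_right hmain (show 0 ≤ 4 * θ by positivity)]

end Vale.Agent.P166.Gen
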