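import Vale.Agent.P166.Gen.AlgebraLip
import Vale.Agent.P166.Gen.LowLabel

/-! P166 G4 self-consistency: the corner data near the atoms and the field they generate. -/

open MeasureTheory Finset Real
open Vale.Agent.P157.Par (Prof dist1)
open Vale.Agent.P157.Full (qh)

noncomputable section

namespace Vale.Agent.P166.Gen

open Par.Multi (xiD xiD_mem)

variable {k : ℕ} {w θ : Fin k → ℝ} {L η δ K : ℝ}

/-- what `StmtKap` gives at fixed atoms -/
structure KapFacts (L η δ K : ℝ) (w θ : Fin k → ℝ) : Prop where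
  fine : Fine L η δ w θ
  K0 : 0 ≤ K
  move : ∀ j, aA w θ j ≤ 0 ∧ -gap θ j ≤ aA w θ j
  csum : ∑ j, cA w θ j ^ 2 ≤ K
  kap : ∀ t y, |t| ≤ L → (∀ j, (∀ i, i ≤ j) → t ≤ θ j) → y ∈ Set.Icc (0:ℝ) 1 →
    (0 ≤ kap w θ t y ∧ kap w θ t y ≤ K) ∧
    ∀ t', |t'| ≤ L → (∀ j, (∀ i, i ≤ j) → t' ≤ θ j) → |kap w θ t y - kap w θ t' y| ≤ K * |t - t'|
  dphi : ∀ j y, dphiA w θ j y = w j * Gen.kap w θ (θ j) y
  dR : ∀ y ∈ Set.Icc (0:ℝ) 1, dRat w θ y = ∑ j, cA w θ j ^ 2 * Gen.kap w θ (root w θ j) y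

theorem kapFacts_of (hK : StmtKap) (L η : ℝ) (hη : 0 < η) : ∃ K : ℝ, 0 ≤ K ∧ ∀ δ : ℝ, 0 < δ → δ ≤ 1 →
    ∀ (k : ℕ) (w θ : Fin k → ℝ), Fine L η δ w θ → KapFacts L η δ K w θ := by
  obtain ⟨K, h0, h⟩ := hK L η hη
  refine ⟨K, h0, fun δ hδ hδ1 k w θ hf => ?_⟩
  obtain ⟨h1, h2, h3, h4, h5⟩ := h δ hδ hδ1 k w θ hf
  exact ⟨hf, h0, h1, h2, fun t y a b c => ⟨(h3 t y a b c).1, (h3 t y a b c).2.2⟩, h4, fun y hy => (h5 y hy).1⟩

namespace KapFacts

variable (H : KapFacts L η δ K w θ)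
include H

lemma L0 : 0 ≤ L := by
  obtain ⟨t, -⟩ := H.fine.atoms.exists_top
  exact (abs_nonneg _).trans (H.fine.bd t)

lemma le_top (j : Fin k) : ∀ i : Fin k, (∀ a, a ≤ i) → θ j ≤ θ i := fun i hi =>
  H.fine.atoms.theta_le hi j

lemma gap_bounds (hδ : 0 ≤ δ) (j : Fin k) : 0 ≤ gap θ j ∧ gap θ j ≤ δ := by
  refine ⟨sub_nonneg.2 (H.fine.atoms.mono.monotone (prv_le j)), ?_⟩
  rcases Nat.eq_zero_or_pos (j : ℕ) with h | h
  · have : prv j = j := Fin.ext (by simp [prv, h])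
    simpa [gap, this] using hδ
  · exact H.fine.fine (prv j) j (by simp [prv]; omega)

lemma gap_sum : ∑ j, gap θ j ≤ 2 * L := by
  classical
  obtain ⟨t, ht⟩ := H.fine.atoms.exists_top
  set o : Fin k := ⟨0, t.pos⟩
  have h := tele (fun j : Fin k => if j = t then (1:ℝ) else 0) θ (o := o) rfl
  have e : ∀ i : Fin k, tailW (fun j : Fin k => if j = t then (1:ℝ) else 0) i = 1 := fun i => by
    simp [tailW, ht i]
  simp only [e, one_mul, ite_mul, zero_mul, sum_ite_eq', mem_univ, if_true] at h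
  have a := abs_le.1 (H.fine.bd t)
  have b := abs_le.1 (H.fine.bd o)
  calc ∑ j, gap θ j = θ t - θ o := h.symm
    _ ≤ _ := by linarith

lemma kap_cont (j : Fin k) : ContinuousOn (Gen.kap w θ (θ j)) (Set.Ici 0) := by
  refine ((H.fine.atoms.continuousOn_dphiA j).div_const (w j)).congr fun y _ => ?_
  simp only [H.dphi]
  rw [mul_div_cancel_left₀ _ (H.fine.atoms.pos j).ne']

lemma vlev_prof {R : ℕ} {q : ℕ → ℝ} (hq : Prof R q 1) (j : Fin k) :
    Prof R (vlev w θ (θ j) R q) K :=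
  levF_prof hq (H.kap_cont j) (fun y hy => (H.kap _ y (H.fine.bd j) (H.le_top j) hy).1.1)
    fun y hy => (H.kap _ y (H.fine.bd j) (H.le_top j) hy).1.2

lemma levP_eq (R : ℕ) (q : ℕ → ℝ) (j : Fin k) (l : ℕ) :
    levP w θ j R q l = w j * vlev w θ (θ j) R q l := by
  simp only [levP, vlev, levF, H.dphi, intervalIntegral.integral_const_mul]

/-- the bottom atom has no coupling, the others a root within one gap -/
lemma near_root (hδ : 0 ≤ δ) (j : Fin k) (hj : 0 < (j : ℕ)) :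
    |θ j - root w θ j| ≤ δ ∧ |root w θ j| ≤ L ∧ ∀ i : Fin k, (∀ a, a ≤ i) → root w θ j ≤ θ i := by
  obtain ⟨h1, h2⟩ := H.move j
  obtain ⟨g0, g1⟩ := H.gap_bounds hδ j
  simp only [aA, hj, if_true] at h1 h2
  refine ⟨abs_le.2 ⟨by linarith, by linarith⟩, ?_, fun i hi => by linarith [H.le_top j i hi]⟩
  have a := abs_le.1 (H.fine.bd j)
  have b := abs_le.1 (H.fine.bd (prv j))
  simp only [gap] at h2
  rw [abs_le]; constructor <;> linarith

variable {a c : Fin k → ℝ} {e : ℝ}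

/-- moves near the atoms' -/
lemma move_sums (hδ : 0 ≤ δ) (hδ1 : δ ≤ 1) (he : 0 ≤ e) (hek : ((k : ℝ) + 1) * e ≤ δ)
    (ha : ∀ j, |a j - aA w θ j| ≤ e) :
    ∑ j, |a j| ≤ 2 * L + 1 ∧ ∑ j, a j ^ 2 ≤ 2 * δ * (2 * L + 1) := by
  have hab : ∀ j, |a j| ≤ gap θ j + e := fun j => by
    have h := abs_le.1 (ha j)
    obtain ⟨h1, h2⟩ := H.move j
    rw [abs_le]; constructor <;> linarith [(H.gap_bounds hδ j).1]
  have hk : (k:ℝ) * e ≤ δ := (mul_le_mul_of_nonneg_right (by linarith) he).trans hek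
  have he1 : e ≤ δ := by
    have : 0 ≤ (k:ℝ) * e := mul_nonneg (Nat.cast_nonneg k) he
    linarith
  have h1 : ∑ j, |a j| ≤ 2 * L + 1 := by
    refine (sum_le_sum fun j _ => hab j).trans ?_
    simp only [sum_add_distrib, sum_const, card_univ, Fintype.card_fin, nsmul_eq_mul]
    linarith [H.gap_sum]
  refine ⟨h1, (sum_le_sum fun j _ => ?_).trans (le_of_eq_of_le (mul_sum univ (fun j => |a j|) (2 * δ)).symm
    (mul_le_mul_of_nonneg_left h1 (by positivity)))⟩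
  rw [← sq_abs, sq]
  exact mul_le_mul_of_nonneg_right ((hab j).trans (by linarith [(H.gap_bounds hδ j).2])) (abs_nonneg _)

/-- couplings near the atoms' -/
lemma cpl_sums (hδ1 : δ ≤ 1) (he : 0 ≤ e) (hek : ((k : ℝ) + 1) * e ≤ δ) (hc : ∀ j, |c j - cA w θ j| ≤ e) :
    ∑ j, c j ^ 2 ≤ 3 * K + 3 ∧ (∀ j, |c j| ≤ K + 2) ∧ ∑ j, |c j ^ 2 - cA w θ j ^ 2| ≤ δ * (2 * K + 3) := by
  have hk : (k:ℝ) * e ≤ δ := (mul_le_mul_of_nonneg_right (by linarith) he).trans hek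
  have he1 : e ≤ 1 := by
    have : 0 ≤ (k:ℝ) * e := mul_nonneg (Nat.cast_nonneg k) he
    linarith
  have hcw : ∀ j, |cA w θ j| ≤ K + 1 := fun j => by
    have h := (single_le_sum (f := fun i => cA w θ i ^ 2) (fun i _ => sq_nonneg _) (mem_univ j)).trans H.csum
    rw [abs_le]
    constructor <;> nlinarith [sq_nonneg (cA w θ j + 1), sq_nonneg (cA w θ j - 1)]
  have hcj : ∀ j, |c j| ≤ K + 2 := fun j => by
    have := abs_sub_abs_le_abs_sub (c j) (cA w θ j)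
    linarith [hc j, hcw j]
  have hd : ∀ j, |c j ^ 2 - cA w θ j ^ 2| ≤ (2 * K + 3) * e := fun j => by
    rw [sq_sub_sq, abs_mul]
    exact mul_le_mul ((abs_add_le _ _).trans (by linarith [hcj j, hcw j])) (hc j) (abs_nonneg _)
      (by linarith [H.K0])
  have hsum : ∑ j, |c j ^ 2 - cA w θ j ^ 2| ≤ δ * (2 * K + 3) := by
    refine (sum_le_sum fun j _ => hd j).trans ?_
    rw [sum_const, card_univ, Fintype.card_fin, nsmul_eq_mul, ← mul_assoc, mul_comm _ e, ← mul_assoc, mul_comm e]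
    exact mul_le_mul_of_nonneg_right hk (by linarith [H.K0])
  refine ⟨?_, hcj, hsum⟩
  have h := sum_le_sum fun j (_ : j ∈ univ) => (le_abs_self (c j ^ 2 - cA w θ j ^ 2))
  rw [sum_sub_distrib] at h
  have := mul_le_mul_of_nonneg_right hδ1 (show 0 ≤ 2 * K + 3 by linarith [H.K0])
  linarith [H.csum]

/-- the field of the corner is near the one of the R-transform -/
lemma field_near (hδ : 0 ≤ δ) (hδ1 : δ ≤ 1) (he : 0 ≤ e) (hek : ((k : ℝ) + 1) * e ≤ δ)
    (hc : ∀ j, |c j - cA w θ j| ≤ e) {R : ℕ} {q : ℕ → ℝ} (hq : Prof R q 1) {l : ℕ} (hl : l ≤ R) :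
    |(∑ j, c j ^ 2 * vlev w θ (θ j) R q l) - fieldH w θ R q l| ≤ δ * (3 * K + 3) * K := by
  have z0 : (0:ℝ) ∈ Set.Icc (0:ℝ) 1 := Set.left_mem_Icc.2 zero_le_one
  have hql := hq.upper hl
  have hi : ∀ j, IntervalIntegrable (fun s => c j ^ 2 * Gen.kap w θ (θ j) (xiD R q s)) volume 0 (q l) :=
    fun j => (ii_along hq (H.kap_cont j) z0 hql).const_mul _
  have hs : IntervalIntegrable (fun s => ∑ j, c j ^ 2 * Gen.kap w θ (θ j) (xiD R q s)) volume 0 (q l) :=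
    ⟨integrable_finsetSum _ fun j _ => (hi j).1, integrable_finsetSum _ fun j _ => (hi j).2⟩
  have e : (∑ j, c j ^ 2 * vlev w θ (θ j) R q l) - fieldH w θ R q l =
      ∫ s in (0:ℝ)..q l, ((∑ j, c j ^ 2 * Gen.kap w θ (θ j) (xiD R q s)) - dRat w θ (xiD R q s)) := by
    rw [intervalIntegral.integral_sub hs (ii_along hq H.fine.atoms.continuousOn_dRat z0 hql),
      intervalIntegral.integral_finsetSum fun j _ => hi j]
    simp only [intervalIntegral.integral_const_mul, vlev, fieldH, levF]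
  rw [e]
  have K0 := H.K0
  refine (intervalIntegral.norm_integral_le_of_norm_le_const (C := δ * (3 * K + 3) * K)
    (f := fun s => (∑ j, c j ^ 2 * Gen.kap w θ (θ j) (xiD R q s)) - dRat w θ (xiD R q s)) fun s hs => ?_).trans ?_
  · have h := Set.uIcc_subset_Icc z0 hql (Set.uIoc_subset_uIcc hs)
    have hy := xiD_mem hq h.1 h.2
    set y := xiD R q s
    rw [Real.norm_eq_abs, H.dR y hy, ← sum_sub_distrib]
    refine (abs_sum_le_sum_abs _ _).trans ?_
    have hb : ∀ j, |c j ^ 2 * Gen.kap w θ (θ j) y - cA w θ j ^ 2 * Gen.kap w θ (root w θ j) y| ≤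
        |c j ^ 2 - cA w θ j ^ 2| * K + cA w θ j ^ 2 * (K * δ) := fun j => by
      obtain ⟨⟨k0, k1⟩, klip⟩ := H.kap _ y (H.fine.bd j) (H.le_top j) hy
      rw [show c j ^ 2 * Gen.kap w θ (θ j) y - cA w θ j ^ 2 * Gen.kap w θ (root w θ j) y =
        (c j ^ 2 - cA w θ j ^ 2) * Gen.kap w θ (θ j) y +
          cA w θ j ^ 2 * (Gen.kap w θ (θ j) y - Gen.kap w θ (root w θ j) y) by ring]
      refine (abs_add_le _ _).trans (add_le_add ?_ ?_)
      · rw [abs_mul, abs_of_nonneg k0]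
        exact mul_le_mul_of_nonneg_left k1 (abs_nonneg _)
      · rw [abs_mul, abs_of_nonneg (sq_nonneg _)]
        rcases Nat.eq_zero_or_pos (j : ℕ) with h0 | h0
        · simp [cA, h0]
        · obtain ⟨n1, n2, n3⟩ := H.near_root hδ j h0
          exact mul_le_mul_of_nonneg_left ((klip _ n2 n3).trans (mul_le_mul_of_nonneg_left n1 K0)) (sq_nonneg _)
    refine (sum_le_sum fun j _ => hb j).trans ?_
    rw [sum_add_distrib, ← sum_mul, ← sum_mul]
    have h1 := mul_le_mul_of_nonneg_right (H.cpl_sums hδ1 he hek hc).2.2 K0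
    have h2 := mul_le_mul_of_nonneg_right H.csum (mul_nonneg K0 hδ)
    linarith
  · rw [sub_zero, abs_of_nonneg hql.1]
    exact mul_le_of_le_one_right (by positivity) hql.2

end KapFacts

end Vale.Agent.P166.Gen
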