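import Vale.Agent.P166.Gen.LowBase
import Vale.Agent.P166.Phase.Invariance
import Vale.Agent.P157.Full.GrowPair
import Vale.Agent.P157.Par.Lip

/-! P166 G4 self-consistency: overlaps as functionals of a positive weight, and the symmetry of the
sites under the Haar measure. -/

open MeasureTheory Finset Real
open Vale.Agent.P168 (sg)
open Vale.Agent.P168.MP (lin ET Batch Mark pw spinAt avg gain1)
open Vale.Agent.P157.Par (Prof qlev valid2 continuous_ET)
open Vale.Agent.P157.Full.Sym (markEquiv spinAt_map site_map)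

noncomputable section

namespace Vale.Agent.P166.Gen

set_option linter.unusedSectionVars false

variable {n : ℕ} [NeZero n] {ι : Type} [Fintype ι] [DecidableEq ι] {β : ι → Batch} {R S : ℕ}
  {h u : ι → ℝ} {f : (Fin n → Bool) → ℝ}

/-- the overlaps of a weight of configurations -/
def qW (R S : ℕ) (β : ι → Batch) (h u : ι → ℝ) (f : (Fin n → Bool) → ℝ) : ℕ → ℝ :=
  qlev R (pw (N := n) (S := S) (β := β) R f h u) (spinAt R)

/-- the correlation of site `x` between two replicas -/
def oW (R S : ℕ) (β : ι → Batch) (h u : ι → ℝ) (f : (Fin n → Bool) → ℝ) (l : ℕ) (x : Fin n) : ℝ :=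
  ET R (lin R) (pw (N := n) (S := S) (β := β) R f h u) [(0, l), (0, 0)] fun ps =>
    sg (spinAt R (ps.getD 0 []) x) * sg (spinAt R (ps.getD 1 []) x)

lemma pwW_pos (hf : ∀ σ, 0 < f σ) (p : List (Mark n S β)) : 0 < pw R f h u p :=
  mul_pos (hf _) (exp_pos _)

lemma qW_prof (hf : ∀ σ, 0 < f σ) : Prof R (qW R S β h u f) 1 ∧ qW R S β h u f R = 1 :=
  P157.Par.qlev_prof (pwW_pos hf)

lemma oW_le (hf : ∀ σ, 0 < f σ) (l : ℕ) (x : Fin n) : |oW R S β h u f l x| ≤ 1 :=
  Vale.Agent.P168.MP.ET_bound (pwW_pos hf) fun ps => by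
    rw [abs_mul, Vale.Agent.P168.abs_sg, Vale.Agent.P168.abs_sg, mul_one]

lemma cont_pos_ET (T : List (ℕ × ℕ)) (F : List (List (Mark n S β)) → ℝ) :
    ContinuousOn (fun f => ET R (lin R) (pw R f h u) T F) {f : (Fin n → Bool) → ℝ | ∀ σ, 0 < f σ} := by
  rw [continuousOn_iff_continuous_domRestrict]
  exact continuous_ET (X := {f : (Fin n → Bool) → ℝ | ∀ σ, 0 < f σ})
    (w := fun x p => pw R x.1 h u p)
    (fun p => ((continuous_apply _).comp continuous_subtype_val).mul continuous_const)
    (fun x => pwW_pos x.2) R T fun _ => continuous_const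

lemma continuousOn_qW (l : ℕ) :
    ContinuousOn (fun f => qW R S β h u f l) {f : (Fin n → Bool) → ℝ | ∀ σ, 0 < f σ} := cont_pos_ET _ _

lemma continuousOn_oW (l : ℕ) (x : Fin n) :
    ContinuousOn (fun f => oW R S β h u f l x) {f : (Fin n → Bool) → ℝ | ∀ σ, 0 < f σ} := cont_pos_ET _ _

lemma measurable_of_pos {α : Type*} [MeasurableSpace α] {T : Type*} [TopologicalSpace T]
    [MeasurableSpace T] [OpensMeasurableSpace T] {F : T → ℝ} {P : T → Prop}
    (hF : ContinuousOn F {f | P f}) {Φ : α → T} (hΦ : Measurable Φ) (hp : ∀ x, P (Φ x)) :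
    Measurable fun x => F (Φ x) :=
  (continuousOn_iff_continuous_domRestrict.1 hF).measurable.comp (hΦ.subtype_mk (h := hp))

lemma cont_prod_ET {w : List (Mark n S β) → ℝ} (hw : ∀ p, 0 < w p) (T : List (ℕ × ℕ))
    (F : List (List (Mark n S β × Bool)) → ℝ) :
    ContinuousOn (fun c => ET R (lin R) (P157.Full.prodW R w fun p b => c (spinAt R p) b) T F)
      {c : (Fin n → Bool) → Bool → ℝ | ∀ σ b, 0 < c σ b} := by
  rw [continuousOn_iff_continuous_domRestrict]
  exact continuous_ET (X := {c : (Fin n → Bool) → Bool → ℝ | ∀ σ b, 0 < c σ b})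
    (w := fun x => P157.Full.prodW R w fun p b => x.1 (spinAt R p) b)
    (fun p => continuous_const.mul
      ((continuous_apply _).comp ((continuous_apply _).comp continuous_subtype_val)))
    (fun x p => mul_pos (hw _) (x.2 _ _)) R T fun _ => continuous_const

variable {a b : Fin n}

/-- two sites exchanged -/
def swapF (a b : Fin n) (f : (Fin n → Bool) → ℝ) (σ : Fin n → Bool) : ℝ :=
  f fun x => σ (Equiv.swap a b x)

lemma pw_swapF {p : List (Mark n S β)} (hp : p ≠ []) :
    pw R (swapF a b f) h u p = pw R f h u (p.map (markEquiv a b)) := by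
  obtain ⟨o, t, rfl⟩ := List.exists_cons_of_ne_nil hp
  rw [pw, pw, swapF, spinAt_map]
  congr 2
  refine sum_congr rfl fun i _ => ?_
  have hv : spinAt R ((o :: t).map (markEquiv a b))
      (Vale.Agent.P168.MP.siteAt ((o :: t).map (markEquiv a b)) i 1).1 =
      spinAt R (o :: t) (Vale.Agent.P168.MP.siteAt (o :: t) i 1).1 := by
    rw [spinAt_map]
    simp [Vale.Agent.P168.MP.siteAt, markEquiv, Equiv.swap_apply_self]
  rw [gain1, gain1, Vale.Agent.P168.MP.psiH_transfer (β i.1) hv (site_map (o :: t) i),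
    Vale.Agent.P168.MP.psi0_transfer (β i.1) hv (site_map (o :: t) i)]

lemma oW_swap (hR : 1 ≤ R) {l : ℕ} (hl : l ≤ R) (x : Fin n) :
    oW R S β h u (swapF a b f) l x = oW R S β h u f l (Equiv.swap a b x) := by
  unfold oW
  rw [Vale.Agent.P168.MP.ET_congr_weight (valid2 hl)
      (w' := fun p => pw R f h u (p.map (markEquiv a b))) (fun q hq => pw_swapF (by
        rintro rfl; simp at hq; omega)),
    Vale.Agent.P168.MP.ET_equiv (markEquiv a b)]
  congr 1
  funext ps
  rw [show ([] : List (Mark n S β)) = List.map (markEquiv a b).symm [] from rfl, List.getD_map,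
    List.getD_map, show (markEquiv (S := S) (β := β) a b).symm = markEquiv a b from rfl]
  simp [spinAt_map]

lemma qW_avg (l : ℕ) : qW R S β h u f l = avg (oW R S β h u f l) := by
  simp only [qW, qlev, P157.Par.ovK, P157.Par.ov, avg, oW, div_eq_mul_inv,
    Vale.Agent.P168.MP.ET_mul_const, Vale.Agent.P168.MP.ET_sum]

lemma qW_min (l : ℕ) : qW R S β h u f l = qW R S β h u f (min l R) := by
  rcases le_total l R with hl | hl
  · rw [min_eq_left hl]
  · rw [min_eq_right hl]
    simp only [qW, qlev, Vale.Agent.P168.MP.ET_cons, Vale.Agent.P168.MP.ET_nil, Nat.sub_self,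
      Nat.sub_eq_zero_of_le hl, Vale.Agent.P168.MP.ext_zero, List.nil_append, List.cons_append,
      List.getD_cons_zero, List.take_zero, Nat.sub_zero]
    refine P157.Par.ext_congr_len fun p hp => ?_
    rw [List.take_of_length_le (hp.le.trans hl), List.take_of_length_le hp.le]

lemma qW_swap (hR : 1 ≤ R) : qW R S β h u (swapF a b f) = qW R S β h u f := by
  funext l
  rw [qW_min l, qW_min (f := f) l, qW_avg, qW_avg,
    funext (oW_swap (a := a) (b := b) (f := f) hR (min_le_right l R))]
  exact Vale.Agent.P168.MP.avg_equiv (Equiv.swap a b) _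

/-! ### the coupling -/

variable {k : ℕ} (θ : Fin k → ℝ) (lab : Fin n → Fin k)

lemma cont_wJ : Continuous fun U : Mat n => wJ θ lab U :=
  continuous_pi fun σ => continuous_wJU θ lab σ

/-- the permutation matrix of an exchange -/
def swapM (a b : Fin n) : Mat n := fun i j => if Equiv.swap a b i = j then 1 else 0

lemma swapM_orth (a b : Fin n) : Phase.Orth (swapM a b) := by
  show Matrix.of (swapM a b) ∈ Matrix.orthogonalGroup (Fin n) ℝ
  rw [Matrix.mem_orthogonalGroup_iff]
  ext i j
  simp only [Matrix.mul_apply, Matrix.transpose_apply, Matrix.of_apply, swapM, mul_ite, mul_one,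
    mul_zero, Matrix.one_apply]
  rw [sum_ite_eq]
  simp only [mem_univ, if_true]
  exact if_congr (Equiv.swap a b).injective.eq_iff rfl rfl

lemma wJ_mul_swapM (U : Mat n) :
    wJ θ lab (Phase.mul U (swapM a b)) = swapF a b (wJ θ lab U) := by
  funext σ
  have e : ∀ i, cd (Phase.mul U (swapM a b)) σ i = cd U (fun x => σ (Equiv.swap a b x)) i := fun i => by
    simp only [cd, Phase.mul, swapM, mul_ite, mul_one, mul_zero, sum_mul]
    rw [sum_comm]
    refine sum_congr rfl fun x _ => ?_
    simp [ite_mul]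
  simp only [wJ, swapF, e]

/-- **The mean overlap may be read at one site** -/
theorem site_symG {ν : Measure (Mat n)} (hν : IsHaarOrthogonal ν) (hR : 1 ≤ R) (x₀ : Fin n)
    {F : (ℕ → ℝ) → ℝ} {C : ℝ}
    (hc : ContinuousOn (fun f => F (qW R S β h u f)) {f : (Fin n → Bool) → ℝ | ∀ σ, 0 < f σ})
    (hb : ∀ U, |F (qW R S β h u (wJ θ lab U))| ≤ C) {l : ℕ} (hl : l ≤ R) :
    ∫ U, F (qW R S β h u (wJ θ lab U)) * qW R S β h u (wJ θ lab U) l ∂ν =
      ∫ U, F (qW R S β h u (wJ θ lab U)) * oW R S β h u (wJ θ lab U) l x₀ ∂ν := by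
  have := hν.1
  set H : Fin n → Mat n → ℝ := fun x U =>
    F (qW R S β h u (wJ θ lab U)) * oW R S β h u (wJ θ lab U) l x
  have hcont : ∀ x, Continuous (H x) := fun x =>
    (hc.comp_continuous (cont_wJ θ lab) fun U => wJ_pos θ lab U).mul
      ((continuousOn_oW l x).comp_continuous (cont_wJ θ lab) fun U => wJ_pos θ lab U)
  have hint : ∀ x, Integrable (H x) ν := fun x =>
    Integrable.of_bound (hcont x).aestronglyMeasurable C (.of_forall fun U => by
      rw [Real.norm_eq_abs, abs_mul]
      exact (mul_le_mul (hb U) (oW_le (wJ_pos θ lab U) l x) (abs_nonneg _)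
        ((abs_nonneg _).trans (hb U))).trans_eq (mul_one C))
  have key : ∀ x, ∫ U, H x U ∂ν = ∫ U, H x₀ U ∂ν := fun x => by
    have hm : Measurable fun U : Mat n => Phase.mul U (swapM x x₀) :=
      Phase.measurable_mul.comp (measurable_id.prodMk measurable_const)
    conv_rhs => rw [← Phase.map_mul_right hν (swapM_orth x x₀)]
    rw [integral_map hm.aemeasurable (hcont _).aestronglyMeasurable]
    refine integral_congr_ae (.of_forall fun U => ?_)
    simp only [H, wJ_mul_swapM, oW_swap hR hl, Equiv.swap_apply_right, qW_swap hR]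
  calc ∫ U, F (qW R S β h u (wJ θ lab U)) * qW R S β h u (wJ θ lab U) l ∂ν
      = ∫ U, avg (fun x => H x U) ∂ν := by
        simp only [H, Vale.Agent.P168.MP.avg_mul_left, ← qW_avg]
    _ = avg fun x => ∫ U, H x U ∂ν := by
        simp only [avg]; rw [integral_div, integral_finsetSum _ fun x _ => hint x]
    _ = _ := by simp only [key, Vale.Agent.P168.MP.avg_const]; rfl

end Vale.Agent.P166.Gen
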