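import Vale.Agent.P166.Gen.LowSelfMap
import Vale.Agent.P166.Gen.LowSelfSym
import Vale.Agent.P157.Full.Cross

/-! P166 G4 self-consistency: one step at fixed shares and fixed base. -/

open MeasureTheory Finset Real
open Vale.Agent.P150 (gauss)
open Vale.Agent.P168 (sg)
open Vale.Agent.P168.MP (lin ET Batch Mark pw spinAt)
open Vale.Agent.P157.Par (Prof dist1 devOf adev ovK ov devOf_nn adev_nn abs_ov_le)
open Vale.Agent.P157.Full (qh prodW spinPr ov_down grow_pair)

noncomputable section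

namespace Vale.Agent.P166.Gen

set_option linter.unusedSectionVars false

variable {k : ℕ}

lemma cornerE_eq (r θ : Fin k → ℝ) (b : Bool) (x : Fin k → ℝ) :
    cornerE r θ b x = cE ((∑ j, r j * θ j) / 2) (aA r θ) (cA r θ) x b := by
  rw [cornerE, cE, sum_filter, add_right_inj, sum_div, mul_sum, ← sum_add_distrib]
  refine sum_congr rfl fun j _ => ?_
  simp only [aA, cA]
  split_ifs <;> ring

section devs
variable {Ω : Type} [Fintype Ω] [Nonempty Ω] {R N : ℕ} {w : List Ω → ℝ}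

/-- deviations of a rescaled kernel -/
lemma devOf_quot (hw : ∀ p, 0 < w p) {C P : List Ω → List Ω → ℝ} {f W A K : ℝ} (hf : 0 < f)
    (hA : 1 ≤ A * f) (hC : ∀ p p', C p p' = P p p' / f) {u v : ℕ → ℝ} {l : ℕ} (hv : v l = W * u l)
    (hu : |u l| ≤ K) : devOf R w C u l ≤ A * (devOf R w P v l + |W - f| * K) := by
  have hA' : 1 / f ≤ A := by rwa [div_le_iff₀ hf]
  have hb : ∀ ps : List (List Ω), |C (ps.getD 0 []) (ps.getD 1 []) - u l| ≤
      A * (|P (ps.getD 0 []) (ps.getD 1 []) - v l| + |W - f| * K) := fun ps => by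
    rw [hC, div_sub' hf.ne', abs_div, abs_of_pos hf, div_eq_mul_one_div, mul_comm A]
    refine mul_le_mul ?_ hA' (by positivity)
      (add_nonneg (abs_nonneg _) (mul_nonneg (abs_nonneg _) ((abs_nonneg _).trans hu)))
    rw [show P (ps.getD 0 []) (ps.getD 1 []) - f * u l =
      (P (ps.getD 0 []) (ps.getD 1 []) - v l) + (W - f) * u l by rw [hv]; ring]
    refine (abs_add_le _ _).trans (add_le_add le_rfl ?_)
    rw [abs_mul]
    exact mul_le_mul_of_nonneg_left hu (abs_nonneg _)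
  refine (Vale.Agent.P168.MP.ET_mono hw hb).trans_eq ?_
  rw [Vale.Agent.P168.MP.ET_const_mul, Vale.Agent.P168.MP.ET_add, Vale.Agent.P168.MP.ET_const hw]
  rfl

/-- summed over the levels, the deviations of the rows from the levels of the atoms -/
lemma cvDev_sum (hR : 1 ≤ R) (hw : ∀ p, 0 < w p) (lab : Fin N → Fin k) (U : Mat N)
    (rd : List Ω → Fin N → Bool) {wt : Fin k → ℝ} {u v : Fin k → ℕ → ℝ} {A K : ℝ}
    (hA : ∀ j, 1 ≤ A * freq lab j) (hv : ∀ j l, v j l = wt j * u j l) (hu : ∀ j, ∀ l ≤ R, |u j l| ≤ K) :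
    ∑ l ∈ range R, cvDev R w lab U rd u l ≤
      R * (A * (2 * (∑ j, adev R w (fun p p' => pov lab U j (rd p) (rd p')) (v j)) +
        3 * K * ∑ j, |wt j - freq lab j|)) := by
  have hR' : (0:ℝ) < R := by exact_mod_cast hR
  have hj : ∀ j, ∑ l ∈ range R, (devOf R w (cvR lab U rd j) (u j) l + adev R w (cvR lab U rd j) (u j)) ≤
      R * (A * (2 * adev R w (fun p p' => pov lab U j (rd p) (rd p')) (v j) + 3 * K * |wt j - freq lab j|)) := by
    intro j
    set P := fun p p' => pov lab U j (rd p) (rd p')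
    have hf : 0 < freq lab j := by
      rcases (freq_nonneg lab j).eq_or_lt with h | h
      · have := hA j; rw [← h] at this; linarith
      · exact h
    have hA0 : 0 ≤ A := by
      by_contra h
      have := mul_neg_of_neg_of_pos (not_le.1 h) hf
      linarith [hA j]
    have hl : ∀ l ≤ R, devOf R w (cvR lab U rd j) (u j) l ≤
        A * (devOf R w P (v j) l + |wt j - freq lab j| * K) := fun l hl =>
      devOf_quot hw hf (hA j) (fun _ _ => rfl) (hv j l) (hu j l hl)
    have hs : ∑ l ∈ range R, devOf R w (cvR lab U rd j) (u j) l ≤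
        ∑ l ∈ range R, A * devOf R w P (v j) l + R * (A * (|wt j - freq lab j| * K)) := by
      refine (sum_le_sum fun l hl' => (hl l (mem_range.1 hl').le).trans_eq (mul_add _ _ _)).trans_eq ?_
      rw [sum_add_distrib, sum_const, card_range, nsmul_eq_mul]
    have hs' : (∑ l ∈ range R, devOf R w P (v j) l) = R * (adev R w P (v j) - devOf R w P (v j) R) := by
      rw [adev]; field_simp; ring
    rw [← mul_sum, hs'] at hs
    have h1 : R * adev R w (cvR lab U rd j) (u j) =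
        (∑ l ∈ range R, devOf R w (cvR lab U rd j) (u j) l) + R * devOf R w (cvR lab U rd j) (u j) R := by
      rw [adev]; field_simp
    have h2 := mul_le_mul_of_nonneg_left (hl R le_rfl) hR'.le
    have h3 : 0 ≤ (R:ℝ) * (A * devOf R w P (v j) R) := mul_nonneg hR'.le (mul_nonneg hA0 (devOf_nn hw R))
    rw [sum_add_distrib, sum_const, card_range, nsmul_eq_mul, h1]
    linarith
  simp only [cvDev]
  rw [sum_comm]
  refine (sum_le_sum fun j _ => hj j).trans_eq ?_
  simp only [← mul_sum, sum_add_distrib]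

end devs

variable {N R S : ℕ} [NeZero N] {ι : Type} [Fintype ι] [DecidableEq ι] {β : ι → Batch} {h u : ι → ℝ}

/-- the weight of the grown system -/
def fX (e₀ : ℝ) (a c : Fin k → ℝ) (θ' : Fin k → ℝ) (lab : Fin N → Fin k) (U : Mat N) (g : Fin N → ℝ)
    (σ : Fin (N + 1) → Bool) : ℝ :=
  wJ θ' lab U (fun i => σ i.castSucc) *
    exp (cE e₀ a c (fun j => xF lab U g j fun i => σ i.castSucc) (σ (Fin.last N)))

lemma fX_pos (e₀ : ℝ) (a c θ' : Fin k → ℝ) (lab : Fin N → Fin k) (U : Mat N) (g : Fin N → ℝ)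
    (σ : Fin (N + 1) → Bool) : 0 < fX e₀ a c θ' lab U g σ := mul_pos (exp_pos _) (exp_pos _)

/-- the error of a step; `A₀` carries what is small with the atoms -/
def stepErr (w θ θ' : Fin k → ℝ) (lab : Fin N → Fin k) (U : Mat N) (R S : ℕ) (β : ι → Batch)
    (h u : ι → ℝ) (A₀ Kb C : ℝ) : ℝ :=
  A₀ + Kb * (povU w θ θ' lab U R S β h u + devU θ' lab U R S β h u + (∑ j, |w j - freq lab j|) + 1 / √(N:ℝ)) +
    C / ((N:ℝ) + 1)

lemma devU_ge (hR : 1 ≤ R) (θ : Fin k → ℝ) (lab : Fin N → Fin k) (U : Mat N) :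
    adev R (pw (N := N) (S := S) (β := β) R (wJ θ lab U) h u) (ovK (spinAt R)) (qU θ lab U R S β h u) ≤
      devU θ lab U R S β h u :=
  le_add_of_nonneg_right (sum_nonneg fun _ _ => Vale.Agent.P168.MP.mad_nonneg
    (Vale.Agent.P168.MP.ok_lin hR (pwW_pos (wJ_pos θ lab U))) _)

lemma povU_nonneg (w θ θ' : Fin k → ℝ) (lab : Fin N → Fin k) (U : Mat N) :
    0 ≤ povU w θ θ' lab U R S β h u :=
  sum_nonneg fun _ _ => adev_nn (pwW_pos (wJ_pos θ' lab U))

/-- **One step**: given the base, the overlaps move little and the new spin has the law of the field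
the base generates -/
theorem step_self (hG : StmtGain) (L η K : ℝ) : ∃ K₁ : ℝ, 0 ≤ K₁ ∧ ∀ (k : ℕ) (A κ : ℝ), 0 < κ →
    2 * L + 1 + (K + 2) ≤ A → ∃ Kb : ℝ, 0 ≤ Kb ∧
    ∀ {ι : Type} [Fintype ι] [DecidableEq ι] (β : ι → Batch) (R S : ℕ), 2 ≤ R →
    ∃ C : ℝ, 0 ≤ C ∧ ∀ {h u : ι → ℝ}, (∀ i, |h i| ≤ 1) → (∀ i, |u i| ≤ 1) →
    ∀ {N : ℕ} [NeZero N] {δ : ℝ} (w θ : Fin k → ℝ), 0 < η → 0 < δ → δ ≤ 1 → KapFacts L η δ K w θ →
    ∀ (θ' : Fin k → ℝ) (lab : Fin N → Fin k) (U : Mat N), Matrix.of U ∈ Matrix.orthogonalGroup (Fin N) ℝ →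
    (∀ j, 1 ≤ A * freq lab j) → ∀ (e₀ e : ℝ) (a c : Fin k → ℝ), 0 ≤ e → ((k:ℝ) + 1) * e ≤ δ →
    (∀ j, |a j - aA w θ j| ≤ e) → (∀ j, |c j - cA w θ j| ≤ e) → (∀ j, a j ≤ 0) →
      ∫ g, (∑ l ∈ range R, |qW R S β h u (fX e₀ a c θ' lab U g) l - qU θ' lab U R S β h u l|)
          ∂gauss (Fin N) ≤ R * stepErr w θ θ' lab U R S β h u (K₁ * (√δ + κ)) Kb C ∧
      ∑ l ∈ range R, |(∫ g, oW R S β h u (fX e₀ a c θ' lab U g) l (Fin.last N) ∂gauss (Fin N)) -
          qh R (fieldH w θ R (qU θ' lab U R S β h u)) l| ≤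
        R * stepErr w θ θ' lab U R S β h u (K₁ * (√δ + κ)) Kb C := by
  obtain ⟨K₀, hK₀, hgain⟩ := hG ((2 * L + 1) * K + (3 * K + 3) * K)
  obtain ⟨Ks, hKs, hspin⟩ := spin_lip (max ((3 * K + 3) * K) (4 * L ^ 2 / η ^ 4))
  refine ⟨K₀ * (|K| * √(2 * (2 * |L| + 1)) + 1) + 2 * Ks * |(3 * K + 3) * K|, by positivity,
    fun k A κ hκ hA => ?_⟩
  obtain ⟨Kb₀, hKb₀, hg⟩ := hgain k A κ hκ
  refine ⟨K₀ + Kb₀ * (2 * |A| + 3 * |A| * |K| + 1), by positivity, ?_⟩
  intro ι _ _ β R S hR
  obtain ⟨C, hC, hgrow⟩ := grow_pair β R S hR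
  refine ⟨2 * C + 2, by positivity, ?_⟩
  intro h u hh hu N _ δ w θ hη hδ hδ1 H θ' lab U hU hfr e₀ e a c he hek ha hc ha0
  have hR1 : 1 ≤ R := by omega
  have hR' : (0:ℝ) < R := by exact_mod_cast hR1
  have hK := H.K0
  have hL := H.L0
  have hA0 : 0 ≤ A := by linarith
  set wb := pw (N := N) (S := S) (β := β) R (wJ θ' lab U) h u
  have hwb : ∀ p, 0 < wb p := pwW_pos (wJ_pos θ' lab U)
  set q := qU θ' lab U R S β h u with hqdef
  obtain ⟨hq, hq1⟩ : Prof R q 1 ∧ q R = 1 := qW_prof (wJ_pos θ' lab U)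
  -- the data of the corner
  set v := fun j => vlev w θ (θ j) R q
  have hv : ∀ j, Prof R (v j) K := fun j => H.vlev_prof hq j
  obtain ⟨hs1, hs2⟩ := H.move_sums hδ.le hδ1 he hek ha
  obtain ⟨hc1, hc2, -⟩ := H.cpl_sums hδ1 he hek hc
  have hvR : ∀ j, 0 ≤ v j R ∧ v j R ≤ K := fun j => (hv j).upper le_rfl
  have hBa : ∑ j, |a j| * v j R ≤ (2 * L + 1) * K := by
    refine (sum_le_sum fun j _ => mul_le_mul_of_nonneg_left (hvR j).2 (abs_nonneg _)).trans ?_
    rw [← sum_mul]; exact mul_le_mul_of_nonneg_right hs1 hK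
  have hBc : ∑ j, c j ^ 2 * v j R ≤ (3 * K + 3) * K := by
    refine (sum_le_sum fun j _ => mul_le_mul_of_nonneg_left (hvR j).2 (sq_nonneg _)).trans ?_
    rw [← sum_mul]; exact mul_le_mul_of_nonneg_right hc1 hK
  have hsq : √(∑ j, a j ^ 2 * v j R ^ 2) ≤ |K| * √(2 * (2 * |L| + 1)) * √δ := by
    have e : |K| * √(2 * (2 * |L| + 1)) * √δ = √(K ^ 2 * (2 * (2 * L + 1) * δ)) := by
      rw [abs_of_nonneg hK, abs_of_nonneg hL, mul_assoc, ← sqrt_mul (by positivity), sqrt_mul (sq_nonneg K),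
        sqrt_sq hK]
    rw [e]
    refine sqrt_le_sqrt ?_
    refine (sum_le_sum fun j _ => mul_le_mul_of_nonneg_left
      (pow_le_pow_left₀ (hvR j).1 (hvR j).2 2) (sq_nonneg _)).trans ?_
    rw [← sum_mul, mul_comm]
    exact mul_le_mul_of_nonneg_left (hs2.trans_eq (by ring)) (sq_nonneg K)
  obtain ⟨-, hl⟩ := hg hR1 lab U hU wb hwb (spinAt R) e₀ a c v hfr ha0
    (fun j => ((single_le_sum (f := fun i => |a i|) (fun i _ => abs_nonneg _) (mem_univ j)).trans hs1).trans
      (by linarith))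
    (fun j => (hc2 j).trans (by linarith)) (fun j => (hv j).weaken (by linarith))
    (by linarith [mul_nonneg (show (0:ℝ) ≤ 3 * K + 3 by linarith) hK])
    (by linarith [mul_nonneg (show (0:ℝ) ≤ 2 * L + 1 by linarith) hK])
  set hf := fun l => ∑ j, c j ^ 2 * v j l
  set V := fun g : Fin N → ℝ => prodW R wb fun p b => exp (cE e₀ a c (fun j => xF lab U g j (spinAt R p)) b)
  set err := fun l => K₀ * (√(∑ j, a j ^ 2 * v j R ^ 2) + κ) +
    Kb₀ * (cvDev R wb lab U (spinAt R) v l + 1 / √(N:ℝ))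
  -- measurability in the companion vector
  have hm : Measurable fun g : Fin N → ℝ => fX e₀ a c θ' lab U g :=
    measurable_pi_lambda _ fun σ => by unfold fX cE xF; fun_prop
  have hmc : Measurable fun (g : Fin N → ℝ) (σ : Fin N → Bool) (b : Bool) =>
      exp (cE e₀ a c (fun j => xF lab U g j σ) b) :=
    measurable_pi_lambda _ fun σ => measurable_pi_lambda _ fun b => by unfold cE xF; fun_prop
  have hint : ∀ (l : ℕ) (Φ : List (List (Mark N S β × Bool)) → ℝ) (b : ℝ), (∀ ps, |Φ ps| ≤ b) →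
      Integrable (fun g => ET R (lin R) (V g) [(0, l), (0, 0)] Φ) (gauss (Fin N)) := fun l Φ b hb =>
    Integrable.of_bound (measurable_of_pos (cont_prod_ET hwb _ Φ) hmc fun g σ s => exp_pos _).aestronglyMeasurable b
      (.of_forall fun g => (Real.norm_eq_abs _).trans_le
        (Vale.Agent.P168.MP.ET_bound (fun p => mul_pos (hwb _) (exp_pos _)) hb))
  have iO : ∀ l, Integrable (fun g => oW R S β h u (fX e₀ a c θ' lab U g) l (Fin.last N)) (gauss (Fin N)) :=
    fun l => Integrable.of_bound (measurable_of_pos (continuousOn_oW l _) hm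
      fun g => fX_pos e₀ a c θ' lab U g).aestronglyMeasurable 1
      (.of_forall fun g => (Real.norm_eq_abs _).trans_le (oW_le (fX_pos e₀ a c θ' lab U g) l _))
  have iQ : ∀ l < R, Integrable (fun g => |qW R S β h u (fX e₀ a c θ' lab U g) l - q l|) (gauss (Fin N)) :=
    fun l hl' => Integrable.of_bound ((measurable_of_pos (continuousOn_qW l) hm
      fun g => fX_pos e₀ a c θ' lab U g).sub measurable_const).abs.aestronglyMeasurable 1 (.of_forall fun g => by
        have a1 := (qW_prof (R := R) (S := S) (β := β) (h := h) (u := u) (fX_pos e₀ a c θ' lab U g)).1.upper hl'.le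
        have a2 := hq.upper hl'.le
        rw [Real.norm_eq_abs, abs_abs, abs_le]; constructor <;> linarith)
  -- the enlarged system against the product system
  have hgr := fun (g : Fin N → ℝ) {l : ℕ} (hl' : l < R) => hgrow (wJ_pos θ' lab U)
    (c := fun σ b => exp (cE e₀ a c (fun j => xF lab U g j σ) b)) (fun _ _ => exp_pos _) hh hu hl'
  have hN1 : (0:ℝ) < (N:ℝ) + 1 := by positivity
  have hO : ∀ l < R, |(∫ g, oW R S β h u (fX e₀ a c θ' lab U g) l (Fin.last N) ∂gauss (Fin N)) -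
      qh R hf l| ≤ err l + (2 * C + 2) / ((N:ℝ) + 1) := by
    intro l hl'
    have d : |(∫ g, oW R S β h u (fX e₀ a c θ' lab U g) l (Fin.last N) ∂gauss (Fin N)) -
        ∫ g, ET R (lin R) (V g) [(0, l), (0, 0)] (spinPr R) ∂gauss (Fin N)| ≤ (2 * C + 2) / ((N:ℝ) + 1) := by
      have i2 := hint l (spinPr R) 1 fun ps => by
        rw [spinPr, abs_mul, Vale.Agent.P168.abs_sg, Vale.Agent.P168.abs_sg, mul_one]
      rw [← integral_sub (iO l) i2]
      refine abs_integral_le_integral_abs.trans ((integral_mono ((iO l).sub i2).abs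
        (integrable_const (C / ((N:ℝ) + 1))) fun g => ?_).trans ?_)
      · exact hgr g hl' (fun _ s _ s' => sg s * sg s') fun _ s _ s' => by
          rw [abs_mul, Vale.Agent.P168.abs_sg, Vale.Agent.P168.abs_sg, mul_one]
      · rw [integral_const, probReal_univ, one_smul]
        exact div_le_div_of_nonneg_right (by linarith) hN1.le
    have := (hl l hl' q (by rw [abs_of_nonneg (hq.upper hl'.le).1]; exact (hq.upper hl'.le).2)).1
    exact (abs_sub_le _ _ _).trans ((add_le_add d this).trans_eq (add_comm _ _))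
  have hQ : ∀ l < R, ∫ g, |qW R S β h u (fX e₀ a c θ' lab U g) l - q l| ∂gauss (Fin N) ≤
      K₀ * devOf R wb (ovK (spinAt R)) q l + err l + (2 * C + 2) / ((N:ℝ) + 1) := by
    intro l hl'
    have hql := hq.upper hl'.le
    set Φ : List (List (Mark N S β × Bool)) → ℝ := fun ps =>
      |ov (spinAt R ((ps.getD 0 []).map Prod.fst)) (spinAt R ((ps.getD 1 []).map Prod.fst)) - q l|
    have i2 := hint l Φ 2 fun ps => by
      simp only [Φ, abs_abs]
      refine (abs_sub _ _).trans ?_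
      rw [abs_of_nonneg hql.1]
      linarith [abs_ov_le (spinAt R ((ps.getD 0 []).map Prod.fst)) (spinAt R ((ps.getD 1 []).map Prod.fst)), hql.2]
    have hgp : ∀ g, |qW R S β h u (fX e₀ a c θ' lab U g) l - q l| ≤
        ET R (lin R) (V g) [(0, l), (0, 0)] Φ + (2 * C + 2) / ((N:ℝ) + 1) := fun g => by
      have hwz := pwW_pos (R := R) (S := S) (β := β) (h := h) (u := u) (fX_pos e₀ a c θ' lab U g)
      have h1 := hgr g hl' (fun σ _ σ' _ => |ov σ σ' - q l| / 2) fun σ s σ' s' => by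
        rw [abs_of_nonneg (by positivity), div_le_one two_pos]
        refine (abs_sub _ _).trans ?_
        rw [abs_of_nonneg hql.1]
        linarith [abs_ov_le σ σ', hql.2]
      simp only [div_eq_mul_inv _ (2:ℝ), Vale.Agent.P168.MP.ET_mul_const] at h1
      rw [← sub_mul, abs_mul, abs_of_pos (show (0:ℝ) < 2⁻¹ by norm_num)] at h1
      have h1' := (abs_le.1 ((mul_inv_le_iff₀ (two_pos (α := ℝ))).1 h1)).2
      rw [qW, P157.Par.qlev, ← Vale.Agent.P168.MP.ET_const hwz [(0, l), (0, 0)] (q l),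
        ← Vale.Agent.P168.MP.ET_sub]
      refine (Vale.Agent.P168.MP.ET_abs_le hwz _ _).trans ((Vale.Agent.P168.MP.ET_mono hwz (G := fun ps =>
        |ov (fun x => spinAt R (ps.getD 0 []) x.castSucc) (fun x => spinAt R (ps.getD 1 []) x.castSucc) - q l| +
          2 / ((N:ℝ) + 1)) fun ps => ?_).trans ?_)
      · exact (abs_sub_le _ _ _).trans ((add_comm _ _).trans_le (add_le_add le_rfl (ov_down _ _)))
      · rw [Vale.Agent.P168.MP.ET_add, Vale.Agent.P168.MP.ET_const hwz,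
          show (2 * C + 2) / ((N:ℝ) + 1) = C / ((N:ℝ) + 1) * 2 + 2 / ((N:ℝ) + 1) by ring, ← add_assoc]
        simp only [V, Φ, wb, show fX e₀ a c θ' lab U g = fun τ => wJ θ' lab U (fun i => τ i.castSucc) *
          exp (cE e₀ a c (fun j => xF lab U g j fun i => τ i.castSucc) (τ (Fin.last N))) from rfl] at h1' ⊢
        linarith
    refine (integral_mono (iQ l hl') (i2.add (integrable_const _)) hgp).trans ?_
    rw [integral_add' i2 (integrable_const _), integral_const, probReal_univ, one_smul]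
    exact add_le_add (hl l hl' q (by rw [abs_of_nonneg hql.1]; exact hql.2)).2 le_rfl
  -- sums over the levels
  set P := povU w θ θ' lab U R S β h u
  set D := devU θ' lab U R S β h u
  set d := ∑ j, |w j - freq lab j|
  have hP : 0 ≤ P := povU_nonneg w θ θ' lab U
  have hdev : adev R wb (ovK (spinAt R)) q ≤ D := devU_ge hR1 θ' lab U
  have hD : 0 ≤ D := (adev_nn hwb).trans hdev
  have hd : 0 ≤ d := sum_nonneg fun _ _ => abs_nonneg _
  have hN : 0 ≤ 1 / √(N:ℝ) := by positivity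
  have hov : ∑ l ∈ range R, devOf R wb (ovK (spinAt R)) q l ≤ R * D := by
    refine le_trans ?_ (mul_le_mul_of_nonneg_left hdev hR'.le)
    rw [adev, mul_add, mul_div_cancel₀ _ hR'.ne']
    exact le_add_of_nonneg_right (mul_nonneg hR'.le (devOf_nn hwb R))
  have hcv : ∑ l ∈ range R, cvDev R wb lab U (spinAt R) v l ≤ R * (A * (2 * P + 3 * K * d)) :=
    cvDev_sum hR1 hwb lab U (spinAt R) hfr (fun j l => H.levP_eq R q j l) fun j l hl' => by
      rw [abs_of_nonneg ((hv j).upper hl').1]; exact ((hv j).upper hl').2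
  set E₀ := K₀ * ((|K| * √(2 * (2 * |L| + 1)) + 1) * (√δ + κ)) +
    Kb₀ * (A * (2 * P + 3 * K * d) + 1 / √(N:ℝ))
  have herr : ∑ l ∈ range R, err l ≤ R * E₀ := by
    simp only [err, E₀, sum_add_distrib, ← mul_sum, sum_const, card_range, nsmul_eq_mul]
    have h0 : √(∑ j, a j ^ 2 * v j R ^ 2) + κ ≤ (|K| * √(2 * (2 * |L| + 1)) + 1) * (√δ + κ) := by
      have : 0 ≤ |K| * √(2 * (2 * |L| + 1)) * κ := by positivity
      linarith [sqrt_nonneg δ]
    have h1 := mul_le_mul_of_nonneg_left (mul_le_mul_of_nonneg_left h0 hK₀) hR'.le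
    have h2 := mul_le_mul_of_nonneg_left hcv hKb₀
    linarith
  have hE : E₀ + K₀ * D + 2 * Ks * |(3 * K + 3) * K| * δ + (2 * C + 2) / ((N:ℝ) + 1) ≤
      stepErr w θ θ' lab U R S β h u ((K₀ * (|K| * √(2 * (2 * |L| + 1)) + 1) + 2 * Ks * |(3 * K + 3) * K|) *
        (√δ + κ)) (K₀ + Kb₀ * (2 * |A| + 3 * |A| * |K| + 1)) (2 * C + 2) := by
    have hδs : δ ≤ √δ + κ := by
      have : δ ≤ √δ := (Real.le_sqrt hδ.le hδ.le).2 (by rw [sq]; exact mul_le_of_le_one_left hδ.le hδ1)
      linarith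
    have h1 := mul_le_mul_of_nonneg_left hδs (show 0 ≤ 2 * Ks * |(3 * K + 3) * K| by positivity)
    have h2 : 0 ≤ K₀ * (P + d + 1 / √(N:ℝ)) := by positivity
    have h3 : 0 ≤ Kb₀ * ((A + A + 3 * A * K + 1) * D + (3 * A * K + 1) * P + (A + A + 1) * d +
        (A + A + 3 * A * K) * (1 / √(N:ℝ))) := by positivity
    simp only [stepErr, E₀, abs_of_nonneg hA0, abs_of_nonneg hK]
    linarith
  constructor
  · rw [integral_finsetSum _ fun l hl' => iQ l (mem_range.1 hl')]
    refine (sum_le_sum fun l hl' => hQ l (mem_range.1 hl')).trans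
      (le_trans ?_ (mul_le_mul_of_nonneg_left hE hR'.le))
    rw [sum_add_distrib, sum_add_distrib, ← mul_sum, sum_const, card_range, nsmul_eq_mul]
    have h1 := mul_le_mul_of_nonneg_left hov hK₀
    have h2 : 0 ≤ (R:ℝ) * (2 * Ks * |(3 * K + 3) * K| * δ) := by positivity
    linarith
  · have hB : Bdd w θ L η := ⟨H.fine.atoms, H.fine.bd, hη, H.fine.top⟩
    have hhf : Prof R hf ((3 * K + 3) * K) := by
      refine ⟨sum_nonneg fun j _ => mul_nonneg (sq_nonneg _) (hv j).zero,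
        fun l hl' => sum_le_sum fun j _ => mul_le_mul_of_nonneg_left ((hv j).mono l hl') (sq_nonneg _), hBc⟩
    have hn : ∀ l ≤ R, |hf l - fieldH w θ R q l| ≤ δ * (3 * K + 3) * K := fun l hl' =>
      H.field_near hδ.le hδ1 he hek hc hq hl'
    have hds : dist1 R hf (fieldH w θ R q) ≤ 2 * (δ * |(3 * K + 3) * K|) := by
      have hM : δ * (3 * K + 3) * K ≤ δ * |(3 * K + 3) * K| := by
        rw [mul_assoc]; exact mul_le_mul_of_nonneg_left (le_abs_self _) hδ.le
      rw [dist1]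
      have a1 : (∑ l ∈ range R, |hf l - fieldH w θ R q l|) / R ≤ δ * |(3 * K + 3) * K| := by
        rw [div_le_iff₀ hR']
        refine (sum_le_sum fun l hl' => (hn l (mem_range.1 hl').le).trans hM).trans_eq ?_
        rw [sum_const, card_range, nsmul_eq_mul, mul_comm]
      linarith [(hn R le_rfl).trans hM]
    have hs := (hspin R hf (fieldH w θ R q) hR1 (hhf.weaken (le_max_left _ _))
      ((fieldH_prof hB hq).weaken (le_max_right _ _))).1
    have hsum : ∑ l ∈ range R, |qh R hf l - qh R (fieldH w θ R q) l| ≤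
        R * (2 * Ks * |(3 * K + 3) * K| * δ) := by
      refine le_trans ?_ (mul_le_mul_of_nonneg_left (hs.trans ((mul_le_mul_of_nonneg_left hds hKs).trans_eq
        (by ring))) hR'.le)
      rw [dist1, mul_add, mul_div_cancel₀ _ hR'.ne']
      exact le_add_of_nonneg_right (by positivity)
    refine (sum_le_sum fun l hl' => (abs_sub_le _ (qh R hf l) _).trans
      (add_le_add (hO l (mem_range.1 hl')) le_rfl)).trans
      (le_trans ?_ (mul_le_mul_of_nonneg_left hE hR'.le))
    rw [sum_add_distrib, sum_add_distrib, sum_const, card_range, nsmul_eq_mul]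
    have : 0 ≤ (R:ℝ) * (K₀ * D) := by positivity
    linarith

end Vale.Agent.P166.Gen
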