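import Vale.Agent.P166.Gen.LowStepSum
import Vale.Agent.P166.Gen.LowGrid

/-! P166 G4: the lower bound for atoms on a fine grid, from the parts of the step. -/

open MeasureTheory Finset Real Filter
open scoped Topology
open Vale.Agent.P157.Par (Prof adev ovK qlev)
open Vale.Agent.P168.MP (lin pw spinAt allBatch BIdx Batch avg gu gainCap)

noncomputable section

namespace Vale.Agent.P166.Gen

variable {k S R : ℕ} {ι : Type} [Fintype ι] [DecidableEq ι] {β : ι → Batch} {Mp Mw : ℕ}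

/-- the grids and the windows -/
def pertM (ν : ∀ N, Measure (Mat N)) (θ : Fin k → ℝ) (R S : ℕ) (β : ι → Batch) (h : ι → ℝ) (ubp : ℝ)
    (Mp : ℕ) (ubw : ℝ) (Mw : ℕ) {N : ℕ} [NeZero N] (lab : Fin N → Fin k) : ℝ :=
  avg fun g' : Fin k → Fin Mw => avg fun g : ι → Fin Mp =>
    ∫ U, pertU (fun j => θ j + gu ubw Mw g' j) lab R S β h (gu ubp Mp g) U ∂ν N

/-- the mean over the labels at dimension `n + 1` -/
def meanM (ν : ∀ N, Measure (Mat N)) (w θ : Fin k → ℝ) (R S : ℕ) (β : ι → Batch) (h : ι → ℝ) (ubp : ℝ)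
    (Mp : ℕ) (ubw : ℝ) (Mw : ℕ) (n : ℕ) : ℝ :=
  ∑ lab : Fin (n + 1) → Fin k, (∏ i, w (lab i)) * pertM ν θ R S β h ubp Mp ubw Mw lab

lemma abs_avg_le {A : Type*} [Fintype A] [Nonempty A] {f : A → ℝ} {B : ℝ} (h : ∀ a, |f a| ≤ B) :
    |avg f| ≤ B := by
  refine abs_le.2 ⟨?_, ?_⟩
  · exact (Vale.Agent.P168.MP.avg_const (Ω := A) (-B)).symm.trans_le
      (Vale.Agent.P168.MP.avg_le_avg fun a => (abs_le.1 (h a)).1)
  · exact (Vale.Agent.P168.MP.avg_le_avg fun a => (abs_le.1 (h a)).2).trans_eq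
      (Vale.Agent.P168.MP.avg_const (Ω := A) B)

lemma lower_bound_pos {A : Type*} [Fintype A] {f : A → ℝ} (hf : ∀ a, 0 < f a) :
    ∃ γ : ℝ, 0 < γ ∧ ∀ a, γ ≤ f a := by
  refine ⟨1 / (1 + ∑ a, 1 / f a), ?_, fun a => ?_⟩
  · exact div_pos one_pos (add_pos_of_pos_of_nonneg one_pos (sum_nonneg fun a _ => (one_div_pos.2 (hf a)).le))
  · have h : 1 / f a ≤ 1 + ∑ a, 1 / f a := by
      have := single_le_sum (f := fun a => 1 / f a) (fun a _ => (one_div_pos.2 (hf a)).le) (mem_univ a)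
      linarith
    exact (one_div_le_one_div_of_le (one_div_pos.2 (hf a)) h).trans_eq (one_div_one_div _)

section grid
variable {h : ι → ℝ} {ubp ubw L : ℝ} [NeZero Mp] [NeZero Mw] {θ : Fin k → ℝ} {ν : ∀ N, Measure (Mat N)}

omit [Fintype ι] [DecidableEq ι] [NeZero Mp] [NeZero Mw] in
lemma shift_bd (hL : ∀ j, |θ j| ≤ L) (hub : 0 < ubw) (hub1 : ubw ≤ 1) (g : Fin k → Fin Mw) (j : Fin k) :
    |θ j + gu ubw Mw g j| ≤ L + 1 := by
  obtain ⟨a, b⟩ := Vale.Agent.P168.MP.gu_mem hub g j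
  exact (abs_add_le _ _).trans (add_le_add (hL j) (by rw [abs_of_pos a]; exact b.trans hub1))

lemma abs_pertM_le (hν : ∀ N, IsHaarOrthogonal (ν N)) (hR : 1 ≤ R) (hL : ∀ j, |θ j| ≤ L) (hh : ∀ i, |h i| ≤ 1)
    (hu : ∀ (g : ι → Fin Mp) i, |gu ubp Mp g i| ≤ 1) (hub : 0 < ubw) (hub1 : ubw ≤ 1) {N : ℕ} [NeZero N]
    (lab : Fin N → Fin k) :
    |pertM ν θ R S β h ubp Mp ubw Mw lab| ≤ gainCap S β + (L + 1) * N / 2 := by
  refine abs_avg_le fun g' => abs_avg_le fun g => ?_
  have := (hν N).1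
  have hb := norm_integral_le_of_norm_le_const (μ := ν N) (C := gainCap S β + (L + 1) * N / 2)
    (f := pertU (fun j => θ j + gu ubw Mw g' j) lab R S β h (gu ubp Mp g))
    ((hν N).2.1.mono fun U hU => abs_pertU_le hR (shift_bd hL hub hub1 g') hh (hu g) hU)
  simpa using hb

/-- on average over the grids, one step -/
lemma pertM_step {N : ℕ} [NeZero N] (lab : Fin (N + 1) → Fin k) (labs : Fin k → Fin N → Fin k)
    {w : Fin k → ℝ} {v C e : ℝ}
    (hstep : ∀ (g' : Fin k → Fin Mw) (g : ι → Fin Mp),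
      v - C * ∑ i, ∫ U, totDev w θ (fun j => θ j + gu ubw Mw g' j) (labs i) U R S β h (gu ubp Mp g) ∂ν N ≤
        ∫ U, pertU (fun j => θ j + gu ubw Mw g' j) lab R S β h (gu ubp Mp g) U ∂ν (N + 1) -
          avg fun x : Fin (N + 1) =>
            ∫ U, pertU (fun j => θ j + gu ubw Mw g' j) (lab ∘ x.succAbove) R S β h (gu ubp Mp g) U ∂ν N)
    (hdev : ∀ i, (avg fun g' : Fin k → Fin Mw => avg fun g : ι → Fin Mp =>
      ∫ U, totDev w θ (fun j => θ j + gu ubw Mw g' j) (labs i) U R S β h (gu ubp Mp g) ∂ν N) ≤ e)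
    (hC : 0 ≤ C) :
    v - C * (k * e) ≤ pertM ν θ R S β h ubp Mp ubw Mw lab -
      avg fun x : Fin (N + 1) => pertM ν θ R S β h ubp Mp ubw Mw (lab ∘ x.succAbove) := by
  have h1 := Vale.Agent.P168.MP.avg_le_avg fun g' => Vale.Agent.P168.MP.avg_le_avg fun g => hstep g' g
  have h2 : ∑ i, (avg fun g' : Fin k → Fin Mw => avg fun g : ι → Fin Mp =>
      ∫ U, totDev w θ (fun j => θ j + gu ubw Mw g' j) (labs i) U R S β h (gu ubp Mp g) ∂ν N) ≤ k * e :=
    (sum_le_sum fun i _ => hdev i).trans_eq (by simp)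
  simp only [avg_sub, Vale.Agent.P168.MP.avg_mul_left, avg_sum, Vale.Agent.P168.MP.avg_const] at h1
  have e1 : (avg fun x : Fin (N + 1) => pertM ν θ R S β h ubp Mp ubw Mw (lab ∘ x.succAbove)) =
      avg fun g' : Fin k → Fin Mw => avg fun g : ι → Fin Mp => avg fun x : Fin (N + 1) =>
        ∫ U, pertU (fun j => θ j + gu ubw Mw g' j) (lab ∘ x.succAbove) R S β h (gu ubp Mp g) U ∂ν N := by
    simp only [pertM]
    rw [avg_comm]
    exact congrArg avg (funext fun g' => avg_comm _)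
  rw [e1]
  simp only [pertM]
  linarith [mul_le_mul_of_nonneg_left h2 hC]

end grid


/-- the number of sites without one site moves the frequencies by `1/N` -/
lemma freq_drop_le {N : ℕ} (hN : 0 < N) {lab : Fin (N + 1) → Fin k} {lab' : Fin N → Fin k} {i : Fin k}
    (h : ∀ j, cnt lab j = cnt lab' j + if j = i then 1 else 0) (j : Fin k) :
    |freq lab' j - freq lab j| ≤ 1 / N := by
  have hN' : (0:ℝ) < N := by exact_mod_cast hN
  have h0 : (cnt lab j : ℝ) = cnt lab' j + if j = i then 1 else 0 := by exact_mod_cast h j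
  have hle : (cnt lab' j : ℝ) ≤ N := by
    exact_mod_cast (card_le_univ (univ.filter fun x => lab' x = j)).trans_eq (Fintype.card_fin N)
  have hc : (0:ℝ) ≤ cnt lab' j := Nat.cast_nonneg _
  set x : ℝ := if j = i then 1 else 0
  have hx : 0 ≤ x ∧ x ≤ 1 := by simp only [x]; split_ifs <;> norm_num
  have e : freq lab' j - freq lab j = ((cnt lab' j : ℝ) - N * x) / (N * (N + 1)) := by
    rw [freq_eq_cnt, freq_eq_cnt, h0, Nat.cast_add, Nat.cast_one]
    field_simp
    ring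
  have a := mul_le_of_le_one_right hN'.le hx.2
  have b := mul_nonneg hN'.le hx.1
  rw [e, abs_div, abs_of_pos (by positivity : (0:ℝ) < N * (N + 1)), div_le_div_iff₀ (by positivity) hN']
  refine (mul_le_mul_of_nonneg_right (show |(cnt lab' j : ℝ) - N * x| ≤ N + 1 from
    abs_le.2 ⟨by linarith, by linarith⟩) hN'.le).trans_eq ?_
  ring

/-- the increment at labels near the weights, on average over the grids -/
lemma good_step {N : ℕ} [NeZero N] [NeZero Mp] [NeZero Mw] {h : ι → ℝ} {ubp ub τ C Cs εp e v : ℝ}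
    {w θ : Fin k → ℝ} {ν : ∀ N, Measure (Mat N)} (hν : ∀ N, IsHaarOrthogonal (ν N)) (hC : 0 ≤ C) (hCs : 0 ≤ Cs)
    (hub : 0 < ub) (hubτ : ub ≤ τ) (hsep : ∀ i j : Fin k, i < j → ub < θ j - θ i) (hwτ : ∀ j, τ ≤ w j)
    (hN : 2 / τ ≤ (N : ℝ))
    (hst : ∀ (g : ι → Fin Mp) (θ' : Fin k → ℝ) (lab : Fin (N + 1) → Fin k) (labs : Fin k → Fin N → Fin k),
      StrictMono θ' → (∀ j, |θ' j - θ j| ≤ τ) → (∀ j, |freq lab j - w j| ≤ τ) →
      (∀ i j, cnt lab j = cnt (labs i) j + if j = i then 1 else 0) →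
      v - C * ∑ i, ∫ U, totDev w θ θ' (labs i) U R S β h (gu ubp Mp g) ∂ν N ≤
        ∫ U, pertU θ' lab R S β h (gu ubp Mp g) U ∂ν (N + 1) -
          avg fun x : Fin (N + 1) => ∫ U, pertU θ' (lab ∘ x.succAbove) R S β h (gu ubp Mp g) U ∂ν N)
    (hsd : ∀ (g : ι → Fin Mp) (θ' : Fin k → ℝ) (lab : Fin N → Fin k), (∀ j, |θ' j - θ j| ≤ τ) →
      (∀ j, |freq lab j - w j| ≤ τ) → ∫ U, totDev w θ θ' lab U R S β h (gu ubp Mp g) ∂ν N ≤
        εp + Cs * ∫ U, devU θ' lab U R S β h (gu ubp Mp g) ∂ν N)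
    (hgrid : ∀ W : (Fin N → Bool) → ℝ, (∀ σ, 0 < W σ) → avg (fun g : ι → Fin Mp =>
      adev R (pw (S := S) (β := β) R W h (gu ubp Mp g)) (ovK (spinAt R))
        (qlev R (pw (S := S) (β := β) R W h (gu ubp Mp g)) (spinAt R))) ≤ e)
    (hwin : ∀ (lab : Fin N → Fin k) (g : ι → Fin Mp) (U : Mat N),
      Matrix.of U ∈ Matrix.orthogonalGroup (Fin N) ℝ →
      avg (fun g' : Fin k → Fin Mw => madJ R lab U (wU (fun j => θ j + gu ub Mw g' j) lab U
        (gainW (S := S) (β := β) R h (gu ubp Mp g)) (spinAt R)) (spinAt R)) ≤ e)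
    (lab : Fin (N + 1) → Fin k) (hfr : ∀ j, |freq lab j - w j| ≤ τ / 2) :
    v - C * (k * (εp + Cs * (e + e))) ≤ pertM ν θ R S β h ubp Mp ub Mw lab -
      avg fun x : Fin (N + 1) => pertM ν θ R S β h ubp Mp ub Mw (lab ∘ x.succAbove) := by
  have hτ : 0 < τ := hub.trans_le hubτ
  have hsite : ∀ i, ∃ x, lab x = i := fun i => exists_site (by
    by_contra h0
    have := (abs_le.1 (hfr i)).1
    rw [freq_eq_cnt, Nat.le_zero.1 (not_lt.1 h0)] at this
    simp only [Nat.cast_zero, zero_div] at this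
    linarith [hwτ i])
  choose xs hxs using hsite
  set labs : Fin k → Fin N → Fin k := fun i => lab ∘ (xs i).succAbove
  have hcnt : ∀ i j, cnt lab j = cnt (labs i) j + if j = i then 1 else 0 := fun i j => by
    have := cnt_drop lab (xs i) j
    rw [hxs i] at this
    simp only [eq_comm (a := i)] at this
    exact this
  have hfs : ∀ i j, |freq (labs i) j - w j| ≤ τ := fun i j => by
    have h1 := freq_drop_le (Nat.pos_of_ne_zero (NeZero.ne N)) (hcnt i) j
    have h2 : 1 / (N : ℝ) ≤ τ / 2 :=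
      (one_div_le_one_div_of_le (by positivity) hN).trans_eq (one_div_div _ _)
    exact ((abs_sub_le _ (freq lab j) _).trans (add_le_add (h1.trans h2) (hfr j))).trans_eq (by ring)
  have hθ : ∀ (g' : Fin k → Fin Mw) j, |θ j + gu ub Mw g' j - θ j| ≤ τ := fun g' j => by
    obtain ⟨a, b⟩ := Vale.Agent.P168.MP.gu_mem hub g' j
    rw [add_sub_cancel_left, abs_of_pos a]; exact b.trans hubτ
  have hmono : ∀ g' : Fin k → Fin Mw, StrictMono fun j => θ j + gu ub Mw g' j := fun g' i j hij => by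
    have := hsep i j hij
    have := (Vale.Agent.P168.MP.gu_mem hub g' i).2
    have := (Vale.Agent.P168.MP.gu_mem hub g' j).1
    simp only at *
    linarith
  refine pertM_step lab labs
    (fun g' g => hst g _ lab labs (hmono g') (hθ g') (fun j => (hfr j).trans (by linarith)) hcnt) (fun i => ?_) hC
  refine (Vale.Agent.P168.MP.avg_le_avg fun g' => Vale.Agent.P168.MP.avg_le_avg fun g =>
    hsd g _ (labs i) (hθ g') (hfs i)).trans ?_
  simp only [avg_add, Vale.Agent.P168.MP.avg_mul_left, Vale.Agent.P168.MP.avg_const]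
  exact add_le_add le_rfl (mul_le_mul_of_nonneg_left (devU_avg (hν _) θ (labs i) h hgrid (hwin (labs i))) hCs)

/-- one step of the mean over the labels -/
lemma mean_step [NeZero Mp] [NeZero Mw] {h : ι → ℝ} {ubp ub L τ c : ℝ} {w θ : Fin k → ℝ}
    {ν : ∀ N, Measure (Mat N)} (hν : ∀ N, IsHaarOrthogonal (ν N)) (ha : Atoms w θ) (hR : 1 ≤ R)
    (hL : ∀ j, |θ j| ≤ L) (hh : ∀ i, |h i| ≤ 1) (hu : ∀ (g : ι → Fin Mp) i, |gu ubp Mp g i| ≤ 1)
    (hub : 0 < ub) (hub1 : ub ≤ 1) (hτ : 0 < τ) (hτ1 : τ ≤ 1) (n : ℕ)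
    (hgood : ∀ lab : Fin (n + 1 + 1) → Fin k, (∀ j, |freq lab j - w j| ≤ τ / 2) →
      c ≤ pertM ν θ R S β h ubp Mp ub Mw lab -
        avg fun x : Fin (n + 1 + 1) => pertM ν θ R S β h ubp Mp ub Mw (lab ∘ x.succAbove)) :
    meanM ν w θ R S β h ubp Mp ub Mw n + c -
        2 * k * exp (-((τ / 2) ^ 2 / 4)) ^ (n + 1 + 1) * (|c| + 2 * gainCap S β + |L + 1| * (n + 1 + 1 : ℕ)) ≤
      meanM ν w θ R S β h ubp Mp ub Mw (n + 1) := by
  classical
  set P : ∀ {N : ℕ} [NeZero N], (Fin N → Fin k) → ℝ := fun {N} _ lab => pertM ν θ R S β h ubp Mp ub Mw lab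
  set D : (Fin (n + 1 + 1) → Fin k) → ℝ := fun lab =>
    P lab - avg fun x : Fin (n + 1 + 1) => P (lab ∘ x.succAbove)
  have hw0 : ∀ j, 0 ≤ w j := fun j => (ha.pos j).le
  have eD : meanM ν w θ R S β h ubp Mp ub Mw (n + 1) - meanM ν w θ R S β h ubp Mp ub Mw n =
      ∑ lab, (∏ i, w (lab i)) * D lab := by
    simp only [D, mul_sub, sum_sub_distrib, ← Vale.Agent.P168.MP.avg_mul_left, ← avg_sum,
      lab_drop ha.one (fun l => P l), Vale.Agent.P168.MP.avg_const]
    rfl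
  set bad := (univ : Finset (Fin (n + 1 + 1) → Fin k)).filter fun lab => ∃ j, τ / 2 < |freq lab j - w j|
  set X := |c| + 2 * gainCap S β + |L + 1| * (n + 1 + 1 : ℕ)
  have hb : ∀ lab, (∏ i, w (lab i)) * c - (if lab ∈ bad then (∏ i, w (lab i)) * X else 0) ≤
      (∏ i, w (lab i)) * D lab := by
    intro lab
    have hp : 0 ≤ ∏ i, w (lab i) := prod_nonneg fun i _ => hw0 _
    split_ifs with hlab
    · rw [← mul_sub]
      refine mul_le_mul_of_nonneg_left ?_ hp
      have b1 := abs_le.1 (abs_pertM_le (β := β) (S := S) (Mw := Mw) hν hR hL hh hu hub hub1 lab)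
      have b2 := abs_le.1 (abs_avg_le fun x : Fin (n + 1 + 1) =>
        abs_pertM_le (β := β) (S := S) (Mw := Mw) hν hR hL hh hu hub hub1 (lab ∘ x.succAbove))
      have := le_abs_self c
      have := mul_le_mul_of_nonneg_right (le_abs_self (L + 1)) (Nat.cast_nonneg (α := ℝ) (n + 1 + 1))
      have : (L + 1) * ((n + 1 : ℕ) : ℝ) ≤ |L + 1| * ((n + 1 + 1 : ℕ) : ℝ) :=
        mul_le_mul (le_abs_self _) (by exact_mod_cast Nat.le_succ _) (Nat.cast_nonneg _) (abs_nonneg _)
      simp only [D, P, X] at *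
      linarith
    · rw [sub_zero]
      exact mul_le_mul_of_nonneg_left (hgood lab fun j =>
        le_of_not_gt fun hj => hlab (mem_filter.2 ⟨mem_univ _, j, hj⟩)) hp
  have hsum := sum_le_sum fun lab (_ : lab ∈ univ) => hb lab
  rw [← eD, sum_sub_distrib, ← sum_mul, lab_mass ha.one, one_mul, sum_ite_mem, univ_inter, ← sum_mul] at hsum
  have htail := lab_tail (k := k) (n := n + 1 + 1) hw0 ha.one (τ := τ / 2) (by positivity) (by linarith)
    (Nat.succ_pos _)
  have hg0 : 0 ≤ gainCap S β := mul_nonneg (Nat.cast_nonneg _) (sum_nonneg fun j _ => by positivity)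
  have hXm := mul_le_mul_of_nonneg_right htail (show 0 ≤ X by positivity)
  rw [← exp_nat_mul, mul_comm ((n + 1 + 1 : ℕ) : ℝ) (-((τ / 2) ^ 2 / 4))]
  simp only [X] at hXm hsum ⊢
  linarith

/-- **G4**: the lower bound from the rotation identities, the windows and the parts of the step -/
theorem lower_of_parts (hSd : StmtSd) (hW : StmtWindow) (hKap : StmtKap) (hTr : StmtTrial) (hSelf : StmtSelfG)
    (hHead : StmtHead) (hCh : StmtChain) : StmtLowerG := by
  intro L η hη ε hε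
  obtain ⟨δ, hδ, hstep⟩ := step_typ hKap hTr hSelf hHead hCh L η hη (ε / 2) (by positivity)
  refine ⟨δ, hδ, fun k w θ ha hL htop hfine v hv ν hν => ?_⟩
  have hF : Fine L η δ w θ := ⟨ha, hL, htop, hfine⟩
  obtain ⟨τ₀, C, hτ₀, hC, hst⟩ := hstep k w θ hF v hv
  set εp := ε / (16 * (C * k + 1))
  obtain ⟨τs, Cs, hτs, hCs, hsd⟩ := sd_linear hSd ha (ε := εp) (by positivity)
  set e₃ := ε / (32 * (C * k * Cs + 1))
  have he₃ : 0 < e₃ := by positivity
  obtain ⟨R₀, hR₀⟩ := P157.Par.grid_rep he₃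
  set R := max R₀ 2
  have hR2 : 2 ≤ R := le_max_right _ _
  have hR1 : 1 ≤ R := by omega
  obtain ⟨S, Mp, hp, ubp, -, hMp, hp0, hp1, hubp, hubp1, hgrid⟩ := hR₀ R (le_max_left _ _)
  have : NeZero Mp := ⟨hMp.ne'⟩
  set β := allBatch R 2
  set h : BIdx R 2 → ℝ := fun _ => hp
  have hh : ∀ i, |h i| ≤ 1 := fun i => by rw [abs_of_pos hp0]; exact hp1
  have hu : ∀ (g : BIdx R 2 → Fin Mp) i, |gu ubp Mp g i| ≤ 1 := fun g i => by
    obtain ⟨a, b⟩ := Vale.Agent.P168.MP.gu_mem hubp g i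
    rw [abs_of_pos a]; exact b.trans hubp1
  -- the windows
  obtain ⟨wm, hwm, hwmin⟩ := lower_bound_pos ha.pos
  obtain ⟨γ, hγ, hgap⟩ := lower_bound_pos (A := {p : Fin k × Fin k // p.1 < p.2})
    (f := fun p => θ p.1.2 - θ p.1.1) fun p => sub_pos.2 (ha.mono p.2)
  set τ := min (min τ₀ τs) (min wm 1)
  have hτ : 0 < τ := lt_min (lt_min hτ₀ hτs) (lt_min hwm one_pos)
  have tτ₀ : τ ≤ τ₀ := (min_le_left _ _).trans (min_le_left _ _)
  have tτs : τ ≤ τs := (min_le_left _ _).trans (min_le_right _ _)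
  have tτw : τ ≤ wm := (min_le_right _ _).trans (min_le_left _ _)
  set ub := min (min (γ / 2) τ) (min (ε / 16) 1)
  have hub : 0 < ub := lt_min (lt_min (by positivity) hτ) (lt_min (by positivity) one_pos)
  have hub1 : ub ≤ 1 := (min_le_right _ _).trans (min_le_right _ _)
  have hubε : ub ≤ ε / 16 := (min_le_right _ _).trans (min_le_left _ _)
  have hubτ : ub ≤ τ := (min_le_left _ _).trans (min_le_right _ _)
  have hubγ : ub ≤ γ / 2 := (min_le_left _ _).trans (min_le_left _ _)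
  obtain ⟨Nw, hNw⟩ := hW k R hR1 ub hub e₃ he₃
  obtain ⟨Ns, hNs⟩ := hsd R hR1
  have hNst : ∀ g : BIdx R 2 → Fin Mp, _ := fun g => hst β R S hR2 (h := h) (u := gu ubp Mp g) hh (hu g)
  choose Nt hNt using hNst
  set gc := gainCap S β
  set c := v - 3 * ε / 4
  set m : ℝ := exp (-((τ / 2) ^ 2 / 4))
  have hm : Tendsto (fun n : ℕ => 2 * k * (|c| + 2 * gc + |L + 1| * n) * m ^ n) atTop (𝓝 0) := by
    have hm1 : m < 1 := exp_lt_one_iff.2 (neg_lt_zero.2 (by positivity))
    have t1 := (tendsto_pow_atTop_nhds_zero_of_lt_one (exp_pos _).le hm1).const_mul (2 * k * (|c| + 2 * gc))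
    have t2 := (tendsto_self_mul_const_pow_of_lt_one (exp_pos _).le hm1).const_mul (2 * k * |L + 1|)
    have := t1.add t2
    simp only [mul_zero, add_zero] at this
    exact this.congr fun n => by ring
  obtain ⟨n₁, hn₁⟩ := eventually_atTop.1 (hm.eventually_le_const (show 0 < ε / 16 by positivity))
  obtain ⟨n₂, hn₂⟩ := exists_nat_ge (2 / τ)
  set m₀ := max (max Nw Ns) (max (univ.sup Nt) (max n₁ n₂))
  have hk : 0 < k := ha.card_pos
  have hk' : (0:ℝ) < k := by exact_mod_cast hk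
  have hw0 : ∀ j, 0 ≤ w j := fun j => (ha.pos j).le
  set A : ℕ → ℕ → ℝ := fun Mw n => meanM ν w θ R S β h ubp Mp ub Mw n
  have hsep : ∀ i j : Fin k, i < j → ub < θ j - θ i := fun i j hij => by
    have : γ ≤ θ j - θ i := hgap ⟨(i, j), hij⟩
    linarith
  have e1 : C * k * εp ≤ ε / 16 := by
    simp only [εp]; rw [← mul_div_assoc, div_le_iff₀ (by positivity)]
    linarith [mul_nonneg hC hk'.le]
  have e2 : C * k * Cs * (e₃ + e₃) ≤ ε / 16 := by
    simp only [e₃]
    rw [← add_div, ← mul_div_assoc, div_le_iff₀ (by positivity)]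
    linarith [mul_nonneg (mul_nonneg hC hk'.le) hCs]
  have hstep' : ∀ (Mw : ℕ) [NeZero Mw] (n : ℕ), m₀ ≤ n → (n + 1) * (n + 1) ≤ Mw →
      A Mw n + (c - ε / 16) ≤ A Mw (n + 1) := by
    intro Mw _ n hn hMw
    have hle : ∀ {a : ℕ}, a ≤ m₀ → a ≤ n + 1 := fun ha => ha.trans (hn.trans (Nat.le_succ n))
    have hn₂' : 2 / τ ≤ ((n + 1 : ℕ) : ℝ) := hn₂.trans (by
      exact_mod_cast hle ((le_max_right n₁ n₂).trans ((le_max_right _ _).trans (le_max_right _ _))))
    have hgood := fun lab hfr => good_step (β := β) (Mp := Mp) (Mw := Mw) (S := S) (R := R) (h := h)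
      (ubp := ubp) (ub := ub) (τ := τ) (w := w) (θ := θ) (v := v - ε / 2) (N := n + 1) hν hC hCs hub hubτ hsep
      (fun j => tτw.trans (hwmin j)) hn₂'
      (fun g θ' lab labs hmo h1 h2 h3 => hNt g (n + 1)
        (hle ((le_sup (mem_univ g)).trans ((le_max_left _ _).trans (le_max_right _ _)))) θ' lab labs hmo
        (fun j => (h1 j).trans tτ₀) (fun j => (h2 j).trans tτ₀) h3 (ν _) (ν _) (hν _) (hν _))
      (fun g θ' lab h1 h2 => hNs (n + 1) (hle ((le_max_right _ _).trans (le_max_left _ _))) θ' lab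
        (fun j => (h1 j).trans tτs) (fun j => (h2 j).trans tτs) S β h (gu ubp Mp g) (ν (n + 1)) (hν _))
      (fun W hW' => hgrid (n + 1) W hW')
      (fun lab g U hU => hNw (n + 1) (hle ((le_max_left _ _).trans (le_max_left _ _))) Mw hMw θ lab
        (gainW (S := S) (β := β) R h (gu ubp Mp g)) (fun p => gainW_pos p) (spinAt R) U hU) lab hfr
    have h1 := mean_step (β := β) (Mp := Mp) (Mw := Mw) (S := S) (R := R) (h := h) (ubp := ubp) (ub := ub)
      (c := c) (τ := τ) hν ha hR1 hL hh hu hub hub1 hτ ((min_le_right _ _).trans (min_le_right _ _)) n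
      fun lab hfr => le_trans (by simp only [c]; linarith) (hgood lab hfr)
    have hn' := hn₁ (n + 1 + 1) ((hle ((le_max_left n₁ n₂).trans ((le_max_right _ _).trans (le_max_right _ _)))).trans
      (Nat.le_succ _))
    simp only [A, m, gc] at hn' ⊢
    linarith
  clear_value m₀
  -- telescoping with the grid of the final dimension
  set D₀ := |gc + (L + 1) * (m₀ + 1) / 2| + ((m₀ : ℝ) + 1) * |c - ε / 16| + gc
  obtain ⟨n₃, hn₃⟩ := exists_nat_ge (D₀ / (ε / 8))
  refine eventually_atTop.2 ⟨max (m₀ + 1) (n₃ + 1), fun d hd => ?_⟩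
  obtain ⟨j, rfl⟩ : ∃ j, d = m₀ + j + 1 := ⟨d - m₀ - 1, by have := le_of_max_le_left hd; omega⟩
  set Mw := (m₀ + j + 1) * (m₀ + j + 1)
  have : NeZero Mw := ⟨Nat.mul_ne_zero (Nat.succ_ne_zero _) (Nat.succ_ne_zero _)⟩
  have hlow : ∀ i ≤ j, A Mw m₀ + i * (c - ε / 16) ≤ A Mw (m₀ + i) := by
    intro i hi
    induction i with
    | zero => simp
    | succ i ih =>
      have h1 := hstep' Mw (m₀ + i) (Nat.le_add_right _ _) (Nat.mul_le_mul (by omega) (by omega))
      have h2 := ih (by omega)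
      rw [show m₀ + (i + 1) = m₀ + i + 1 by omega]
      push_cast
      linarith
  have h0 : -|gc + (L + 1) * (m₀ + 1) / 2| ≤ A Mw m₀ := by
    refine le_trans ?_ (sum_le_sum fun lab _ => mul_le_mul_of_nonneg_left
      (abs_le.1 (abs_pertM_le (β := β) (S := S) (Mw := Mw) hν hR1 hL hh hu hub hub1 lab)).1
      (prod_nonneg fun i _ => hw0 _))
    rw [← sum_mul, lab_mass ha.one, one_mul]
    push_cast
    linarith [le_abs_self (gc + (L + 1) * ((m₀:ℝ) + 1) / 2)]
  set n : ℝ := ((m₀ + j + 1 : ℕ) : ℝ) with hnn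
  set SN := ∑ lab : Fin (m₀ + j + 1) → Fin k,
    (∏ i, w (lab i)) * ∫ U, pressure 1 (fun i => θ (lab i)) U ∂ν (m₀ + j + 1)
  have hup : A Mw (m₀ + j) ≤ n * SN + gc + ub * n / 2 := by
    have hb : ∀ lab : Fin (m₀ + j + 1) → Fin k, pertM ν θ R S β h ubp Mp ub Mw lab ≤
        n * (∫ U, pressure 1 (fun i => θ (lab i)) U ∂ν (m₀ + j + 1)) + gc + ub * n / 2 := fun lab => by
      refine (Vale.Agent.P168.MP.avg_le_avg fun g' => (Vale.Agent.P168.MP.avg_le_avg fun g => ?_).trans_eq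
        (Vale.Agent.P168.MP.avg_const _)).trans_eq (Vale.Agent.P168.MP.avg_const _)
      have := (hν (m₀ + j + 1)).1
      have ip : Integrable (fun U => pressure 1 (fun i => θ (lab i)) U) (ν (m₀ + j + 1)) :=
        Vale.Agent.P166.integrable_of_continuous (hν _) (Nat.succ_pos _) zero_le_one _ continuous_id
      refine (integral_mono_ae (integrable_haar (hν _) (continuous_pertU _ lab))
        (((ip.const_mul n).add (integrable_const gc)).add (integrable_const (ub * n / 2)))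
        ((hν _).2.1.mono fun U hU => pertU_le_pressure hR1 hh (hu g)
          (fun j => add_le_add le_rfl (Vale.Agent.P168.MP.gu_mem hub g' j).2) hU)).trans_eq ?_
      have i1 : Integrable (fun U => n * pressure 1 (fun i => θ (lab i)) U + gc) (ν (m₀ + j + 1)) :=
        (ip.const_mul n).add (integrable_const gc)
      simp only [Pi.add_apply]
      rw [integral_add i1 (integrable_const _), integral_add (ip.const_mul n) (integrable_const _),
        integral_const_mul, integral_const, integral_const, probReal_univ, one_smul, one_smul]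
    refine (sum_le_sum fun lab _ => mul_le_mul_of_nonneg_left (hb lab) (prod_nonneg fun i _ => hw0 _)).trans_eq ?_
    simp only [mul_add, sum_add_distrib, ← sum_mul, lab_mass ha.one, one_mul, SN, mul_sum]
    congr 2
    exact sum_congr rfl fun lab _ => by ring
  have hl := hlow j le_rfl
  have hnj : n = m₀ + j + 1 := by simp only [hnn]; push_cast; ring
  have hnpos : 0 < n := by rw [hnj]; positivity
  have hD : D₀ ≤ n * (ε / 8) := by
    rw [div_le_iff₀ (by positivity)] at hn₃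
    refine hn₃.trans (mul_le_mul_of_nonneg_right ?_ (by positivity))
    simp only [hnn]
    exact_mod_cast (Nat.le_succ n₃).trans (le_of_max_le_right hd)
  rw [show (j : ℝ) * (c - ε / 16) = n * (c - ε / 16) - ((m₀ : ℝ) + 1) * (c - ε / 16) by rw [hnj]; ring] at hl
  have := mul_le_mul_of_nonneg_left (le_abs_self (c - ε / 16)) (show 0 ≤ (m₀ : ℝ) + 1 by positivity)
  have hubn : ub * n / 2 ≤ n * (ε / 32) := by
    linarith [mul_le_mul_of_nonneg_right hubε hnpos.le]
  have := mul_pos hnpos hε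
  refine le_of_mul_le_mul_left ?_ hnpos
  simp only [D₀, c] at *
  linarith

end Vale.Agent.P166.Gen
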