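import Vale.Agent.P166.Gen.Lower
import Vale.Agent.P166.Gen.LowKap
import Vale.Agent.P166.Gen.LowKapTrial
import Vale.Agent.P166.Gen.LowRoot
import Vale.Agent.P166.Gen.LowGain
import Vale.Agent.P166.Gen.LowGainStep
import Vale.Agent.P166.Gen.LowHead
import Vale.Agent.P166.Gen.LowSelf
import Vale.Agent.P166.Gen.LowChain

/-! P166 G4: the lower bound for atoms on a fine grid. -/

namespace Vale.Agent.P166.Gen

/-- **G4**: the lower bound from the rotation identities, the windows, the corner and the frame -/
theorem lower_gen (hSd : StmtSd) (hW : StmtWindow) (hC : StmtCorner) (hF : StmtFrame) : StmtLowerG :=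
  lower_of_parts hSd hW stmt_kap stmt_trial
    (self_gen stmt_kap stmt_rootNear stmt_trial stmt_gain hC hF)
    (head_bound stmt_rootNear stmt_kap stmt_gain hC hF) (chain_bound stmt_kap hF stmt_step)

end Vale.Agent.P166.Gen
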