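import Vale.Agent.P166.Gen.ReduceD

/-!
# P166: the formula for every compactly supported law, from the modules
-/

open MeasureTheory Filter Finset
open scoped Topology
open Vale.Agent.P157.Full (qh psiH dotH)
open Vale.Agent.P157.Par (Prof)

noncomputable section

namespace Vale.Agent.P166.Gen

variable {μ : Measure ℝ} {β : ℝ}

/-- labels with any given shares -/
def StmtLabels : Prop :=
  ∀ (k : ℕ) (w θ : Fin k → ℝ), Atoms w θ →
    ∃ lab : ∀ N, Fin N → Fin k, ∀ j, Tendsto (fun N => freq (lab N) j) atTop (𝓝 (w j))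

/-- a lower bound for random labels passes to given labels -/
def StmtLabLower : Prop :=
  ∀ (k : ℕ) (w θ : Fin k → ℝ), Atoms w θ → ∀ lab : ∀ N, Fin N → Fin k,
    (∀ j, Tendsto (fun N => freq (lab N) j) atTop (𝓝 (w j))) →
    ∀ ν : ∀ N, Measure (Mat N), (∀ N, IsHaarOrthogonal (ν N)) → ∀ c : ℝ,
    (∀ᶠ N in atTop, c ≤ ∑ l : Fin N → Fin k, (∏ i, w (l i)) * ∫ U, pressure 1 (fun i => θ (l i)) U ∂ν N) →
    ∀ ε : ℝ, 0 < ε → ∀ᶠ N in atTop, c - ε ≤ ∫ U, pressure 1 (fun i => θ (lab N i)) U ∂ν N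

/-- spectra of laws tending to `μ` whose mean pressures approach `p` give the limit for `μ` -/
def StmtStage : Prop :=
  ∀ (μ : Measure ℝ) (L : ℝ), IsProbabilityMeasure μ → IsCompact μ.support → ∀ β : ℝ, 0 ≤ β →
    ∀ (X : ℕ → ∀ N : ℕ, Fin N → ℝ) (T : ℕ → BoundedContinuousFunction ℝ ℝ → ℝ) (p : ℝ),
    (∀ n N i, |X n N i| ≤ L) → (∀ n N i, X n N i ≤ topS μ) →
    (∀ n g, Tendsto (fun N : ℕ => (∑ i, g (X n N i)) / (N:ℝ)) atTop (𝓝 (T n g))) →
    (∀ g : BoundedContinuousFunction ℝ ℝ, Tendsto (fun n => T n g) atTop (𝓝 (∫ x, g x ∂μ))) →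
    ∀ ν : ∀ N, Measure (Mat N), (∀ N, IsHaarOrthogonal (ν N)) →
    (∀ ε : ℝ, 0 < ε → ∀ᶠ n in atTop, ∀ᶠ N in atTop, |∫ U, pressure β (X n N) U ∂ν N - p| ≤ ε) →
    ∀ lam : ∀ N : ℕ, Fin N → ℝ, Admissible μ lam → ∀ ε : ℝ, 0 < ε →
      Tendsto (fun N : ℕ => (ν N).real {U | ε ≤ |pressure β (lam N) U - p|}) atTop (𝓝 0)

lemma pressure_scale {N : ℕ} (β : ℝ) (x : Fin N → ℝ) (U : Mat N) :
    pressure 1 (fun i => β * x i) U = pressure β x U := by
  simp only [pressure, Finset.mul_sum, Finset.sum_mul]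
  congr 2
  refine sum_congr rfl fun σ _ => congrArg _ (congrArg Real.exp ?_)
  exact sum_congr rfl fun i _ => sum_congr rfl fun j _ => sum_congr rfl fun k _ => by ring

lemma sum_labels {k N : ℕ} (lab : Fin N → Fin k) (f : Fin k → ℝ) :
    (∑ i, f (lab i)) / (N:ℝ) = ∑ j, freq lab j * f j := by
  rw [← sum_fiberwise_of_maps_to (t := univ) (g := lab) fun i _ => Finset.mem_univ _, sum_div]
  refine sum_congr rfl fun j _ => ?_
  rw [sum_congr rfl fun i (hi : i ∈ univ.filter fun i => lab i = j) => by rw [(Finset.mem_filter.1 hi).2],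
    sum_const, nsmul_eq_mul, freq]
  ring

/-- grid sizes fine enough for given accuracies -/
lemma exists_sizes (δ : ℕ → ℝ) (hδ : ∀ n, 0 < δ n) (a : ℝ) :
    ∃ ms : ℕ → ℕ, (∀ n, 1 ≤ ms n) ∧ Tendsto ms atTop atTop ∧ ∀ n, a / (ms n : ℝ) ≤ δ n := by
  choose f hf using fun n => exists_nat_ge (a / δ n)
  refine ⟨fun n => f n + n + 1, fun n => Nat.le_add_left 1 _,
    tendsto_atTop_mono (fun n => show n ≤ f n + n + 1 by omega) tendsto_id, fun n => ?_⟩
  push_cast
  rw [div_le_iff₀ (by positivity), ← div_le_iff₀' (hδ n)]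
  linarith [hf n, Nat.cast_nonneg (α := ℝ) n]

/-- **the formula**: for every compactly supported law, every admissible spectra and every `β > 0`,
the pressure tends in probability to the infimum over the paths -/
theorem formula_pos (hu : StmtUpperG) (hl : StmtLowerG) (hlab : StmtLabels) (hll : StmtLabLower)
    (hst : StmtStage) (hp : IsProbabilityMeasure μ) (hc : IsCompact μ.support) (hβ : 0 < β)
    {ν : ∀ N : ℕ, Measure (Mat N)} (hν : ∀ N, IsHaarOrthogonal (ν N))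
    {lam : ∀ N : ℕ, Fin N → ℝ} (hlam : Admissible μ lam) {ε : ℝ} (hε : 0 < ε) :
    Tendsto (fun N : ℕ => (ν N).real {U | ε ≤ |pressure β (lam N) U - sInf (mValues β μ)|})
      atTop (𝓝 0) := by
  obtain ⟨L, hL, hB⟩ := exists_box hp hc
  obtain ⟨hne, hbd⟩ := mValues_ok hB hβ.le
  set p := sInf (mValues β μ)
  set ηs : ℕ → ℝ := fun n => 1 / ((n:ℝ) + 3)
  have hη : ∀ n, 0 < ηs n ∧ 2 * ηs n ≤ 1 := fun n => by
    refine ⟨by positivity, ?_⟩
    simp only [ηs]
    rw [← mul_div_assoc, mul_one, div_le_one (by positivity)]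
    linarith [Nat.cast_nonneg (α := ℝ) n]
  have hη0 : Tendsto ηs atTop (𝓝 0) :=
    tendsto_const_nhds.div_atTop (tendsto_atTop_add_const_right _ _ tendsto_natCast_atTop_atTop)
  choose δ hδ hlow using fun n => hl (β * (3 * L + 1)) (ηs n) (hη n).1 (1 / ((n:ℝ) + 1)) (by positivity)
  obtain ⟨ms, hms, hm, hgap⟩ := exists_sizes δ hδ (β * (2 * L + 1))
  have ha := fun n => gwt_atoms hB (hη n).1 (hη n).2 (hms n)
  have hb := fun n => scale_atoms (ha n) hβ
  choose lab hfreq using fun n => hlab _ _ _ (hb n)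
  refine hst μ (3 * L + 1) hp hc β hβ.le (fun n N i => gpt μ L (ms n) (lab n N i))
    (fun n g => ∑ i, gwt μ L (ηs n) (ms n) i * g (gpt μ L (ms n) i)) p
    (fun n N i => (gpt_mem hB _).2) (fun n N i => (gpt_mem hB _).1.2) (fun n g => ?_) (fun g => ?_)
    ν hν (fun e he => ?_) lam hlam ε hε
  · simp only [sum_labels (lab n _) fun j => g (gpt μ L (ms n) j)]
    exact tendsto_finsetSum _ fun j _ => (hfreq n j).mul_const _
  · exact tendsto_test hB hη hη0 hms hm g.continuous.continuousOn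
  · obtain ⟨v, ⟨R, h, V, hR, hh, rfl⟩, hv⟩ := exists_lt_of_csInf_lt hne (show p < p + e / 3 by linarith)
    filter_upwards [disc_values hB hη hη0 hms hm hβ (show 0 < e / 3 by linarith),
      (tendsto_one_div_add_atTop_nhds_zero_nat (𝕜 := ℝ)).eventually_le_const (show (0:ℝ) < e / 3 by linarith)]
      with n hn hn1
    have hsc : ∀ N (l : Fin N → Fin (ms n + 1)) U,
        pressure 1 (fun i => β * gpt μ L (ms n) (l i)) U = pressure β (fun i => gpt μ L (ms n) (l i)) U :=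
      fun N l U => pressure_scale β (fun i => gpt μ L (ms n) (l i)) U
    have hlo := hlow n _ _ _ (hb n)
      (fun j => by
        rw [abs_mul, abs_of_pos hβ]; exact mul_le_mul_of_nonneg_left (gpt_mem hB j).2 hβ.le)
      (fun j hj => gwt_top (hη n).1.le (hη n).2 hj)
      (fun i j hij => by
        rw [← mul_sub, gpt_gap hij, ← mul_div_assoc]; exact hgap n)
      (p - e / 3) (fun R h V hR hh => by
        linarith [(abs_le.1 (hn R h V hR hh)).1, csInf_le hbd ⟨R, h, V, hR, hh, rfl⟩]) ν hν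
    filter_upwards [hll _ _ _ (hb n) (lab n) (hfreq n) ν hν _ hlo (e / 3) (by linarith),
      hu _ _ _ (hb n) (lab n) (hfreq n) ν hν R h V hR hh (e / 3) (by linarith)] with N h1 h2
    simp only [hsc] at h1 h2
    have h3 := (abs_le.1 (hn R h V hR hh)).2
    rw [abs_le]
    constructor <;> linarith

lemma pressure_zero {N : ℕ} (lam : Fin N → ℝ) (U : Mat N) : pressure 0 lam U = 0 := by
  simp [pressure]

/-- at `β = 0` the infimum is zero -/
lemma sInf_zero (hp : IsProbabilityMeasure μ) (hc : IsCompact μ.support) : sInf (mValues 0 μ) = 0 := by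
  obtain ⟨L, -, hB⟩ := exists_box hp hc
  obtain ⟨hne, hbd⟩ := mValues_ok hB le_rfl
  have h0 : Prof 1 (fun _ => (0:ℝ)) 0 := ⟨le_rfl, fun _ _ => le_rfl, le_rfl⟩
  refine le_antisymm ((csInf_le hbd ⟨1, fun _ => 0, 0, le_rfl, h0, rfl⟩).trans_eq ?_) (le_csInf hne ?_)
  · have : spinH 1 (fun _ => (0:ℝ)) = 0 := by
      simp [spinH, psiH, dotH, Vale.Agent.P157.Par.Phi, Vale.Agent.P157.Par.Vn, Vale.Agent.P168.MP.lin]
    simp [mForm, this]
  · rintro v ⟨R, h, V, hR, hh, rfl⟩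
    simpa [mForm] using spinH_nonneg hR hh

/-- **the formula**, every `β ≥ 0` -/
theorem formula_all (hu : StmtUpperG) (hl : StmtLowerG) (hlab : StmtLabels) (hll : StmtLabLower)
    (hst : StmtStage) (hp : IsProbabilityMeasure μ) (hc : IsCompact μ.support) (hβ : 0 ≤ β)
    {ν : ∀ N : ℕ, Measure (Mat N)} (hν : ∀ N, IsHaarOrthogonal (ν N))
    {lam : ∀ N : ℕ, Fin N → ℝ} (hlam : Admissible μ lam) {ε : ℝ} (hε : 0 < ε) :
    Tendsto (fun N : ℕ => (ν N).real {U | ε ≤ |pressure β (lam N) U - sInf (mValues β μ)|})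
      atTop (𝓝 0) := by
  rcases hβ.eq_or_lt with rfl | hb
  · simp [sInf_zero hp hc, pressure_zero, hε.not_ge]
  · exact formula_pos hu hl hlab hll hst hp hc hb hν hlam hε

end Vale.Agent.P166.Gen
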