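import Vale.Agent.P166.Gen.ReduceR
import Vale.Agent.P157.Full.Tangent
import Vale.Agent.P166.Par.Cut

/-!
# P166: the discretisation of a law and the values along it

Atoms on a grid that ends at the top of the support, with a mass `η` added at the top and `η` spread
over the grid. The values of the discretised laws tend to the values of the law, uniformly in the path.
-/

open MeasureTheory Filter Finset
open scoped Topology
open Vale.Agent.P157.Full (qh psiH dotH)
open Vale.Agent.P157.Par (Prof)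
open Vale.Agent.P168.MP (lin)

noncomputable section

namespace Vale.Agent.P166.Gen

open Par.Multi (xiD xiD_mem continuous_xiD)

variable {μ : Measure ℝ} {L η β : ℝ} {m : ℕ}

/-- grid points -/
def gpt (μ : Measure ℝ) (L : ℝ) (m : ℕ) (i : Fin (m + 1)) : ℝ :=
  topS μ - (2 * L + 1) + (2 * L + 1) * (i : ℕ) / m

/-- the grid point at or below a point -/
def gidx (μ : Measure ℝ) (L : ℝ) (m : ℕ) (x : ℝ) : Fin (m + 1) :=
  ⟨min ⌊(x - (topS μ - (2 * L + 1))) * m / (2 * L + 1)⌋₊ m, Nat.lt_succ_of_le (min_le_right _ _)⟩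

/-- the weights -/
def gwt (μ : Measure ℝ) (L η : ℝ) (m : ℕ) (i : Fin (m + 1)) : ℝ :=
  (1 - 2 * η) * μ.real (gidx μ L m ⁻¹' {i}) + η / (m + 1) + if i = Fin.last m then η else 0

lemma measurable_gidx : Measurable (gidx μ L m) := by
  refine measurable_to_countable' fun i => ?_
  have h : Measurable fun x : ℝ => min ⌊(x - (topS μ - (2 * L + 1))) * m / (2 * L + 1)⌋₊ m :=
    (Nat.measurable_floor.comp (by fun_prop)).min measurable_const
  convert h (measurableSet_singleton (i : ℕ)) using 1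
  ext x
  simp [gidx, Fin.ext_iff]

lemma sum_cell [IsProbabilityMeasure μ] (g : Fin (m + 1) → ℝ) :
    ∑ i, μ.real (gidx μ L m ⁻¹' {i}) * g i = ∫ x, g (gidx μ L m x) ∂μ := by
  have hm := measurable_gidx (μ := μ) (L := L) (m := m)
  rw [← integral_map hm.aemeasurable (measurable_of_countable g).aestronglyMeasurable]
  have : IsProbabilityMeasure (μ.map (gidx μ L m)) := Measure.isProbabilityMeasure_map hm.aemeasurable
  rw [integral_fintype Integrable.of_finite]
  refine sum_congr rfl fun i _ => ?_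
  rw [smul_eq_mul, map_measureReal_apply hm (measurableSet_singleton i)]

section law
variable (hB : Box μ L)
include hB

lemma width_pos : 0 < 2 * L + 1 := by linarith [L_nonneg hB]

lemma gwt_atoms (hη : 0 < η) (hη1 : 2 * η ≤ 1) (hm : 1 ≤ m) : Atoms (gwt μ L η m) (gpt μ L m) := by
  have := hB.prob
  have hm' : (0:ℝ) < m := by exact_mod_cast hm
  refine ⟨fun i => ?_, ?_, fun i j hij => ?_⟩
  · have h1 : 0 ≤ (1 - 2 * η) * μ.real (gidx μ L m ⁻¹' {i}) :=
      mul_nonneg (by linarith) measureReal_nonneg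
    have h2 : 0 < η / ((m:ℝ) + 1) := by positivity
    have h3 : 0 ≤ if i = Fin.last m then η else 0 := by split <;> linarith
    simp only [gwt]; linarith
  · have h := sum_cell (μ := μ) (L := L) (m := m) fun _ => 1
    simp only [mul_one, integral_const, probReal_univ, one_smul] at h
    simp only [gwt, sum_add_distrib, ← mul_sum, h, sum_ite_eq', Finset.mem_univ, if_true, sum_const, card_univ,
      Fintype.card_fin, nsmul_eq_mul]
    push_cast
    field_simp
    ring
  · have hW := width_pos hB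
    have : ((i : ℕ) : ℝ) < (j : ℕ) := Nat.cast_lt.2 hij
    simp only [gpt]
    gcongr

omit hB in
lemma gpt_gap {i j : Fin (m + 1)} (h : (i : ℕ) + 1 = j) : gpt μ L m j - gpt μ L m i = (2 * L + 1) / m := by
  simp only [gpt, ← h]
  push_cast
  ring

lemma gpt_mem (i : Fin (m + 1)) :
    gpt μ L m i ∈ Set.Icc (topS μ - (2 * L + 1)) (topS μ) ∧ |gpt μ L m i| ≤ 3 * L + 1 := by
  have hW := width_pos hB
  have hb := abs_le.1 (abs_topS hB)
  have h0 : 0 ≤ (2 * L + 1) * (i : ℕ) / m := by positivity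
  have h1 : (2 * L + 1) * (i : ℕ) / m ≤ 2 * L + 1 := by
    rcases Nat.eq_zero_or_pos m with rfl | hm
    · simp [hW.le]
    · rw [div_le_iff₀ (by exact_mod_cast hm)]
      exact mul_le_mul_of_nonneg_left (by exact_mod_cast i.is_le) hW.le
  refine ⟨⟨by simp only [gpt]; linarith, by simp only [gpt]; linarith⟩, abs_le.2 ⟨?_, ?_⟩⟩ <;>
    simp only [gpt] <;> linarith

omit hB in
lemma gwt_top [IsProbabilityMeasure μ] (hη : 0 ≤ η) (hη1 : 2 * η ≤ 1) {j : Fin (m + 1)} (hj : ∀ i, i ≤ j) :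
    η ≤ gwt μ L η m j := by
  have h1 : 0 ≤ (1 - 2 * η) * μ.real (gidx μ L m ⁻¹' {j}) := mul_nonneg (by linarith) measureReal_nonneg
  have h2 : 0 ≤ η / ((m:ℝ) + 1) := by positivity
  rw [gwt, if_pos (le_antisymm (Fin.le_last j) (hj _))]
  linarith

omit hB in
lemma gpt_top (hm : 1 ≤ m) : gpt μ L m (Fin.last m) = topS μ := by
  have : (m:ℝ) ≠ 0 := Nat.cast_ne_zero.2 (by omega)
  simp only [gpt, Fin.val_last]
  field_simp
  ring

lemma gpt_gidx (hm : 1 ≤ m) {x : ℝ} (hx : |x| ≤ L ∧ x ≤ topS μ) :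
    |gpt μ L m (gidx μ L m x) - x| ≤ (2 * L + 1) / m := by
  have hW := width_pos hB
  have hm' : (0:ℝ) < m := by exact_mod_cast hm
  have hb := abs_le.1 (abs_topS hB)
  set u := (x - (topS μ - (2 * L + 1))) * m / (2 * L + 1)
  have hu0 : 0 ≤ u := div_nonneg (mul_nonneg (by linarith [(abs_le.1 hx.1).1]) hm'.le) hW.le
  have hum : u ≤ m := by
    rw [div_le_iff₀ hW, mul_comm (m:ℝ)]
    exact mul_le_mul_of_nonneg_right (by linarith [hx.2]) hm'.le
  have hi : ((gidx μ L m x : ℕ) : ℝ) = (⌊u⌋₊ : ℝ) := by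
    simp only [gidx]
    rw [min_eq_left (Nat.floor_le_of_le hum)]
  have e : x = topS μ - (2 * L + 1) + (2 * L + 1) * u / m := by simp only [u]; field_simp; ring
  simp only [gpt, hi]
  have h1 := Nat.floor_le hu0
  have h2 := Nat.lt_floor_add_one u
  have h3 : (2 * L + 1) / m * (u - ⌊u⌋₊) ≤ (2 * L + 1) / m :=
    mul_le_of_le_one_right (by positivity) (by linarith)
  have h4 : 0 ≤ (2 * L + 1) / m * (u - ⌊u⌋₊) := mul_nonneg (by positivity) (by linarith)
  conv_lhs => rw [e]
  rw [show topS μ - (2 * L + 1) + (2 * L + 1) * (⌊u⌋₊ : ℝ) / m - (topS μ - (2 * L + 1) + (2 * L + 1) * u / m) =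
    -((2 * L + 1) / m * (u - ⌊u⌋₊)) by ring, abs_neg, abs_of_nonneg h4]
  exact h3

variable {ηs : ℕ → ℝ} {ms : ℕ → ℕ}

/-- the discretised laws tend weakly to the law -/
theorem tendsto_test (hη : ∀ n, 0 < ηs n ∧ 2 * ηs n ≤ 1) (hη0 : Tendsto ηs atTop (𝓝 0))
    (hms : ∀ n, 1 ≤ ms n) (hm : Tendsto ms atTop atTop) {g : ℝ → ℝ}
    (hg : ContinuousOn g (Set.Icc (topS μ - (2 * L + 1)) (topS μ))) :
    Tendsto (fun n => ∑ i, gwt μ L (ηs n) (ms n) i * g (gpt μ L (ms n) i)) atTop (𝓝 (∫ x, g x ∂μ)) := by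
  have := hB.prob
  obtain ⟨C, hC⟩ := isCompact_Icc.exists_bound_of_continuousOn hg
  have hC0 : 0 ≤ C := (norm_nonneg _).trans (hC _ (gpt_mem hB (Fin.last (ms 0))).1)
  have hb := abs_le.1 (abs_topS hB)
  have key : ∀ (m : ℕ) (i : Fin (m + 1)), ‖g (gpt μ L m i)‖ ≤ C := fun m i => hC _ (gpt_mem hB i).1
  set I := fun n => ∫ x, g (gpt μ L (ms n) (gidx μ L (ms n) x)) ∂μ
  have hI : Tendsto I atTop (𝓝 (∫ x, g x ∂μ)) := by
    refine tendsto_integral_of_dominated_convergence (fun _ => C)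
      (fun n => ((measurable_of_countable fun i => g (gpt μ L (ms n) i)).comp measurable_gidx).aestronglyMeasurable)
      (integrable_const C) (fun n => .of_forall fun x => key _ _) ?_
    filter_upwards [ae_mem hB] with x hx
    have hxI : x ∈ Set.Icc (topS μ - (2 * L + 1)) (topS μ) := ⟨by linarith [(abs_le.1 hx.1).1], hx.2⟩
    refine (hg x hxI).tendsto.comp (tendsto_nhdsWithin_iff.2 ⟨?_, .of_forall fun n => (gpt_mem hB _).1⟩)
    rw [tendsto_iff_norm_sub_tendsto_zero]
    refine squeeze_zero (fun n => norm_nonneg _)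
      (fun n => (Real.norm_eq_abs _).trans_le (gpt_gidx hB (hms n) hx)) ?_
    exact tendsto_const_nhds.div_atTop (tendsto_natCast_atTop_atTop.comp hm)
  rw [tendsto_iff_norm_sub_tendsto_zero]
  refine squeeze_zero (fun n => norm_nonneg _) (g := fun n => 4 * C * ηs n + ‖I n - ∫ x, g x ∂μ‖) (fun n => ?_) ?_
  · set m := ms n
    set e := ηs n
    obtain ⟨he, -⟩ := hη n
    have hgI : |I n| ≤ C := by
      refine (norm_integral_le_of_norm_le_const (μ := μ) (C := C) (.of_forall fun x => key _ _)).trans_eq ?_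
      simp
    have e1 : ∑ i, gwt μ L e m i * g (gpt μ L m i) = (1 - 2 * e) * I n +
        (e / ((m:ℝ) + 1) * ∑ i, g (gpt μ L m i) + e * g (gpt μ L m (Fin.last m))) := by
      simp only [gwt, add_mul, sum_add_distrib, mul_assoc, ← mul_sum, ite_mul, zero_mul, sum_ite_eq',
        Finset.mem_univ, if_true, add_assoc]
      rw [sum_cell fun i => g (gpt μ L m i)]
    have h1 : |∑ i, g (gpt μ L m i)| ≤ C * ((m:ℝ) + 1) := by
      refine (abs_sum_le_sum_abs _ _).trans ((sum_le_sum fun i _ => key m i).trans_eq ?_)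
      simp [mul_comm]
    have h2 : |e / ((m:ℝ) + 1) * ∑ i, g (gpt μ L m i)| ≤ e * C := by
      rw [abs_mul, abs_of_pos (by positivity)]
      refine (mul_le_mul_of_nonneg_left h1 (by positivity)).trans_eq ?_
      field_simp
    have h3 : |e * g (gpt μ L m (Fin.last m))| ≤ e * C := by
      rw [abs_mul, abs_of_pos he]; exact mul_le_mul_of_nonneg_left (key _ _) he.le
    have h4 : |e * I n| ≤ e * C := by
      rw [abs_mul, abs_of_pos he]; exact mul_le_mul_of_nonneg_left hgI he.le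
    rw [abs_le] at h2 h3 h4
    rw [Real.norm_eq_abs, Real.norm_eq_abs, abs_le]
    have := abs_le.1 (le_refl |I n - ∫ x, g x ∂μ|)
    constructor <;> linarith [e1, this.1, this.2]
  · simpa using (hη0.const_mul (4 * C)).add (tendsto_iff_norm_sub_tendsto_zero.1 hI)

omit hB in
lemma scale_atoms {k : ℕ} {w x : Fin k → ℝ} (ha : Atoms w x) (hβ : 0 < β) : Atoms w fun i => β * x i :=
  ⟨ha.pos, ha.one, fun _ _ h => mul_lt_mul_of_pos_left (ha.mono h) hβ⟩

omit hB in
lemma zat_scale {k : ℕ} {w x : Fin k → ℝ} (ha : Atoms w x) (hβ : 0 < β) {y : ℝ} (hy : 0 < y) :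
    zat w (fun i => β * x i) y = β * zat w x (β * y) := by
  obtain ⟨h1, h2⟩ := ha.zat_spec (mul_pos hβ hy)
  set z := zat w x (β * y)
  have e : gat w (fun i => β * x i) (β * z) = y := by
    simp only [gat, ← mul_sub, div_mul_eq_div_div_swap, ← sum_div] at h2 ⊢
    rw [h2]; field_simp
  have := (scale_atoms ha hβ).zat_eq (z := β * z) fun j => mul_lt_mul_of_pos_left (h1 j) hβ
  rwa [e] at this

/-- the R-transforms of the discretised laws converge at every point of the unit interval -/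
theorem tendsto_Rat (hη : ∀ n, 0 < ηs n ∧ 2 * ηs n ≤ 1) (hη0 : Tendsto ηs atTop (𝓝 0))
    (hms : ∀ n, 1 ≤ ms n) (hm : Tendsto ms atTop atTop) (hβ : 0 < β) {y : ℝ} (hy : 0 ≤ y) :
    Tendsto (fun n => Rat (gwt μ L (ηs n) (ms n)) (fun i => β * gpt μ L (ms n) i) y) atTop
      (𝓝 (β * Rm μ (β * y))) := by
  rcases hy.eq_or_lt with rfl | hy
  · simp only [Rat, lt_irrefl, if_false, mul_zero, Rm, mean]
    refine ((tendsto_test hB hη hη0 hms hm (g := fun t => t) continuousOn_id).const_mul β).congr fun n => ?_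
    rw [mul_sum]; exact sum_congr rfl fun i _ => by simp [mul_left_comm]
  set zn := fun n => zat (gwt μ L (ηs n) (ms n)) (gpt μ L (ms n)) (β * y)
  have ha := fun n => gwt_atoms hB (hη n).1 (hη n).2 (hms n)
  have hby : 0 < β * y := mul_pos hβ hy
  have hlim : Tendsto zn atTop (𝓝 (zed μ (β * y))) := by
    refine zed_limit hB hby (Gn := fun n z => gat (gwt μ L (ηs n) (ms n)) (gpt μ L (ms n)) z)
      tendsto_const_nhds (fun x hx => ?_) (fun x hx => .of_forall fun n h => ?_)
      (fun x hx => .of_forall fun n h => ?_) (.of_forall fun n => ?_)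
    · have h := tendsto_test hB hη hη0 hms hm (g := fun t => 1 / (x - t))
        (continuousOn_const.div (continuousOn_const.sub continuousOn_id) fun t ht => by
          have := ht.2
          exact (sub_pos.2 (lt_of_le_of_lt this hx)).ne')
      simpa [gat, gm, div_eq_mul_inv] using h
    · obtain ⟨h1, h2⟩ := (ha n).zat_spec hby
      by_contra hc
      have := (ha n).gat_lt (fun j => lt_of_le_of_lt (gpt_mem hB j).1.2 hx) (not_le.1 hc)
      simp only [zn] at this
      linarith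
    · obtain ⟨h1, h2⟩ := (ha n).zat_spec hby
      by_contra hc
      have := (ha n).gat_lt h1 (not_le.1 hc)
      linarith
    · have := ((ha n).zat_spec hby).1 (Fin.last (ms n))
      rw [gpt_top (hms n)] at this
      exact this.le
  have e : ∀ n, Rat (gwt μ L (ηs n) (ms n)) (fun i => β * gpt μ L (ms n) i) y =
      β * (zn n - 1 / (β * y)) := fun n => by
    rw [Rat, if_pos hy, zat_scale (ha n) hβ hy]
    simp only [zn]
    field_simp
  simp only [e, Rm, if_pos hby, Rmu]
  exact (hlim.sub_const _).const_mul β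

omit hB in
lemma xiD_pos {R : ℕ} {h : ℕ → ℝ} {V s : ℝ} (hR : 1 ≤ R) (hh : Prof R h V) (hs1 : s < 1) :
    0 < xiD R (qh R h) s := by
  refine div_pos (sum_pos (fun l hl => ?_) (nonempty_range_iff.2 (by omega))) (Nat.cast_pos.2 (by omega))
  have hl' := mem_range.1 hl
  have : qh R h l < 1 := by rw [qh, if_pos hl']; exact Vale.Agent.P157.Full.rs_lt_one hh hl'.le
  exact sub_pos.2 (max_lt hs1 this)

omit hB in
lemma spinH_nonneg {R : ℕ} {h : ℕ → ℝ} {V : ℝ} (hR : 1 ≤ R) (hh : Prof R h V) : 0 ≤ spinH R h := by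
  have := Vale.Agent.P157.Full.Jval_ge (α := 0) (Par.cut_sm 0 le_rfl) (by norm_num) hR hh le_rfl
  simp only [Vale.Agent.P157.Full.Jval, zero_mul, neg_zero, zero_add] at this
  exact this

/-- the value of a path through the transform that is continuous at zero -/
lemma mForm_eq {R : ℕ} {h : ℕ → ℝ} {V : ℝ} (hR : 1 ≤ R) (hh : Prof R h V) (hβ : 0 < β) :
    IntervalIntegrable (fun t => β * Rm μ (β * xiD R (qh R h) t)) volume 0 1 ∧
    mForm β μ R h = (∫ t in (0:ℝ)..1, β * Rm μ (β * xiD R (qh R h) t)) / 2 + spinH R h := by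
  have hq := (Vale.Agent.P157.Full.qh_prof hR hh).1
  refine ⟨ContinuousOn.intervalIntegrable ?_, ?_⟩
  · rw [Set.uIcc_of_le zero_le_one]
    exact continuousOn_const.mul ((continuousOn_Rm hB).comp (continuous_const.mul (continuous_xiD R _)).continuousOn
      fun t ht => mul_nonneg hβ.le (xiD_mem hq ht.1 ht.2).1)
  rw [mForm, intervalIntegral.integral_const_mul]
  have e : (∫ t in (0:ℝ)..1, Rmu μ (β * xiD R (qh R h) t)) = ∫ t in (0:ℝ)..1, Rm μ (β * xiD R (qh R h) t) := by
    refine intervalIntegral.integral_congr_ae ?_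
    filter_upwards [(Set.countable_singleton (1:ℝ)).ae_notMem volume] with t ht1 ht
    rw [Set.uIoc_of_le zero_le_one] at ht
    rw [Rm, if_pos (mul_pos hβ (xiD_pos hR hh (lt_of_le_of_ne ht.2 ht1)))]
  rw [e]; ring

/-- the values along the discretisation, uniformly in the path -/
theorem disc_values (hη : ∀ n, 0 < ηs n ∧ 2 * ηs n ≤ 1) (hη0 : Tendsto ηs atTop (𝓝 0))
    (hms : ∀ n, 1 ≤ ms n) (hm : Tendsto ms atTop atTop) (hβ : 0 < β) {ε : ℝ} (hε : 0 < ε) :
    ∀ᶠ n in atTop, ∀ (R : ℕ) (h : ℕ → ℝ) (V : ℝ), 1 ≤ R → Prof R h V →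
      |aForm (gwt μ L (ηs n) (ms n)) (fun i => β * gpt μ L (ms n) i) R h - mForm β μ R h| ≤ ε := by
  have ha := fun n => scale_atoms (gwt_atoms hB (hη n).1 (hη n).2 (hms n)) hβ
  have hu := polya (f := fun n y => Rat (gwt μ L (ηs n) (ms n)) (fun i => β * gpt μ L (ms n) i) y)
    (g := fun y => β * Rm μ (β * y)) (fun n => ?_) ?_ (fun y hy => tendsto_Rat hB hη hη0 hms hm hβ hy.1) hε
  · filter_upwards [hu] with n hn R h V hR hh
    obtain ⟨hi, he⟩ := mForm_eq hB hR hh hβ
    have hq := (Vale.Agent.P157.Full.qh_prof hR hh).1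
    have hX : ∀ t ∈ Set.Icc (0:ℝ) 1, xiD R (qh R h) t ∈ Set.Icc (0:ℝ) 1 := fun t ht => xiD_mem hq ht.1 ht.2
    have hi' : IntervalIntegrable (fun t => Rat (gwt μ L (ηs n) (ms n)) (fun i => β * gpt μ L (ms n) i)
        (xiD R (qh R h) t)) volume 0 1 := by
      refine ContinuousOn.intervalIntegrable ?_
      rw [Set.uIcc_of_le zero_le_one]
      exact (ha n).continuousOn_Rat.comp (continuous_xiD R _).continuousOn fun t ht => (hX t ht).1
    have hd : ‖∫ t in (0:ℝ)..1, Rat (gwt μ L (ηs n) (ms n)) (fun i => β * gpt μ L (ms n) i) (xiD R (qh R h) t) -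
        β * Rm μ (β * xiD R (qh R h) t)‖ ≤ ε * |(1:ℝ) - 0| :=
      intervalIntegral.norm_integral_le_of_norm_le_const fun t ht => by
        rw [Set.uIoc_of_le zero_le_one] at ht
        rw [Real.norm_eq_abs]; exact hn _ (hX t ⟨ht.1.le, ht.2⟩)
    rw [intervalIntegral.integral_sub hi' hi, Real.norm_eq_abs, abs_le] at hd
    simp only [sub_zero, abs_one, mul_one] at hd
    rw [he, aForm, abs_le]
    constructor <;> linarith [hd.1, hd.2]
  · refine monotoneOn_of_hasDerivWithinAt_nonneg (convex_Icc 0 1)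
      ((ha n).continuousOn_Rat.mono Set.Icc_subset_Ici_self) (f' := dRat (gwt μ L (ηs n) (ms n)) fun i => β * gpt μ L (ms n) i) (fun x hx => ?_) fun x hx => ?_
    · rw [interior_Icc] at hx; exact ((ha n).hasDerivAt_Rat hx.1).hasDerivWithinAt
    · rw [interior_Icc] at hx; exact (ha n).dRat_nonneg hx.1.le
  · exact continuousOn_const.mul ((continuousOn_Rm hB).comp (continuous_const.mul continuous_id).continuousOn
      fun y hy => mul_nonneg hβ.le hy.1)

/-- the values are nonempty and bounded below -/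
theorem mValues_ok (hβ : 0 ≤ β) : (mValues β μ).Nonempty ∧ BddBelow (mValues β μ) := by
  refine ⟨⟨_, 1, fun _ => 0, 0, le_rfl, ⟨le_rfl, fun _ _ => le_rfl, le_rfl⟩, rfl⟩, -(β * L / 2), ?_⟩
  rintro v ⟨R, h, V, hR, hh, rfl⟩
  have h0 := spinH_nonneg hR hh
  rcases hβ.eq_or_lt with rfl | hb
  · simp [mForm, h0]
  obtain ⟨hi, he⟩ := mForm_eq hB hR hh hb
  have h2 : ‖∫ t in (0:ℝ)..1, β * Rm μ (β * xiD R (qh R h) t)‖ ≤ β * L * |(1:ℝ) - 0| :=
    intervalIntegral.norm_integral_le_of_norm_le_const fun t _ => by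
      rw [Real.norm_eq_abs, abs_mul, abs_of_pos hb]
      exact mul_le_mul_of_nonneg_left (Rm_mem hB _) hb.le
  rw [Real.norm_eq_abs, abs_le] at h2
  simp only [sub_zero, abs_one, mul_one] at h2
  rw [he]; linarith

end law

end Vale.Agent.P166.Gen
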