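import Vale.Agent.P166.Gen.Main
import Vale.Agent.P166.Par.Multi.Facts
import Vale.Agent.P166.Near
import Vale.Agent.P166.Phase.Converge
import Vale.Agent.P166.Pattern.Multi.Mix

/-!
# P166 G6, pressure side: from finitely many atoms to every compact law
-/

open MeasureTheory Filter Finset Real
open scoped Topology

noncomputable section

namespace Vale.Agent.P166.Gen

open Par.Multi (Wts lavg lavg_mono lavg_const lavg_add lavg_const_mul lavg_freq)

/-- the mean pressure -/
def mP {N : ℕ} (ν : Measure (Mat N)) (β : ℝ) (v : Fin N → ℝ) : ℝ := ∫ U, pressure β v U ∂ν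

section

variable {N : ℕ} {ν : Measure (Mat N)} {β L : ℝ} {v : Fin N → ℝ}

lemma abs_mP_le (hν : IsHaarOrthogonal ν) (hN : 0 < N) (hβ : 0 ≤ β) (hv : ∀ i, |v i| ≤ L) :
    |mP ν β v| ≤ β * L / 2 := by
  have := hν.1
  rw [mP, ← Real.norm_eq_abs]
  refine (norm_integral_le_of_norm_le_const (C := β * L / 2) (hν.2.1.mono fun U hU => ?_)).trans_eq (by simp)
  rw [Real.norm_eq_abs]; exact abs_pressure_le hN hβ hv hU

lemma abs_exp_sub_le {x y R : ℝ} (hx : x ≤ R) (hy : y ≤ R) : |exp x - exp y| ≤ exp R * |x - y| := by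
  wlog h : y ≤ x generalizing x y
  · rw [abs_sub_comm, abs_sub_comm x]; exact this hy hx (le_of_not_ge h)
  rw [abs_of_nonneg (sub_nonneg.2 (exp_le_exp.2 h)), abs_of_nonneg (sub_nonneg.2 h)]
  have h1 := mul_le_mul_of_nonneg_left (add_one_le_exp (y - x)) (exp_pos x).le
  rw [← exp_add, show x + (y - x) = y by ring] at h1
  have h2 : exp x * (x - y) ≤ exp R * (x - y) :=
    mul_le_mul_of_nonneg_right (exp_le_exp.2 hx) (sub_nonneg.2 h)
  linarith

/-- the first exponential moment is the exponential of the mean -/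
lemma Phi_one_near (hν : IsHaarOrthogonal ν) (hN : 0 < N) (hβ : 0 ≤ β) (hL0 : 0 < L) (hv : ∀ i, |v i| ≤ L)
    {t : ℝ} (ht : 0 < t) :
    |Phi ν β 1 v - exp (mP ν β v)| ≤
      exp (β * L / 2) * (200 * (1 + Phase.g4) * β ^ 2 * L ^ 2 / √(N:ℝ) / (2 * t) + t / 2) := by
  have := hν.1
  set m := mP ν β v with hm
  have i1 := integrable_of_continuous hν hN hβ v (φ := fun x => exp x) (by fun_prop)
  have i2 := integrable_of_continuous hν hN hβ v
    (φ := fun x => exp (β * L / 2) * ((x - m) ^ 2 / (2 * t) + t / 2)) (by fun_prop)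
  have hmR := (abs_le.1 (abs_mP_le hν hN hβ hv)).2
  have e : Phi ν β 1 v - exp m = ∫ U, (exp (pressure β v U) - exp m) ∂ν := by
    rw [integral_sub i1 (integrable_const _)]
    simp [Phi]
  rw [e]
  refine (abs_integral_le_integral_abs).trans ?_
  refine (integral_mono_ae (i1.sub (integrable_const _)).abs i2 (hν.2.1.mono fun U hU => ?_)).trans ?_
  · refine (abs_exp_sub_le (abs_le.1 (abs_pressure_le hN hβ hv hU)).2 hmR).trans
      (mul_le_mul_of_nonneg_left ?_ (exp_pos _).le)
    have h := two_mul_le_add_sq |pressure β v U - m| t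
    rw [sq_abs] at h
    field_simp
    linarith
  · have i3 := integrable_of_continuous hν hN hβ v (φ := fun x => (x - m) ^ 2) (by fun_prop)
    rw [integral_const_mul, integral_add (i3.div_const _) (integrable_const _), integral_div]
    simp only [integral_const, probReal_univ, one_smul]
    refine mul_le_mul_of_nonneg_left (add_le_add (div_le_div_of_nonneg_right ?_ (by positivity)) le_rfl)
      (exp_pos _).le
    exact Phase.pressure_variance hν hN hβ hL0 hv

end

lemma Phi_one_uniform {β L : ℝ} (hβ : 0 ≤ β) (hL0 : 0 < L) {ν : ∀ N, Measure (Mat N)}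
    (hν : ∀ N, IsHaarOrthogonal (ν N)) {ε : ℝ} (hε : 0 < ε) :
    ∀ᶠ N : ℕ in atTop, ∀ v : Fin N → ℝ, (∀ i, |v i| ≤ L) →
      |Phi (ν N) β 1 v - exp (mP (ν N) β v)| ≤ ε := by
  set E := exp (β * L / 2)
  have hE : 0 < E := exp_pos _
  have hlim : Tendsto (fun N : ℕ => E * (200 * (1 + Phase.g4) * β ^ 2 * L ^ 2 / √(N:ℝ) / (2 * (ε / E)) +
      ε / E / 2)) atTop (𝓝 (E * (0 + ε / E / 2))) := by
    refine (Tendsto.add ?_ tendsto_const_nhds).const_mul E
    simpa using (tendsto_const_nhds.div_atTop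
      (Real.tendsto_sqrt_atTop.comp tendsto_natCast_atTop_atTop)).div_const (2 * (ε / E))
  have he : E * (0 + ε / E / 2) < ε := by field_simp; linarith
  filter_upwards [eventually_gt_atTop 0, hlim.eventually (eventually_le_nhds he)] with N hN h v hv
  exact (Phi_one_near (hν N) hN hβ hL0 hv (div_pos hε hE)).trans h

/-- one-sided comparison of mean pressures: tested ramps, a common top and bounded spectra -/
theorem mean_compare {β L : ℝ} (hβ : 0 ≤ β) (hL0 : 0 < L) {ε : ℝ} (hε : 0 < ε) :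
    ∃ δ : ℝ, 0 < δ ∧ δ ≤ 1 ∧ ∀ c : ℝ, 0 < c → ∀ b : ℝ, |b| ≤ L → ∀ ν : ∀ N, Measure (Mat N),
      (∀ N, IsHaarOrthogonal (ν N)) → ∀ᶠ N : ℕ in atTop, ∀ v w : Fin N → ℝ,
        (∀ i, |v i| ≤ L) → (∀ i, |w i| ≤ L) → (∀ i, w i ≤ b + δ) →
        c * N ≤ ∑ i, ramp (b - δ) (δ / 2) (v i) →
        (∑ r ∈ range (⌈2 * L / (δ / 2)⌉₊ + 1), |∑ i, ramp (-L + r * (δ / 2)) (δ / 2) (w i) -
          ∑ i, ramp (-L + r * (δ / 2)) (δ / 2) (v i)|) * (3 * L + δ) ≤ δ * (c * N) →
        mP (ν N) β w ≤ mP (ν N) β v + ε := by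
  have h0 : Tendsto (fun δ : ℝ => exp (β * (3 * δ) / 2) - 1) (𝓝[>] 0) (𝓝 0) := by
    have h : Continuous fun δ : ℝ => exp (β * (3 * δ) / 2) - 1 := by fun_prop
    simpa using (h.tendsto 0).mono_left nhdsWithin_le_nhds
  have h1 : ∀ᶠ x in 𝓝[>] (0:ℝ), x ≤ 1 :=
    eventually_nhdsWithin_of_eventually_nhds (eventually_le_nhds zero_lt_one)
  have h2 : ∀ᶠ x in 𝓝[>] (0:ℝ), x ∈ Set.Ioi (0:ℝ) := self_mem_nhdsWithin
  obtain ⟨δ, hδ1, hδ2, hδ⟩ :=
    ((h0.eventually (eventually_le_nhds (half_pos hε))).and (h1.and h2)).exists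
  have hδ0 : (0:ℝ) < δ := hδ
  refine ⟨δ, hδ0, hδ2, fun c hc b hb ν hν => ?_⟩
  set a := exp (β * (3 * δ) / 2)
  set R := β * L / 2
  have ha : 1 ≤ a := one_le_exp (by positivity)
  set e := ε / 2 / ((a + 1) * exp R)
  have he : 0 < e := by positivity
  filter_upwards [eventually_gt_atTop 0, Phi_one_uniform hβ hL0 hν he] with N hN hu v w hv hw hwb htop hm
  set p := Tuple.sort v
  set q := Tuple.sort w
  have h1 := Phi_compare_sorted (hν N) hN hβ 1 (Tuple.monotone_sort v) (Tuple.monotone_sort w) (L := L)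
    (b := b) (c := c) hδ0 hc ⌈2 * L / (δ / 2)⌉₊
    ((div_le_iff₀ (by positivity)).1 (Nat.le_ceil _)) (fun k => hv _) (fun k => hw _) hb (fun k => hwb _)
    (by rw [sum_ramp_perm]; exact htop) (by simp only [sum_ramp_perm]; exact hm)
  rw [Phi_perm (hν N), Phi_perm (hν N), Nat.cast_one, one_mul] at h1
  set mv := mP (ν N) β v
  set mw := mP (ν N) β w
  have hv1 := abs_le.1 (hu v hv)
  have hw1 := abs_le.1 (hu w hw)
  have hR : 1 ≤ exp mv * exp R := by
    have h : -R ≤ mv := (abs_le.1 (abs_mP_le (hν N) hN hβ hv)).1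
    rw [← exp_add]; exact one_le_exp (by linarith)
  have h2 : exp mw ≤ exp mv * (a + ε / 2) := by
    have h3 : Phi (ν N) β 1 v * a ≤ (exp mv + e) * a := mul_le_mul_of_nonneg_right (by linarith) (by linarith)
    have h4 : (a + 1) * e ≤ exp mv * (ε / 2) := by
      have : (a + 1) * e * exp R = ε / 2 := by simp only [e]; field_simp
      calc (a + 1) * e = (a + 1) * e * 1 := (mul_one _).symm
        _ ≤ (a + 1) * e * (exp mv * exp R) := mul_le_mul_of_nonneg_left hR (by positivity)
        _ = exp mv * ((a + 1) * e * exp R) := by ring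
        _ = exp mv * (ε / 2) := by rw [this]
    linarith
  have h5 : mw ≤ mv + log (a + ε / 2) := by
    have := log_le_log (exp_pos _) h2
    rwa [log_exp, log_mul (exp_pos _).ne' (by positivity), log_exp] at this
  have h6 := log_le_sub_one_of_pos (show (0:ℝ) < a + ε / 2 by positivity)
  linarith

/-! ### labels -/

variable {k : ℕ}

lemma Atoms.wts {w θ : Fin k → ℝ} (h : Atoms w θ) : Wts w := ⟨fun j => (h.pos j).le, h.one⟩

lemma freq_eq {N : ℕ} (lab : Fin N → Fin k) (j : Fin k) : freq lab j = Par.Multi.freq lab j := by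
  simp [freq, Par.Multi.freq, Finset.sum_boole]

lemma sum_lab {N : ℕ} (lab : Fin N → Fin k) (g : Fin k → ℝ) :
    ∑ i, g (lab i) = N * ∑ j, freq lab j * g j := by
  rcases Nat.eq_zero_or_pos N with h | h
  · subst h; simp
  have hN : (0:ℝ) < N := by exact_mod_cast h
  rw [← Finset.sum_fiberwise' (s := univ) lab g, mul_sum]
  refine sum_congr rfl fun j _ => ?_
  rw [sum_const, nsmul_eq_mul, freq]
  field_simp

lemma pressure_atoms {N : ℕ} (β : ℝ) (x : Fin k → ℝ) (lab : Fin N → Fin k) (U : Mat N) :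
    pressure 1 (fun i => β * x (lab i)) U = pressure β (fun i => x (lab i)) U := by
  simp only [pressure_eq]
  refine congrArg _ (congrArg _ (congrArg _ (sum_congr rfl fun σ _ => congrArg _ ?_)))
  simp only [energy, mul_sum]
  exact sum_congr rfl fun i _ => by ring

lemma abs_lab_ramp_le {N : ℕ} (l l' : Fin N → Fin k) (θ : Fin k → ℝ) (t η : ℝ) :
    |∑ i, ramp t η (θ (l i)) - ∑ i, ramp t η (θ (l' i))| ≤ N * ∑ j, |freq l j - freq l' j| := by
  rw [sum_lab l (fun j => ramp t η (θ j)), sum_lab l' (fun j => ramp t η (θ j)), ← mul_sub,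
    ← sum_sub_distrib, abs_mul, Nat.abs_cast]
  refine mul_le_mul_of_nonneg_left ((abs_sum_le_sum_abs _ _).trans (sum_le_sum fun j _ => ?_)) (by positivity)
  rw [← sub_mul, abs_mul, abs_of_nonneg (ramp_nonneg t η (θ j))]
  exact mul_le_of_le_one_right (abs_nonneg _) (ramp_le_one _ _ _)

/-- labels with given limiting frequencies exist -/
lemma exists_lab {w : Fin k → ℝ} (hw : Wts w) :
    ∃ lab : ∀ N, Fin N → Fin k, ∀ j, Tendsto (fun N => freq (lab N) j) atTop (𝓝 (w j)) := by
  classical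
  have hk : 0 < k := Nat.pos_of_ne_zero fun h => by subst h; simpa using hw.one
  set o : Fin k := ⟨0, hk⟩
  set fl := fun (N : ℕ) (j : Fin k) => ⌊w j * N⌋₊
  have hle : ∀ N, ∑ j, fl N j ≤ N := fun N => by
    have : ((∑ j, fl N j : ℕ) : ℝ) ≤ N := by
      push_cast
      refine (sum_le_sum fun j _ => Nat.floor_le (mul_nonneg (hw.nn j) (Nat.cast_nonneg _))).trans_eq ?_
      rw [← sum_mul, hw.one, one_mul]
    exact_mod_cast this
  set c := fun N j => fl N j + if j = o then N - ∑ i, fl N i else 0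
  have hc : ∀ N, ∑ j, c N j = N := fun N => by
    simp only [c, sum_add_distrib, sum_ite_eq', mem_univ, if_true]
    have := hle N; omega
  refine ⟨fun N i => Pattern.Multi.can (c N) (i.cast (hc N).symm), fun j => ?_⟩
  have hf : ∀ N, freq (fun i : Fin N => Pattern.Multi.can (c N) (i.cast (hc N).symm)) j = (c N j : ℝ) / N :=
    fun N => by
      have e := Pattern.Multi.cnt_can (c N) j
      rw [Pattern.cnt] at e
      rw [freq]
      congr 2
      rw [← e]
      exact Finset.card_equiv (finCongr (hc N).symm) fun i => by simp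
  simp only [hf]
  have hfl : ∀ i, Tendsto (fun N : ℕ => (fl N i : ℝ) / N) atTop (𝓝 (w i)) := fun i =>
    (tendsto_nat_floor_mul_div_atTop (hw.nn i)).comp tendsto_natCast_atTop_atTop
  have hrest : Tendsto (fun N : ℕ => ((N - ∑ i, fl N i : ℕ) : ℝ) / N) atTop (𝓝 0) := by
    have h1 : Tendsto (fun N : ℕ => 1 - ∑ i, (fl N i : ℝ) / N) atTop (𝓝 (1 - ∑ i, w i)) :=
      (tendsto_finsetSum univ fun i _ => hfl i).const_sub 1
    rw [hw.one, sub_self] at h1
    refine h1.congr' ((eventually_gt_atTop 0).mono fun N hN => ?_)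
    have : (N:ℝ) ≠ 0 := by exact_mod_cast hN.ne'
    beta_reduce
    rw [Nat.cast_sub (hle N), sub_div, div_self this, Nat.cast_sum, sum_div]
  rcases eq_or_ne j o with h | h
  · subst h
    have := (hfl o).add hrest
    rw [add_zero] at this
    refine this.congr fun N => ?_
    simp only [c, if_true, Nat.cast_add, add_div]
  · exact (hfl j).congr fun N => by simp [c, h]

/-- given labels do as well as random ones -/
theorem mean_of_avg {w θ : Fin k → ℝ} (ha : Atoms w θ) {ν : ∀ N, Measure (Mat N)}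
    (hν : ∀ N, IsHaarOrthogonal (ν N)) {lab : ∀ N, Fin N → Fin k}
    (hlab : ∀ j, Tendsto (fun N => freq (lab N) j) atTop (𝓝 (w j))) {v : ℝ}
    (hv : ∀ᶠ N in atTop, v ≤ ∑ l : Fin N → Fin k, (∏ i, w (l i)) * ∫ U, pressure 1 (fun i => θ (l i)) U ∂ν N)
    {ε : ℝ} (hε : 0 < ε) :
    ∀ᶠ N in atTop, v - ε ≤ ∫ U, pressure 1 (fun i => θ (lab N i)) U ∂ν N := by
  classical
  have hne : Nonempty (Fin k) := by
    by_contra h
    rw [not_nonempty_iff] at h
    simpa using ha.one
  obtain ⟨t, -, ht⟩ := Finset.exists_max_image (univ : Finset (Fin k)) θ univ_nonempty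
  set L := (∑ j, |θ j|) + 1
  have hθ : ∀ j, |θ j| ≤ L := fun j =>
    (single_le_sum (f := fun j => |θ j|) (fun j _ => abs_nonneg _) (mem_univ j)).trans (by simp [L])
  have hL0 : 0 < L := by positivity
  obtain ⟨δ, hδ, hδ1, hcmp⟩ := mean_compare (β := 1) zero_le_one hL0 (half_pos hε)
  set c := w t / 2
  have hc : 0 < c := half_pos (ha.pos t)
  set m := ⌈2 * L / (δ / 2)⌉₊
  set τ := δ * c / (((m + 1 : ℕ) : ℝ) * (3 * L + δ))
  have hτ : 0 < τ := by positivity
  have hS : Tendsto (fun N => ∑ j, |freq (lab N) j - w j|) atTop (𝓝 0) := by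
    simpa using tendsto_finsetSum univ fun j _ => ((hlab j).sub_const (w j)).abs
  have hsq : Tendsto (fun N : ℕ => (L + 1) * (2 / τ) * ((k:ℝ) / √(N:ℝ))) atTop (𝓝 0) := by
    simpa using (tendsto_const_nhds.div_atTop
      (Real.tendsto_sqrt_atTop.comp tendsto_natCast_atTop_atTop)).const_mul ((L + 1) * (2 / τ))
  filter_upwards [eventually_ge_atTop 1, hcmp c hc (θ t) (hθ t) ν hν,
    hS.eventually (eventually_le_nhds (half_pos hτ)),
    (hlab t).eventually (eventually_ge_nhds (half_lt_self (ha.pos t))),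
    hsq.eventually (eventually_le_nhds (half_pos hε)), hv] with N hN hcN hSN htN hsN hvN
  set m0 := mP (ν N) 1 (fun i => θ (lab N i))
  have hC : 0 ≤ (L + 1) * (2 / τ) := mul_nonneg (by linarith only [hL0]) (div_nonneg two_pos.le hτ.le)
  set T := fun l : Fin N → Fin k => ∑ j, |freq l j - w j|
  have hb : ∀ l : Fin N → Fin k, |mP (ν N) 1 (fun i => θ (l i))| ≤ L / 2 := fun l =>
    (abs_mP_le (hν N) hN zero_le_one (fun i => hθ _)).trans_eq (by ring)
  have key : ∀ l : Fin N → Fin k,
      mP (ν N) 1 (fun i => θ (l i)) ≤ m0 + ε / 2 + (L + 1) * (2 / τ) * T l := fun l => by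
    have hT : 0 ≤ T l := sum_nonneg fun j _ => abs_nonneg _
    by_cases hl : T l ≤ τ / 2
    · refine (hcN (fun i => θ (lab N i)) (fun i => θ (l i)) (fun i => hθ _) (fun i => hθ _)
        (fun i => le_add_of_le_of_nonneg (ht _ (mem_univ _)) hδ.le) ?_ ?_).trans
        (le_add_of_nonneg_right (mul_nonneg hC hT))
      · rw [sum_lab (lab N) (fun j => ramp (θ t - δ) (δ / 2) (θ j)), mul_comm]
        refine mul_le_mul_of_nonneg_left ?_ (Nat.cast_nonneg N)
        refine le_trans ?_ (single_le_sum (f := fun j => freq (lab N) j * ramp (θ t - δ) (δ / 2) (θ j))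
          (fun j _ => mul_nonneg (by unfold freq; positivity) (ramp_nonneg _ _ _)) (mem_univ t))
        rw [ramp_eq_one (half_pos hδ) (by linarith), mul_one]
        exact htN
      · have hd : ∑ j, |freq l j - freq (lab N) j| ≤ τ := by
          refine (sum_le_sum (g := fun j => |freq l j - w j| + |freq (lab N) j - w j|) fun j _ => ?_).trans ?_
          · rw [abs_sub_comm (freq (lab N) j)]; exact abs_sub_le _ _ _
          · rw [sum_add_distrib]; linarith
        refine (mul_le_mul_of_nonneg_right (sum_le_sum (g := fun _ => (N:ℝ) * τ) fun r _ =>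
          (abs_lab_ramp_le l (lab N) θ _ _).trans (mul_le_mul_of_nonneg_left hd (Nat.cast_nonneg N)))
          (by positivity)).trans_eq ?_
        rw [sum_const, card_range, nsmul_eq_mul]
        simp only [τ]; field_simp
    · have h1 : (1:ℝ) ≤ 2 / τ * T l := by
        rw [div_mul_eq_mul_div, one_le_div hτ]; linarith [not_le.1 hl]
      have h2 := mul_le_mul_of_nonneg_left h1 (show 0 ≤ L + 1 by linarith)
      linarith [(abs_le.1 (hb l)).2, (abs_le.1 (hb (lab N))).1, mul_assoc (L + 1) (2 / τ) (T l)]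
  have h := lavg_mono (ha.wts) key
  rw [lavg_add, lavg_const (ha.wts), lavg_const_mul] at h
  have h2 : lavg (M := N) w T ≤ k / √(N:ℝ) := by
    simp only [T, freq_eq]; exact lavg_freq ha.wts N hN
  have h3 := h.trans (add_le_add le_rfl (mul_le_mul_of_nonneg_left h2 hC))
  have : v ≤ m0 + ε / 2 + (L + 1) * (2 / τ) * ((k:ℝ) / √(N:ℝ)) := hvN.trans h3
  show v - ε ≤ m0
  linarith

theorem stmt_labels : StmtLabels := fun _k _w _θ ha => exists_lab ha.wts

theorem stmt_lab_lower : StmtLabLower := fun _k _w _θ ha _lab hlab _ν hν _c hc _ε hε =>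
  mean_of_avg ha hν hlab hc hε

/-- **spectra of laws tending to `μ` determine the limit** -/
theorem stmt_stage : StmtStage := by
  intro μ L hp hμ β hβ X T p hbd htop hT hweak ν hν hlim lam hlam ε hε
  set b := sSup μ.support
  set L' := max L (|b| + |sInf μ.support| + 1)
  have hbL : |b| ≤ L' := le_trans (by linarith [abs_nonneg (sInf μ.support)]) (le_max_right _ _)
  have hL0 : 0 < L' := lt_of_lt_of_le (by positivity) (le_max_right _ _)
  have he : 0 < ε / 4 := by linarith
  obtain ⟨δ, hδ, -, hcmp⟩ := mean_compare hβ hL0 he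
  set η := δ / 2
  set I := ∫ y, ramp (b - δ) η y ∂μ
  have hI : 0 < I := integral_top_pos hμ hδ
  set m := ⌈2 * L' / η⌉₊
  set c := I / 2
  have hc : 0 < c := half_pos hI
  set τ := δ * c / (3 * L' + δ)
  have hτ : 0 < τ := by positivity
  have hn1 : ∀ᶠ n in atTop, ∑ r ∈ range (m + 1),
      |T n (ramp (-L' + r * η) η) - ∫ y, ramp (-L' + r * η) η y ∂μ| < τ := by
    refine Tendsto.eventually_lt_const hτ ?_
    simpa using tendsto_finsetSum (range (m + 1)) fun r _ =>
      ((hweak (ramp (-L' + r * η) η)).sub_const (∫ y, ramp (-L' + r * η) η y ∂μ)).abs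
  have hn2 : ∀ᶠ n in atTop, c < T n (ramp (b - δ) η) :=
    (hweak (ramp (b - δ) η)).eventually_const_lt (half_lt_self hI)
  obtain ⟨n, hn1, hn2, hn4⟩ := (hn1.and (hn2.and (hlim (ε / 4) he))).exists
  have hdiff : ∀ᶠ N : ℕ in atTop, ∑ r ∈ range (m + 1),
      |(∑ i, ramp (-L' + r * η) η (X n N i)) / (N:ℝ) -
        (∑ i, ramp (-L' + r * η) η (lam N i)) / (N:ℝ)| < τ :=
    Tendsto.eventually_lt_const hn1 (tendsto_finsetSum _ fun r _ =>
      ((hT n (ramp (-L' + r * η) η)).sub (hlam.1 (ramp (-L' + r * η) η))).abs)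
  have hmean : ∀ᶠ N : ℕ in atTop, |mP (ν N) β (lam N) - p| ≤ ε / 2 := by
    filter_upwards [eventually_gt_atTop 0, hcmp c hc b hbL ν hν, hdiff, edge_data hμ hlam,
      hlam.2.1.eventually (eventually_le_nhds (show b < b + δ by linarith)),
      (hlam.1 (ramp (b - δ) η)).eventually_const_lt (half_lt_self hI),
      (hT n (ramp (b - δ) η)).eventually_const_lt hn2, hn4] with N hN hC hd hLl hup hcl hca hp'
    have hN' : (0:ℝ) < N := by exact_mod_cast hN
    have hl1 : ∀ i, |lam N i| ≤ L' := fun i => (hLl i).trans (le_max_right _ _)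
    have hx1 : ∀ i, |X n N i| ≤ L' := fun i => (hbd n N i).trans (le_max_left _ _)
    have hx2 : ∀ i, X n N i ≤ b + δ := fun i => (htop n N i).trans (by simp only [topS, b]; linarith)
    have hl2 : ∀ i, lam N i ≤ b + δ := fun i => (le_ciSup (Set.finite_range _).bddAbove i).trans hup
    rw [lt_div_iff₀ hN'] at hcl hca
    simp only [← sub_div, abs_div, abs_of_pos hN', ← sum_div, div_lt_iff₀ hN'] at hd
    have hd' : (∑ r ∈ range (m + 1), |∑ i, ramp (-L' + r * η) η (X n N i) -
        ∑ i, ramp (-L' + r * η) η (lam N i)|) * (3 * L' + δ) ≤ δ * (c * N) := by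
      refine (mul_le_mul_of_nonneg_right hd.le (by positivity)).trans_eq ?_
      simp only [τ]; field_simp
    have h1 := hC (lam N) (fun i => X n N i) hl1 hx1 hx2 hcl.le hd'
    have h2 := hC (fun i => X n N i) (lam N) hx1 hl1 hl2 hca.le (by
      simpa only [abs_sub_comm] using hd')
    have h3 : |mP (ν N) β (fun i => X n N i) - p| ≤ ε / 4 := hp'
    rw [abs_le] at h3 ⊢
    constructor <;> linarith
  refine squeeze_zero' (.of_forall fun N => measureReal_nonneg) ?_
    (Phase.self_averaging hμ hlam hν hβ (half_pos hε))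
  filter_upwards [hmean] with N hm
  have := (hν N).1
  refine measureReal_mono fun U hU => ?_
  simp only [Set.mem_ofPred_eq] at hU ⊢
  have := abs_sub_le (pressure β (lam N) U) (mP (ν N) β (lam N)) p
  show ε / 2 ≤ |pressure β (lam N) U - mP (ν N) β (lam N)|
  linarith

end Vale.Agent.P166.Gen
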