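import Vale.Agent.P166.Gen.Atom
import Vale.Agent.P157.Full.Reps

/-!
# P166: from atoms on fine grids to the kernel of a compactly supported law

The R-transforms of the discretised laws are monotone and converge to the continued R-transform of the
law at every point, hence uniformly on the unit interval; so the infima of the values converge.
-/

open MeasureTheory Filter Finset Set
open scoped Topology
open Vale.Agent.P157.Full (qh)
open Vale.Agent.P157.Par (Prof)

noncomputable section

namespace Vale.Agent.P166.Gen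

open Par.Multi (xiD xiD_mem continuous_xiD)

/-- the top of the support -/
def topS (μ : Measure ℝ) : ℝ := sSup μ.support

/-- the Cauchy transform of a law -/
def gm (μ : Measure ℝ) (z : ℝ) : ℝ := ∫ x, 1 / (z - x) ∂μ

/-- the mean of a law -/
def mean (μ : Measure ℝ) : ℝ := ∫ x, x ∂μ

/-- the continued R-transform, with its value at zero -/
def Rm (μ : Measure ℝ) (y : ℝ) : ℝ := if 0 < y then Rmu μ y else mean μ

variable {μ : Measure ℝ} {L y z : ℝ}

/-- a compactly supported probability law on `[-L, L]` -/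
structure Box (μ : Measure ℝ) (L : ℝ) : Prop where
  prob : IsProbabilityMeasure μ
  compact : IsCompact μ.support
  bound : ∀ x ∈ μ.support, |x| ≤ L

lemma exists_box (hp : IsProbabilityMeasure μ) (hc : IsCompact μ.support) : ∃ L : ℝ, 0 < L ∧ Box μ L := by
  obtain ⟨C, hC⟩ := hc.exists_bound_of_continuousOn continuous_id.continuousOn
  exact ⟨max C 1, lt_max_of_lt_right one_pos, hp, hc, fun x hx =>
    (le_of_eq (Real.norm_eq_abs x).symm).trans ((hC x hx).trans (le_max_left _ _))⟩

section law
variable (hB : Box μ L)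
include hB

lemma ae_mem : ∀ᵐ x ∂μ, |x| ≤ L ∧ x ≤ topS μ := by
  filter_upwards [Measure.support_mem_ae (μ := μ)] with x hx
  exact ⟨hB.bound x hx, le_csSup hB.compact.bddAbove hx⟩

lemma L_nonneg : 0 ≤ L := by
  have := hB.prob
  obtain ⟨x, hx⟩ := (ae_mem hB).exists
  exact (abs_nonneg x).trans hx.1

lemma abs_topS : |topS μ| ≤ L := by
  have := hB.prob
  exact hB.bound _ (hB.compact.sSup_mem support_nonempty)

lemma integrable_id' : Integrable (fun x : ℝ => x) μ :=
  have := hB.prob
  Integrable.of_bound measurable_id.aestronglyMeasurable L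
    ((ae_mem hB).mono fun x hx => (Real.norm_eq_abs x).trans_le hx.1)

lemma mean_mem : -L ≤ mean μ ∧ mean μ ≤ topS μ ∧ |mean μ| ≤ L := by
  have := hB.prob
  have a := integral_mono_ae (integrable_const (-L)) (integrable_id' hB) ((ae_mem hB).mono fun x hx => (abs_le.1 hx.1).1)
  have b := integral_mono_ae (integrable_id' hB) (integrable_const (topS μ)) ((ae_mem hB).mono fun x hx => hx.2)
  simp only [integral_const, probReal_univ, one_smul] at a b
  exact ⟨a, b, abs_le.2 ⟨a, b.trans ((le_abs_self _).trans (abs_topS hB))⟩⟩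

lemma integrable_inv (hz : topS μ < z) : Integrable (fun x => 1 / (z - x)) μ :=
  have := hB.prob
  Integrable.of_bound (Measurable.aestronglyMeasurable (by fun_prop)) (1 / (z - topS μ))
    ((ae_mem hB).mono fun x hx => by
      rw [Real.norm_eq_abs, abs_of_pos (one_div_pos.2 (by linarith [hx.2]))]
      exact one_div_le_one_div_of_le (by linarith) (by linarith [hx.2]))

lemma gm_le (hz : topS μ < z) : gm μ z ≤ 1 / (z - topS μ) := by
  have := hB.prob
  have h := integral_mono_ae (integrable_inv hB hz) (integrable_const (1 / (z - topS μ)))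
    ((ae_mem hB).mono fun x hx => one_div_le_one_div_of_le (by linarith) (by linarith [hx.2]))
  simpa [gm] using h

/-- Jensen -/
lemma gm_ge (hz : topS μ < z) : 1 / (z - mean μ) ≤ gm μ z := by
  have := hB.prob
  set d := z - mean μ
  have hd : 0 < d := by linarith [(mean_mem hB).2.1]
  have hi : Integrable (fun x => 1 / d + (x - mean μ) / d ^ 2) μ :=
    (integrable_const _).add (((integrable_id' hB).sub (integrable_const _)).div_const _)
  have h := integral_mono_ae hi (integrable_inv hB hz) ((ae_mem hB).mono fun x hx => by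
    have hx0 : 0 < z - x := by linarith [hx.2]
    rw [le_div_iff₀ hx0, add_mul, div_mul_eq_mul_div, div_mul_eq_mul_div, div_add_div _ _ hd.ne' (by positivity),
      div_le_iff₀ (by positivity)]
    simp only [d]
    nlinarith [sq_nonneg (x - mean μ)])
  rw [integral_add (integrable_const _) (((integrable_id' hB).sub' (integrable_const _)).div_const _),
    integral_const, integral_div, integral_sub (integrable_id' hB) (integrable_const _)] at h
  simpa [gm, mean] using h

lemma gm_lt {z' : ℝ} (hz : topS μ < z) (h : z < z') : gm μ z' < gm μ z := by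
  have := hB.prob
  have hc : 0 < (z' - z) / ((z' + L) * (z + L)) := by
    have := (abs_le.1 (abs_topS hB)).1
    exact div_pos (by linarith) (mul_pos (by linarith) (by linarith))
  have h1 := integral_mono_ae ((integrable_inv hB (hz.trans h)).add (integrable_const _))
    (integrable_inv hB hz) ((ae_mem hB).mono fun x hx => show 1 / (z' - x) + (z' - z) / ((z' + L) * (z + L)) ≤ 1 / (z - x) by
      have hx1 : 0 < z - x := by linarith [hx.2]
      have hx2 : -L ≤ x := (abs_le.1 hx.1).1
      rw [← le_sub_iff_add_le', div_sub_div _ _ hx1.ne' (by linarith : z' - x ≠ 0)]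
      rw [show 1 * (z' - x) - (z - x) * 1 = z' - z by ring]
      refine div_le_div_of_nonneg_left (by linarith) (mul_pos hx1 (by linarith)) ?_
      rw [mul_comm]
      exact mul_le_mul (by linarith) (by linarith) hx1.le (by linarith))
  simp only [Pi.add_apply, integral_add (integrable_inv hB (hz.trans h)) (integrable_const _), integral_const,
    probReal_univ, one_smul] at h1
  simp only [gm]
  linarith

lemma zed_set_ne (hy : 0 < y) : gm μ (topS μ + 1 / y) ≤ y := by
  refine (gm_le hB (lt_add_of_pos_right _ (by positivity))).trans_eq ?_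
  rw [add_sub_cancel_left, one_div_one_div]

lemma zed_mem (hy : 0 < y) : topS μ ≤ zed μ y ∧ zed μ y ≤ topS μ + 1 / y := by
  have hm : topS μ + 1 / y ∈ {z | sSup μ.support < z ∧ ∫ x, 1 / (z - x) ∂μ ≤ y} :=
    ⟨lt_add_of_pos_right _ (by positivity), zed_set_ne hB hy⟩
  exact ⟨le_csInf ⟨_, hm⟩ fun z hz => hz.1.le, csInf_le ⟨topS μ, fun z hz => hz.1.le⟩ hm⟩

omit hB in
lemma zed_le (hz : topS μ < z) (h : gm μ z ≤ y) : zed μ y ≤ z :=
  csInf_le ⟨topS μ, fun _ hx => hx.1.le⟩ ⟨hz, h⟩

lemma le_zed (hy : 0 < y) (_hz : topS μ < z) (h : y < gm μ z) : z ≤ zed μ y := by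
  refine le_csInf ⟨topS μ + 1 / y, lt_add_of_pos_right _ (by positivity), zed_set_ne hB hy⟩ fun x hx => ?_
  by_contra hc
  have h1 : gm μ x ≤ y := hx.2
  linarith [gm_lt hB (show topS μ < x from hx.1) (not_le.1 hc)]

/-- any sequence squeezed by transforms tending to the one of `μ` tends to the continued inverse -/
theorem zed_limit (hy : 0 < y) {zn yn : ℕ → ℝ} {Gn : ℕ → ℝ → ℝ} (hyn : Tendsto yn atTop (𝓝 y))
    (hG : ∀ x, topS μ < x → Tendsto (fun n => Gn n x) atTop (𝓝 (gm μ x)))
    (hup : ∀ x, topS μ < x → ∀ᶠ n in atTop, Gn n x < yn n → zn n ≤ x)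
    (hlo : ∀ x, topS μ < x → ∀ᶠ n in atTop, yn n < Gn n x → x ≤ zn n)
    (hb : ∀ᶠ n in atTop, topS μ ≤ zn n) : Tendsto zn atTop (𝓝 (zed μ y)) := by
  obtain ⟨h0, -⟩ := zed_mem hB hy
  rw [tendsto_order]
  refine ⟨fun a ha => ?_, fun a ha => ?_⟩
  · rcases lt_or_ge a (topS μ) with hab | hab
    · exact hb.mono fun n hn => hab.trans_le hn
    obtain ⟨x, hax, hxz⟩ := exists_between ha
    have hx : topS μ < x := lt_of_le_of_lt hab hax
    have hg : y < gm μ x := by
      by_contra hc
      linarith [zed_le hx (not_lt.1 hc)]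
    obtain ⟨m, hm1, hm2⟩ := exists_between hg
    filter_upwards [hlo x hx, (hG x hx).eventually (eventually_gt_nhds hm2),
      hyn.eventually (eventually_lt_nhds hm1)] with n h1 h2 h3
    exact hax.trans_le (h1 (h3.trans h2))
  · obtain ⟨x, hzx, hxa⟩ := exists_between ha
    obtain ⟨x', hzx', hx'x⟩ := exists_between hzx
    have hx' : topS μ < x' := lt_of_le_of_lt h0 hzx'
    have hg : gm μ x < y := by
      refine lt_of_lt_of_le (gm_lt hB hx' hx'x) ?_
      by_contra hc
      linarith [le_zed hB hy hx' (not_le.1 hc)]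
    obtain ⟨m, hm1, hm2⟩ := exists_between hg
    filter_upwards [hup x (hx'.trans hx'x), (hG x (hx'.trans hx'x)).eventually (eventually_lt_nhds hm1),
      hyn.eventually (eventually_gt_nhds hm2)] with n h1 h2 h3
    exact (h1 (h2.trans h3)).trans_lt hxa

lemma continuousAt_zed (hy : 0 < y) : ContinuousAt (zed μ) y := by
  refine tendsto_nhds_iff_seq_tendsto.2 fun u hu => ?_
  have hpos := hu.eventually (eventually_gt_nhds hy)
  exact zed_limit hB hy (Gn := fun _ => gm μ) hu (fun x _ => tendsto_const_nhds)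
    (fun x hx => .of_forall fun n h => zed_le hx h.le)
    (fun x hx => hpos.mono fun n hn h => le_zed hB hn hx h)
    (hpos.mono fun n hn => (zed_mem hB hn).1)

lemma Rm_mem (y : ℝ) : |Rm μ y| ≤ L := by
  rw [Rm]
  split_ifs with hy
  · refine abs_le.2 ⟨?_, ?_⟩
    · have : mean μ ≤ Rmu μ y := by
        have hz := (zed_mem hB hy).1
        by_contra hc
        rw [Rmu, not_le] at hc
        obtain ⟨x, h1, h2⟩ := exists_between (show zed μ y < mean μ + 1 / y by linarith)
        have hx : topS μ < x := lt_of_le_of_lt hz h1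
        have := gm_ge hB hx
        have hd : 0 < x - mean μ := by linarith [(mean_mem hB).2.1]
        have : y < gm μ x := by
          refine lt_of_lt_of_le ?_ this
          rw [lt_one_div hy hd]; linarith
        linarith [le_zed hB hy hx this]
      linarith [(abs_le.1 (mean_mem hB).2.2).1]
    · have := (zed_mem hB hy).2
      have := (abs_le.1 (abs_topS hB)).2
      rw [Rmu]; linarith
  · exact (mean_mem hB).2.2

lemma mean_le_Rm (hy : 0 < y) : mean μ ≤ Rm μ y := by
  rw [Rm, if_pos hy, Rmu]
  have hz := (zed_mem hB hy).1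
  by_contra hc
  obtain ⟨x, h1, h2⟩ := exists_between (show zed μ y < mean μ + 1 / y by linarith)
  have hx : topS μ < x := lt_of_le_of_lt hz h1
  have h := gm_ge hB hx
  have hd : 0 < x - mean μ := by linarith [(mean_mem hB).2.1]
  have : y < gm μ x := by
    refine lt_of_lt_of_le ?_ h
    rw [lt_one_div hy hd]; linarith
  linarith [le_zed hB hy hx this]

/-- near zero the transform is near the mean -/
lemma Rm_zero (hy : 0 < y) (hy1 : 8 * L * y ≤ 1) : Rm μ y ≤ mean μ + 16 * L ^ 2 * y := by
  have := hB.prob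
  have hm := mean_mem hB
  have hb := abs_le.1 (abs_topS hB)
  have h0 := L_nonneg hB
  rw [Rm, if_pos hy, Rmu, sub_le_iff_le_add]
  set d := 1 / y + 16 * L ^ 2 * y
  have hd : 8 * L ≤ 1 / y := by rw [le_div_iff₀ hy]; linarith
  have hy' : 0 < 1 / y := by positivity
  have hd0 : 8 * L ≤ d ∧ 1 / y ≤ d := ⟨by simp only [d]; nlinarith, le_add_of_nonneg_right (by positivity)⟩
  have hz : topS μ < mean μ + d := by
    rcases h0.eq_or_lt with e | e
    · have : L = 0 := e.symm
      linarith [hd0.2]
    · linarith [(abs_le.1 hm.2.2).1, hd0.1]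
  suffices gm μ (mean μ + d) ≤ y by
    have := zed_le hz this
    simp only [d] at this
    linarith
  have hd' : 0 < d := lt_of_lt_of_le hy' hd0.2
  have hu : Integrable (fun x => x - mean μ) μ := (integrable_id' hB).sub' (integrable_const _)
  have h1 := integral_mono_ae (integrable_inv hB hz)
    (((integrable_const (1 / d)).add (hu.div_const (d ^ 2))).add (integrable_const (8 * L ^ 2 / d ^ 3)))
    ((ae_mem hB).mono fun x hx => show 1 / (mean μ + d - x) ≤ 1 / d + (x - mean μ) / d ^ 2 + 8 * L ^ 2 / d ^ 3 by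
      have h2 : |x - mean μ| ≤ 2 * L := (abs_sub _ _).trans (by linarith [hx.1, hm.2.2])
      have h3 := (abs_le.1 h2).2
      have h4 : d / 2 ≤ mean μ + d - x := by linarith [hd0.1, h0]
      rw [show 1 / d + (x - mean μ) / d ^ 2 + 8 * L ^ 2 / d ^ 3 =
        (d ^ 2 + (x - mean μ) * d + 8 * L ^ 2) / d ^ 3 by field_simp,
        div_le_div_iff₀ (by linarith) (by positivity)]
      have h5 : (x - mean μ) ^ 2 ≤ 4 * L ^ 2 := by nlinarith [abs_nonneg (x - mean μ), sq_abs (x - mean μ)]
      nlinarith [mul_le_mul_of_nonneg_left h4 (show (0:ℝ) ≤ 8 * L ^ 2 by positivity),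
        mul_le_mul_of_nonneg_right h5 hd'.le])
  rw [integral_add' ((integrable_const _).add (hu.div_const _)) (integrable_const _),
    integral_add' (integrable_const _) (hu.div_const _), integral_const, integral_const, integral_div,
    integral_sub (integrable_id' hB) (integrable_const _)] at h1
  simp only [integral_const, probReal_univ, one_smul, mean, sub_self, zero_div, add_zero] at h1
  refine h1.trans ?_
  rw [div_add_div _ _ hd'.ne' (by positivity), div_le_iff₀ (by positivity)]
  have e : y * d = 1 + 16 * L ^ 2 * y ^ 2 := by simp only [d]; field_simp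
  have h6 : 0 ≤ L ^ 2 * d := by positivity
  have h7 : 1 ≤ y * d := by rw [e]; nlinarith
  have h8 : 1 ≤ (y * d) ^ 2 := one_le_pow₀ h7
  have h9 := mul_le_mul_of_nonneg_left h8 (show 0 ≤ 16 * L ^ 2 * d by positivity)
  have e2 : y * (d * d ^ 3) = (y * d) * d ^ 3 := by ring
  rw [e2, e]
  nlinarith [h9, h6]

lemma continuousOn_Rm : ContinuousOn (Rm μ) (Ici 0) := by
  intro x hx
  rcases (mem_Ici.1 hx).eq_or_lt with rfl | hx
  · have h0 := L_nonneg hB
    rw [ContinuousWithinAt, show Rm μ 0 = mean μ from if_neg (lt_irrefl 0), Metric.tendsto_nhdsWithin_nhds]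
    intro ε hε
    refine ⟨min (1 / (8 * L + 1)) (ε / (16 * L ^ 2 + 1)), lt_min (by positivity) (by positivity), fun y hy hd => ?_⟩
    rw [Real.dist_eq, sub_zero, abs_of_nonneg (mem_Ici.1 hy)] at hd
    rw [Real.dist_eq]
    rcases (mem_Ici.1 hy).eq_or_lt with rfl | hy
    · simpa [Rm] using hε
    have h1 := hd.trans_le (min_le_left _ _)
    have h2 := hd.trans_le (min_le_right _ _)
    rw [lt_div_iff₀ (by positivity)] at h1 h2
    have a := mean_le_Rm hB hy
    have b := Rm_zero hB hy (by linarith)
    rw [abs_of_nonneg (by linarith)]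
    linarith
  · have h1 : ContinuousAt (fun y => zed μ y - 1 / y) x :=
      (continuousAt_zed hB hx).sub (continuousAt_const.div continuousAt_id hx.ne')
    refine (h1.congr ?_).continuousWithinAt
    filter_upwards [eventually_gt_nhds hx] with y hy
    simp [Rm, hy, Rmu]

end law

/-- monotone functions tending pointwise to a continuous one tend uniformly on the unit interval -/
lemma polya {f : ℕ → ℝ → ℝ} {g : ℝ → ℝ} (hm : ∀ n, MonotoneOn (f n) (Set.Icc 0 1))
    (hg : ContinuousOn g (Set.Icc 0 1))
    (hl : ∀ x ∈ Set.Icc (0:ℝ) 1, Tendsto (fun n => f n x) atTop (𝓝 (g x))) {ε : ℝ} (hε : 0 < ε) :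
    ∀ᶠ n in atTop, ∀ x ∈ Set.Icc (0:ℝ) 1, |f n x - g x| ≤ ε := by
  obtain ⟨δ, hδ, hu⟩ := Metric.uniformContinuousOn_iff_le.1
    (isCompact_Icc.uniformContinuousOn_of_continuous hg) (ε / 2) (by positivity)
  obtain ⟨m, hm'⟩ := exists_nat_gt (1 / δ)
  have hm0 : (0:ℝ) < m := lt_trans (by positivity) hm'
  have hmn : 0 < m := Nat.cast_pos.1 hm0
  set p : ℕ → ℝ := fun i => (i:ℝ) / m
  have hp : ∀ i ≤ m, p i ∈ Set.Icc (0:ℝ) 1 := fun i hi =>
    ⟨by positivity, div_le_one_of_le₀ (by exact_mod_cast hi) hm0.le⟩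
  have hstep : ∀ i : ℕ, p (i + 1) - p i ≤ δ := fun i => by
    simp only [p]
    rw [← sub_div, Nat.cast_succ, add_sub_cancel_left]
    exact ((div_le_iff₀ hm0).2 (by have := (div_lt_iff₀ hδ).1 hm'; linarith))
  filter_upwards [(eventually_all_finset (Finset.range (m + 1))).2 fun i hi =>
    Metric.tendsto_nhds.1 (hl (p i) (hp i (by simp at hi; omega))) (ε / 2) (by positivity)] with n hn x hx
  set i := min ⌊x * m⌋₊ (m - 1)
  have hi : i + 1 ≤ m := by have := min_le_right ⌊x * m⌋₊ (m - 1); omega
  have h1 : p i ≤ x := by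
    rw [div_le_iff₀ hm0]
    exact le_trans (Nat.cast_le.2 (min_le_left _ _)) (Nat.floor_le (mul_nonneg hx.1 hm0.le))
  have h2 : x ≤ p (i + 1) := by
    rw [le_div_iff₀ hm0]
    rcases le_total ⌊x * m⌋₊ (m - 1) with h | h
    · rw [show i = ⌊x * m⌋₊ from min_eq_left h, Nat.cast_succ]; exact (Nat.lt_floor_add_one _).le
    · rw [show i + 1 = m by have : i = m - 1 := min_eq_right h; omega]
      exact mul_le_of_le_one_left hm0.le hx.2
  have a := hn i (Finset.mem_range.2 (by omega))
  have b := hn (i + 1) (Finset.mem_range.2 (by omega))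
  have c := hu x hx (p i) (hp i (by omega)) (by rw [Real.dist_eq, abs_of_nonneg (by linarith)]; linarith [hstep i])
  have d := hu x hx (p (i + 1)) (hp _ hi) (by rw [Real.dist_eq, abs_of_nonpos (by linarith)]; linarith [hstep i])
  have u1 := hm n (hp i (by omega)) hx h1
  have u2 := hm n hx (hp _ hi) h2
  rw [Real.dist_eq, abs_lt] at a b
  rw [Real.dist_eq, abs_le] at c d
  rw [abs_le]
  constructor <;> linarith

end Vale.Agent.P166.Gen
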