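import Vale.Agent.P166.Gen.SdDefs
import Vale.Agent.P166.Functional
import Vale.Agent.P157.Par.Rep

/-!
# P166 Gen G1: the attachment sums are the node means of the identities

All attachments of a pair split at level `s` are moved to stars around the attached replica; the
levels outside the node and the correlations between the two ends cost the deviation of the node.
-/

open MeasureTheory Finset Real
open Vale.Agent.P157.Par (qlev ovK tower)
open Vale.Agent.P168.MP (lin ET ext att ext_comm ext_congr ext_const_mul ext_mul_const ext_sub ext_add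
  ext_const ext_mono ext_bound ext_abs_le ET_single ET_cons)

noncomputable section

namespace Vale.Agent.P166.Gen
namespace SdAlg

set_option linter.unusedSectionVars false

variable {k N R : ℕ} {Ω : Type} [Fintype Ω] [Nonempty Ω] {W : List Ω → ℝ}

/-- expectation of a function of one replica -/
abbrev E1 (R : ℕ) (W : List Ω → ℝ) (F : List Ω → ℝ) : ℝ := ext (lin R) W R [] F

/-- expectation of a function of three replicas: `b` shares `s` marks with `a`, and `x` shares `t` -/
def tri (R : ℕ) (W : List Ω → ℝ) (s t : ℕ) (K : List Ω → List Ω → List Ω → ℝ) : ℝ :=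
  E1 R W fun a => ext (lin R) W (R - s) (a.take s) fun b => ext (lin R) W (R - t) (a.take t) fun x => K a b x

/-! ### bounds -/

lemma povc_comm (lab : Fin N → Fin k) (U : Mat N) (c : Fin k → ℝ) (σ τ : Fin N → Bool) :
    povc lab U c σ τ = povc lab U c τ σ := by
  simp only [povc, pov, mul_comm (cd U σ _)]

lemma abs_povc_le_mul [NeZero N] {U : Mat N} (hU : Matrix.of U ∈ Matrix.orthogonalGroup (Fin N) ℝ)
    (lab : Fin N → Fin k) {c : Fin k → ℝ} {B : ℝ} (hc : ∀ j, |c j| ≤ B) (σ τ : Fin N → Bool) :
    |povc lab U c σ τ| ≤ B := by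
  have hN : (0:ℝ) < N := by exact_mod_cast Nat.pos_of_ne_zero (NeZero.ne N)
  have e : povc lab U c σ τ = (∑ i, c (lab i) * (cd U σ i * cd U τ i)) / N := by
    simp only [povc, pov, mul_div_assoc', ← sum_div, mul_sum]
    congr 1
    rw [← sum_fiberwise univ lab fun i => c (lab i) * (cd U σ i * cd U τ i)]
    exact sum_congr rfl fun j _ => sum_congr rfl fun i hi => by rw [(mem_filter.1 hi).2]
  rw [e, abs_div, abs_of_pos hN, div_le_iff₀ hN]
  refine (abs_sum_le_sum_abs _ _).trans
    ((sum_le_sum (g := fun i => B * ((cd U σ i ^ 2 + cd U τ i ^ 2) / 2)) fun i _ => ?_).trans_eq ?_)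
  · rw [abs_mul, abs_mul]
    refine mul_le_mul (hc _) ?_ (by positivity) ((abs_nonneg _).trans (hc (lab i)))
    nlinarith [sq_nonneg (|cd U σ i| - |cd U τ i|), sq_abs (cd U σ i), sq_abs (cd U τ i)]
  · rw [← mul_sum, ← sum_div, sum_add_distrib,
      show ∑ i, cd U σ i ^ 2 = N from sum_field_sq hU σ,
      show ∑ i, cd U τ i ^ 2 = N from sum_field_sq hU τ]
    ring

lemma povc_smul (lab : Fin N → Fin k) (U : Mat N) (a : ℝ) (c : Fin k → ℝ) (σ τ : Fin N → Bool) :
    povc lab U (a • c) σ τ = a * povc lab U c σ τ := by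
  simp only [povc, Pi.smul_apply, smul_eq_mul, mul_sum, mul_assoc]

/-! ### replica calculus -/

/-- the law of the node at level `n` -/
lemma E1_node {n : ℕ} (hn : n ≤ R) (G : List Ω → List Ω → ℝ) :
    E1 R W (fun a => G (a.take n) a) =
      ext (lin R) (P168.MP.Z (lin R) W (R - n)) n [] fun pre => ext (lin R) W (R - n) pre (G pre) := by
  rw [E1, tower n hn]
  refine P157.Par.ext_congr_len fun pre hpre => ext_congr fun suf _ => ?_
  rw [List.take_left' hpre]

/-- two replicas sharing the first `n` marks may be exchanged -/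
lemma E1_swap {n : ℕ} (hn : n ≤ R) (F : List Ω → List Ω → ℝ) :
    E1 R W (fun a => ext (lin R) W (R - n) (a.take n) fun b => F a b) =
      E1 R W fun a => ext (lin R) W (R - n) (a.take n) fun b => F b a := by
  rw [E1_node hn fun pre a => ext (lin R) W (R - n) pre fun b => F a b,
    E1_node hn fun pre a => ext (lin R) W (R - n) pre fun b => F b a]
  exact P157.Par.ext_congr_len fun pre _ => ext_comm _ _ _ _ _

/-- exchanging the first and the deeper replica -/
lemma tri_exch {s t : ℕ} (hst : s ≤ t) (ht : t ≤ R) (K : List Ω → List Ω → List Ω → ℝ) :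
    tri R W s t K = tri R W s t fun a b x => K x b a := by
  have e : ∀ K' : List Ω → List Ω → List Ω → ℝ, tri R W s t K' = E1 R W fun a =>
      ext (lin R) W (R - t) (a.take t) fun x => ext (lin R) W (R - s) ((a.take t).take s) fun b => K' a b x :=
    fun K' => ext_congr fun suf _ => by rw [List.take_take, min_eq_left hst, ext_comm]
  rw [e, e, E1_node ht fun pre a => ext (lin R) W (R - t) pre fun x =>
      ext (lin R) W (R - s) (pre.take s) fun b => K a b x,
    E1_node ht fun pre a => ext (lin R) W (R - t) pre fun x =>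
      ext (lin R) W (R - s) (pre.take s) fun b => K x b a]
  exact P157.Par.ext_congr_len fun pre _ => ext_comm _ _ _ _ _

/-- means of two functions at bounded distance are at bounded distance -/
lemma abs_ext_sub_le (hW : ∀ p, 0 < W p) {d : ℕ} {pre : List Ω} {F G : List Ω → ℝ} {C : ℝ}
    (h : ∀ q, |F q - G q| ≤ C) : |ext (lin R) W d pre F - ext (lin R) W d pre G| ≤ C := by
  rw [← ext_sub]
  exact ext_bound hW h

/-- below a node two linear forms may be decoupled -/
lemma decouple (hW : ∀ p, 0 < W p) {n s : ℕ} (hns : n ≤ s) (hs : s ≤ R) {pre : List Ω} (hpre : pre.length = n)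
    {f g : List Ω → ℝ} {Lg : ℝ} (hg : ∀ b, |g b| ≤ Lg) :
    |ext (lin R) W (R - n) pre (fun a => f a * ext (lin R) W (R - s) (a.take s) g) -
        ext (lin R) W (R - n) pre f * ext (lin R) W (R - n) pre g| ≤
      Lg * ext (lin R) W (R - n) pre (fun a => |f a - ext (lin R) W (R - n) pre f|) := by
  set μ := ext (lin R) W (R - n) pre f
  set h := fun a : List Ω => ext (lin R) W (R - s) (a.take s) g
  have hh : ext (lin R) W (R - n) pre h = ext (lin R) W (R - n) pre g := by
    simp only [h]
    rw [P157.Par.ext_prefix hW hns hs hpre fun q => ext (lin R) W (R - s) q g, ← P157.Par.tower' hns hs pre g]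
  have e : ext (lin R) W (R - n) pre (fun a => f a * h a) - μ * ext (lin R) W (R - n) pre g =
      ext (lin R) W (R - n) pre fun a => h a * (f a - μ) := by
    rw [← hh, ← ext_const_mul, ← ext_sub]
    exact ext_congr fun suf _ => by ring
  show |ext (lin R) W (R - n) pre (fun a => f a * h a) - _| ≤ _
  rw [e, ← ext_const_mul]
  refine (ext_abs_le hW _ _ _).trans (ext_mono hW fun a => ?_)
  rw [abs_mul]
  exact mul_le_mul_of_nonneg_right (ext_bound hW hg) (abs_nonneg _)

/-! ### the pair terms -/

variable {rd : List Ω → Fin N → Bool} {lab : Fin N → Fin k} {U : Mat N} {θ c : Fin k → ℝ}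

/-- the weighted integrand of an attached replica at the node of level `l` -/
def kern (θ : Fin k → ℝ) (lab : Fin N → Fin k) (U : Mat N) (rd : List Ω → Fin N → Bool) (c : Fin k → ℝ)
    (φ : List Ω → ℝ) (l : ℕ) (a b x : List Ω) : ℝ :=
  φ (a.take l) * pairT θ lab U c (rd a) (rd x) (rd b)

/-- the product of two mean forms of one path -/
def gTerm (R : ℕ) (θ : Fin k → ℝ) (lab : Fin N → Fin k) (U : Mat N) (W : List Ω → ℝ)
    (rd : List Ω → Fin N → Bool) (c : Fin k → ℝ) (φ : List Ω → ℝ) (l u v : ℕ) : ℝ :=
  E1 R W fun p => φ (p.take l) * (hB R lab U W rd c u p * hB R lab U W rd θ v p -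
    hB R lab U W rd 1 v p * hB R lab U W rd (θ * c) u p)

/-- attached to the first replica at a deeper level -/
lemma tri_deep {φ : List Ω → ℝ} {l s t : ℕ} (hls : l ≤ s) (hst : s ≤ t) (ht : t ≤ R) :
    tri R W s t (kern θ lab U rd c φ l) = gTerm R θ lab U W rd c φ l t s := by
  rw [tri_exch hst ht]
  refine ext_congr fun suf hsuf => ?_
  simp only [List.nil_append]
  rw [ext_comm]
  calc ext (lin R) W (R - t) (suf.take t) (fun q => ext (lin R) W (R - s) (suf.take s) fun r =>
        kern θ lab U rd c φ l q r suf)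
      = ext (lin R) W (R - t) (suf.take t) (fun q => ext (lin R) W (R - s) (suf.take s) fun r =>
          φ (suf.take l) * (povc lab U c (rd suf) (rd q) * povc lab U θ (rd suf) (rd r) -
            povc lab U 1 (rd suf) (rd r) * povc lab U (θ * c) (rd suf) (rd q))) := by
        refine ext_congr fun suf' _ => ext_congr fun suf'' _ => ?_
        have hlen : (suf.take t).length = t := by rw [List.length_take, hsuf, min_eq_left ht]
        have el : (suf.take t ++ suf').take l = suf.take l := by
          rw [List.take_append_of_le_length (by omega), List.take_take, min_eq_left (hls.trans hst)]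
        simp only [kern, pairT, el, povc_comm lab U c (rd (suf.take t ++ suf'))]
    _ = _ := by
        simp only [hB, ext_const_mul, ext_mul_const, ext_sub]

/-- attached to the second replica -/
lemma tri_second {φ : List Ω → ℝ} {l s t : ℕ} (hls : l ≤ s) (hst : s ≤ t) (ht : t ≤ R) :
    E1 R W (fun a => ext (lin R) W (R - s) (a.take s) fun b => ext (lin R) W (R - t) (b.take t) fun x =>
        kern θ lab U rd c φ l a b x) = gTerm R θ lab U W rd c φ l s t := by
  rw [E1_swap (hst.trans ht)]
  show tri R W s t (fun a b x => kern θ lab U rd c φ l b a x) = _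
  rw [tri_exch hst ht]
  refine ext_congr fun suf hsuf => ?_
  simp only [List.nil_append]
  calc ext (lin R) W (R - s) (suf.take s) (fun q => ext (lin R) W (R - t) (suf.take t) fun r =>
        kern θ lab U rd c φ l q r suf)
      = ext (lin R) W (R - s) (suf.take s) (fun q => ext (lin R) W (R - t) (suf.take t) fun r =>
          φ (suf.take l) * (povc lab U c (rd suf) (rd q) * povc lab U θ (rd suf) (rd r) -
            povc lab U 1 (rd suf) (rd r) * povc lab U (θ * c) (rd suf) (rd q))) := by
        refine ext_congr fun suf' _ => ext_congr fun suf'' _ => ?_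
        have hlen : (suf.take s).length = s := by rw [List.length_take, hsuf, min_eq_left (hst.trans ht)]
        have el : (suf.take s ++ suf').take l = suf.take l := by
          rw [List.take_append_of_le_length (by omega), List.take_take, min_eq_left hls]
        simp only [kern, pairT, el, povc_comm lab U c (rd (suf.take s ++ suf'))]
    _ = _ := by
        simp only [hB, ext_const_mul, ext_mul_const, ext_sub]

/-- the node of level `n` sees only the node means -/
lemma tri_node {φ : List Ω → ℝ} {l n s t : ℕ} (htn : t ≤ n) (hln : l ≤ n) (hns : n ≤ s) (hs : s ≤ R) :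
    tri R W s t (kern θ lab U rd c φ l) =
      ext (lin R) (P168.MP.Z (lin R) W (R - n)) n [] fun pre =>
        ext (lin R) W (R - t) (pre.take t) fun x => φ (pre.take l) *
          ext (lin R) W (R - n) pre fun a => ext (lin R) W (R - s) (a.take s) fun b =>
            pairT θ lab U c (rd a) (rd x) (rd b) := by
  have e : tri R W s t (kern θ lab U rd c φ l) = E1 R W fun a =>
      ext (lin R) W (R - t) ((a.take n).take t) fun x => φ ((a.take n).take l) *
        ext (lin R) W (R - s) (a.take s) fun b => pairT θ lab U c (rd a) (rd x) (rd b) :=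
    ext_congr fun suf _ => by
      rw [List.take_take, List.take_take, min_eq_left htn, min_eq_left hln, ext_comm]
      simp only [kern, ext_const_mul]
  rw [e, E1_node (hns.trans hs) fun pre a => ext (lin R) W (R - t) (pre.take t) fun x => φ (pre.take l) *
      ext (lin R) W (R - s) (a.take s) fun b => pairT θ lab U c (rd a) (rd x) (rd b)]
  refine P157.Par.ext_congr_len fun pre _ => ?_
  rw [ext_comm]
  exact ext_congr fun suf _ => ext_const_mul _ _ _ _

lemma node_decouple [NeZero N] {n : ℕ} (hW : ∀ p, 0 < W p) (hU : Matrix.of U ∈ Matrix.orthogonalGroup (Fin N) ℝ)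
    (hcov : ∀ (c : Fin k → ℝ), (∀ j, |c j| ≤ 1) → ∀ (σ : Fin N → Bool) (pre : List Ω), pre.length = n →
      nodeE R W n (fun q => |povc lab U c σ (rd q) - nodeE R W n (fun q' => povc lab U c σ (rd q')) pre|) pre ≤
        devN R W rd n pre)
    {L : ℝ} (hL : 1 ≤ L) (hθ : ∀ j, |θ j| ≤ L) (hc : ∀ j, |c j| ≤ 1) {s : ℕ} (hns : n ≤ s) (hs : s ≤ R)
    {pre : List Ω} (hpre : pre.length = n) (σ : Fin N → Bool) :
    |ext (lin R) W (R - n) pre (fun a => ext (lin R) W (R - s) (a.take s) fun b =>
          pairT θ lab U c (rd a) σ (rd b)) -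
        (ext (lin R) W (R - n) pre (fun a => povc lab U c σ (rd a)) *
            ext (lin R) W (R - n) pre (fun b => povc lab U θ σ (rd b)) -
          ext (lin R) W (R - n) pre (fun a => povc lab U (θ * c) σ (rd a)) *
            ext (lin R) W (R - n) pre (fun b => povc lab U 1 σ (rd b)))| ≤ 2 * L * devN R W rd n pre := by
  have hθc : ∀ j, |(θ * c) j| ≤ L := fun j => by
    rw [Pi.mul_apply, abs_mul]
    simpa using mul_le_mul (hθ j) (hc j) (abs_nonneg _) (by linarith)
  have e : ext (lin R) W (R - n) pre (fun a => ext (lin R) W (R - s) (a.take s) fun b =>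
        pairT θ lab U c (rd a) σ (rd b)) =
      ext (lin R) W (R - n) pre (fun a => povc lab U c σ (rd a) *
          ext (lin R) W (R - s) (a.take s) fun b => povc lab U θ σ (rd b)) -
        ext (lin R) W (R - n) pre (fun a => povc lab U (θ * c) σ (rd a) *
          ext (lin R) W (R - s) (a.take s) fun b => povc lab U 1 σ (rd b)) := by
    rw [← ext_sub]
    refine ext_congr fun suf _ => ?_
    simp only [pairT, ← ext_const_mul, ← ext_sub]
    refine ext_congr fun suf' _ => ?_
    rw [povc_comm lab U c _ σ]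
    ring
  have d1 : ext (lin R) W (R - n) pre (fun a => |povc lab U c σ (rd a) -
      ext (lin R) W (R - n) pre fun a' => povc lab U c σ (rd a')|) ≤ devN R W rd n pre := hcov c hc σ pre hpre
  have d2 : ext (lin R) W (R - n) pre (fun a => |povc lab U (θ * c) σ (rd a) -
      ext (lin R) W (R - n) pre fun a' => povc lab U (θ * c) σ (rd a')|) ≤ L * devN R W rd n pre := by
    have hL0 : (0:ℝ) < L := by linarith
    have h := hcov (L⁻¹ • (θ * c)) (fun j => by
      rw [Pi.smul_apply, smul_eq_mul, abs_mul, abs_of_pos (inv_pos.2 hL0), inv_mul_le_one₀ hL0]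
      exact hθc j) σ pre hpre
    simp only [nodeE, povc_smul, ext_const_mul, ← mul_sub, abs_mul, abs_of_pos (inv_pos.2 hL0)] at h
    exact (inv_mul_le_iff₀ hL0).1 h
  have a := decouple hW hns hs hpre (f := fun a => povc lab U c σ (rd a))
    (g := fun b => povc lab U θ σ (rd b)) fun b => abs_povc_le_mul hU lab hθ _ _
  have b := decouple hW hns hs hpre (f := fun a => povc lab U (θ * c) σ (rd a))
    (g := fun b => povc lab U 1 σ (rd b)) (Lg := 1) fun b =>
      abs_povc_le_mul hU lab (c := (1 : Fin k → ℝ)) (fun j => by simp) _ _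
  have a' := a.trans (mul_le_mul_of_nonneg_left d1 (by linarith))
  rw [e]
  calc |_| = |_| := congrArg abs (sub_sub_sub_comm _ _ _ _)
    _ ≤ _ := (abs_sub _ _).trans (by linarith [b.trans (mul_le_mul_of_nonneg_left d2 zero_le_one)])

lemma abs_pairT_le [NeZero N] (hU : Matrix.of U ∈ Matrix.orthogonalGroup (Fin N) ℝ) {L : ℝ} (hL : 1 ≤ L)
    (hθ : ∀ j, |θ j| ≤ L) (hc : ∀ j, |c j| ≤ 1) (a x b : Fin N → Bool) :
    |pairT θ lab U c a x b| ≤ 2 * L := by
  refine (abs_sub _ _).trans ?_
  have h1 := mul_le_mul (abs_povc_le_mul hU lab hc a x) (abs_povc_le_mul hU lab hθ x b) (abs_nonneg _) zero_le_one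
  have h2 := mul_le_mul (abs_povc_le_mul hU lab (c := (1 : Fin k → ℝ)) (B := 1) (fun j => by simp) x b)
    (abs_povc_le_mul hU lab (B := L) (c := θ * c) (fun j => by
      rw [Pi.mul_apply, abs_mul]; simpa using mul_le_mul (hθ j) (hc j) (abs_nonneg _) (by linarith)) x a)
    (abs_nonneg _) zero_le_one
  rw [abs_mul, abs_mul]
  linarith

/-- the node mean is the same for all deeper splittings of the two ends -/
lemma tri_move [NeZero N] (hW : ∀ p, 0 < W p) (hU : Matrix.of U ∈ Matrix.orthogonalGroup (Fin N) ℝ)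
    (hcov : StmtSdCov) (hR : 1 ≤ R)
    {L : ℝ} (hL : 1 ≤ L) (hθ : ∀ j, |θ j| ≤ L) (hc : ∀ j, |c j| ≤ 1) {φ : List Ω → ℝ} {B : ℝ}
    (hφ : ∀ pre, |φ pre| ≤ B) {l n s t : ℕ} (htn : t ≤ n) (hln : l ≤ n) (hns : n ≤ s) (hs : s ≤ R) :
    |tri R W s t (kern θ lab U rd c φ l) - tri R W n t (kern θ lab U rd c φ l)| ≤
      8 * L * B * devS R W rd n := by
  have hB : 0 ≤ B := (abs_nonneg _).trans (hφ [])
  obtain ⟨hdev, hcov'⟩ := hcov k R N hR lab U hU W hW rd n (hns.trans hs)
  rw [tri_node htn hln hns hs, tri_node htn hln le_rfl (hns.trans hs), ← ext_sub]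
  have hZ : ∀ q, 0 < P168.MP.Z (lin R) W (R - n) q := fun q => P168.MP.Z_pos hW _ q
  refine (ext_abs_le hZ _ _ _).trans ?_
  have e1 : ext (lin R) (P168.MP.Z (lin R) W (R - n)) n [] (fun pre => devN R W rd n pre) ≤ 2 * devS R W rd n := by
    refine le_trans (le_of_eq ?_) hdev
    rw [ET_single]
    show _ = E1 R W fun a => devN R W rd n ([a].getD 0 [] |>.take n)
    simp only [List.getD_cons_zero]
    rw [E1_node (hns.trans hs) fun pre _ => devN R W rd n pre]
    simp only [ext_const hW]
  refine le_trans (P168.MP.ext_mono_on hZ (G := fun pre => 4 * L * B * devN R W rd n pre) fun suf hsuf => ?_) ?_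
  · simp only [List.nil_append]
    refine abs_ext_sub_le hW fun x => ?_
    rw [← mul_sub, abs_mul]
    have h1 := node_decouple hW hU hcov' hL hθ hc hns hs (θ := θ) (c := c) hsuf (rd x)
    have h2 := node_decouple hW hU hcov' hL hθ hc le_rfl (hns.trans hs) (θ := θ) (c := c) hsuf (rd x)
    rw [show 4 * L * B * devN R W rd n suf = B * (4 * L * devN R W rd n suf) by ring]
    refine mul_le_mul (hφ _) ?_ (abs_nonneg _) hB
    rw [abs_le] at h1 h2 ⊢
    constructor <;> linarith
  · rw [ext_const_mul]
    exact (mul_le_mul_of_nonneg_left e1 (by positivity)).trans_eq (by ring)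

/-! ### the weights -/

/-- the coefficient of the attachment at the split of the pair -/
def csl (R s : ℕ) : ℝ := if s < R then -((s : ℝ) + 1) / R else 0

lemma rc_above {l s : ℕ} (h : l < s) : rc R l s = kapR R s := by simp only [rc, kapR, if_neg h.ne']

lemma kap_low {t : ℕ} (h : t < R) : kapR R t = -1 / R := if_neg h.ne

lemma sum_kap (t : ℕ) (h : t < R) : ∑ s ∈ Icc (t + 1) R, kapR R s = ((t : ℝ) + 1) / R := by
  have hR : (R:ℝ) ≠ 0 := by exact_mod_cast (show R ≠ 0 by omega)
  rw [← Ico_insert_right (show t + 1 ≤ R by omega), sum_insert (by simp),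
    sum_congr rfl fun s hs => kap_low (mem_Ico.1 hs).2, sum_const, Nat.card_Ico, nsmul_eq_mul,
    Nat.cast_sub (show t + 1 ≤ R by omega)]
  simp only [kapR, if_pos]
  push_cast
  field_simp; ring

lemma sum_rc {l : ℕ} (hl : l < R) : ∑ s ∈ Icc l R, rc R l s = 0 := by
  rw [← insert_Icc_add_one_left_eq_Icc hl.le, sum_insert (by simp),
    sum_congr rfl fun s hs => rc_above (R := R) (l := l) (mem_Icc.1 hs).1, sum_kap l hl]
  simp only [rc, if_neg hl.ne, if_pos]
  ring

lemma sum_abs_rc {l : ℕ} (hl : l < R) : ∑ s ∈ Icc l R, |rc R l s| ≤ 3 := by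
  have hR : (0:ℝ) < R := by exact_mod_cast (show 0 < R by omega)
  have hle : ∀ s ∈ Icc l R, |rc R l s| ≤ (if s = R then 1 else 0) + ((if s = l then 1 else 0) + 1 / R * (if s < R then 1 else 0)) := by
    intro s hs
    have := (mem_Icc.1 hs).2
    unfold rc
    split_ifs with h1 h2 h3 h4 <;> try omega
    · simp
    · rw [abs_div, abs_neg, abs_of_nonneg (by positivity), abs_of_pos hR]
      have : (l:ℝ) + 1 ≤ R := by exact_mod_cast hl
      linarith [(div_le_one hR).2 this, show (0:ℝ) ≤ 1 / R * 1 by positivity]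
    · rw [abs_div, abs_neg, abs_one, abs_of_pos hR]; simp
  refine (sum_le_sum hle).trans ?_
  rw [sum_add_distrib, sum_add_distrib, ← mul_sum, sum_ite_eq', sum_ite_eq', sum_boole]
  have hc : ((Icc l R).filter (· < R)).card ≤ R := by
    refine (card_le_card (t := range R) fun s hs => ?_).trans_eq (card_range R)
    simpa using (mem_filter.1 hs).2
  have : 1 / (R:ℝ) * ((Icc l R).filter (· < R)).card ≤ 1 := by
    rw [one_div, inv_mul_le_one₀ hR]; exact_mod_cast hc
  rw [if_pos (by simp [hl.le]), if_pos (by simp [hl.le])]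
  linarith

/-- the attachment coefficients of all pairs are the square of the row -/
lemma weights {l : ℕ} (hl : l < R) (G : ℕ → ℕ → ℝ) (H : ℝ) :
    ∑ s ∈ Icc l R, rc R l s * (H + (∑ t ∈ Ico l s, kapR R t * G t t) + (kapR R s + csl R s) * G s s +
        ∑ t ∈ Icc (s + 1) R, kapR R t * (G t s + G s t)) =
      ∑ s ∈ Icc l R, ∑ t ∈ Icc l R, rc R l s * rc R l t * G s t := by
  have hR : (R:ℝ) ≠ 0 := by exact_mod_cast (show R ≠ 0 by omega)
  have split : ∀ s ∈ Icc l R, ∀ f : ℕ → ℝ,
      ∑ t ∈ Icc l R, f t = (∑ t ∈ Ico l s, f t) + f s + ∑ t ∈ Icc (s + 1) R, f t := fun s hs f => by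
    obtain ⟨h1, h2⟩ := mem_Icc.1 hs
    rw [show Icc l R = (Ico l s ∪ {s}) ∪ Icc (s + 1) R by
        ext t; simp only [mem_union, mem_Ico, mem_singleton, mem_Icc]; omega,
      sum_union (disjoint_left.2 fun t a b => by
        simp only [mem_union, mem_Ico, mem_singleton, mem_Icc] at a b; omega),
      sum_union (disjoint_left.2 fun t a b => by simp only [mem_Ico, mem_singleton] at a b; omega), sum_singleton]
  have tri' : ∀ f : ℕ → ℕ → ℝ, ∑ s ∈ Icc l R, ∑ t ∈ Ico l s, f s t =
      ∑ t ∈ Icc l R, ∑ s ∈ Icc (t + 1) R, f s t := fun f => by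
    refine sum_comm' fun s t => ?_
    simp only [mem_Icc, mem_Ico]; omega
  have lhs : ∀ s ∈ Icc l R, rc R l s * (H + (∑ t ∈ Ico l s, kapR R t * G t t) + (kapR R s + csl R s) * G s s +
        ∑ t ∈ Icc (s + 1) R, kapR R t * (G t s + G s t)) =
      rc R l s * H + (∑ t ∈ Ico l s, rc R l s * (kapR R t * G t t)) + rc R l s * (kapR R s + csl R s) * G s s +
        ((∑ t ∈ Icc (s + 1) R, rc R l t * rc R l s * G t s) + ∑ t ∈ Icc (s + 1) R, rc R l s * rc R l t * G s t) := by
    intro s hs
    rw [← sum_add_distrib, mul_add, mul_add, mul_add, mul_sum, mul_sum, mul_assoc]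
    congr 1
    refine sum_congr rfl fun t ht => ?_
    rw [rc_above (R := R) (l := l) (show l < t by have := (mem_Icc.1 hs).1; have := (mem_Icc.1 ht).1; omega)]
    ring
  rw [sum_congr rfl lhs, sum_congr rfl fun s hs => split s hs fun t => rc R l s * rc R l t * G s t]
  have hH : ∑ s ∈ Icc l R, rc R l s * H = 0 := by rw [← sum_mul, sum_rc hl, zero_mul]
  simp only [sum_add_distrib, tri', hH]
  have dia : ∑ t ∈ Icc l R, (∑ s ∈ Icc (t + 1) R, rc R l s * (kapR R t * G t t)) +
      ∑ s ∈ Icc l R, rc R l s * (kapR R s + csl R s) * G s s = ∑ s ∈ Icc l R, rc R l s * rc R l s * G s s := by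
    rw [← sum_add_distrib]
    refine sum_congr rfl fun t ht => ?_
    obtain ⟨h1, h2⟩ := mem_Icc.1 ht
    rw [← sum_mul, sum_congr rfl fun s hs => rc_above (R := R) (l := l) (show l < s by
      have := (mem_Icc.1 hs).1; omega)]
    rcases h2.lt_or_eq with h | rfl
    · rw [sum_kap t h]
      rcases h1.lt_or_eq with h' | rfl
      · simp only [rc, kapR, csl, if_neg h.ne, if_neg h'.ne', if_pos h]
        field_simp; ring
      · simp only [rc, kapR, csl, if_neg h.ne, if_pos, h]
        field_simp; ring
    · simp [rc, kapR, csl]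
  linarith

lemma att_pair {s : ℕ} (hR : 1 ≤ R) (hs : s ≤ R) (f : ℕ × ℕ → ℝ) :
    ((att R (lin R) [(0, s), (0, 0)]).map fun a => a.2 * f a.1).sum =
      (∑ t ∈ Icc (s + 1) R, kapR R t * f (1, t)) + csl R s * f (0, s) +
        ∑ t ∈ range (R + 1), kapR R t * f (0, t) := by
  have hd : ∀ t, t ≤ R → lin R t - lin R (t + 1) = kapR R t := fun t ht => by
    rcases ht.lt_or_eq with h | rfl
    · rw [P157.Par.lin_sub h, kap_low h, neg_div]
    · rw [P157.Par.lin_sub_top hR, kapR, if_pos rfl]
  have hsum : ∀ (a n : ℕ) (g : ℕ → ℝ), ((List.range' a n).map g).sum = ∑ t ∈ Ico a (a + n), g t := fun a n g => by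
    induction n with
    | zero => simp
    | succ n ih => rw [List.range'_1_concat, List.map_append, List.sum_append, ih,
        ← add_assoc, sum_Ico_succ_top (Nat.le_add_right a n)]; simp
  simp only [att, List.map_append, List.sum_append, List.map_map, Function.comp_def, List.map_cons,
    List.sum_cons, List.map_nil, List.sum_nil, List.length_cons, List.length_nil, zero_add, Nat.sub_zero,
    add_zero, hsum]
  rw [show s + 1 + (R - s) = R + 1 by omega]
  have e1 : Ico (s + 1) (R + 1) = Icc (s + 1) R := by ext t; simp only [mem_Ico, mem_Icc]; omega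
  rw [e1, sum_congr rfl (g := fun t => kapR R t * f (1, t)) fun t ht => by rw [hd t (mem_Icc.1 ht).2]]
  have e2 : -lin R (s + 1) = csl R s := by
    unfold csl
    rcases hs.lt_or_eq with h | rfl
    · rw [if_pos h, lin, if_pos (by omega)]; push_cast; ring
    · simp [lin]
  rw [e2, show (1 + R) = R + 1 by omega, sum_congr rfl (s₁ := Ico 1 (R + 1)) (g := fun t => kapR R t * f (0, t))
    fun t ht => by rw [hd t (Nat.lt_succ_iff.1 (mem_Ico.1 ht).2)]]
  have e3 : -lin R 1 = kapR R 0 := by
    rw [lin, if_pos hR, kap_low hR]; simp; ring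
  rw [e3, range_eq_Ico, sum_eq_sum_Ico_succ_bot (Nat.succ_pos R)]
  ring

lemma ET_pair {s : ℕ} (F : List (List Ω) → ℝ) :
    ET R (lin R) W [(0, s), (0, 0)] F = E1 R W fun a => ext (lin R) W (R - s) (a.take s) fun b => F [a, b] := by
  rw [ET_cons, ET_single]; rfl

/-- the attachment sums of one pair -/
lemma fullI_eq {φ : List Ω → ℝ} {l s : ℕ} (hR : 1 ≤ R) (hs : s ≤ R) :
    fullI R θ lab U W rd c φ l s =
      E1 R W (fun p => φ (p.take l) * (hB R lab U W rd c s p - share lab c * hB R lab U W rd 1 s p)) +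
      ((∑ t ∈ Icc (s + 1) R, kapR R t * E1 R W (fun a => ext (lin R) W (R - s) (a.take s) fun b =>
          ext (lin R) W (R - t) (b.take t) fun x => kern θ lab U rd c φ l a b x)) +
        csl R s * tri R W s s (kern θ lab U rd c φ l) +
        ∑ t ∈ range (R + 1), kapR R t * tri R W s t (kern θ lab U rd c φ l)) := by
  rw [fullI, att_pair hR hs fun pv => ET R (lin R) W (pv :: [(0, s), (0, 0)]) fun ps => φ ((ps.getD 0 []).take l) *
    pairT θ lab U c (rd (ps.getD 0 [])) (rd (ps.getD 2 [])) (rd (ps.getD 1 []))]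
  simp only [ET_cons 1, ET_cons 0 _ [(0, s), (0, 0)], ET_pair, List.getD_cons_zero, List.getD_cons_succ,
    List.cons_append, List.nil_append]
  simp only [hB, ext_const_mul, ext_sub, tri, kern]

end SdAlg

open SdAlg in
/-- **G1, replica algebra** -/
theorem stmt_sd_alg (hcov : StmtSdCov) : StmtSdAlg := by
  intro k L₀
  set L := max L₀ 1
  refine ⟨48 * L, fun R N _ hR θ hθ₀ lab U hU Ω _ _ W hW rd c hc l hl B φ hφ => ?_⟩
  have hL : 1 ≤ L := le_max_right _ _
  have hθ : ∀ j, |θ j| ≤ L := fun j => (hθ₀ j).trans (le_max_left _ _)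
  have hB0 : 0 ≤ B := (abs_nonneg _).trans (hφ [])
  have hR' : (0:ℝ) < R := by exact_mod_cast hR
  have hdS : ∀ n, 0 ≤ devS R W rd n := fun n => Real.sqrt_nonneg _
  have hdA : 0 ≤ devA R W rd := div_nonneg (sum_nonneg fun n _ => hdS n) hR'.le
  set V := fun t s => tri R W s t (kern θ lab U rd c φ l)
  set G := gTerm R θ lab U W rd c φ l
  have hrange : ∀ (s : ℕ) (f : ℕ → ℝ), l ≤ s → s ≤ R → ∑ t ∈ range (R + 1), f t =
      (∑ t ∈ range l, f t) + (∑ t ∈ Ico l s, f t) + f s + ∑ t ∈ Icc (s + 1) R, f t := fun s f h1 h2 => by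
    rw [range_eq_Ico, range_eq_Ico, sum_Ico_consecutive f (Nat.zero_le l) h1, ← sum_Ico_succ_top (Nat.zero_le s),
      show Icc (s + 1) R = Ico (s + 1) (R + 1) by ext t; simp only [mem_Ico, mem_Icc]; omega,
      sum_Ico_consecutive f (Nat.zero_le _) (by omega)]
  constructor
  · set H := ∑ t ∈ range l, kapR R t * V t l
    set A := fun s => E1 R W fun p => φ (p.take l) * (hB R lab U W rd c s p - share lab c * hB R lab U W rd 1 s p)
    set T := fun s => H + (∑ t ∈ Ico l s, kapR R t * G t t) + (kapR R s + csl R s) * G s s +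
      ∑ t ∈ Icc (s + 1) R, kapR R t * (G t s + G s t)
    have herr : ∀ s ∈ Icc l R, |fullI R θ lab U W rd c φ l s - (A s + T s)| ≤
        8 * L * B * (devS R W rd l + devA R W rd) := by
      intro s hs
      obtain ⟨h1, h2⟩ := mem_Icc.1 hs
      rw [fullI_eq hR h2, hrange s (fun t => kapR R t * tri R W s t (kern θ lab U rd c φ l)) h1 h2]
      have eb : ∀ t ∈ Icc (s + 1) R, kapR R t * E1 R W (fun a => ext (lin R) W (R - s) (a.take s) fun b =>
          ext (lin R) W (R - t) (b.take t) fun x => kern θ lab U rd c φ l a b x) = kapR R t * G s t :=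
        fun t ht => by rw [tri_second h1 (by have := (mem_Icc.1 ht).1; omega) (mem_Icc.1 ht).2]
      have ea : ∀ t ∈ Icc (s + 1) R, kapR R t * tri R W s t (kern θ lab U rd c φ l) = kapR R t * G t s :=
        fun t ht => by rw [tri_deep h1 (by have := (mem_Icc.1 ht).1; omega) (mem_Icc.1 ht).2]
      rw [sum_congr rfl eb, sum_congr rfl ea, tri_deep h1 le_rfl h2]
      have e : ∀ x y z w : ℝ, x + (y + csl R s * G s s + (z + w + kapR R s * G s s + ∑ t ∈ Icc (s + 1) R, kapR R t * G t s)) -
          (x + (H + (∑ t ∈ Ico l s, kapR R t * G t t) + (kapR R s + csl R s) * G s s +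
            ((∑ t ∈ Icc (s + 1) R, kapR R t * G t s) + y))) =
          (z - H) + (w - ∑ t ∈ Ico l s, kapR R t * G t t) := fun x y z w => by ring
      simp only [T, A, mul_add, sum_add_distrib]
      rw [e, ← sum_sub_distrib, ← sum_sub_distrib]
      refine (abs_add_le _ _).trans ?_
      have b1 : |∑ t ∈ range l, (kapR R t * tri R W s t (kern θ lab U rd c φ l) - kapR R t * V t l)| ≤
          8 * L * B * devS R W rd l := by
        refine (abs_sum_le_sum_abs _ _).trans ?_
        calc ∑ t ∈ range l, |kapR R t * tri R W s t (kern θ lab U rd c φ l) - kapR R t * V t l|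
            ≤ ∑ _t ∈ range l, 1 / (R:ℝ) * (8 * L * B * devS R W rd l) := by
              refine sum_le_sum fun t ht => ?_
              rw [← mul_sub, abs_mul, kap_low ((mem_range.1 ht).trans hl), abs_div, abs_neg, abs_one, abs_of_pos hR']
              exact mul_le_mul_of_nonneg_left
                (tri_move hW hU hcov hR hL hθ hc hφ (mem_range.1 ht).le le_rfl h1 h2) (by positivity)
          _ = (l:ℝ) / R * (8 * L * B * devS R W rd l) := by
              rw [sum_const, card_range, nsmul_eq_mul]; ring
          _ ≤ _ := mul_le_of_le_one_left (by have := hdS l; positivity) ((div_le_one hR').2 (Nat.cast_le.2 hl.le))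
      have b2 : |∑ t ∈ Ico l s, (kapR R t * tri R W s t (kern θ lab U rd c φ l) - kapR R t * G t t)| ≤
          8 * L * B * devA R W rd := by
        refine (abs_sum_le_sum_abs _ _).trans ?_
        calc ∑ t ∈ Ico l s, |kapR R t * tri R W s t (kern θ lab U rd c φ l) - kapR R t * G t t|
            ≤ ∑ t ∈ Ico l s, 1 / (R:ℝ) * (8 * L * B * devS R W rd t) := by
              refine sum_le_sum fun t ht => ?_
              obtain ⟨t1, t2⟩ := mem_Ico.1 ht
              rw [← mul_sub, abs_mul, kap_low (t2.trans_le h2), abs_div, abs_neg, abs_one, abs_of_pos hR']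
              refine mul_le_mul_of_nonneg_left ?_ (by positivity)
              rw [show G t t = tri R W t t (kern θ lab U rd c φ l) from (tri_deep t1 le_rfl (t2.le.trans h2)).symm]
              exact tri_move hW hU hcov hR hL hθ hc hφ le_rfl t1 t2.le h2
          _ ≤ ∑ t ∈ range R, 1 / (R:ℝ) * (8 * L * B * devS R W rd t) :=
              sum_le_sum_of_subset_of_nonneg (fun t ht => mem_range.2 ((mem_Ico.1 ht).2.trans_le h2))
                fun t _ _ => by have := hdS t; positivity
          _ = _ := by rw [← mul_sum, ← mul_sum, devA]; ring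
      linarith
    have eA : ∑ s ∈ Icc l R, rc R l s * A s + ∑ s ∈ Icc l R, ∑ t ∈ Icc l R, rc R l s * rc R l t * G s t =
        ET R (lin R) W [(0, 0)] (fun ps => φ ((ps.getD 0 []).take l) *
          resid R θ lab U W rd c l (ps.getD 0 [])) := by
      rw [ET_single]
      simp only [List.getD_cons_zero, A, G, gTerm, E1, ← ext_const_mul, ← P168.MP.ext_sum, ← ext_add]
      refine ext_congr fun suf _ => ?_
      simp only [resid, rho, sum_mul_sum]
      rw [sum_comm (f := fun x y => rc R l x * hB R lab U W rd 1 x ([] ++ suf) *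
        (rc R l y * hB R lab U W rd (θ * c) y ([] ++ suf)))]
      simp only [mul_add, mul_sub, mul_sum, sum_sub_distrib]
      rw [← add_sub_assoc]
      congr 1
      · congr 1
        · congr 1 <;> exact sum_congr rfl fun x _ => by ring
        · exact sum_congr rfl fun x _ => sum_congr rfl fun y _ => by ring
      · exact sum_congr rfl fun x _ => sum_congr rfl fun y _ => by ring
    rw [← eA, ← weights hl G H, ← sum_add_distrib, ← sum_sub_distrib]
    refine (abs_sum_le_sum_abs _ _).trans ?_
    calc ∑ s ∈ Icc l R, |rc R l s * fullI R θ lab U W rd c φ l s - (rc R l s * A s + rc R l s * T s)|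
        ≤ ∑ s ∈ Icc l R, |rc R l s| * (8 * L * B * (devS R W rd l + devA R W rd)) := sum_le_sum fun s hs => by
          rw [← mul_add, ← mul_sub, abs_mul]
          exact mul_le_mul_of_nonneg_left (herr s hs) (abs_nonneg _)
      _ ≤ 3 * (8 * L * B * (devS R W rd l + devA R W rd)) := by
          rw [← sum_mul]
          exact mul_le_mul_of_nonneg_right (sum_abs_rc hl) (by have := hdS l; positivity)
      _ ≤ _ := by nlinarith [mul_nonneg (mul_nonneg (by linarith : (0:ℝ) ≤ L) hB0) (add_nonneg (hdS l) hdA)]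
  · rw [fullI_eq hR le_rfl, ET_single, show csl R R = 0 from if_neg (lt_irrefl R),
      show Icc (R + 1) R = ∅ from Icc_eq_empty (by omega), sum_empty, zero_mul, zero_add, zero_add,
      range_eq_Ico, ← sum_Ico_consecutive _ (Nat.zero_le l) (show l ≤ R + 1 by omega)]
    have e : ∀ t ∈ Ico l (R + 1), kapR R t * tri R W R t (kern θ lab U rd c φ l) =
        ext (lin R) W R [] fun p => φ (p.take l) * (kapR R t * ext (lin R) W (R - t) (p.take t)
          (fun q => pairT θ lab U c (rd p) (rd q) (rd p))) := fun t _ => by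
      rw [tri, E1, ← ext_const_mul]
      refine ext_congr fun suf hsuf => ?_
      simp only [List.nil_append, Nat.sub_self, P168.MP.ext_zero, List.take_of_length_le hsuf.le, kern,
        ext_const_mul]
      ring
    rw [sum_congr rfl e, show Ico l (R + 1) = Icc l R by ext t; simp only [mem_Ico, mem_Icc]; omega]
    have main : E1 R W (fun p => φ (p.take l) * (hB R lab U W rd c R p - share lab c * hB R lab U W rd 1 R p)) +
        ∑ t ∈ Icc l R, ext (lin R) W R [] (fun p => φ (p.take l) * (kapR R t * ext (lin R) W (R - t) (p.take t)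
          (fun q => pairT θ lab U c (rd p) (rd q) (rd p)))) =
        ext (lin R) W R [] fun p => φ (([p].getD 0 []).take l) * diaI R θ lab U W rd c l ([p].getD 0 []) := by
      rw [← P168.MP.ext_sum, E1, ← ext_add]
      refine ext_congr fun suf hsuf => ?_
      simp only [List.getD_cons_zero, diaI, mul_add, mul_sum]
      simp only [hB, Nat.sub_self, P168.MP.ext_zero, List.nil_append, List.take_of_length_le hsuf.le]
    rw [← main]
    have e' : ∀ x y z : ℝ, x + (y + z) - (x + z) = y := fun x y z => by ring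
    rw [e']
    refine (abs_sum_le_sum_abs _ _).trans ?_
    calc ∑ t ∈ Ico 0 l, |kapR R t * tri R W R t (kern θ lab U rd c φ l)|
        ≤ ∑ _t ∈ Ico 0 l, 1 / (R:ℝ) * (B * (2 * L)) := sum_le_sum fun t ht => by
          rw [abs_mul, kap_low ((mem_Ico.1 ht).2.trans hl), abs_div, abs_neg, abs_one, abs_of_pos hR']
          refine mul_le_mul_of_nonneg_left (ext_bound hW fun a => ext_bound hW fun b => ext_bound hW fun x => ?_)
            (by positivity)
          rw [kern, abs_mul]
          exact mul_le_mul (hφ _) (abs_pairT_le hU hL hθ hc _ _ _) (abs_nonneg _) hB0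
      _ ≤ _ := by
          rw [sum_const, Nat.card_Ico, nsmul_eq_mul, Nat.sub_zero]
          have h0 : 0 ≤ L * B * ((l:ℝ) / R) := by positivity
          calc (l:ℝ) * (1 / (R:ℝ) * (B * (2 * L))) = 2 * (L * B * ((l:ℝ) / R)) := by ring
            _ ≤ 48 * (L * B * ((l:ℝ) / R)) := by linarith
            _ = _ := by ring

end Vale.Agent.P166.Gen
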