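import Vale.Agent.P166.Gen.SdBasic

/-!
# P166 Gen G1: assembly of `StmtSd` from the rotation, the replica algebra and the frame-wise solution
-/

open MeasureTheory Filter Finset Real
open Vale.Agent.P157.Par (Prof adev devOf ovK qlev qlev_prof devOf_nonneg adev_nonneg abs_ov_le)
open Vale.Agent.P168.MP hiding avg dev

noncomputable section

namespace Vale.Agent.P166.Gen.Sd

variable {k N R : ℕ} {Ω : Type} [Fintype Ω] [Nonempty Ω]

lemma sqrt_le_lin {t x : ℝ} (ht : 0 < t) (hx : 0 ≤ x) : √x ≤ t + x / (4 * t) := by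
  rcases le_or_gt (√x) t with h | h
  · have : 0 ≤ x / (4 * t) := by positivity
    linarith
  · have : √x ≤ t + √x ^ 2 / (4 * t) := by
      rw [← sub_le_iff_le_add', le_div_iff₀ (by positivity)]
      nlinarith [sq_nonneg (√x - 2 * t)]
    rwa [sq_sqrt hx] at this

lemma fourth_le_lin {t d : ℝ} (ht : 0 < t) (hd : 0 ≤ d) : √(√d) ≤ t + d / t ^ 3 := by
  have h0 : 0 ≤ √(√d) := sqrt_nonneg _
  rcases le_or_gt (√(√d)) t with h | h
  · have : 0 ≤ d / t ^ 3 := by positivity
    linarith
  · have e : d = √(√d) ^ 4 := by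
      rw [show (4:ℕ) = 2 * 2 from rfl, pow_mul, sq_sqrt (sqrt_nonneg _), sq_sqrt hd]
    have : √(√d) * t ^ 3 ≤ d := by
      rw [e]
      nth_rewrite 1 [← e]
      nlinarith [pow_le_pow_left₀ ht.le h.le 3]
    rw [← sub_le_iff_le_add', le_div_iff₀ (pow_pos ht 3)]
    nlinarith [pow_pos ht 3]

lemma devOf_le {W : List Ω → ℝ} (hW : ∀ p, 0 < W p) {C : List Ω → List Ω → ℝ} (hC : ∀ p q, |C p q| ≤ 1)
    {t : ℕ → ℝ} {l : ℕ} (ht : |t l| ≤ 1) : devOf R W C t l ≤ 2 :=
  (le_abs_self _).trans (ET_bound hW fun ps => by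
    rw [abs_abs]; exact (abs_sub _ _).trans ((add_le_add (hC _ _) ht).trans_eq one_add_one_eq_two))

lemma adev_le {W : List Ω → ℝ} (hW : ∀ p, 0 < W p) {C : List Ω → List Ω → ℝ} (hC : ∀ p q, |C p q| ≤ 1)
    {t : ℕ → ℝ} (ht : ∀ l, l ≤ R → |t l| ≤ 1) (hR : 1 ≤ R) : adev R W C t ≤ 4 := by
  have h1 : (∑ l ∈ range R, devOf R W C t l) / R ≤ 2 := by
    rw [div_le_iff₀ (by exact_mod_cast hR)]
    exact (sum_le_sum fun l hl => devOf_le hW hC (ht l (Finset.mem_range.1 hl).le)).trans_eq (by simp; ring)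
  unfold adev
  linarith [devOf_le (R := R) (t := t) hW hC (ht R le_rfl)]

variable {lab : Fin N → Fin k} {θ : Fin k → ℝ} {w₀ : List Ω → ℝ} {rd : List Ω → Fin N → Bool}
  {ν : Measure (Mat N)}

section haar
variable [NeZero N] (hw : ∀ p, 0 < w₀ p) (hν : IsHaarOrthogonal ν)
include hw hν

lemma int_devS (l : ℕ) : Integrable (fun U => devS R (wU θ lab U w₀ rd) rd l) ν :=
  integrable_of_cont hν (cont_devS hw l) (√(√2)) fun U _ => by
    rw [devS, abs_of_nonneg (sqrt_nonneg _)]
    exact sqrt_le_sqrt (sqrt_le_sqrt (devOf_le (wU_pos hw U) (fun p q => abs_ov_le _ _)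
      (P157.Par.abs_qlev_le (wU_pos hw U) l)))

lemma int_devA : Integrable (fun U => devA R (wU θ lab U w₀ rd) rd) ν := by
  unfold devA
  exact (integrable_finsetSum _ fun s _ => int_devS hw hν s).div_const _

lemma int_nodeSq {B : ℝ} {l : ℕ} {z : Mat N → List Ω → ℝ} (hz : ∀ q, Continuous fun U => z U q)
    (hB : ∀ U, Up.Orth U → ∀ q, |z U q| ≤ B) :
    Integrable (fun U => nodeSq R (wU θ lab U w₀ rd) l (z U)) ν :=
  integrable_of_cont hν (cont_nodeSq hw l hz) (B ^ 2) fun U hU => ET_bound (wU_pos hw U) fun ps => by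
    rw [abs_pow]
    exact pow_le_pow_left₀ (abs_nonneg _) (ext_bound (wU_pos hw U) (hB U hU)) 2

lemma int_fullI {B L : ℝ} (hL : 0 ≤ L) (hθ : ∀ j, |θ j| ≤ L) {c : Fin k → ℝ} (hc : ∀ j, |c j| ≤ 1)
    {φ : Mat N → List Ω → ℝ} (hφ : ∀ q, Continuous fun U => φ U q) (hB : ∀ U, Up.Orth U → ∀ q, |φ U q| ≤ B)
    (l s : ℕ) : Integrable (fun U => fullI R θ lab U (wU θ lab U w₀ rd) rd c (φ U) l s) ν := by
  refine integrable_of_cont hν (cont_fullI hw c hφ l s) (B * (2 * k) +
    ((att R (lin R) [(0, s), (0, 0)]).map fun a => |a.2| * (B * (2 * ((k:ℝ) * k * L)))).sum) fun U hU => ?_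
  have hW := wU_pos (θ := θ) (lab := lab) (rd := rd) hw U
  have hB0 : 0 ≤ B := (abs_nonneg _).trans (hB U hU [])
  unfold fullI
  refine (abs_add_le _ _).trans (add_le_add (ET_bound hW fun ps => ?_) ?_)
  · rw [abs_mul]
    refine mul_le_mul (hB U hU _) ((abs_sub _ _).trans ?_) (abs_nonneg _) hB0
    rw [abs_mul]
    have h1 := abs_povc_le (lab := lab) hU hc (rd (ps.getD 0 [])) (rd (ps.getD 1 []))
    have h2 := mul_le_mul (abs_share_le (lab := lab) hc)
      (abs_povc_le (lab := lab) hU (c := (1 : Fin k → ℝ)) (B := 1) (fun j => by simp) (rd (ps.getD 0 []))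
        (rd (ps.getD 1 []))) (abs_nonneg _) zero_le_one
    linarith
  · induction att R (lin R) [(0, s), (0, 0)] with
    | nil => simp
    | cons a T ih =>
      simp only [List.map_cons, List.sum_cons]
      refine (abs_add_le _ _).trans (add_le_add ?_ ih)
      rw [abs_mul]
      refine mul_le_mul_of_nonneg_left (ET_bound hW fun ps => ?_) (abs_nonneg _)
      rw [abs_mul]
      exact mul_le_mul (hB U hU _) (abs_pairT_le hW hU hL hθ hc _ _ _) (abs_nonneg _) hB0

/-- the rotation and the algebra make the node means small in mean square -/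
lemma mean_sq {L C₁ C₂ : ℝ} (hR : 1 ≤ R) (hL : 0 ≤ L) (hθ : ∀ j, |θ j| ≤ L) {c : Fin k → ℝ}
    (hc : ∀ j, |c j| ≤ 1) {l : ℕ} (hl : l < R) {B : ℝ} {z : Mat N → List Ω → ℝ}
    (hz : ∀ q, Continuous fun U => z U q) (hB : ∀ U, Up.Orth U → ∀ q, |z U q| ≤ B)
    (I : Finset ℕ) (r : ℕ → ℝ) (hr : ∑ s ∈ I, |r s| ≤ 3) {D : Mat N → ℝ} (hD : Integrable D ν)
    (heq : ∀ s ∈ I, |∫ U, fullI R θ lab U (wU θ lab U w₀ rd) rd c (nodeE R (wU θ lab U w₀ rd) l (z U)) l s ∂ν| ≤
      C₁ * (∫ U, devS R (wU θ lab U w₀ rd) rd l ∂ν + 1 / N))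
    (halg : ∀ U, Up.Orth U →
      |∑ s ∈ I, r s * fullI R θ lab U (wU θ lab U w₀ rd) rd c (nodeE R (wU θ lab U w₀ rd) l (z U)) l s -
        ET R (lin R) (wU θ lab U w₀ rd) [(0, 0)] (fun ps =>
          nodeE R (wU θ lab U w₀ rd) l (z U) ((ps.getD 0 []).take l) * z U (ps.getD 0 []))| ≤ C₂ * D U) :
    ∫ U, nodeSq R (wU θ lab U w₀ rd) l (z U) ∂ν ≤
      3 * |C₁| * (∫ U, devS R (wU θ lab U w₀ rd) rd l ∂ν + 1 / N) + C₂ * ∫ U, D U ∂ν := by
  set W := fun U => wU θ lab U w₀ rd
  have hi : ∀ s, Integrable (fun U => fullI R θ lab U (W U) rd c (nodeE R (W U) l (z U)) l s) ν := fun s =>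
    int_fullI hw hν hL hθ hc (fun q => cont_nodeE hw l hz q) (B := B)
      (fun U hU q => ext_bound (wU_pos hw U) (hB U hU)) l s
  have hsum : Integrable (fun U => ∑ s ∈ I, r s * fullI R θ lab U (W U) rd c (nodeE R (W U) l (z U)) l s) ν :=
    integrable_finsetSum _ fun s _ => (hi s).const_mul _
  refine (integral_mono_ae (int_nodeSq hw hν hz hB) (hsum.add (hD.const_mul C₂)) ?_).trans ?_
  · filter_upwards [hν.2.1] with U hU
    have h := (abs_le.1 (halg U hU)).1
    rw [← nodeSq_eq (wU_pos hw U) hl.le] at h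
    simp only [Pi.add_apply, W]
    linarith
  · simp only [Pi.add_apply]
    rw [integral_add hsum (hD.const_mul C₂), integral_const_mul]
    refine add_le_add ?_ le_rfl
    rw [integral_finsetSum _ fun s _ => (hi s).const_mul _]
    have hnn : 0 ≤ ∫ U, devS R (wU θ lab U w₀ rd) rd l ∂ν + 1 / (N:ℝ) :=
      add_nonneg (integral_nonneg fun U => sqrt_nonneg _) (by positivity)
    calc ∑ s ∈ I, ∫ U, r s * fullI R θ lab U (W U) rd c (nodeE R (W U) l (z U)) l s ∂ν
        ≤ ∑ s ∈ I, |r s| * (|C₁| * (∫ U, devS R (wU θ lab U w₀ rd) rd l ∂ν + 1 / N)) := by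
          refine sum_le_sum fun s hs => (le_abs_self _).trans ?_
          rw [integral_const_mul, abs_mul]
          exact mul_le_mul_of_nonneg_left ((heq s hs).trans (mul_le_mul_of_nonneg_right (le_abs_self _) hnn))
            (abs_nonneg _)
      _ ≤ 3 * (|C₁| * (∫ U, devS R (wU θ lab U w₀ rd) rd l ∂ν + 1 / N)) := by
          rw [← sum_mul]; exact mul_le_mul_of_nonneg_right hr (mul_nonneg (abs_nonneg _) hnn)
      _ = _ := by ring

end haar

/-- a mean square bound turns into a bound for the mean root -/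
lemma int_root [IsProbabilityMeasure ν] {f : Mat N → ℝ} (hf : Integrable f ν) (h0 : ∀ U, 0 ≤ f U) {t : ℝ}
    (ht : 0 < t) : Integrable (fun U => √(f U)) ν ∧ ∫ U, √(f U) ∂ν ≤ t + (∫ U, f U ∂ν) / (4 * t) := by
  have hi := (integrable_const t).add (hf.div_const (4 * t))
  have hs : Integrable (fun U => √(f U)) ν :=
    hi.mono' (continuous_sqrt.comp_aestronglyMeasurable hf.aestronglyMeasurable)
      (Eventually.of_forall fun U => by
        rw [norm_eq_abs, abs_of_nonneg (sqrt_nonneg _)]; exact sqrt_le_lin ht (h0 U))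
  refine ⟨hs, (integral_mono hs hi fun U => sqrt_le_lin ht (h0 U)).trans_eq ?_⟩
  simp only [Pi.add_apply]
  rw [integral_add (integrable_const _) (hf.div_const _), integral_const, integral_div]
  simp

end Sd

open Sd

set_option maxHeartbeats 1600000 in
/-- **G1** from its parts -/
theorem sd_of (hcov : StmtSdCov) (heq : StmtSdCov → StmtSdEq) (halg : StmtSdCov → StmtSdAlg)
    (hsolve : StmtSdSolve) : StmtSd := by
  intro k w θ hat ε hε
  obtain ⟨δ₁, hδ₁, hsol⟩ := hsolve k w θ hat (ε / 2) (half_pos hε)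
  set L : ℝ := (∑ j, |θ j|) + 1
  have hL : 0 ≤ L := by positivity
  obtain ⟨C₁, hC₁⟩ := heq hcov k L
  obtain ⟨C₂, hC₂⟩ := halg hcov k L
  set Bz : ℝ := 6 * (k:ℝ) + 18 * ((k:ℝ) * k * L)
  set A : ℝ := 3 * |C₁| + 2 * (|C₂| * Bz) + 1
  have hA : 0 < A := by positivity
  set K : ℝ := (k:ℝ) + 1
  have hK : 0 < K := by positivity
  set τ : ℝ := ε * δ₁ / (8 * K)
  have hτ : 0 < τ := by positivity
  set t : ℝ := τ / (8 * K)
  have ht : 0 < t := by positivity
  set c : ℝ := t * τ / (2 * K * A)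
  have hc : 0 < c := by positivity
  set η : ℝ := min (1 / 2) (min δ₁ (c / 4))
  have hη : 0 < η := by positivity
  set ζ : ℝ := η * min (c / 4) (τ / 8)
  have hζ : 0 < ζ := by positivity
  set δ : ℝ := min (min 1 δ₁) (min (τ / 8) (ζ / 2 * (ζ / 2) ^ 3))
  have hδ : 0 < δ := by positivity
  obtain ⟨N₀, hN₀⟩ := exists_nat_ge (4 / c)
  refine ⟨δ, hδ, fun R hR => ⟨N₀, ?_⟩⟩
  intro N hN _ θ' lab hθ' hfreq Ω _ _ w₀ hw rd ν hν hδint
  have := hν.1
  have hR' : (0:ℝ) < R := by exact_mod_cast hR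
  have hN' : (0:ℝ) < N := by exact_mod_cast NeZero.pos N
  have hθL : ∀ j, |θ' j| ≤ L := fun j => by
    have h1 : |θ j| ≤ ∑ i, |θ i| := single_le_sum (fun i _ => abs_nonneg (θ i)) (Finset.mem_univ j)
    have h2 : δ ≤ 1 := (min_le_left _ _).trans (min_le_left _ _)
    have := abs_sub_abs_le_abs_sub (θ' j) (θ j)
    simp only [L]
    linarith [hθ' j]
  have hδ₁' : δ ≤ δ₁ := (min_le_left _ _).trans (min_le_right _ _)
  set W := fun U => wU θ' lab U w₀ rd
  have hW : ∀ U p, 0 < W U p := fun U p => wU_pos hw U p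
  have hind : ∀ j i, |indA (k := k) j i| ≤ (1:ℝ) := fun j i => by unfold indA; split_ifs <;> simp
  -- the deviations
  have hia : Integrable (fun U => adev R (W U) (ovK rd) (qlev R (W U) rd)) ν :=
    integrable_of_cont hν (cont_adev hw (fun _ => ovK rd) (fun _ _ => continuous_const) _ fun l => cont_qlev hw l)
      4 fun U _ => by
        rw [abs_of_nonneg (adev_nonneg (hW U) _ _)]
        exact adev_le (hW U) (fun p q => abs_ov_le _ _) (fun l _ => P157.Par.abs_qlev_le (hW U) l) hR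
  have him : Integrable (fun U => madJ R lab U (W U) rd) ν :=
    integrable_of_cont hν (cont_madJ hw) ((k:ℝ) * 2) fun U hU => by
      refine (abs_sum_le_sum_abs _ _).trans ((sum_le_sum fun j _ => ?_).trans_eq (by simp : ∑ _j : Fin k, (2:ℝ) = k * 2))
      refine ET_bound (hW U) fun ps => ?_
      rw [abs_abs]
      exact (abs_sub _ _).trans ((add_le_add (Up.abs_pov_le hU j _ _)
        (ext_bound (hW U) fun q => Up.abs_pov_le hU j _ _)).trans_eq one_add_one_eq_two)
  rw [integral_add hia him] at hδint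
  have hIm : 0 ≤ ∫ U, madJ R lab U (W U) rd ∂ν :=
    integral_nonneg fun U => sum_nonneg fun j _ => ET_nonneg (hW U) fun _ => abs_nonneg _
  have hIa : 0 ≤ ∫ U, adev R (W U) (ovK rd) (qlev R (W U) rd) ∂ν :=
    integral_nonneg fun U => adev_nonneg (hW U) _ _
  set DA := ∫ U, devA R (W U) rd ∂ν
  have hdA : ∀ U, devA R (W U) rd ≤ ζ / 2 + adev R (W U) (ovK rd) (qlev R (W U) rd) / (ζ / 2) ^ 3 := by
    intro U
    calc devA R (W U) rd ≤ (∑ s ∈ range R, (ζ / 2 + devOf R (W U) (ovK rd) (qlev R (W U) rd) s / (ζ / 2) ^ 3)) / R :=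
          div_le_div_of_nonneg_right (sum_le_sum fun s _ => fourth_le_lin (half_pos hζ) (devOf_nonneg (hW U) _ _ _))
            hR'.le
      _ = ζ / 2 + (∑ s ∈ range R, devOf R (W U) (ovK rd) (qlev R (W U) rd) s) / R / (ζ / 2) ^ 3 := by
          rw [sum_add_distrib, sum_const, card_range, nsmul_eq_mul, ← sum_div]
          field_simp
      _ ≤ _ := by
          unfold adev
          gcongr
          linarith [devOf_nonneg (R := R) (hW U) (ovK rd) (qlev R (W U) rd) R]
  have hDA : DA ≤ ζ := by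
    have hi2 := (integrable_const (ζ / 2)).add (hia.div_const ((ζ / 2) ^ 3))
    refine ((integral_mono (int_devA hw hν) hi2 hdA).trans_eq ?_).trans
      (?_ : ζ / 2 + (∫ U, adev R (W U) (ovK rd) (qlev R (W U) rd) ∂ν) / (ζ / 2) ^ 3 ≤ ζ)
    · simp only [Pi.add_apply]
      rw [integral_add (integrable_const _) (hia.div_const _), integral_const, integral_div]
      simp
    · have h1 : δ ≤ ζ / 2 * (ζ / 2) ^ 3 := (min_le_right _ _).trans (min_le_right _ _)
      have h2 : (∫ U, adev R (W U) (ovK rd) (qlev R (W U) rd) ∂ν) / (ζ / 2) ^ 3 ≤ ζ / 2 := by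
        rw [div_le_iff₀ (by positivity)]; linarith
      linarith
  have hDA0 : 0 ≤ DA := integral_nonneg fun U => div_nonneg (sum_nonneg fun s _ => sqrt_nonneg _) hR'.le
  set n := ⌊η * R⌋₊ + 1
  have hn1 : 1 ≤ n := Nat.le_add_left 1 _
  have hη2 : η ≤ 1 / 2 := min_le_left _ _
  have hnR : n ≤ R := by
    have : ⌊η * R⌋₊ < R := (Nat.floor_lt (by positivity)).2 (by nlinarith)
    omega
  have hn' : η * R ≤ n := by
    simp only [n]; push_cast; linarith [(Nat.lt_floor_add_one (η * R)).le]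
  have hnlo : (n:ℝ) ≤ δ₁ * R + 1 := by
    simp only [n]; push_cast
    have h1 := Nat.floor_le (show (0:ℝ) ≤ η * R by positivity)
    have : η ≤ δ₁ := (min_le_right _ _).trans (min_le_left _ _)
    nlinarith
  have hnpos : (0:ℝ) < n := by exact_mod_cast hn1
  -- low levels
  have hlow : ∀ l ∈ range n, (l:ℝ) / R ≤ η := fun l hl => by
    rw [div_le_iff₀ hR']
    have h1 : l ≤ ⌊η * R⌋₊ := Nat.lt_succ_iff.1 (Finset.mem_range.1 hl)
    exact le_trans (by exact_mod_cast h1) (Nat.floor_le (by positivity))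
  have hsn : (∑ l ∈ range n, ∫ U, devS R (W U) rd l ∂ν) / n ≤ DA / η := by
    have h1 : ∑ l ∈ range n, ∫ U, devS R (W U) rd l ∂ν ≤ R * DA := by
      simp only [DA, devA]
      rw [integral_div, integral_finsetSum _ fun s _ => int_devS hw hν s, mul_div_cancel₀ _ hR'.ne']
      exact sum_le_sum_of_subset_of_nonneg (Finset.range_mono hnR) fun s _ _ =>
        integral_nonneg fun U => sqrt_nonneg _
    rw [div_le_div_iff₀ hnpos hη]
    calc (∑ l ∈ range n, ∫ U, devS R (W U) rd l ∂ν) * η ≤ R * DA * η := mul_le_mul_of_nonneg_right h1 hη.le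
      _ = DA * (η * R) := by ring
      _ ≤ DA * n := mul_le_mul_of_nonneg_left hn' hDA0
  -- mean squares
  have hrow : ∀ l, l < R → ∀ j, ∫ U, nodeSq R (W U) l (resid R θ' lab U (W U) rd (indA j) l) ∂ν ≤
      A * (∫ U, devS R (W U) rd l ∂ν + DA + 1 / N) := by
    intro l hl j
    have h := mean_sq (θ := θ') (lab := lab) (rd := rd) hw hν hR hL hθL (hind j) hl (B := Bz)
      (z := fun U => resid R θ' lab U (W U) rd (indA j) l) (fun q => cont_resid hw _ l q)
      (fun U hU q => abs_resid_le (hW U) hU hL hθL (hind j) hl q) (Icc l R) (rc R l) (abs_rc_sum hl)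
      (C₁ := C₁) (C₂ := |C₂| * Bz) (D := fun U => devS R (W U) rd l + devA R (W U) rd)
      ((int_devS hw hν l).add (int_devA hw hν))
      (fun s hs => (hC₁ R N hR θ' hθL lab w₀ hw rd ν hν (indA j) (hind j) l s hl
        (Finset.mem_Icc.1 hs).1 (Finset.mem_Icc.1 hs).2).1)
      (fun U hU => ((hC₂ R N hR θ' hθL lab U hU (W U) (hW U) rd (indA j) (hind j) l hl Bz _
        fun pre => ext_bound (hW U) fun q => abs_resid_le (hW U) hU hL hθL (hind j) hl q).1).trans
          (mul_le_mul_of_nonneg_right (mul_le_mul_of_nonneg_right (le_abs_self _) (by positivity))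
            (add_nonneg (sqrt_nonneg _) (div_nonneg (sum_nonneg fun s _ => sqrt_nonneg _) hR'.le))))
    rw [integral_add (int_devS hw hν l) (int_devA hw hν)] at h
    have e1 : 0 ≤ ∫ U, devS R (W U) rd l ∂ν := integral_nonneg fun U => sqrt_nonneg _
    have e2 : 0 ≤ |C₂| * Bz := by positivity
    have e3 : (0:ℝ) ≤ 1 / N := by positivity
    simp only [A, W, DA] at *
    nlinarith [abs_nonneg C₁]
  have hdia : ∀ l ∈ range n, ∀ j, ∫ U, nodeSq R (W U) l (diaI R θ' lab U (W U) rd (indA j) l) ∂ν ≤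
      A * (∫ U, devS R (W U) rd l ∂ν + η + 1 / N) := by
    intro l hln j
    have hl : l < R := lt_of_lt_of_le (Finset.mem_range.1 hln) hnR
    have h := mean_sq (θ := θ') (lab := lab) (rd := rd) hw hν hR hL hθL (hind j) hl (B := Bz)
      (z := fun U => diaI R θ' lab U (W U) rd (indA j) l) (fun q => cont_diaI hw _ l q)
      (fun U hU q => abs_diaI_le (hW U) hU hL hθL (hind j) hR q) {R} (fun _ => 1) (by simp)
      (C₁ := C₁) (C₂ := |C₂| * Bz) (D := fun _ => η) (integrable_const η)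
      (fun s hs => by
        rw [Finset.mem_singleton.1 hs]
        exact (hC₁ R N hR θ' hθL lab w₀ hw rd ν hν (indA j) (hind j) l R hl hl.le le_rfl).2)
      (fun U hU => by
        rw [sum_singleton, one_mul]
        exact ((hC₂ R N hR θ' hθL lab U hU (W U) (hW U) rd (indA j) (hind j) l hl Bz _
          fun pre => ext_bound (hW U) fun q => abs_diaI_le (hW U) hU hL hθL (hind j) hR q).2).trans
          (mul_le_mul (mul_le_mul_of_nonneg_right (le_abs_self _) (by positivity)) (hlow l hln)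
            (by positivity) (by positivity)))
    rw [integral_const] at h
    simp only [probReal_univ, one_smul] at h
    have e1 : 0 ≤ ∫ U, devS R (W U) rd l ∂ν := integral_nonneg fun U => sqrt_nonneg _
    have e2 : 0 ≤ |C₂| * Bz := by positivity
    have e3 : (0:ℝ) ≤ 1 / N := by positivity
    simp only [A, W] at *
    nlinarith [abs_nonneg C₁]
  -- roots
  have ir : ∀ l, l < R → ∀ j, Integrable (fun U => nodeSq R (W U) l (resid R θ' lab U (W U) rd (indA j) l)) ν :=
    fun l hl j => int_nodeSq hw hν (fun q => cont_resid hw _ l q) fun U hU q =>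
      abs_resid_le (hW U) hU hL hθL (hind j) hl q
  have idg : ∀ l j, Integrable (fun U => nodeSq R (W U) l (diaI R θ' lab U (W U) rd (indA j) l)) ν :=
    fun l j => int_nodeSq hw hν (fun q => cont_diaI hw _ l q) fun U hU q =>
      abs_diaI_le (hW U) hU hL hθL (hind j) hR q
  have g1 := fun l (hl : l < R) j => int_root (ir l hl j) (fun U => nodeSq_nonneg (hW U) l _) ht
  have g2 := fun l j => int_root (idg l j) (fun U => nodeSq_nonneg (hW U) l _) ht
  have hN4 : 1 / (N:ℝ) ≤ c / 4 := by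
    have h1 : 4 / c ≤ (N:ℝ) := hN₀.trans (by exact_mod_cast hN)
    rw [div_le_iff₀ hc] at h1
    rw [div_le_div_iff₀ hN' four_pos]
    linarith
  have hζc : ζ ≤ η * (c / 4) ∧ ζ ≤ η * (τ / 8) :=
    ⟨mul_le_mul_of_nonneg_left (min_le_left _ _) hη.le, mul_le_mul_of_nonneg_left (min_le_right _ _) hη.le⟩
  have hDη : DA / η ≤ c / 4 ∧ DA / η ≤ τ / 8 := by
    constructor <;> rw [div_le_iff₀ hη] <;> linarith [hζc.1, hζc.2]
  have hηc : η ≤ c / 4 := (min_le_right _ _).trans (min_le_right _ _)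
  have hDc : DA ≤ c / 4 := by nlinarith [hDA, hζc.1, hη2]
  have hX : ∀ x, x ≤ c → (k:ℝ) * (t + A * x / (4 * t)) ≤ τ / 4 := fun x hx => by
    have h1 : (k:ℝ) * (t + A * x / (4 * t)) ≤ K * (t + A * c / (4 * t)) :=
      (mul_le_mul_of_nonneg_left (by gcongr) (Nat.cast_nonneg k)).trans
        (mul_le_mul_of_nonneg_right (by simp [K]) (by positivity))
    have h2 : K * (t + A * c / (4 * t)) = τ / 4 := by
      simp only [c, t]; field_simp; ring
    linarith
  set E := fun U => sdErr R n θ' lab U (W U) rd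
  have iR : Integrable (fun U => (∑ l ∈ range R, ∑ j, √(nodeSq R (W U) l (resid R θ' lab U (W U) rd (indA j) l))) / R) ν :=
    (integrable_finsetSum _ fun l hl => integrable_finsetSum _ fun j _ => (g1 l (Finset.mem_range.1 hl) j).1).div_const _
  have iD : Integrable (fun U => (∑ l ∈ range n, (devS R (W U) rd l +
      ∑ j, √(nodeSq R (W U) l (diaI R θ' lab U (W U) rd (indA j) l)))) / n) ν :=
    (integrable_finsetSum _ fun l _ =>
      (int_devS hw hν l).add (integrable_finsetSum _ fun j _ => (g2 l j).1)).div_const _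
  have iE : Integrable E ν := ((hia.add him).add iR).add iD
  have hE : ∫ U, E U ∂ν ≤ τ := by
    have hR2 : ∫ U, (∑ l ∈ range R, ∑ j, √(nodeSq R (W U) l (resid R θ' lab U (W U) rd (indA j) l))) / R ∂ν ≤
        τ / 4 := by
      rw [integral_div, integral_finsetSum _ fun l hl =>
        integrable_finsetSum _ fun j _ => (g1 l (Finset.mem_range.1 hl) j).1]
      refine (div_le_div_of_nonneg_right (sum_le_sum (g := fun l =>
        (k:ℝ) * (t + A * (∫ U, devS R (W U) rd l ∂ν + DA + 1 / N) / (4 * t))) fun l hl => ?_) hR'.le).trans ?_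
      · rw [integral_finsetSum _ fun j _ => (g1 l (Finset.mem_range.1 hl) j).1]
        exact (sum_le_sum fun j _ => (g1 l (Finset.mem_range.1 hl) j).2.trans (add_le_add le_rfl
          (div_le_div_of_nonneg_right (hrow l (Finset.mem_range.1 hl) j) (by positivity)))).trans_eq (by simp; ring)
      · refine le_of_eq_of_le ?_ (hX (2 * DA + 1 / N) (by linarith))
        have e : DA = (∑ l ∈ range R, ∫ U, devS R (W U) rd l ∂ν) / R := by
          simp only [DA, devA]; rw [integral_div, integral_finsetSum _ fun s _ => int_devS hw hν s]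
        simp only [mul_add, add_div, sum_add_distrib, ← mul_sum, ← sum_div, sum_const, card_range, nsmul_eq_mul]
        rw [e]; field_simp; ring
    have hD2 : ∫ U, (∑ l ∈ range n, (devS R (W U) rd l +
        ∑ j, √(nodeSq R (W U) l (diaI R θ' lab U (W U) rd (indA j) l)))) / n ∂ν ≤ τ / 8 + τ / 4 := by
      have hi3 : ∀ l, Integrable (fun U => devS R (W U) rd l +
          ∑ j, √(nodeSq R (W U) l (diaI R θ' lab U (W U) rd (indA j) l))) ν := fun l =>
        (int_devS hw hν l).add (integrable_finsetSum _ fun j _ => (g2 l j).1)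
      rw [integral_div, integral_finsetSum _ fun l _ => hi3 l]
      refine (div_le_div_of_nonneg_right (sum_le_sum (g := fun l => ∫ U, devS R (W U) rd l ∂ν +
        (k:ℝ) * (t + A * (∫ U, devS R (W U) rd l ∂ν + η + 1 / N) / (4 * t))) fun l hl => ?_) hnpos.le).trans ?_
      · rw [integral_add (int_devS hw hν l) (integrable_finsetSum _ fun j _ => (g2 l j).1),
          integral_finsetSum _ fun j _ => (g2 l j).1]
        refine add_le_add le_rfl ?_
        exact (sum_le_sum fun j _ => (g2 l j).2.trans (add_le_add le_rfl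
          (div_le_div_of_nonneg_right (hdia l hl j) (by positivity)))).trans_eq (by simp; ring)
      · set S := (∑ l ∈ range n, ∫ U, devS R (W U) rd l ∂ν) / n
        have e : (∑ l ∈ range n, (∫ U, devS R (W U) rd l ∂ν +
            (k:ℝ) * (t + A * (∫ U, devS R (W U) rd l ∂ν + η + 1 / N) / (4 * t)))) / n =
            S + (k:ℝ) * (t + A * (S + η + 1 / N) / (4 * t)) := by
          simp only [S, mul_add, add_div, sum_add_distrib, ← mul_sum, ← sum_div, sum_const, card_range, nsmul_eq_mul]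
          field_simp
        rw [e]
        exact add_le_add (hsn.trans hDη.2) (hX _ (by linarith [hsn, hDη.1]))
    have hsplit : ∫ U, E U ∂ν = ((∫ U, adev R (W U) (ovK rd) (qlev R (W U) rd) ∂ν) +
        ∫ U, madJ R lab U (W U) rd ∂ν) +
        (∫ U, (∑ l ∈ range R, ∑ j, √(nodeSq R (W U) l (resid R θ' lab U (W U) rd (indA j) l))) / R ∂ν) +
        ∫ U, (∑ l ∈ range n, (devS R (W U) rd l +
          ∑ j, √(nodeSq R (W U) l (diaI R θ' lab U (W U) rd (indA j) l)))) / n ∂ν := by
      simp only [E, sdErr]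
      rw [integral_add, integral_add, integral_add hia him]
      exacts [hia.add him, iR, (hia.add him).add iR, iD]
    have h8 : δ ≤ τ / 8 := (min_le_right _ _).trans (min_le_left _ _)
    linarith
  -- Markov
  set Bd : ℝ := (k:ℝ) * 4
  refine (integral_mono_of_nonneg (g := fun U => ε / 2 + Bd / δ₁ * E U)
    (Eventually.of_forall fun U => sum_nonneg fun j _ => adev_nonneg (hW U) _ _)
    ((integrable_const _).add (iE.const_mul _)) ?_).trans ?_
  · filter_upwards [hν.2.1] with U hU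
    have hE0 : 0 ≤ E U := by
      simp only [E, sdErr]
      have := adev_nonneg (R := R) (hW U) (ovK rd) (qlev R (W U) rd)
      have : 0 ≤ madJ R lab U (W U) rd := sum_nonneg fun j _ => ET_nonneg (hW U) fun _ => abs_nonneg _
      have : 0 ≤ (∑ l ∈ range R, ∑ j, √(nodeSq R (W U) l (resid R θ' lab U (W U) rd (indA j) l))) / (R:ℝ) := by
        positivity
      have : 0 ≤ (∑ l ∈ range n, (devS R (W U) rd l +
          ∑ j, √(nodeSq R (W U) l (diaI R θ' lab U (W U) rd (indA j) l)))) / (n:ℝ) :=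
        div_nonneg (sum_nonneg fun l _ => add_nonneg (sqrt_nonneg _) (sum_nonneg fun _ _ => sqrt_nonneg _)) hnpos.le
      linarith
    have hBd : 0 ≤ Bd / δ₁ * E U := by positivity
    rcases le_or_gt (E U) δ₁ with h | h
    · have := hsol R N hR θ' lab (fun j => (hθ' j).trans hδ₁') (fun j => (hfreq j).trans hδ₁') U hU (W U) (hW U)
        rd n hn1 hnR hnlo h
      linarith
    · obtain ⟨hq, -⟩ := qlev_prof (R := R) (rd := rd) (hW U)
      refine ((sum_le_sum fun j _ => adev_le (hW U) (fun p q => Up.abs_pov_le hU j _ _) (fun l hl => ?_) hR).trans_eq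
        (by simp [Bd] : ∑ _j : Fin k, (4:ℝ) = Bd)).trans ?_
      · obtain ⟨h0, h1⟩ := P157.Par.Prof.upper (levP_prof hat hq j) hl
        rw [abs_of_nonneg h0]; exact h1
      · have : Bd ≤ Bd / δ₁ * E U := by
          rw [div_mul_eq_mul_div, le_div_iff₀ hδ₁]; exact mul_le_mul_of_nonneg_left h.le (by positivity)
        linarith
  · rw [integral_add (integrable_const _) (iE.const_mul _), integral_const, integral_const_mul]
    simp only [probReal_univ, one_smul]
    have h1 : Bd / δ₁ * ∫ U, E U ∂ν ≤ Bd / δ₁ * τ := mul_le_mul_of_nonneg_left hE (by positivity)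
    have h2 : Bd / δ₁ * τ ≤ ε / 2 := by
      simp only [Bd, τ, K]
      field_simp
      linarith
    linarith

end Vale.Agent.P166.Gen
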