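import Vale.Agent.P166.Gen.SdDefs
import Vale.Agent.P166.Gen.Algebra
import Vale.Agent.P166.Gen.Up.EnvCoupling
import Vale.Agent.P157.Par.QConc

/-!
# P166 Gen G1: sizes, continuity in the frame and the tower identity for the node means
-/

open MeasureTheory Finset Real
open Vale.Agent.P157.Par (Prof adev devOf ovK qlev ov abs_ov_le qlev_prof tower devOf_nonneg adev_nonneg)
open Vale.Agent.P168.MP hiding avg dev

noncomputable section

namespace Vale.Agent.P166.Gen.Sd

variable {k N R : ℕ} {Ω : Type} [Fintype Ω] {lab : Fin N → Fin k} {U : Mat N} {W : List Ω → ℝ}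
  {rd : List Ω → Fin N → Bool} {θ c : Fin k → ℝ} {B : ℝ}

lemma sum_freq [NeZero N] (lab : Fin N → Fin k) : ∑ j, freq lab j = 1 := by
  simp only [freq, ← sum_div]
  rw [← Nat.cast_sum, ← card_eq_sum_card_fiberwise fun i _ => Finset.mem_univ (lab i), card_univ, Fintype.card_fin,
    div_self (Nat.cast_ne_zero.2 (NeZero.ne N))]

lemma abs_share_le [NeZero N] (hc : ∀ j, |c j| ≤ B) : |share lab c| ≤ B := by
  refine (abs_sum_le_sum_abs _ _).trans ?_
  calc ∑ j, |c j * freq lab j| ≤ ∑ j, B * freq lab j := sum_le_sum fun j _ => by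
        have h : 0 ≤ freq lab j := div_nonneg (Nat.cast_nonneg _) (Nat.cast_nonneg _)
        rw [abs_mul, abs_of_nonneg h]
        exact mul_le_mul_of_nonneg_right (hc j) h
    _ = B := by rw [← mul_sum, sum_freq, mul_one]

lemma abs_povc_le [NeZero N] (hU : Up.Orth U) (hc : ∀ j, |c j| ≤ B) (σ τ : Fin N → Bool) :
    |povc lab U c σ τ| ≤ k * B := by
  refine (abs_sum_le_sum_abs _ _).trans ((sum_le_sum fun j _ => ?_).trans_eq (by simp : ∑ _j : Fin k, B = k * B))
  rw [abs_mul]
  exact (mul_le_mul (hc j) (Up.abs_pov_le hU j σ τ) (abs_nonneg _) ((abs_nonneg _).trans (hc j))).trans_eq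
    (mul_one B)

lemma abs_mul_coef {L : ℝ} (hθ : ∀ j, |θ j| ≤ L) (hc : ∀ j, |c j| ≤ B) (j : Fin k) : |(θ * c) j| ≤ L * B := by
  rw [Pi.mul_apply, abs_mul]
  exact mul_le_mul (hθ j) (hc j) (abs_nonneg _) ((abs_nonneg _).trans (hθ j))

/-- the coefficients of a row have total size at most three -/
lemma abs_rc_sum {l : ℕ} (hl : l < R) : ∑ s ∈ Icc l R, |rc R l s| ≤ 3 := by
  have hR : (0:ℝ) < R := by exact_mod_cast (show 0 < R by omega)
  have h : ∀ s ∈ Icc l R, |rc R l s| ≤
      (if s = R then (1:ℝ) else 0) + (if s = l then ((l:ℝ) + 1) / R else 0) + (if s < R then 1 / (R:ℝ) else 0) := by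
    intro s hs
    unfold rc
    by_cases h1 : s = R
    · simp [h1, hl.ne']
    · have h2 : s < R := lt_of_le_of_ne (mem_Icc.1 hs).2 h1
      by_cases h3 : s = l
      · subst h3
        rw [if_neg h1, if_pos rfl, if_neg h1, if_pos rfl, if_pos h2, abs_div, abs_neg, abs_of_pos hR,
          abs_of_nonneg (by positivity : (0:ℝ) ≤ (s:ℝ) + 1)]
        linarith [one_div_pos.2 hR]
      · rw [if_neg h1, if_neg h3, if_neg h1, if_neg h3, if_pos h2, abs_div, abs_of_pos hR, abs_neg, abs_one]
        simp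
  refine (sum_le_sum h).trans ?_
  rw [sum_add_distrib, sum_add_distrib, sum_ite_eq', sum_ite_eq', ← sum_filter, sum_const, nsmul_eq_mul,
    if_pos (mem_Icc.2 ⟨hl.le, le_rfl⟩), if_pos (mem_Icc.2 ⟨le_rfl, hl.le⟩)]
  have h1 : ((l:ℝ) + 1) / R ≤ 1 := (div_le_one hR).2 (by exact_mod_cast hl)
  have h2 : (((Icc l R).filter fun s => s < R).card : ℝ) * (1 / R) ≤ 1 := by
    rw [mul_one_div, div_le_one hR]
    exact_mod_cast (card_le_card fun s hs => Finset.mem_range.2 (mem_filter.1 hs).2).trans_eq (card_range R)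
  linarith

lemma abs_kap_sum {l : ℕ} (hR : 1 ≤ R) : ∑ s ∈ Icc l R, |kapR R s| ≤ 2 := by
  have hR' : (0:ℝ) < R := by exact_mod_cast hR
  have h : ∀ s ∈ Icc l R, |kapR R s| ≤ (if s = R then (1:ℝ) else 0) + (if s < R then 1 / (R:ℝ) else 0) := by
    intro s hs
    unfold kapR
    by_cases h1 : s = R
    · simp [h1]
    · rw [if_neg h1, if_neg h1, if_pos (lt_of_le_of_ne (mem_Icc.1 hs).2 h1), abs_div, abs_of_pos hR', abs_neg, abs_one]
      simp
  refine (sum_le_sum h).trans ?_
  rw [sum_add_distrib, sum_ite_eq', ← sum_filter, sum_const, nsmul_eq_mul]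
  have h2 : (((Icc l R).filter fun s => s < R).card : ℝ) * (1 / R) ≤ 1 := by
    rw [mul_one_div, div_le_one hR']
    exact_mod_cast (card_le_card fun s hs => Finset.mem_range.2 (mem_filter.1 hs).2).trans_eq (card_range R)
  split_ifs <;> linarith

section bounds
variable [Nonempty Ω] [NeZero N] (hW : ∀ p, 0 < W p) (hU : Up.Orth U)
include hW hU

lemma abs_rho_le (hc : ∀ j, |c j| ≤ B) (hB0 : 0 ≤ B) {l : ℕ} (hl : l < R) (p : List Ω) :
    |rho R lab U W rd c l p| ≤ 3 * (k * B) := by
  refine (abs_sum_le_sum_abs _ _).trans ?_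
  calc ∑ s ∈ Icc l R, |rc R l s * hB R lab U W rd c s p| ≤ ∑ s ∈ Icc l R, |rc R l s| * (k * B) :=
        sum_le_sum fun s _ => by
          rw [abs_mul]
          exact mul_le_mul_of_nonneg_left (ext_bound hW fun q => abs_povc_le hU hc _ _) (abs_nonneg _)
    _ ≤ 3 * (k * B) := by
          rw [← sum_mul]; exact mul_le_mul_of_nonneg_right (abs_rc_sum hl) (by positivity)

lemma abs_pairT_le {L : ℝ} (hL : 0 ≤ L) (hθ : ∀ j, |θ j| ≤ L) (hc : ∀ j, |c j| ≤ 1) (a x b : Fin N → Bool) :
    |pairT θ lab U c a x b| ≤ 2 * ((k:ℝ) * k * L) := by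
  refine (abs_sub _ _).trans ?_
  rw [abs_mul, abs_mul]
  have h1 := mul_le_mul (abs_povc_le (lab := lab) hU hc a x) (abs_povc_le (lab := lab) hU hθ x b)
    (abs_nonneg _) (by positivity)
  have h2 := mul_le_mul (abs_povc_le (lab := lab) hU (c := (1 : Fin k → ℝ)) (B := 1) (fun j => by simp) x b)
    (abs_povc_le (lab := lab) hU (abs_mul_coef hθ hc) x a) (abs_nonneg _) (by positivity)
  linarith

lemma abs_resid_le {L : ℝ} (hL : 0 ≤ L) (hθ : ∀ j, |θ j| ≤ L) (hc : ∀ j, |c j| ≤ 1) {l : ℕ} (hl : l < R)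
    (p : List Ω) : |resid R θ lab U W rd c l p| ≤ 6 * (k:ℝ) + 18 * ((k:ℝ) * k * L) := by
  have h1 := abs_rho_le (rd := rd) (lab := lab) hW hU hc zero_le_one hl p
  have h2 := abs_rho_le (rd := rd) (lab := lab) hW hU (c := (1 : Fin k → ℝ)) (B := 1) (fun j => by simp)
    zero_le_one hl p
  have h3 := abs_rho_le (rd := rd) (lab := lab) hW hU hθ hL hl p
  have h4 := abs_rho_le (rd := rd) (lab := lab) hW hU (abs_mul_coef hθ hc) (by positivity) hl p
  have hs := abs_share_le (lab := lab) hc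
  have e1 := mul_le_mul hs h2 (abs_nonneg _) zero_le_one
  have e2 := mul_le_mul h1 h3 (abs_nonneg _) (by positivity)
  have e3 := mul_le_mul h2 h4 (abs_nonneg _) (by positivity)
  rw [← abs_mul] at e1 e2 e3
  unfold resid
  refine (abs_sub _ _).trans ?_
  refine (add_le_add ((abs_add_le _ _).trans (add_le_add (abs_sub _ _) le_rfl)) le_rfl).trans ?_
  linarith

lemma abs_diaI_le {L : ℝ} (hL : 0 ≤ L) (hθ : ∀ j, |θ j| ≤ L) (hc : ∀ j, |c j| ≤ 1) {l : ℕ} (hR : 1 ≤ R)
    (p : List Ω) : |diaI R θ lab U W rd c l p| ≤ 6 * (k:ℝ) + 18 * ((k:ℝ) * k * L) := by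
  have hk : 0 ≤ (k:ℝ) * k * L := by positivity
  have h1 := abs_povc_le (lab := lab) hU hc (rd p) (rd p)
  have e1 := mul_le_mul (abs_share_le (lab := lab) hc)
    (abs_povc_le (lab := lab) hU (c := (1 : Fin k → ℝ)) (B := 1) (fun j => by simp) (rd p) (rd p)) (abs_nonneg _)
    zero_le_one
  rw [← abs_mul] at e1
  have h2 : |∑ s ∈ Icc l R, kapR R s * ext (lin R) W (R - s) (p.take s)
      (fun q => pairT θ lab U c (rd p) (rd q) (rd p))| ≤ 2 * (2 * ((k:ℝ) * k * L)) := by
    refine (abs_sum_le_sum_abs _ _).trans ?_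
    calc _ ≤ ∑ s ∈ Icc l R, |kapR R s| * (2 * ((k:ℝ) * k * L)) := sum_le_sum fun s _ => by
          rw [abs_mul]
          exact mul_le_mul_of_nonneg_left (ext_bound hW fun q => abs_pairT_le hW hU hL hθ hc _ _ _) (abs_nonneg _)
      _ ≤ _ := by rw [← sum_mul]; exact mul_le_mul_of_nonneg_right (abs_kap_sum hR) (by positivity)
  unfold diaI
  refine (abs_add_le _ _).trans ((add_le_add ((abs_sub _ _).trans (add_le_add h1 e1)) h2).trans ?_)
  linarith [(Nat.cast_nonneg k : (0:ℝ) ≤ k)]

end bounds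

/-- a function of the node times a path function has the mean of the node mean -/
lemma node_tower [Nonempty Ω] (hW : ∀ p, 0 < W p) {l : ℕ} (hl : l ≤ R) (φ z : List Ω → ℝ) :
    ET R (lin R) W [(0, 0)] (fun ps => φ ((ps.getD 0 []).take l) * z (ps.getD 0 [])) =
      ET R (lin R) W [(0, 0)] (fun ps => φ ((ps.getD 0 []).take l) * nodeE R W l z ((ps.getD 0 []).take l)) := by
  simp only [ET_single, List.getD_cons_zero]
  rw [tower l hl, tower l hl]
  refine Vale.Agent.P157.Par.ext_congr_len fun pre hpre => ?_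
  calc ext (lin R) W (R - l) pre (fun q => φ (q.take l) * z q)
      = φ pre * nodeE R W l z pre := by
        rw [nodeE, ← ext_const_mul]
        exact ext_congr fun suf _ => by rw [List.take_left' hpre]
    _ = ext (lin R) W (R - l) pre fun _ => φ pre * nodeE R W l z pre := (ext_const hW _ _ _).symm
    _ = _ := ext_congr fun suf _ => by rw [List.take_left' hpre]

/-- the node means as multiplier give the mean square -/
lemma nodeSq_eq [Nonempty Ω] (hW : ∀ p, 0 < W p) {l : ℕ} (hl : l ≤ R) (z : List Ω → ℝ) :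
    nodeSq R W l z =
      ET R (lin R) W [(0, 0)] fun ps => nodeE R W l z ((ps.getD 0 []).take l) * z (ps.getD 0 []) := by
  rw [node_tower hW hl, nodeSq]
  simp only [sq]

lemma nodeSq_nonneg [Nonempty Ω] (hW : ∀ p, 0 < W p) (l : ℕ) (z : List Ω → ℝ) : 0 ≤ nodeSq R W l z :=
  ET_nonneg hW fun _ => sq_nonneg _

/-! ### continuity in the frame -/

section cont
variable [Nonempty Ω] {w₀ : List Ω → ℝ}

omit [Nonempty Ω] in
lemma wU_pos (hw : ∀ p, 0 < w₀ p) (U : Mat N) (p : List Ω) : 0 < wU θ lab U w₀ rd p :=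
  mul_pos (hw p) (exp_pos _)

omit [Nonempty Ω] in
lemma cont_wU (p : List Ω) : Continuous fun U : Mat N => wU θ lab U w₀ rd p := by
  unfold wU; exact continuous_const.mul (Up.continuous_wJ θ lab _)

omit [Nonempty Ω] in
lemma cont_povc (c : Fin k → ℝ) (σ τ : Fin N → Bool) : Continuous fun U : Mat N => povc lab U c σ τ := by
  unfold povc; exact continuous_finsetSum _ fun j _ => continuous_const.mul (Up.continuous_pov lab j σ τ)

variable (hw : ∀ p, 0 < w₀ p)
include hw

lemma cont_ext (n : ℕ) (pre : List Ω) {F : Mat N → List Ω → ℝ} (hF : ∀ q, Continuous fun U => F U q) :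
    Continuous fun U : Mat N => ext (lin R) (wU θ lab U w₀ rd) n pre (F U) :=
  Vale.Agent.P157.Par.continuous_ext cont_wU (fun U p => wU_pos hw U p) n pre hF

lemma cont_ET (T : List (ℕ × ℕ)) {F : Mat N → List (List Ω) → ℝ} (hF : ∀ ps, Continuous fun U => F U ps) :
    Continuous fun U : Mat N => ET R (lin R) (wU θ lab U w₀ rd) T (F U) :=
  Vale.Agent.P157.Par.continuous_ET cont_wU (fun U p => wU_pos hw U p) R T hF

lemma cont_rho (c : Fin k → ℝ) (l : ℕ) (p : List Ω) :
    Continuous fun U : Mat N => rho R lab U (wU θ lab U w₀ rd) rd c l p := by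
  unfold rho hB
  exact continuous_finsetSum _ fun s _ => continuous_const.mul (cont_ext hw _ _ fun q => cont_povc _ _ _)

lemma cont_resid (c : Fin k → ℝ) (l : ℕ) (p : List Ω) :
    Continuous fun U : Mat N => resid R θ lab U (wU θ lab U w₀ rd) rd c l p := by
  unfold resid
  exact (((cont_rho hw c l p).sub (continuous_const.mul (cont_rho hw 1 l p))).add
    ((cont_rho hw c l p).mul (cont_rho hw θ l p))).sub ((cont_rho hw 1 l p).mul (cont_rho hw _ l p))

omit hw [Nonempty Ω] in
lemma cont_pairT (c : Fin k → ℝ) (a x b : Fin N → Bool) :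
    Continuous fun U : Mat N => pairT θ lab U c a x b := by
  unfold pairT
  exact ((cont_povc c a x).mul (cont_povc θ x b)).sub ((cont_povc 1 x b).mul (cont_povc _ x a))

lemma cont_diaI (c : Fin k → ℝ) (l : ℕ) (p : List Ω) :
    Continuous fun U : Mat N => diaI R θ lab U (wU θ lab U w₀ rd) rd c l p := by
  unfold diaI
  exact ((cont_povc c _ _).sub (continuous_const.mul (cont_povc 1 _ _))).add
    (continuous_finsetSum _ fun s _ => continuous_const.mul (cont_ext hw _ _ fun q => cont_pairT c _ _ _))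

lemma cont_nodeE (l : ℕ) {z : Mat N → List Ω → ℝ} (hz : ∀ q, Continuous fun U => z U q) (pre : List Ω) :
    Continuous fun U : Mat N => nodeE R (wU θ lab U w₀ rd) l (z U) pre := by
  unfold nodeE; exact cont_ext hw _ _ hz

lemma cont_nodeSq (l : ℕ) {z : Mat N → List Ω → ℝ} (hz : ∀ q, Continuous fun U => z U q) :
    Continuous fun U : Mat N => nodeSq R (wU θ lab U w₀ rd) l (z U) := by
  unfold nodeSq; exact cont_ET hw _ fun ps => (cont_nodeE hw l hz _).pow 2

lemma cont_fullI (c : Fin k → ℝ) {φ : Mat N → List Ω → ℝ} (hφ : ∀ q, Continuous fun U => φ U q) (l s : ℕ) :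
    Continuous fun U : Mat N => fullI R θ lab U (wU θ lab U w₀ rd) rd c (φ U) l s := by
  unfold fullI
  refine (cont_ET hw _ fun ps => (hφ _).mul ((cont_povc c _ _).sub (continuous_const.mul (cont_povc 1 _ _)))).add ?_
  exact continuous_list_sum _ fun a _ =>
    continuous_const.mul (cont_ET hw _ fun ps => (hφ _).mul (cont_pairT c _ _ _))

lemma cont_qlev (l : ℕ) : Continuous fun U : Mat N => qlev R (wU θ lab U w₀ rd) rd l := by
  unfold qlev; exact cont_ET hw _ fun _ => continuous_const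

lemma cont_devOf (C : Mat N → List Ω → List Ω → ℝ) (hC : ∀ p q, Continuous fun U => C U p q)
    (t : Mat N → ℕ → ℝ) (l : ℕ) (ht : Continuous fun U => t U l) :
    Continuous fun U : Mat N => devOf R (wU θ lab U w₀ rd) (C U) (t U) l := by
  unfold devOf; exact cont_ET hw _ fun ps => ((hC _ _).sub ht).abs

lemma cont_adev (C : Mat N → List Ω → List Ω → ℝ) (hC : ∀ p q, Continuous fun U => C U p q)
    (t : Mat N → ℕ → ℝ) (ht : ∀ l, Continuous fun U => t U l) :
    Continuous fun U : Mat N => adev R (wU θ lab U w₀ rd) (C U) (t U) := by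
  unfold adev
  exact ((continuous_finsetSum _ fun l _ => cont_devOf hw C hC t l (ht l)).div_const _).add
    (cont_devOf hw C hC t R (ht R))

lemma cont_devS (l : ℕ) : Continuous fun U : Mat N => devS R (wU θ lab U w₀ rd) rd l := by
  unfold devS
  exact (cont_devOf hw (fun _ => ovK rd) (fun _ _ => continuous_const) _ l (cont_qlev hw l)).sqrt.sqrt

lemma cont_madJ : Continuous fun U : Mat N => madJ R lab U (wU θ lab U w₀ rd) rd := by
  unfold madJ mad mean1
  refine continuous_finsetSum _ fun j _ => cont_ET hw _ fun ps => ((Up.continuous_pov lab j _ _).sub ?_).abs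
  exact cont_ext hw _ _ fun q => Up.continuous_pov lab j _ _

end cont

/-- a continuous function, bounded on orthogonal frames, is integrable -/
lemma integrable_of_cont {ν : Measure (Mat N)} (hν : IsHaarOrthogonal ν) {f : Mat N → ℝ} (hf : Continuous f)
    (C : ℝ) (h : ∀ U, Up.Orth U → |f U| ≤ C) : Integrable f ν := by
  have := hν.1
  refine Integrable.of_bound hf.measurable.aestronglyMeasurable C ?_
  filter_upwards [hν.2.1] with U hU using by simpa [Real.norm_eq_abs] using h U hU

end Vale.Agent.P166.Gen.Sd
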