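import Vale.Agent.P166.Gen.SdDefs
import Vale.Agent.P166.Phase.Invariance
import Vale.Agent.P157.Par.Rep
import Vale.Agent.P168.MP.Node

/-!
# P166 Gen G1: below a node the forms are almost constant

For a centred one-replica statistic `z = povc(σ, ·) - mean` the vector `y = E[z x]` gives
`(E z²)² ≤ E E z z' (ov - mean)`, so `(E z²)² ≤ Var(ov)` at the node.
-/

open Finset Real
open Vale.Agent.P157.Par (devOf ovK qlev ov)
open Vale.Agent.P168.MP (lin ET ext Z Z_pos ext_congr ext_mono ext_mono_on ext_const ext_tower ext_sub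
  ext_add ext_const_mul ext_mul_const ext_sum ext_nonneg ext_sqrt_le ET_sqrt_le ET_single ET_cons)

noncomputable section

namespace Vale.Agent.P166.Gen

variable {k N : ℕ}

lemma povc_eq_sum (lab : Fin N → Fin k) (U : Mat N) (c : Fin k → ℝ) (σ τ : Fin N → Bool) :
    povc lab U c σ τ = (∑ i, c (lab i) * (cd U σ i * cd U τ i)) / N := by
  simp only [povc, pov, mul_div_assoc', ← sum_div, mul_sum]
  congr 1
  rw [← sum_fiberwise univ lab fun i => c (lab i) * (cd U σ i * cd U τ i)]
  refine sum_congr rfl fun j _ => sum_congr rfl fun i hi => ?_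
  rw [(mem_filter.1 hi).2]

lemma sum_cd_mul {U : Mat N} (hU : Matrix.of U ∈ Matrix.orthogonalGroup (Fin N) ℝ) (σ τ : Fin N → Bool) :
    ∑ i, cd U σ i * cd U τ i = ∑ x, spin (σ x) * spin (τ x) :=
  Phase.ip_app (U := U) hU (fun x => spin (σ x)) fun x => spin (τ x)

/-- the form of the constant one is the overlap -/
lemma povc_one_eq {U : Mat N} (hU : Matrix.of U ∈ Matrix.orthogonalGroup (Fin N) ℝ) (lab : Fin N → Fin k)
    (σ τ : Fin N → Bool) : povc lab U 1 σ τ = ov σ τ := by
  rw [povc_eq_sum]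
  simp only [Pi.one_apply, one_mul]
  rw [sum_cd_mul hU]
  simp [ov, Vale.Agent.P168.MP.avg, spin, Vale.Agent.P168.sg]

lemma sum_cd_self {U : Mat N} (hU : Matrix.of U ∈ Matrix.orthogonalGroup (Fin N) ℝ) (σ : Fin N → Bool) :
    ∑ i, cd U σ i ^ 2 = N := by
  simp only [sq]
  rw [sum_cd_mul hU]
  have e : ∀ x, spin (σ x) * spin (σ x) = 1 := fun x => by cases σ x <;> simp [spin]
  simp [e]

/-- forms with coefficients at most `B` are at most `B` -/
lemma abs_povc_le [NeZero N] {U : Mat N} (hU : Matrix.of U ∈ Matrix.orthogonalGroup (Fin N) ℝ)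
    (lab : Fin N → Fin k) {c : Fin k → ℝ} {B : ℝ} (hc : ∀ j, |c j| ≤ B) (σ τ : Fin N → Bool) :
    |povc lab U c σ τ| ≤ B := by
  have hN : (0:ℝ) < N := by exact_mod_cast Nat.pos_of_ne_zero (NeZero.ne N)
  rw [povc_eq_sum, abs_div, abs_of_pos hN, div_le_iff₀ hN]
  refine (abs_sum_le_sum_abs _ _).trans ((sum_le_sum (g := fun i => B * ((cd U σ i ^ 2 + cd U τ i ^ 2) / 2))
    fun i _ => ?_).trans ?_)
  · rw [abs_mul]
    refine mul_le_mul (hc _) ?_ (abs_nonneg _) ((abs_nonneg _).trans (hc (lab i)))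
    rw [abs_le]
    constructor <;> linarith [sq_nonneg (cd U σ i - cd U τ i), sq_nonneg (cd U σ i + cd U τ i)]
  · rw [← mul_sum, ← sum_div, sum_add_distrib, sum_cd_self hU, sum_cd_self hU, ← two_mul,
      mul_div_cancel_left₀ (N : ℝ) two_ne_zero]

variable {Ω : Type} [Fintype Ω]

/-- the mean deviation of a projection below a node -/
lemma ext_abs_povc_le [NeZero N] [Nonempty Ω] {W : List Ω → ℝ} (hW : ∀ p, 0 < W p) {U : Mat N}
    (hU : Matrix.of U ∈ Matrix.orthogonalGroup (Fin N) ℝ) (lab : Fin N → Fin k)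
    (rd : List Ω → Fin N → Bool) {c : Fin k → ℝ} (hc : ∀ j, |c j| ≤ 1) (σ : Fin N → Bool)
    (m : ℕ → ℝ) (d : ℕ) (pre : List Ω) :
    ext m W d pre (fun q => |povc lab U c σ (rd q) - ext m W d pre fun q' => povc lab U c σ (rd q')|) ≤
      √(√(ext m W d pre fun p => ext m W d pre fun q =>
        (ovK rd p q - ext m W d pre fun p' => ext m W d pre fun q' => ovK rd p' q') ^ 2)) := by
  have hN : (0:ℝ) < N := by exact_mod_cast Nat.pos_of_ne_zero (NeZero.ne N)
  set μ := ext m W d pre fun q' => povc lab U c σ (rd q') with hμ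
  set z := fun q => povc lab U c σ (rd q) - μ with hz
  set O := ext m W d pre fun p' => ext m W d pre fun q' => ovK rd p' q'
  set X := ext m W d pre fun q => z q ^ 2 with hX
  set G := ext m W d pre fun p => ext m W d pre fun q => (ovK rd p q - O) ^ 2 with hG
  set v := fun i => c (lab i) * cd U σ i with hv
  set y := fun i => ext m W d pre fun q => z q * cd U (rd q) i with hy
  have hz0 : ext m W d pre z = 0 := by rw [hz, ext_sub, ext_const hW, ← hμ, sub_self]
  have h1 : ∑ i, v i * y i = N * X := by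
    simp only [hy, ← ext_const_mul, ← ext_sum, hX]
    have e : ∀ q, ∑ i, v i * (z q * cd U (rd q) i) = N * (z q ^ 2) + N * μ * z q := fun q => by
      have : ∑ i, v i * (z q * cd U (rd q) i) = z q * (N * povc lab U c σ (rd q)) := by
        rw [povc_eq_sum, mul_div_cancel₀ _ hN.ne', mul_sum]
        exact sum_congr rfl fun i _ => by simp only [hv]; ring
      rw [this, hz]; ring
    simp only [e, ext_add, ext_const_mul, hz0, mul_zero, add_zero]
  have h2 : ∑ i, y i ^ 2 ≤ N * ((X * X + G) / 2) := by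
    have e : ∑ i, y i ^ 2 = N * ext m W d pre fun p => ext m W d pre fun q =>
        z p * z q * (ovK rd p q - O) := by
      have e1 : ext m W d pre (fun p => ext m W d pre fun q => z p * z q * O) = 0 := by
        simp only [mul_assoc, ext_const_mul, ext_mul_const, hz0, mul_zero, zero_mul, ext_const hW]
      simp only [mul_sub, ext_sub, e1, sub_zero, sq, hy, ← ext_mul_const, ← ext_const_mul, ← ext_sum]
      refine congrArg _ (funext fun p => congrArg _ (funext fun q => ?_))
      rw [show ovK rd p q = povc lab U 1 (rd p) (rd q) from (povc_one_eq hU lab _ _).symm, povc_eq_sum,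
        show (N:ℝ) * (z p * z q * ((∑ i, (1 : Fin k → ℝ) (lab i) * (cd U (rd p) i * cd U (rd q) i)) / N)) =
          z p * z q * ∑ i, cd U (rd p) i * cd U (rd q) i by simp only [Pi.one_apply, one_mul]; field_simp,
        mul_sum]
      exact sum_congr rfl fun i _ => by ring
    have e2 : ext m W d pre (fun p => ext m W d pre fun q =>
        (z p ^ 2 * z q ^ 2 + (ovK rd p q - O) ^ 2) * (1 / 2)) = (X * X + G) / 2 := by
      simp only [ext_mul_const, ext_add, ext_const_mul, ← hX, ← hG]
      ring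
    rw [e, ← e2]
    exact mul_le_mul_of_nonneg_left (ext_mono hW fun p => ext_mono hW fun q => by
      linarith [sq_nonneg (z p * z q - (ovK rd p q - O)), mul_pow (z p) (z q) 2]) hN.le
  have hv2 : ∑ i, v i ^ 2 ≤ N := by
    rw [← sum_cd_self hU σ]
    refine sum_le_sum fun i _ => ?_
    rw [hv, mul_pow]
    exact mul_le_of_le_one_left (sq_nonneg _) ((sq_le_one_iff_abs_le_one _).2 (hc _))
  have h3 : (N * X) ^ 2 ≤ N * (N * ((X * X + G) / 2)) := by
    rw [← h1]
    exact (sum_mul_sq_le_sq_mul_sq univ v y).trans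
      (mul_le_mul hv2 h2 (sum_nonneg fun i _ => sq_nonneg _) hN.le)
  have h4 : X ^ 2 ≤ G := by
    have : (N:ℝ) ^ 2 * X ^ 2 ≤ (N:ℝ) ^ 2 * ((X * X + G) / 2) := by linarith
    have := le_of_mul_le_mul_left this (by positivity)
    linarith [sq X]
  have h5 : X ≤ √G := Real.le_sqrt_of_sq_le h4
  calc ext m W d pre (fun q => |z q|) = ext m W d pre (fun q => √(z q ^ 2)) := by simp only [Real.sqrt_sq_eq_abs]
    _ ≤ √X := ext_sqrt_le hW d pre fun q => sq_nonneg _
    _ ≤ √(√G) := Real.sqrt_le_sqrt h5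

/-- two replicas below the node of one path are the pair split at that level -/
lemma ET_node_pair [Nonempty Ω] {m : ℕ → ℝ} {W : List Ω → ℝ} (hW : ∀ p, 0 < W p) {R l : ℕ} (hl : l ≤ R)
    (H : List Ω → List Ω → ℝ) :
    ET R m W [(0, 0)] (fun ps => ext m W (R - l) ((ps.getD 0 []).take l) fun p =>
        ext m W (R - l) ((ps.getD 0 []).take l) fun q => H p q) =
      ET R m W [(0, l), (0, 0)] fun ps => H (ps.getD 0 []) (ps.getD 1 []) := by
  obtain ⟨b, rfl⟩ := Nat.exists_eq_add_of_le hl
  rw [ET_cons 0 l, ET_single, ET_single]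
  simp only [List.getD_cons_zero, List.singleton_append, List.getD_cons_succ, Nat.add_sub_cancel_left,
    ext_tower]
  refine ext_congr fun pre hpre => ?_
  simp only [List.nil_append]
  have e : ∀ G : List Ω → List Ω → ℝ, ext m W b pre (fun q => G q (q.take l)) = ext m W b pre (fun q => G q pre) :=
    fun G => ext_congr fun suf _ => by rw [List.take_left' hpre]
  rw [e fun _ a => ext m W b a fun p => ext m W b a fun q => H p q, ext_const hW,
    e fun q a => ext m W b a fun q' => H q q']

/-- below a node the form with any fixed configuration is almost constant -/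
theorem stmt_sd_cov : StmtSdCov := by
  intro k R N _ hR lab U hU Ω _ _ W hW rd l hl
  refine ⟨?_, fun c hc σ pre _ => ext_abs_povc_le hW hU lab rd hc σ (lin R) (R - l) pre⟩
  set q := qlev R W rd l
  have hov : ∀ p p', |ovK rd p p'| ≤ 1 := fun p p' => Vale.Agent.P157.Par.abs_ov_le _ _
  have hq : |q| ≤ 1 := Vale.Agent.P168.MP.ET_bound hW fun ps => hov _ _
  set G := fun pre => ext (lin R) W (R - l) pre fun p => ext (lin R) W (R - l) pre fun p' =>
    (ovK rd p p' - ext (lin R) W (R - l) pre fun a => ext (lin R) W (R - l) pre fun a' => ovK rd a a') ^ 2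
  have hG0 : ∀ pre, 0 ≤ G pre := fun pre => ext_nonneg hW fun p => ext_nonneg hW fun p' => sq_nonneg _
  have hG : ∀ pre, G pre ≤ 2 * ext (lin R) W (R - l) pre fun p => ext (lin R) W (R - l) pre fun p' =>
      |ovK rd p p' - q| := fun pre => by
    set O := ext (lin R) W (R - l) pre fun a => ext (lin R) W (R - l) pre fun a' => ovK rd a a'
    have e : ext (lin R) W (R - l) pre (fun p => ext (lin R) W (R - l) pre fun p' => (ovK rd p p' - q) ^ 2) =
        G pre + (O - q) ^ 2 := by
      have : ∀ p p', (ovK rd p p' - q) ^ 2 = (ovK rd p p' - O) ^ 2 + (2 * (O - q) * (ovK rd p p' - O) + (O - q) ^ 2) :=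
        fun p p' => by ring
      simp only [this, ext_add, ext_const_mul, ext_sub, ext_const hW]
      show G pre + (2 * (O - q) * (O - O) + (O - q) ^ 2) = _
      ring
    refine le_trans (le_of_le_of_eq (le_add_of_nonneg_right (sq_nonneg _)) e.symm) ?_
    rw [← ext_const_mul]
    refine ext_mono hW fun p => ?_
    rw [← ext_const_mul]
    refine ext_mono hW fun p' => ?_
    rw [← sq_abs, sq]
    exact mul_le_mul_of_nonneg_right ((abs_sub _ _).trans (by linarith [hov p p'])) (abs_nonneg _)
  have hdev : ET R (lin R) W [(0, 0)] (fun ps => G ((ps.getD 0 []).take l)) ≤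
      2 * devOf R W (ovK rd) (qlev R W rd) l := by
    refine (Vale.Agent.P168.MP.ET_mono hW fun ps => hG _).trans_eq ?_
    rw [Vale.Agent.P168.MP.ET_const_mul, ET_node_pair hW hl fun p p' => |ovK rd p p' - q|]
    rfl
  have hd0 : 0 ≤ devOf R W (ovK rd) (qlev R W rd) l :=
    Vale.Agent.P168.MP.ET_nonneg hW fun _ => abs_nonneg _
  calc ET R (lin R) W [(0, 0)] (fun ps => devN R W rd l ((ps.getD 0 []).take l))
      ≤ √(ET R (lin R) W [(0, 0)] fun ps => √(G ((ps.getD 0 []).take l))) :=
        ET_sqrt_le hW _ fun ps => Real.sqrt_nonneg _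
    _ ≤ √(√(2 * devOf R W (ovK rd) (qlev R W rd) l)) :=
        Real.sqrt_le_sqrt ((ET_sqrt_le hW _ fun ps => hG0 _).trans (Real.sqrt_le_sqrt hdev))
    _ ≤ 2 * devS R W rd l := by
        rw [Real.sqrt_mul two_pos.le, Real.sqrt_mul (Real.sqrt_nonneg _), devS]
        refine mul_le_mul_of_nonneg_right ?_ (Real.sqrt_nonneg _)
        refine Real.sqrt_le_iff.2 ⟨two_pos.le, Real.sqrt_le_iff.2 ⟨by positivity, by norm_num⟩⟩

end Vale.Agent.P166.Gen
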