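import Vale.Agent.P166.Gen.SdHaar
import Vale.Agent.P166.Gen.SdCov

/-!
# P166 G1: the cost of differentiating a multiplier along all rotations

The derivatives along the rotations of the coordinates `i`, `j` are contracted with the test pair
`c (lab i) * a i * b j / N²`. The contraction of a rotation of the weight is `gC`, so a nested mean
costs the deviation of `gC` from a constant, plus `1 / N` for the forms inside.
-/

open MeasureTheory Filter Finset Real
open Vale.Agent.P157.Par (ok_linW tower' ext_prefix sum_range')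
open Vale.Agent.P168.MP (lin ext Z kerD hasDerivAt_ext ext_congr ext_const ext_sum ext_const_mul ext_add
  ext_sub ext_mono ext_mono_on ext_abs_le ext_nonneg)

noncomputable section

namespace Vale.Agent.P166.Gen.SdE

variable {k N : ℕ}

/-! ### forms in coordinates -/

lemma povc_comm (lab : Fin N → Fin k) (U : Mat N) (c : Fin k → ℝ) (σ τ : Fin N → Bool) :
    povc lab U c σ τ = povc lab U c τ σ := by
  simp only [povc_eq_sum, mul_comm (cd U σ _)]

lemma povc_smul (lab : Fin N → Fin k) (U : Mat N) (x : ℝ) (c : Fin k → ℝ) (σ τ : Fin N → Bool) :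
    povc lab U (x • c) σ τ = x * povc lab U c σ τ := by
  simp only [povc, Pi.smul_apply, smul_eq_mul, mul_sum, mul_assoc]

/-! ### contractions -/

/-- the contraction of a family of rotation derivatives with the test pair -/
def ctr (lab : Fin N → Fin k) (U : Mat N) (c : Fin k → ℝ) (a b : Fin N → Bool)
    (D : Fin N → Fin N → ℝ) : ℝ :=
  ∑ i, ∑ j, c (lab i) * cd U a i * cd U b j / (N : ℝ) ^ 2 * D i j

variable {lab : Fin N → Fin k} {U : Mat N} {c θ : Fin k → ℝ} {a b : Fin N → Bool}

lemma ctr_prod (u v : Fin N → ℝ) :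
    ctr lab U c a b (fun i j => u i * v j) =
      ((∑ i, c (lab i) * cd U a i * u i) / N) * ((∑ j, cd U b j * v j) / N) := by
  rw [div_mul_div_comm, sum_mul_sum, sum_div]
  refine sum_congr rfl fun i _ => ?_
  rw [sum_div]
  exact sum_congr rfl fun j _ => by ring

lemma ctr_add (D D' : Fin N → Fin N → ℝ) :
    ctr lab U c a b (fun i j => D i j + D' i j) = ctr lab U c a b D + ctr lab U c a b D' := by
  simp only [ctr, mul_add, sum_add_distrib]

lemma ctr_const_mul (x : ℝ) (D : Fin N → Fin N → ℝ) :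
    ctr lab U c a b (fun i j => x * D i j) = x * ctr lab U c a b D := by
  simp only [ctr, mul_sum]
  exact sum_congr rfl fun i _ => sum_congr rfl fun j _ => by ring

lemma ctr_sub (D D' : Fin N → Fin N → ℝ) :
    ctr lab U c a b (fun i j => D i j - D' i j) = ctr lab U c a b D - ctr lab U c a b D' := by
  simp only [ctr, mul_sub, sum_sub_distrib]

/-- the contraction of the rotation of the weight of a configuration -/
def gC (θ : Fin k → ℝ) (lab : Fin N → Fin k) (U : Mat N) (c : Fin k → ℝ) (a b x : Fin N → Bool) : ℝ :=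
  -pairT θ lab U c a x b

/-- the rotation of the weight of a configuration -/
def gij (θ : Fin k → ℝ) (lab : Fin N → Fin k) (U : Mat N) (x : Fin N → Bool) (i j : Fin N) : ℝ :=
  (θ (lab i) - θ (lab j)) * (cd U x i * cd U x j)

lemma ctr_gij (x : Fin N → Bool) :
    ctr lab U c a b (gij θ lab U x) = gC θ lab U c a b x := by
  have e : gij θ lab U x = fun i j => (θ (lab i) * cd U x i) * cd U x j - cd U x i * (θ (lab j) * cd U x j) := by
    funext i j; simp only [gij]; ring
  rw [e, ctr_sub, ctr_prod, ctr_prod, gC, pairT, povc_comm lab U (θ * c) x a, povc_comm lab U θ x b,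
    povc_comm lab U 1 x b]
  simp only [povc_eq_sum, Pi.mul_apply, Pi.one_apply, one_mul]
  have e1 : ∀ (f : Fin k → ℝ) (u v : Fin N → ℝ),
      (∑ i, u i * (f (lab i) * v i)) = ∑ i, f (lab i) * (u i * v i) := fun f u v =>
    sum_congr rfl fun i _ => by ring
  rw [e1 θ (cd U b) (cd U x)]
  have e2 : ∑ i, c (lab i) * cd U a i * (θ (lab i) * cd U x i) =
      ∑ i, θ (lab i) * c (lab i) * (cd U a i * cd U x i) := sum_congr rfl fun i _ => by ring
  have e3 : ∑ i, c (lab i) * cd U a i * cd U x i = ∑ i, c (lab i) * (cd U a i * cd U x i) :=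
    sum_congr rfl fun i _ => by ring
  rw [e2, e3]
  ring

/-! ### the cost predicate -/

/-- `F` has rotation derivatives at `U` whose contraction is at most `e` -/
def Sml (lab : Fin N → Fin k) (U : Mat N) (c : Fin k → ℝ) (a b : Fin N → Bool) (F : Mat N → ℝ)
    (e : ℝ) : Prop :=
  ∃ D : Fin N → Fin N → ℝ, (∀ i j, HasDerivAt (fun t => F (rotU i j t U)) (D i j) 0) ∧
    |ctr lab U c a b D| ≤ e

variable {F G : Mat N → ℝ} {e e' : ℝ}

lemma Sml.mono (h : Sml lab U c a b F e) (he : e ≤ e') : Sml lab U c a b F e' := by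
  obtain ⟨D, h1, h2⟩ := h
  exact ⟨D, h1, h2.trans he⟩

lemma Sml.add (h : Sml lab U c a b F e) (h' : Sml lab U c a b G e') :
    Sml lab U c a b (fun U => F U + G U) (e + e') := by
  obtain ⟨D, h1, h2⟩ := h
  obtain ⟨D', h1', h2'⟩ := h'
  exact ⟨fun i j => D i j + D' i j, fun i j => (h1 i j).add (h1' i j),
    by rw [ctr_add]; exact (abs_add_le _ _).trans (add_le_add h2 h2')⟩

lemma Sml.const_mul (x : ℝ) (h : Sml lab U c a b F e) :
    Sml lab U c a b (fun U => x * F U) (|x| * e) := by
  obtain ⟨D, h1, h2⟩ := h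
  exact ⟨fun i j => x * D i j, fun i j => (h1 i j).const_mul x,
    by rw [ctr_const_mul, abs_mul]; exact mul_le_mul_of_nonneg_left h2 (abs_nonneg x)⟩

lemma Sml.sub (h : Sml lab U c a b F e) (h' : Sml lab U c a b G e') :
    Sml lab U c a b (fun U => F U - G U) (e + e') := by
  simpa [sub_eq_add_neg] using h.add (h'.const_mul (-1))

lemma Sml.zero : Sml lab U c a b (fun _ => 0) 0 :=
  ⟨fun _ _ => 0, fun _ _ => hasDerivAt_const _ _, by simp [ctr]⟩

lemma Sml.sum {ι : Type*} (S : Finset ι) {F : ι → Mat N → ℝ} {e : ι → ℝ}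
    (h : ∀ p ∈ S, Sml lab U c a b (F p) (e p)) :
    Sml lab U c a b (fun U => ∑ p ∈ S, F p U) (∑ p ∈ S, e p) := by
  classical
  induction S using Finset.induction_on with
  | empty => simpa using Sml.zero
  | insert x S hx ih =>
    simp only [sum_insert hx]
    exact (h x (mem_insert_self x S)).add (ih fun p hp => h p (mem_insert_of_mem hp))

lemma Sml.mul {A B : ℝ} (hA : |F U| ≤ A) (hB : |G U| ≤ B) (h : Sml lab U c a b F e)
    (h' : Sml lab U c a b G e') : Sml lab U c a b (fun U => F U * G U) (B * e + A * e') := by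
  obtain ⟨D, h1, h2⟩ := h
  obtain ⟨D', h1', h2'⟩ := h'
  refine ⟨fun i j => G U * D i j + F U * D' i j, fun i j => ?_, ?_⟩
  · refine ((h1 i j).mul (h1' i j)).congr_deriv ?_
    simp only [rotU_zero]; ring
  · rw [ctr_add, ctr_const_mul, ctr_const_mul]
    refine (abs_add_le _ _).trans (add_le_add ?_ ?_) <;> rw [abs_mul]
    · exact mul_le_mul hB h2 (abs_nonneg _) ((abs_nonneg _).trans hB)
    · exact mul_le_mul hA h2' (abs_nonneg _) ((abs_nonneg _).trans hA)

/-- a form costs `1 / N` -/
lemma sml_povc [NeZero N] (hU : Matrix.of U ∈ Matrix.orthogonalGroup (Fin N) ℝ) (hc : ∀ j, |c j| ≤ 1)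
    {d : Fin k → ℝ} {B : ℝ} (hB : 0 ≤ B) (hd : ∀ j, |d j| ≤ B) (σ τ : Fin N → Bool) :
    Sml lab U c a b (fun U => povc lab U d σ τ) (4 * B / N) := by
  have hN : (0:ℝ) < N := by exact_mod_cast NeZero.pos N
  set D : Fin N → Fin N → ℝ := fun i j =>
    1 / (N:ℝ) * (d (lab i) * cd U τ i * cd U σ j + d (lab i) * cd U σ i * cd U τ j -
      cd U σ i * (d (lab j) * cd U τ j) - cd U τ i * (d (lab j) * cd U σ j))
  refine ⟨D, fun i j => ?_, ?_⟩
  · simp only [povc_eq_sum]
    refine ((HasDerivAt.fun_sum (u := univ) fun m _ =>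
      ((hasDerivAt_cd i j U σ m).mul (hasDerivAt_cd i j U τ m)).const_mul (d (lab m))).div_const
        (N:ℝ)).congr_deriv ?_
    simp only [rotU_zero, D]
    simp only [sub_mul, mul_sub, mul_add, sum_add_distrib, sum_sub_distrib, ite_mul, mul_ite, zero_mul,
      mul_zero, Finset.sum_ite_eq', mem_univ, if_true]
    ring
  · simp only [D]
    rw [ctr_const_mul, ctr_sub, ctr_sub, ctr_add, ctr_prod, ctr_prod, ctr_prod, ctr_prod, abs_mul,
      abs_of_pos (one_div_pos.2 hN)]
    rw [one_div_mul_eq_div]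
    refine div_le_div_of_nonneg_right ?_ hN.le
    have hcd : ∀ j, |(d * c) j| ≤ B := fun j => by
      rw [Pi.mul_apply, abs_mul]
      exact (mul_le_mul (hd j) (hc j) (abs_nonneg _) hB).trans_eq (mul_one B)
    have e1 : ∀ σ, (∑ i, c (lab i) * cd U a i * (d (lab i) * cd U σ i)) / N = povc lab U (d * c) a σ := by
      intro σ; rw [povc_eq_sum]; congr 1; exact sum_congr rfl fun i _ => by simp only [Pi.mul_apply]; ring
    have e2 : ∀ σ, (∑ j, cd U b j * cd U σ j) / N = povc lab U 1 b σ := by
      intro σ; rw [povc_eq_sum]; congr 1; exact sum_congr rfl fun i _ => by simp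
    have e3 : ∀ σ, (∑ i, c (lab i) * cd U a i * cd U σ i) / N = povc lab U c a σ := by
      intro σ; rw [povc_eq_sum]; congr 1; exact sum_congr rfl fun i _ => by ring
    have e4 : ∀ σ, (∑ j, cd U b j * (d (lab j) * cd U σ j)) / N = povc lab U d b σ := by
      intro σ; rw [povc_eq_sum]; congr 1; exact sum_congr rfl fun i _ => by ring
    rw [e1, e1, e2, e2, e3, e3, e4, e4]
    have m1 : ∀ {x y X Y : ℝ}, |x| ≤ X → |y| ≤ Y → |x * y| ≤ X * Y := fun hx hy => by
      rw [abs_mul]; exact mul_le_mul hx hy (abs_nonneg _) ((abs_nonneg _).trans hx)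
    have h1 : ∀ σ, |povc lab U 1 b σ| ≤ 1 := abs_povc_le hU lab (fun j => by simp) b
    have p1 := m1 (abs_povc_le hU lab hcd a τ) (h1 σ)
    have p2 := m1 (abs_povc_le hU lab hcd a σ) (h1 τ)
    have p3 := m1 (abs_povc_le hU lab hc a σ) (abs_povc_le hU lab hd b τ)
    have p4 := m1 (abs_povc_le hU lab hc a τ) (abs_povc_le hU lab hd b σ)
    have := abs_le.1 p1; have := abs_le.1 p2; have := abs_le.1 p3; have := abs_le.1 p4
    rw [abs_le]
    constructor <;> linarith

/-! ### nested means -/

variable {Ω : Type} [Fintype Ω] [Nonempty Ω] {R : ℕ} {w : List Ω → ℝ}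

/-- averaging the means of the nodes of level `v` gives the mean -/
lemma ext_back (hw : ∀ p, 0 < w p) {s v : ℕ} (hv : s ≤ v) (hR : v ≤ R) {pre : List Ω}
    (hpre : pre.length = s) (G : List Ω → ℝ) :
    ext (lin R) w (R - s) pre (fun q => ext (lin R) w (R - v) (q.take v) G) =
      ext (lin R) w (R - s) pre G := by
  rw [ext_prefix hw hv hR hpre (fun q => ext (lin R) w (R - v) q G), ← tower' hv hR]

/-- the coefficient of an attached level -/
lemma lin_diff (hR : 1 ≤ R) {v : ℕ} (hv : v ≤ R) :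
    lin R v - lin R (v + 1) = if v = R then 1 else -(1 / (R:ℝ)) := by
  split_ifs with h
  · subst h; exact Vale.Agent.P157.Par.lin_sub_top hR
  · exact Vale.Agent.P157.Par.lin_sub (by omega)

omit [Nonempty Ω] in
/-- the derivative kernel, as a sum -/
lemma kerD_eq (g : List Ω → ℝ) {s : ℕ} (hs : s ≤ R) (q : List Ω) :
    kerD R (lin R) w g s (R - s) q = (∑ v ∈ Ico (s + 1) (R + 1), (lin R v - lin R (v + 1)) *
      ext (lin R) w (R - v) (q.take v) g) - lin R (s + 1) * ext (lin R) w (R - s) (q.take s) g := by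
  rw [kerD, sum_range', show s + 1 + (R - s) = R + 1 by omega]

/-- **the kernel sees a function only up to constants** -/
lemma kerD_mean_le (hw : ∀ p, 0 < w p) (hR : 1 ≤ R) {s : ℕ} (hs : s ≤ R) {pre : List Ω}
    (hpre : pre.length = s) (g : List Ω → ℝ) (t : ℝ) :
    ext (lin R) w (R - s) pre (fun q => |kerD R (lin R) w g s (R - s) q|) ≤
      2 * ext (lin R) w (R - s) pre (fun q => |g q - t|) := by
  have hR0 : (0:ℝ) < R := by exact_mod_cast hR
  have hl0 : 0 ≤ lin R (s + 1) := by simp only [lin]; split_ifs <;> positivity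
  have hsum : ∑ v ∈ Ico (s + 1) (R + 1), (lin R v - lin R (v + 1)) = lin R (s + 1) ∧
      ∑ v ∈ Ico (s + 1) (R + 1), |lin R v - lin R (v + 1)| + lin R (s + 1) ≤ 2 := by
    rcases Nat.eq_or_lt_of_le hs with h | h
    · subst h; simp [lin]
    have e1 : lin R (s + 1) = ((s:ℝ) + 1) / R := by simp [lin, show s + 1 ≤ R by omega]
    rw [sum_Ico_succ_top (by omega), sum_Ico_succ_top (by omega),
      sum_congr rfl fun v hv => by rw [lin_diff hR (mem_Ico.1 hv).2.le, if_neg (mem_Ico.1 hv).2.ne],
      sum_congr rfl (s₁ := Ico (s + 1) R) (f := fun v => |lin R v - lin R (v + 1)|) fun v hv => by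
        rw [lin_diff hR (mem_Ico.1 hv).2.le, if_neg (mem_Ico.1 hv).2.ne, abs_neg,
          abs_of_nonneg (by positivity)],
      lin_diff hR le_rfl, if_pos rfl, e1, sum_const, sum_const, Nat.card_Ico, nsmul_eq_mul, nsmul_eq_mul,
      Nat.cast_sub (show s + 1 ≤ R by omega), abs_one]
    push_cast
    constructor
    · field_simp; ring
    · refine le_of_eq ?_; field_simp; ring
  have hpt : ∀ q, |kerD R (lin R) w g s (R - s) q| ≤
      (∑ v ∈ Ico (s + 1) (R + 1), |lin R v - lin R (v + 1)| *
        ext (lin R) w (R - v) (q.take v) (fun x => |g x - t|)) +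
        lin R (s + 1) * ext (lin R) w (R - s) (q.take s) (fun x => |g x - t|) := fun q => by
    have e : kerD R (lin R) w g s (R - s) q = kerD R (lin R) w (fun x => g x - t) s (R - s) q := by
      simp only [kerD_eq _ hs, ext_sub, ext_const hw, mul_sub, sum_sub_distrib, ← sum_mul, hsum.1]
      ring
    rw [e, kerD_eq _ hs]
    refine (abs_sub _ _).trans (add_le_add ((abs_sum_le_sum_abs _ _).trans
      (sum_le_sum fun v _ => ?_)) ?_) <;> rw [abs_mul]
    · exact mul_le_mul_of_nonneg_left (ext_abs_le hw _ _ _) (abs_nonneg _)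
    · rw [abs_of_nonneg hl0]
      exact mul_le_mul_of_nonneg_left (ext_abs_le hw _ _ _) hl0
  refine (ext_mono hw hpt).trans ?_
  simp only [ext_add, ext_sum, ext_const_mul]
  rw [sum_congr rfl (fun v hv => by
      rw [ext_back hw (by have := mem_Ico.1 hv; omega) (by have := mem_Ico.1 hv; omega) hpre] :
      ∀ v ∈ Ico (s + 1) (R + 1), |lin R v - lin R (v + 1)| * ext (lin R) w (R - s) pre
        (fun q => ext (lin R) w (R - v) (q.take v) fun x => |g x - t|) =
      |lin R v - lin R (v + 1)| * ext (lin R) w (R - s) pre fun x => |g x - t|),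
    ext_back hw le_rfl hs hpre, ← sum_mul, ← add_mul]
  exact mul_le_mul_of_nonneg_right hsum.2 (ext_nonneg hw fun x => abs_nonneg _)

variable {w₀ : List Ω → ℝ} {rd : List Ω → Fin N → Bool}

omit [Fintype Ω] [Nonempty Ω] in
lemma wU_pos (h0 : ∀ p, 0 < w₀ p) (θ : Fin k → ℝ) (lab : Fin N → Fin k) (U : Mat N) (p : List Ω) :
    0 < wU θ lab U w₀ rd p := mul_pos (h0 p) (exp_pos _)

omit [Fintype Ω] [Nonempty Ω] in
/-- the rotation of the weight -/
lemma hasDerivAt_wU (θ : Fin k → ℝ) (lab : Fin N → Fin k) (U : Mat N) (i j : Fin N) (p : List Ω) :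
    HasDerivAt (fun t => wU θ lab (rotU i j t U) w₀ rd p)
      (wU θ lab (rotU i j 0 U) w₀ rd p * gij θ lab U (rd p) i j) 0 := by
  simp only [wU, wJ]
  refine ((((HasDerivAt.fun_sum (u := univ) fun m _ =>
    ((hasDerivAt_cd i j U (rd p) m).pow 2).const_mul (θ (lab m))).div_const 2).exp).const_mul
      (w₀ p)).congr_deriv ?_
  simp only [rotU_zero, gij, Pi.pow_apply, Nat.cast_ofNat, Nat.add_one_sub_one, pow_one, mul_sub, mul_ite, mul_zero,
    sum_sub_distrib, Finset.sum_ite_eq', mem_univ, if_true]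
  ring

/-- **a nested mean costs the deviation of `gC` from a constant** -/
theorem sml_ext (hR : 1 ≤ R) (h0 : ∀ p, 0 < w₀ p) (θ : Fin k → ℝ) (t : ℝ) {F : Mat N → List Ω → ℝ}
    {e : List Ω → ℝ} {B : ℝ} {s : ℕ} (hs : s ≤ R) {pre : List Ω} (hpre : pre.length = s)
    (hF : ∀ suf : List Ω, suf.length = R - s → Sml lab U c a b (fun U => F U (pre ++ suf)) (e (pre ++ suf)))
    (hB : ∀ q, |F U q| ≤ B) :
    Sml lab U c a b (fun V => ext (lin R) (wU θ lab V w₀ rd) (R - s) pre (F V))
      (ext (lin R) (wU θ lab U w₀ rd) (R - s) pre e +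
        2 * B * ext (lin R) (wU θ lab U w₀ rd) (R - s) pre fun q => |gC θ lab U c a b (rd q) - t|) := by
  classical
  set w := wU θ lab U w₀ rd
  have hw : ∀ p, 0 < w p := wU_pos h0 θ lab U
  have hex : ∀ q, ∃ D : Fin N → Fin N → ℝ, (∃ suf : List Ω, suf.length = R - s ∧ q = pre ++ suf) →
      (∀ i j, HasDerivAt (fun r => F (rotU i j r U) q) (D i j) 0) ∧ |ctr lab U c a b D| ≤ e q := fun q => by
    by_cases h : ∃ suf : List Ω, suf.length = R - s ∧ q = pre ++ suf
    · obtain ⟨suf, hsuf, rfl⟩ := h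
      obtain ⟨D, hD⟩ := hF suf hsuf
      exact ⟨D, fun _ => hD⟩
    · exact ⟨0, fun h' => absurd h' h⟩
  choose Dq hDq' using hex
  have hDq := fun (suf : List Ω) (hsuf : suf.length = R - s) => hDq' (pre ++ suf) ⟨suf, hsuf, rfl⟩
  set D : Fin N → Fin N → ℝ := fun i j => ext (lin R) w (R - s) pre (fun q => Dq q i j) +
    ext (lin R) w (R - s) pre fun q => F U q * kerD R (lin R) w (fun p => gij θ lab U (rd p) i j) s (R - s) q
  refine ⟨D, fun i j => ?_, ?_⟩
  · have h := hasDerivAt_ext (R := R) (m := lin R) (w := fun r => wU θ lab (rotU i j r U) w₀ rd) (s := (0:ℝ))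
      (g := fun p => gij θ lab U (rd p) i j) (ok_linW hR fun p => wU_pos h0 θ lab _ p)
      (fun p => hasDerivAt_wU θ lab U i j p) (F := fun r => F (rotU i j r U)) (F' := fun q => Dq q i j)
      (R - s) pre (by omega) fun suf hsuf => (hDq suf hsuf).1 i j
    simp only [rotU_zero, hpre] at h
    exact h
  simp only [D, ctr_add]
  refine (abs_add_le _ _).trans (add_le_add ?_ ?_)
  · have e1 : ctr lab U c a b (fun i j => ext (lin R) w (R - s) pre fun q => Dq q i j) =
        ext (lin R) w (R - s) pre fun q => ctr lab U c a b (Dq q) := by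
      simp only [ctr, ext_sum, ext_const_mul]
    rw [e1]
    exact (ext_abs_le hw _ _ _).trans (ext_mono_on hw fun suf hsuf => (hDq suf hsuf).2)
  · have e2 : ctr lab U c a b (fun i j => ext (lin R) w (R - s) pre fun q =>
          F U q * kerD R (lin R) w (fun p => gij θ lab U (rd p) i j) s (R - s) q) =
        ext (lin R) w (R - s) pre fun q =>
          F U q * kerD R (lin R) w (fun p => gC θ lab U c a b (rd p)) s (R - s) q := by
      have e3 : ∀ q, ctr lab U c a b (fun i j =>
          F U q * kerD R (lin R) w (fun p => gij θ lab U (rd p) i j) s (R - s) q) =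
          F U q * kerD R (lin R) w (fun p => gC θ lab U c a b (rd p)) s (R - s) q := fun q => by
        rw [ctr_const_mul]
        congr 1
        simp only [← ctr_gij, ctr, kerD_eq _ hs, ext_sum, ext_const_mul, mul_sub, sum_sub_distrib,
          mul_sum]
        congr 1
        · conv_rhs => rw [sum_comm]
          refine sum_congr rfl fun i _ => ?_
          rw [sum_comm]
          exact sum_congr rfl fun v _ => sum_congr rfl fun j _ => by ring
        · exact sum_congr rfl fun i _ => sum_congr rfl fun j _ => by ring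
      simp only [← e3]
      simp only [ctr, ext_sum, ext_const_mul]
    rw [e2]
    refine (ext_abs_le hw _ _ _).trans ((ext_mono hw (G := fun q =>
      B * |kerD R (lin R) w (fun p => gC θ lab U c a b (rd p)) s (R - s) q|) fun q => ?_).trans ?_)
    · rw [abs_mul]; exact mul_le_mul_of_nonneg_right (hB q) (abs_nonneg _)
    · rw [ext_const_mul, mul_comm 2 B, mul_assoc]
      exact mul_le_mul_of_nonneg_left
        (kerD_mean_le hw hR hs hpre _ t) ((abs_nonneg _).trans (hB pre))

end Vale.Agent.P166.Gen.SdE
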