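import Vale.Agent.P166.Gen.Atom

/-!
# P166 Gen G1: interfaces for the rotation identities (`StmtSd`)

A node is a prefix of length `l`. The row of a path at a node is the combination `rc` of its mean
forms with the replicas below the node. Two single path functions carry the identities: `resid`
(rows) and `diaI` (diagonal). The rotation makes their node means small in mean square; everything
after that is deterministic in the frame.
-/

open MeasureTheory ProbabilityTheory Filter Finset Real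
open scoped Topology
open Vale.Agent.P157.Par (Prof adev devOf ovK qlev)
open Vale.Agent.P168.MP (lin ET ext att)

noncomputable section

namespace Vale.Agent.P166.Gen

variable {k N : ℕ} {Ω : Type} [Fintype Ω]

/-- the form with coefficient `c j` on atom `j` -/
def povc (lab : Fin N → Fin k) (U : Mat N) (c : Fin k → ℝ) (σ τ : Fin N → Bool) : ℝ :=
  ∑ j, c j * pov lab U j σ τ

/-- the mean form of a path with a replica sharing its first `s` marks -/
def hB (R : ℕ) (lab : Fin N → Fin k) (U : Mat N) (W : List Ω → ℝ) (rd : List Ω → Fin N → Bool)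
    (c : Fin k → ℝ) (s : ℕ) (p : List Ω) : ℝ :=
  ext (lin R) W (R - s) (p.take s) fun q => povc lab U c (rd p) (rd q)

/-- the coefficients of a row at a node of level `l` -/
def rc (R l s : ℕ) : ℝ := if s = R then 1 else if s = l then -((l : ℝ) + 1) / R else -1 / R

/-- the coefficients of the levels on the diagonal -/
def kapR (R s : ℕ) : ℝ := if s = R then 1 else -1 / R

/-- the row of a path at the node of level `l` -/
def rho (R : ℕ) (lab : Fin N → Fin k) (U : Mat N) (W : List Ω → ℝ) (rd : List Ω → Fin N → Bool)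
    (c : Fin k → ℝ) (l : ℕ) (p : List Ω) : ℝ :=
  ∑ s ∈ Icc l R, rc R l s * hB R lab U W rd c s p

/-- the mean coefficient -/
def share (lab : Fin N → Fin k) (c : Fin k → ℝ) : ℝ := ∑ j, c j * freq lab j

/-- the indicator of an atom -/
def indA (j : Fin k) : Fin k → ℝ := fun i => if i = j then 1 else 0

/-- the row identity on one path -/
def resid (R : ℕ) (θ : Fin k → ℝ) (lab : Fin N → Fin k) (U : Mat N) (W : List Ω → ℝ)
    (rd : List Ω → Fin N → Bool) (c : Fin k → ℝ) (l : ℕ) (p : List Ω) : ℝ :=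
  rho R lab U W rd c l p - share lab c * rho R lab U W rd 1 l p +
    rho R lab U W rd c l p * rho R lab U W rd θ l p -
    rho R lab U W rd 1 l p * rho R lab U W rd (θ * c) l p

/-- the integrand of an attached replica -/
def pairT (θ : Fin k → ℝ) (lab : Fin N → Fin k) (U : Mat N) (c : Fin k → ℝ)
    (a x b : Fin N → Bool) : ℝ :=
  povc lab U c a x * povc lab U θ x b - povc lab U 1 x b * povc lab U (θ * c) x a

/-- the diagonal identity on one path, without the levels below `l` -/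
def diaI (R : ℕ) (θ : Fin k → ℝ) (lab : Fin N → Fin k) (U : Mat N) (W : List Ω → ℝ)
    (rd : List Ω → Fin N → Bool) (c : Fin k → ℝ) (l : ℕ) (p : List Ω) : ℝ :=
  povc lab U c (rd p) (rd p) - share lab c * povc lab U 1 (rd p) (rd p) +
    ∑ s ∈ Icc l R, kapR R s * ext (lin R) W (R - s) (p.take s)
      (fun q => pairT θ lab U c (rd p) (rd q) (rd p))

/-- the node mean of a path function -/
def nodeE (R : ℕ) (W : List Ω → ℝ) (l : ℕ) (z : List Ω → ℝ) (pre : List Ω) : ℝ :=
  ext (lin R) W (R - l) pre z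

/-- the mean square of the node means of a path function -/
def nodeSq (R : ℕ) (W : List Ω → ℝ) (l : ℕ) (z : List Ω → ℝ) : ℝ :=
  ET R (lin R) W [(0, 0)] fun ps => nodeE R W l z ((ps.getD 0 []).take l) ^ 2

/-- fourth root of the deviation of the overlap at level `l` -/
def devS (R : ℕ) (W : List Ω → ℝ) (rd : List Ω → Fin N → Bool) (l : ℕ) : ℝ :=
  √(√(devOf R W (ovK rd) (qlev R W rd) l))

/-- average over the levels -/
def devA (R : ℕ) (W : List Ω → ℝ) (rd : List Ω → Fin N → Bool) : ℝ :=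
  (∑ s ∈ range R, devS R W rd s) / R

/-- all attachments of the pair split at level `s`, weighted by a function `φ` of their node at
level `l` -/
def fullI (R : ℕ) (θ : Fin k → ℝ) (lab : Fin N → Fin k) (U : Mat N) (W : List Ω → ℝ)
    (rd : List Ω → Fin N → Bool) (c : Fin k → ℝ) (φ : List Ω → ℝ) (l s : ℕ) : ℝ :=
  ET R (lin R) W [(0, s), (0, 0)] (fun ps => φ ((ps.getD 0 []).take l) *
      (povc lab U c (rd (ps.getD 0 [])) (rd (ps.getD 1 [])) -
        share lab c * povc lab U 1 (rd (ps.getD 0 [])) (rd (ps.getD 1 [])))) +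
    ((att R (lin R) [(0, s), (0, 0)]).map fun a => a.2 *
      ET R (lin R) W (a.1 :: [(0, s), (0, 0)]) fun ps => φ ((ps.getD 0 []).take l) *
        pairT θ lab U c (rd (ps.getD 0 [])) (rd (ps.getD 2 [])) (rd (ps.getD 1 []))).sum

/-- fourth root of the variance of the overlap below a node -/
def devN (R : ℕ) (W : List Ω → ℝ) (rd : List Ω → Fin N → Bool) (l : ℕ) (pre : List Ω) : ℝ :=
  √(√(ext (lin R) W (R - l) pre fun p => ext (lin R) W (R - l) pre fun q =>
    (ovK rd p q - ext (lin R) W (R - l) pre fun p' => ext (lin R) W (R - l) pre fun q' =>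
      ovK rd p' q') ^ 2))

/-- below a node the form with any fixed configuration is almost constant -/
def StmtSdCov : Prop :=
  ∀ (k R N : ℕ) [NeZero N], 1 ≤ R → ∀ (lab : Fin N → Fin k) (U : Mat N),
    Matrix.of U ∈ Matrix.orthogonalGroup (Fin N) ℝ →
    ∀ {Ω : Type} [Fintype Ω] [Nonempty Ω] (W : List Ω → ℝ), (∀ p, 0 < W p) →
    ∀ (rd : List Ω → Fin N → Bool) (l : ℕ), l ≤ R →
    ET R (lin R) W [(0, 0)] (fun ps => devN R W rd l ((ps.getD 0 []).take l)) ≤ 2 * devS R W rd l ∧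
    ∀ (c : Fin k → ℝ), (∀ j, |c j| ≤ 1) → ∀ (σ : Fin N → Bool) (pre : List Ω), pre.length = l →
      nodeE R W l (fun q => |povc lab U c σ (rd q) -
        nodeE R W l (fun q' => povc lab U c σ (rd q')) pre|) pre ≤ devN R W rd l pre

/-- Haar invariance: with a node mean of `resid` or `diaI` as multiplier, every attachment sum
vanishes up to the deviation at the node and `1 / N` -/
def StmtSdEq : Prop :=
  ∀ (k : ℕ) (L : ℝ), ∃ C : ℝ, ∀ (R N : ℕ) [NeZero N], 1 ≤ R →
    ∀ (θ : Fin k → ℝ), (∀ j, |θ j| ≤ L) → ∀ (lab : Fin N → Fin k)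
      {Ω : Type} [Fintype Ω] [Nonempty Ω] (w₀ : List Ω → ℝ), (∀ p, 0 < w₀ p) →
    ∀ (rd : List Ω → Fin N → Bool) (ν : Measure (Mat N)), IsHaarOrthogonal ν →
    ∀ (c : Fin k → ℝ), (∀ j, |c j| ≤ 1) → ∀ l s, l < R → l ≤ s → s ≤ R →
    (|∫ U, fullI R θ lab U (wU θ lab U w₀ rd) rd c
        (nodeE R (wU θ lab U w₀ rd) l (resid R θ lab U (wU θ lab U w₀ rd) rd c l)) l s ∂ν| ≤
      C * (∫ U, devS R (wU θ lab U w₀ rd) rd l ∂ν + 1 / N)) ∧
    (|∫ U, fullI R θ lab U (wU θ lab U w₀ rd) rd c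
        (nodeE R (wU θ lab U w₀ rd) l (diaI R θ lab U (wU θ lab U w₀ rd) rd c l)) l s ∂ν| ≤
      C * (∫ U, devS R (wU θ lab U w₀ rd) rd l ∂ν + 1 / N))

/-- the attachment sums are the node means of `resid` and `diaI`, for any weight -/
def StmtSdAlg : Prop :=
  ∀ (k : ℕ) (L : ℝ), ∃ C : ℝ, ∀ (R N : ℕ) [NeZero N], 1 ≤ R →
    ∀ (θ : Fin k → ℝ), (∀ j, |θ j| ≤ L) → ∀ (lab : Fin N → Fin k) (U : Mat N),
    Matrix.of U ∈ Matrix.orthogonalGroup (Fin N) ℝ →
    ∀ {Ω : Type} [Fintype Ω] [Nonempty Ω] (W : List Ω → ℝ), (∀ p, 0 < W p) →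
    ∀ (rd : List Ω → Fin N → Bool) (c : Fin k → ℝ), (∀ j, |c j| ≤ 1) → ∀ l, l < R →
    ∀ (B : ℝ) (φ : List Ω → ℝ), (∀ pre, |φ pre| ≤ B) →
    (|∑ s ∈ Icc l R, rc R l s * fullI R θ lab U W rd c φ l s -
        ET R (lin R) W [(0, 0)] (fun ps => φ ((ps.getD 0 []).take l) *
          resid R θ lab U W rd c l (ps.getD 0 []))| ≤
      C * B * (devS R W rd l + devA R W rd)) ∧
    (|fullI R θ lab U W rd c φ l R -
        ET R (lin R) W [(0, 0)] (fun ps => φ ((ps.getD 0 []).take l) *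
          diaI R θ lab U W rd c l (ps.getD 0 []))| ≤ C * B * (l / R))

/-- the rows are stable -/
def StmtSdStable : Prop :=
  ∀ (k : ℕ) (w θ : Fin k → ℝ), Atoms w θ → ∃ C : ℝ, ∀ y : ℝ, 0 ≤ y → y ≤ 1 →
    ∀ u : Fin k → ℝ, (∀ j, 0 ≤ u j) → ∀ e : ℝ, |∑ j, u j - y| ≤ e →
    (∀ j, |u j * (1 + ∑ i, θ i * u i - θ j * y) - w j * y| ≤ e) →
    ∀ j, |u j - phiA w θ j y| ≤ C * e

/-- the shift of the diagonal is stable -/
def StmtSdShift : Prop :=
  ∀ (k : ℕ) (w θ : Fin k → ℝ), Atoms w θ → ∃ C : ℝ, ∀ y : ℝ, 0 ≤ y → y ≤ 1 →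
    ∀ (a : Fin k → ℝ) (e : ℝ), |∑ j, a j| ≤ e →
    (∀ j, |a j * pA w θ j y + phiA w θ j y * ∑ i, θ i * a i| ≤ e) →
    ∀ j, |a j| ≤ C * e

/-- the size of the identities at one frame: concentration, rows, and the diagonal on the first `n`
levels -/
def sdErr (R n : ℕ) (θ : Fin k → ℝ) (lab : Fin N → Fin k) (U : Mat N) (W : List Ω → ℝ)
    (rd : List Ω → Fin N → Bool) : ℝ :=
  adev R W (ovK rd) (qlev R W rd) + madJ R lab U W rd +
    (∑ l ∈ range R, ∑ j, √(nodeSq R W l (resid R θ lab U W rd (indA j) l))) / R +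
    (∑ l ∈ range n, (devS R W rd l +
      ∑ j, √(nodeSq R W l (diaI R θ lab U W rd (indA j) l)))) / n

/-- at one frame the identities determine the projected overlaps -/
def StmtSdSolve : Prop :=
  ∀ (k : ℕ) (w θ : Fin k → ℝ), Atoms w θ → ∀ ε : ℝ, 0 < ε → ∃ δ : ℝ, 0 < δ ∧
    ∀ (R N : ℕ) [NeZero N], 1 ≤ R → ∀ (θ' : Fin k → ℝ) (lab : Fin N → Fin k),
      (∀ j, |θ' j - θ j| ≤ δ) → (∀ j, |freq lab j - w j| ≤ δ) →
    ∀ (U : Mat N), Matrix.of U ∈ Matrix.orthogonalGroup (Fin N) ℝ →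
    ∀ {Ω : Type} [Fintype Ω] [Nonempty Ω] (W : List Ω → ℝ), (∀ p, 0 < W p) →
    ∀ (rd : List Ω → Fin N → Bool) (n : ℕ), 1 ≤ n → n ≤ R → (n : ℝ) ≤ δ * R + 1 →
      sdErr R n θ' lab U W rd ≤ δ →
      ∑ j, adev R W (fun p p' => pov lab U j (rd p) (rd p'))
        (levP w θ j R (qlev R W rd)) ≤ ε

end Vale.Agent.P166.Gen
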