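import Vale.Agent.P166.Gen.SdCost
import Vale.Agent.P166.Gen.SdBasic
import Vale.Agent.P166.Gen.SdAlg

/-!
# P166 G1: Haar invariance of the attachment sums

Along the rotations of all pairs of coordinates, contracted with `c (lab i) * a i * b j / N²`, the
mean over a pair of replicas changes by the attachment sum `fullI`, up to the cost of the multiplier.
For a node mean of `resid` or `diaI` that cost is the deviation of the forms below the node and `1 / N`.
-/

open MeasureTheory Filter Finset Real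
open Vale.Agent.P157.Par (ok_linW)
open Vale.Agent.P168.MP (lin ext ET att Valid Supp att_valid hasDerivAt_ET ext_abs_le ext_mono ext_congr ext_const
  ext_sum ext_const_mul ext_mul_const ext_add ext_sub ext_bound ext_nonneg ET_congr ET_sum ET_const_mul ET_add
  ET_sub ET_abs_le ET_mono_on ET_const ET_dropLast ET_single)

noncomputable section

namespace Vale.Agent.P166.Gen
namespace SdE

variable {k N R : ℕ} {Ω : Type} [Fintype Ω]

/-! ### smoothness in the frame -/

lemma contDiff_povc (lab : Fin N → Fin k) (c : Fin k → ℝ) (σ τ : Fin N → Bool) :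
    ContDiff ℝ 1 fun U : Mat N => povc lab U c σ τ := by
  simp only [povc_eq_sum]
  exact (ContDiff.sum fun i _ => contDiff_const.mul ((contDiff_cd σ i).mul (contDiff_cd τ i))).div_const _

lemma contDiff_pairT (θ : Fin k → ℝ) (lab : Fin N → Fin k) (c : Fin k → ℝ) (a x b : Fin N → Bool) :
    ContDiff ℝ 1 fun U : Mat N => pairT θ lab U c a x b := by
  unfold pairT
  exact ((contDiff_povc lab c a x).mul (contDiff_povc lab θ x b)).sub
    ((contDiff_povc lab 1 x b).mul (contDiff_povc lab _ x a))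

variable {θ c : Fin k → ℝ} {lab : Fin N → Fin k} {w₀ : List Ω → ℝ} {rd : List Ω → Fin N → Bool}

omit [Fintype Ω] in
lemma contDiff_wU (p : List Ω) : ContDiff ℝ 1 fun U : Mat N => wU θ lab U w₀ rd p := by
  unfold wU wJ
  exact contDiff_const.mul
    ((ContDiff.sum fun i _ => contDiff_const.mul ((contDiff_cd _ i).pow 2)).div_const _).exp

section smooth
variable [Nonempty Ω] (h0 : ∀ p, 0 < w₀ p)
include h0

lemma contDiff_rho (c : Fin k → ℝ) (l : ℕ) (p : List Ω) :
    ContDiff ℝ 1 fun U : Mat N => rho R lab U (wU θ lab U w₀ rd) rd c l p := by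
  unfold rho hB
  exact ContDiff.sum fun s _ => contDiff_const.mul
    (contDiff_ext (fun U => wU_pos h0 θ lab U) contDiff_wU _ _ fun q => contDiff_povc _ _ _ _)

lemma contDiff_resid (c : Fin k → ℝ) (l : ℕ) (p : List Ω) :
    ContDiff ℝ 1 fun U : Mat N => resid R θ lab U (wU θ lab U w₀ rd) rd c l p := by
  unfold resid
  exact (((contDiff_rho h0 c l p).sub (contDiff_const.mul (contDiff_rho h0 1 l p))).add
    ((contDiff_rho h0 c l p).mul (contDiff_rho h0 θ l p))).sub
      ((contDiff_rho h0 1 l p).mul (contDiff_rho h0 _ l p))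

lemma contDiff_diaI (c : Fin k → ℝ) (l : ℕ) (p : List Ω) :
    ContDiff ℝ 1 fun U : Mat N => diaI R θ lab U (wU θ lab U w₀ rd) rd c l p := by
  unfold diaI
  exact ((contDiff_povc _ _ _ _).sub (contDiff_const.mul (contDiff_povc _ _ _ _))).add
    (ContDiff.sum fun s _ => contDiff_const.mul
      (contDiff_ext (fun U => wU_pos h0 θ lab U) contDiff_wU _ _ fun q => contDiff_pairT _ _ _ _ _ _))

end smooth

lemma sum_list_sum {ι α : Type*} (S : Finset ι) (L : List α) (f : ι → α → ℝ) :
    ∑ i ∈ S, (L.map (f i)).sum = (L.map fun x => ∑ i ∈ S, f i x).sum := by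
  induction L with
  | nil => simp
  | cons x L ih => simp only [List.map_cons, List.sum_cons, sum_add_distrib, ih]

omit [Fintype Ω] in
lemma supp_getLast {T : List (ℕ × ℕ)} {x : ℕ × ℕ} {y z : ℕ × ℕ} (hT : T = [y, z]) {ps : List (List Ω)}
    (hs : Supp R (x :: T) ps) :
    ps.dropLast.getD 0 [] = ps.getD 0 [] ∧ ps.dropLast.getD 1 [] = ps.getD 1 [] ∧
      ps.getLastD [] = ps.getD 2 [] := by
  subst hT
  obtain ⟨hl, -, -⟩ := hs
  match ps, hl with
  | [p0, p1, p2], _ => simp

variable [Nonempty Ω]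

/-- **Haar invariance**: an attachment sum is at most the cost of its multiplier -/
theorem fullI_int_le [NeZero N] (hR : 1 ≤ R) (h0 : ∀ p, 0 < w₀ p) {ν : Measure (Mat N)}
    (hν : IsHaarOrthogonal ν) {l s : ℕ} (hl : l ≤ R) (hs : s ≤ R) (hcov : StmtSdCov)
    {φ : Mat N → List Ω → ℝ} (hφ : ∀ pre, ContDiff ℝ 1 fun U => φ U pre) {K : ℝ} (hK : 0 ≤ K)
    (hcost : ∀ U, Matrix.of U ∈ Matrix.orthogonalGroup (Fin N) ℝ → ∀ pre : List Ω, pre.length = l →
      ∀ a b : Fin N → Bool, Sml lab U c a b (fun V => φ V pre)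
        (K * (devN R (wU θ lab U w₀ rd) rd l pre + 1 / N))) :
    |∫ U, fullI R θ lab U (wU θ lab U w₀ rd) rd c (φ U) l s ∂ν| ≤
      2 * K * (∫ U, devS R (wU θ lab U w₀ rd) rd l ∂ν + 1 / N) := by
  have := hν.1
  have hN : (N:ℝ) ≠ 0 := Nat.cast_ne_zero.2 (NeZero.ne N)
  set T : List (ℕ × ℕ) := [(0, s), (0, 0)]
  have hT : Valid R T := ⟨by simp, hs, rfl, rfl⟩
  set W := fun U : Mat N => wU θ lab U w₀ rd
  have hW : ∀ U p, 0 < W U p := fun U => wU_pos h0 θ lab U
  set κ := fun i : Fin N => c (lab i) / (N:ℝ) ^ 2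
  set F := fun (i j : Fin N) (U : Mat N) (ps : List (List Ω)) => φ U ((ps.getD 0 []).take l) *
    (cd U (rd (ps.getD 0 [])) i * cd U (rd (ps.getD 1 [])) j)
  set dφ := fun (U : Mat N) (pre : List Ω) (i j : Fin N) => deriv (fun t => φ (rotU i j t U) pre) 0
  set F' := fun (i j : Fin N) (U : Mat N) (ps : List (List Ω)) =>
    dφ U ((ps.getD 0 []).take l) i j * (cd U (rd (ps.getD 0 [])) i * cd U (rd (ps.getD 1 [])) j) +
      φ U ((ps.getD 0 []).take l) * (cd U (rd (ps.getD 0 [])) j * cd U (rd (ps.getD 1 [])) j -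
        cd U (rd (ps.getD 0 [])) i * cd U (rd (ps.getD 1 [])) i)
  set D := fun (i j : Fin N) (U : Mat N) => κ i *
    (((att R (lin R) T).map fun x => x.2 * ET R (lin R) (W U) (x.1 :: T)
      fun ps => F i j U ps.dropLast * gij θ lab U (rd (ps.getLastD [])) i j).sum +
      ET R (lin R) (W U) T (F' i j U))
  have hrot : ∀ (i j : Fin N) (U : Mat N), Differentiable ℝ fun t => rotU i j t U := fun i j U => by
    refine differentiable_pi.2 fun a => differentiable_pi.2 fun x => ?_
    simp only [rotU, rotM_row]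
    split_ifs <;> fun_prop
  have hdφ : ∀ (i j : Fin N) (U : Mat N) pre, HasDerivAt (fun t => φ (rotU i j t U) pre) (dφ U pre i j) 0 :=
    fun i j U pre => ((((hφ pre).differentiable one_ne_zero).comp (hrot i j U)) 0).hasDerivAt
  have hzero : ∀ i j, Integrable (D i j) ν ∧ ∫ U, D i j U ∂ν = 0 := fun i j => by
    refine haar_deriv_zero (Ψ := fun U => κ i * ET R (lin R) (W U) T (F i j U))
      (contDiff_const.mul (contDiff_ET hW (fun p => contDiff_wU p) T fun ps =>
        (hφ _).mul ((contDiff_cd _ i).mul (contDiff_cd _ j)))) hν i j fun U _ => ?_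
    have h := hasDerivAt_ET (R := R) (m := lin R) (w := fun t => W (rotU i j t U)) (s := (0:ℝ))
      (g := fun p => gij θ lab U (rd p) i j) (ok_linW hR fun p => hW _ p)
      (fun p => hasDerivAt_wU θ lab U i j p) hT (F := fun t => F i j (rotU i j t U)) (F' := F' i j U)
      fun ps _ => by
        refine ((hdφ i j U _).mul ((hasDerivAt_cd i j U _ i).mul (hasDerivAt_cd i j U _ j))).congr_deriv ?_
        simp only [F', rotU_zero]
        by_cases h : i = j
        · subst h; simp [rotU_zero]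
        · simp only [if_true, if_neg h, if_neg (Ne.symm h), Pi.mul_apply, rotU_zero, sub_zero, zero_sub]; ring
    simp only [rotU_zero] at h
    exact h.const_mul (κ i)
  set G := fun U => fullI R θ lab U (W U) rd c (φ U) l s + ∑ i, ∑ j, D i j U
  have hintD : Integrable (fun U => ∑ i, ∑ j, D i j U) ν :=
    integrable_finsetSum _ fun i _ => integrable_finsetSum _ fun j _ => (hzero i j).1
  have hintI : Integrable (fun U => fullI R θ lab U (W U) rd c (φ U) l s) ν :=
    integrable_haar hν (Sd.cont_fullI h0 c (fun q => (hφ q).continuous) l s)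
  have hG : ∫ U, fullI R θ lab U (W U) rd c (φ U) l s ∂ν = ∫ U, G U ∂ν := by
    rw [integral_add hintI hintD, integral_finsetSum _ fun i _ => integrable_finsetSum _ fun j _ => (hzero i j).1]
    simp [integral_finsetSum _ fun j (_ : j ∈ (univ : Finset (Fin N))) => (hzero _ j).1, (hzero _ _).2]
  have hGU : ∀ U, Matrix.of U ∈ Matrix.orthogonalGroup (Fin N) ℝ →
      |G U| ≤ 2 * K * (devS R (W U) rd l + 1 / N) := fun U hU => by
    have eD : ∑ i, ∑ j, D i j U =
        ET R (lin R) (W U) T (fun ps => ctr lab U c (rd (ps.getD 0 [])) (rd (ps.getD 1 []))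
          (dφ U ((ps.getD 0 []).take l))) - fullI R θ lab U (W U) rd c (φ U) l s := by
      simp only [D, mul_add, sum_add_distrib]
      have e1 : ∑ i, ∑ j, κ i * ((att R (lin R) T).map fun x => x.2 * ET R (lin R) (W U) (x.1 :: T)
            fun ps => F i j U ps.dropLast * gij θ lab U (rd (ps.getLastD [])) i j).sum =
          -((att R (lin R) T).map fun x => x.2 * ET R (lin R) (W U) (x.1 :: T) fun ps =>
            φ U ((ps.getD 0 []).take l) *
              pairT θ lab U c (rd (ps.getD 0 [])) (rd (ps.getD 2 [])) (rd (ps.getD 1 []))).sum := by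
        simp only [← List.sum_map_mul_left, sum_list_sum, ← neg_one_mul (List.sum _)]
        refine congrArg List.sum (List.map_congr_left fun x hx => ?_)
        simp only [← mul_assoc, mul_comm (κ _) x.2, mul_comm (-1 : ℝ) x.2]
        simp only [mul_assoc, ← mul_sum, ← ET_const_mul, ← ET_sum]
        refine ET_congr (att_valid hT hx) fun ps hps => ?_
        obtain ⟨g0, g1, g2⟩ := supp_getLast rfl hps
        simp only [F, g0, g1, g2]
        rw [mul_left_comm (-1 : ℝ), ← show gC θ lab U c (rd (ps.getD 0 [])) (rd (ps.getD 1 [])) (rd (ps.getD 2 [])) =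
          -1 * pairT θ lab U c (rd (ps.getD 0 [])) (rd (ps.getD 2 [])) (rd (ps.getD 1 [])) by simp [gC],
          ← ctr_gij]
        simp only [ctr, mul_sum, κ]
        exact sum_congr rfl fun i _ => sum_congr rfl fun j _ => by ring
      have e2 : ∑ i, ∑ j, κ i * ET R (lin R) (W U) T (F' i j U) =
          ET R (lin R) (W U) T (fun ps => ctr lab U c (rd (ps.getD 0 [])) (rd (ps.getD 1 []))
            (dφ U ((ps.getD 0 []).take l))) -
          ET R (lin R) (W U) T (fun ps => φ U ((ps.getD 0 []).take l) *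
            (povc lab U c (rd (ps.getD 0 [])) (rd (ps.getD 1 [])) -
              share lab c * povc lab U 1 (rd (ps.getD 0 [])) (rd (ps.getD 1 [])))) := by
        simp only [← ET_const_mul, ← ET_sum, ← ET_sub]
        refine congrArg _ (funext fun ps => ?_)
        have es : share lab c = (∑ i, c (lab i)) / N := by
          simp only [share, freq, mul_div_assoc', ← sum_div]
          congr 1
          rw [← sum_fiberwise univ lab fun i => c (lab i)]
          refine sum_congr rfl fun j _ => ?_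
          rw [sum_congr rfl fun i hi => by rw [(mem_filter.1 hi).2], sum_const, nsmul_eq_mul, mul_comm]
        simp only [F', ctr, κ, povc_eq_sum, es, Pi.one_apply, one_mul]
        simp only [mul_add, sum_add_distrib, mul_sub, sum_sub_distrib]
        set a := rd (ps.getD 0 [])
        set b := rd (ps.getD 1 [])
        have ea : ∀ x : Fin N → ℝ, ∀ p : ℝ, ∑ i, ∑ j, c (lab i) / (N:ℝ) ^ 2 * (p * x j) =
            p * ((∑ i, c (lab i)) / N * ((∑ j, x j) / N)) := fun x p => by
          rw [div_mul_div_comm, sum_mul_sum, sum_div, mul_sum]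
          refine sum_congr rfl fun i _ => ?_
          rw [sum_div, mul_sum]
          exact sum_congr rfl fun j _ => by ring
        rw [ea fun j => cd U a j * cd U b j]
        simp only [sum_const, card_univ, Fintype.card_fin, nsmul_eq_mul]
        have eb : ∀ i, (N:ℝ) * (c (lab i) / (N:ℝ) ^ 2 * (φ U ((ps.getD 0 []).take l) * (cd U a i * cd U b i))) =
            φ U ((ps.getD 0 []).take l) * (c (lab i) * (cd U a i * cd U b i) / N) := fun i => by
          field_simp
        rw [sum_congr rfl fun i _ => eb i, ← mul_sum, ← sum_div]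
        have ec : ∀ i j, c (lab i) / (N:ℝ) ^ 2 *
            (dφ U ((ps.getD 0 []).take l) i j * (cd U a i * cd U b j)) =
            c (lab i) * cd U a i * cd U b j / (N:ℝ) ^ 2 * dφ U ((ps.getD 0 []).take l) i j := fun i j => by ring
        rw [sum_congr rfl fun i _ => sum_congr rfl fun j _ => ec i j]
        ring
      rw [e1, e2, fullI]
      ring
    show |_ + _| ≤ _
    rw [eD, add_sub_cancel]
    obtain ⟨hdev, -⟩ := hcov k R N hR lab U hU (W U) (hW U) rd l hl
    refine (ET_abs_le (hW U) _ _).trans ?_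
    refine le_trans (ET_mono_on (hW U) hT (G := fun ps => K * devN R (W U) rd l ((ps.getD 0 []).take l) + K * (1 / N))
      fun ps hps => ?_) ?_
    · obtain ⟨hl2, hlen, -⟩ := hps
      obtain ⟨D0, h1, h2⟩ := hcost U hU ((ps.getD 0 []).take l) (by
        rw [List.length_take, hlen 0 (by simp [T]), min_eq_left hl]) (rd (ps.getD 0 [])) (rd (ps.getD 1 []))
      rw [show dφ U ((ps.getD 0 []).take l) = D0 from funext fun i => funext fun j => (h1 i j).deriv,
        ← mul_add]
      exact h2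
    · rw [ET_add, ET_const (hW U), ET_const_mul]
      have e : ET R (lin R) (W U) T (fun ps => devN R (W U) rd l ((ps.getD 0 []).take l)) =
          ET R (lin R) (W U) [(0, 0)] fun ps => devN R (W U) rd l ((ps.getD 0 []).take l) := by
        rw [SdAlg.ET_pair, ET_single]
        simp only [List.getD_cons_zero, ext_const (hW U), SdAlg.E1]
      rw [e]
      have hd : 0 ≤ (1:ℝ) / N := by positivity
      nlinarith [mul_le_mul_of_nonneg_left hdev hK, mul_nonneg hK hd]
  rw [hG]
  have hds : Integrable (fun U => devS R (W U) rd l) ν := integrable_haar hν (Sd.cont_devS h0 l)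
  refine (abs_integral_le_integral_abs (f := G)).trans ((integral_mono_ae (hintI.add hintD).abs
    ((hds.add (integrable_const (1 / (N:ℝ)))).const_mul (2 * K)) (hν.2.1.mono fun U hU => hGU U hU)).trans_eq ?_)
  simp only [Pi.add_apply]
  rw [integral_const_mul, integral_add hds (integrable_const _)]
  simp [W]

/-! ### the cost of the two multipliers -/

section cost
variable [NeZero N] {U : Mat N} {L : ℝ} {a b : Fin N → Bool}

/-- the deviation of the contraction from a constant below a node -/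
lemma dev_gC (hU : Matrix.of U ∈ Matrix.orthogonalGroup (Fin N) ℝ) {W : List Ω → ℝ} (hW : ∀ p, 0 < W p)
    {l : ℕ} {pre : List Ω} {dN : ℝ}
    (hcov : ∀ (d : Fin k → ℝ), (∀ j, |d j| ≤ 1) → ∀ σ,
      ext (lin R) W (R - l) pre (fun q => |povc lab U d σ (rd q) -
        ext (lin R) W (R - l) pre fun q' => povc lab U d σ (rd q')|) ≤ dN)
    (hL : 1 ≤ L) (hθ : ∀ j, |θ j| ≤ L) (hc : ∀ j, |c j| ≤ 1) :
    ∃ t, ext (lin R) W (R - l) pre (fun q => |gC θ lab U c a b (rd q) - t|) ≤ 4 * L * dN := by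
  have hL0 : (0:ℝ) < L := by linarith
  have hθc : ∀ j, |(θ * c) j| ≤ L := fun j => by
    rw [Pi.mul_apply, abs_mul]; simpa using mul_le_mul (hθ j) (hc j) (abs_nonneg _) hL0.le
  set E := ext (lin R) W (R - l) pre
  have scal : ∀ (d : Fin k → ℝ), (∀ j, |d j| ≤ L) → ∀ σ,
      E (fun q => |povc lab U d σ (rd q) - E fun q' => povc lab U d σ (rd q')|) ≤ L * dN := fun d hd σ => by
    have h := hcov (L⁻¹ • d) (fun j => by
      rw [Pi.smul_apply, smul_eq_mul, abs_mul, abs_of_pos (inv_pos.2 hL0), inv_mul_le_one₀ hL0]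
      exact hd j) σ
    simp only [E, povc_smul, ext_const_mul, ← mul_sub, abs_mul, abs_of_pos (inv_pos.2 hL0)] at h
    exact (inv_mul_le_iff₀ hL0).1 h
  set m1 := E fun q => povc lab U c a (rd q)
  set m2 := E fun q => povc lab U θ b (rd q)
  set m3 := E fun q => povc lab U 1 b (rd q)
  set m4 := E fun q => povc lab U (θ * c) a (rd q)
  refine ⟨-(m1 * m2 - m3 * m4), ?_⟩
  have hb : ∀ {d : Fin k → ℝ} {B : ℝ}, (∀ j, |d j| ≤ B) → ∀ σ, |E fun q => povc lab U d σ (rd q)| ≤ B :=
    fun hd σ => ext_bound hW fun q => abs_povc_le hU lab hd _ _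
  refine le_trans (ext_mono hW (G := fun q =>
    L * |povc lab U c a (rd q) - m1| + 1 * |povc lab U θ b (rd q) - m2| +
      (L * |povc lab U 1 b (rd q) - m3| + 1 * |povc lab U (θ * c) a (rd q) - m4|)) fun q => ?_) ?_
  · rw [gC, pairT, povc_comm lab U θ (rd q) b, povc_comm lab U 1 (rd q) b, povc_comm lab U (θ * c) (rd q) a]
    have key : ∀ {x y u v A B : ℝ}, |y| ≤ A → |u| ≤ B → |x * y - u * v| ≤ A * |x - u| + B * |y - v| :=
      fun {x y u v A B} hy hu => by
        rw [show x * y - u * v = y * (x - u) + u * (y - v) by ring]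
        refine (abs_add_le _ _).trans (add_le_add ?_ ?_) <;> rw [abs_mul] <;>
          exact mul_le_mul_of_nonneg_right (by assumption) (abs_nonneg _)
    rw [neg_sub_neg, abs_sub_comm, sub_sub_sub_comm]
    refine (abs_sub _ _).trans (add_le_add ?_ ?_)
    · exact key (abs_povc_le hU lab hθ _ _) (hb hc a)
    · exact key (abs_povc_le hU lab hθc _ _) (hb (B := 1) (fun j => by simp) b)
  · simp only [ext_add, ext_const_mul]
    have h1 := hcov c hc a
    have h2 := scal θ hθ b
    have h3 := hcov 1 (fun j => by simp) b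
    have h4 := scal (θ * c) hθc a
    nlinarith [mul_le_mul_of_nonneg_left h1 hL0.le, mul_le_mul_of_nonneg_left h3 hL0.le]

/-- a nested mean of a form, seen from a deeper replica -/
lemma sml_hB (hR : 1 ≤ R) (h0 : ∀ p, 0 < w₀ p) (hU : Matrix.of U ∈ Matrix.orthogonalGroup (Fin N) ℝ)
    (hc : ∀ j, |c j| ≤ 1) (t : ℝ) {d : Fin k → ℝ} {B : ℝ} (hd : ∀ j, |d j| ≤ B) (hB0 : 0 ≤ B) {s : ℕ}
    (hs : s ≤ R) {q : List Ω} (hq : q.length = R) :
    Sml lab U c a b (fun V => hB R lab V (wU θ lab V w₀ rd) rd d s q)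
      (4 * B / N + 2 * B * ext (lin R) (wU θ lab U w₀ rd) (R - s) (q.take s)
        fun x => |gC θ lab U c a b (rd x) - t|) := by
  have h := sml_ext (U := U) (c := c) (a := a) (b := b) (lab := lab) (rd := rd) hR h0 θ t
    (F := fun V x => povc lab V d (rd q) (rd x)) (e := fun _ => 4 * B / N) (B := B) hs
    (pre := q.take s) (by rw [List.length_take, hq, min_eq_left hs])
    (fun suf _ => sml_povc hU hc hB0 hd _ _) fun x => abs_povc_le hU lab hd _ _
  rw [ext_const (wU_pos h0 θ lab U)] at h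
  exact h

/-- the cost of a node mean, from the cost on one path -/
lemma sml_node (hR : 1 ≤ R) (h0 : ∀ p, 0 < w₀ p) (hU : Matrix.of U ∈ Matrix.orthogonalGroup (Fin N) ℝ)
    (hcov : StmtSdCov) (hL : 1 ≤ L) (hθ : ∀ j, |θ j| ≤ L) (hc : ∀ j, |c j| ≤ 1) {l : ℕ} (hl : l ≤ R)
    {pre : List Ω} (hpre : pre.length = l) {z : Mat N → List Ω → ℝ} {Bz α β γ : ℝ} {κ : ℕ → ℝ}
    (hz : ∀ q, |z U q| ≤ Bz) (hα : 0 ≤ α) (hβ : 0 ≤ β) (hκ : ∑ s ∈ Icc l R, |κ s| ≤ γ)
    (hcost : ∀ t q, q.length = R → Sml lab U c a b (fun V => z V q) (α / N + β * ∑ s ∈ Icc l R, |κ s| *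
      ext (lin R) (wU θ lab U w₀ rd) (R - s) (q.take s) fun x => |gC θ lab U c a b (rd x) - t|)) :
    Sml lab U c a b (fun V => nodeE R (wU θ lab V w₀ rd) l (z V) pre)
      ((α + (β * γ + 2 * Bz) * (4 * L)) * (devN R (wU θ lab U w₀ rd) rd l pre + 1 / N)) := by
  set W := wU θ lab U w₀ rd
  have hW : ∀ p, 0 < W p := wU_pos h0 θ lab U
  obtain ⟨-, hcov'⟩ := hcov k R N hR lab U hU W hW rd l hl
  obtain ⟨t, ht⟩ := dev_gC (a := a) (b := b) (θ := θ) (c := c) hU hW
    (fun d hd σ => hcov' d hd σ pre hpre) hL hθ hc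
  set V0 := ext (lin R) W (R - l) pre fun x => |gC θ lab U c a b (rd x) - t| with hV0
  have hV : 0 ≤ V0 := ext_nonneg hW fun x => abs_nonneg _
  have hBz : 0 ≤ Bz := (abs_nonneg _).trans (hz [])
  have hγ : 0 ≤ γ := (sum_nonneg fun s _ => abs_nonneg _).trans hκ
  have hN : 0 ≤ (1:ℝ) / N := by positivity
  have hdN : 0 ≤ devN R W rd l pre := Real.sqrt_nonneg _
  refine (sml_ext hR h0 θ t (e := fun q => α / N + β * ∑ s ∈ Icc l R, |κ s| *
    ext (lin R) W (R - s) (q.take s) fun x => |gC θ lab U c a b (rd x) - t|) hl hpre (fun suf hsuf => hcost t (pre ++ suf) (by simp; omega)) hz).mono ?_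
  rw [← hV0, ext_add, ext_const hW, ext_const_mul, ext_sum,
    sum_congr rfl fun s hs => by rw [ext_const_mul, ext_back hW (mem_Icc.1 hs).1 (mem_Icc.1 hs).2 hpre],
    ← sum_mul, ← hV0]
  have h1 : β * ((∑ s ∈ Icc l R, |κ s|) * V0) ≤ β * γ * V0 := by
    rw [mul_assoc]; exact mul_le_mul_of_nonneg_left (mul_le_mul_of_nonneg_right hκ hV) hβ
  have h2 : (β * γ + 2 * Bz) * V0 ≤ (β * γ + 2 * Bz) * (4 * L * devN R W rd l pre) :=
    mul_le_mul_of_nonneg_left ht (by positivity)
  have h3 : 0 ≤ (β * γ + 2 * Bz) * (4 * L) := by positivity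
  rw [div_eq_mul_one_div α]
  nlinarith [mul_nonneg hα hdN, mul_nonneg h3 hN]

/-- the cost of the row identity on one path -/
lemma sml_resid (hR : 1 ≤ R) (h0 : ∀ p, 0 < w₀ p) (hU : Matrix.of U ∈ Matrix.orthogonalGroup (Fin N) ℝ)
    (hL : 1 ≤ L) (hθ : ∀ j, |θ j| ≤ L) (hc : ∀ j, |c j| ≤ 1) {l : ℕ} (hl : l < R) :
    (∀ q, |resid R θ lab U (wU θ lab U w₀ rd) rd c l q| ≤ 24 * L ^ 2) ∧
    ∀ t q, q.length = R → Sml lab U c a b (fun V => resid R θ lab V (wU θ lab V w₀ rd) rd c l q)
      (14 * L * (12 * L) / N + 14 * L * (2 * L) * ∑ s ∈ Icc l R, |rc R l s| *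
        ext (lin R) (wU θ lab U w₀ rd) (R - s) (q.take s) fun x => |gC θ lab U c a b (rd x) - t|) := by
  have hL0 : (0:ℝ) ≤ L := by linarith
  have h1 : ∀ j, |(1 : Fin k → ℝ) j| ≤ L := fun j => by simp [hL]
  have hθc : ∀ j, |(θ * c) j| ≤ L := fun j => by
    rw [Pi.mul_apply, abs_mul]; simpa using mul_le_mul (hθ j) (hc j) (abs_nonneg _) hL0
  have hcL : ∀ j, |c j| ≤ L := fun j => (hc j).trans hL
  have hsh : |share lab c| ≤ 1 := Sd.abs_share_le hc
  have hr : ∀ d, (∀ j, |d j| ≤ L) → ∀ q, |rho R lab U (wU θ lab U w₀ rd) rd d l q| ≤ 3 * L := fun d hd q => by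
    refine (abs_sum_le_sum_abs _ _).trans ((sum_le_sum (g := fun s => |rc R l s| * L) fun s _ => ?_).trans ?_)
    · rw [abs_mul]
      exact mul_le_mul_of_nonneg_left (ext_bound (wU_pos h0 θ lab U) fun x => abs_povc_le hU lab hd _ _)
        (abs_nonneg _)
    · rw [← sum_mul]; exact mul_le_mul_of_nonneg_right (Sd.abs_rc_sum hl) hL0
  refine ⟨fun q => ?_, fun t q hq => ?_⟩
  · have m : ∀ {x y : ℝ}, |x| ≤ 3 * L → |y| ≤ 3 * L → |x * y| ≤ 9 * L ^ 2 := fun hx hy => by
      rw [abs_mul]; exact (mul_le_mul hx hy (abs_nonneg _) (by positivity)).trans_eq (by ring)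
    have a1 := abs_le.1 (hr c hcL q)
    have a2 : |share lab c * rho R lab U (wU θ lab U w₀ rd) rd 1 l q| ≤ 1 * (3 * L) := by
      rw [abs_mul]; exact mul_le_mul hsh (hr 1 h1 q) (abs_nonneg _) zero_le_one
    have a3 := abs_le.1 (m (hr c hcL q) (hr θ hθ q))
    have a4 := abs_le.1 (m (hr 1 h1 q) (hr _ hθc q))
    have := abs_le.1 a2
    rw [resid, abs_le]
    constructor <;> nlinarith
  set H := ∑ s ∈ Icc l R, |rc R l s| *
    ext (lin R) (wU θ lab U w₀ rd) (R - s) (q.take s) fun x => |gC θ lab U c a b (rd x) - t|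
  set P := 12 * L / N + 2 * L * H
  have hH : 0 ≤ H := sum_nonneg fun s _ => mul_nonneg (abs_nonneg _)
    (ext_nonneg (wU_pos h0 θ lab U) fun x => abs_nonneg _)
  have hP : 0 ≤ P := by positivity
  have hrho : ∀ d, (∀ j, |d j| ≤ L) →
      Sml lab U c a b (fun V => rho R lab V (wU θ lab V w₀ rd) rd d l q) P := fun d hd => by
    refine (Sml.sum _ fun s hs => (sml_hB hR h0 hU hc t hd hL0 (mem_Icc.1 hs).2 hq).const_mul (rc R l s)).mono ?_
    simp only [mul_add, sum_add_distrib]
    refine add_le_add ?_ ?_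
    · rw [← sum_mul, show 12 * L / (N:ℝ) = 3 * (4 * L / N) by ring]
      exact mul_le_mul_of_nonneg_right (Sd.abs_rc_sum hl) (by positivity)
    · refine le_of_eq ?_
      rw [mul_sum]
      exact sum_congr rfl fun s _ => by ring
  have hρ := fun d hd => hrho d hd
  refine Sml.mono (((((hρ c hcL).sub ((hρ 1 h1).const_mul (share lab c))).add
    (Sml.mul (hr c hcL q) (hr θ hθ q) (hρ c hcL) (hρ θ hθ)))).sub
      (Sml.mul (hr 1 h1 q) (hr _ hθc q) (hρ 1 h1) (hρ _ hθc))) ?_
  rw [show 14 * L * (12 * L) / N + 14 * L * (2 * L) * H = 14 * L * P by simp only [P]; ring]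
  nlinarith [mul_le_mul_of_nonneg_right hsh hP, mul_le_mul_of_nonneg_right hL hP]

/-- the cost of the diagonal identity on one path -/
lemma sml_diaI (hR : 1 ≤ R) (h0 : ∀ p, 0 < w₀ p) (hU : Matrix.of U ∈ Matrix.orthogonalGroup (Fin N) ℝ)
    (hL : 1 ≤ L) (hθ : ∀ j, |θ j| ≤ L) (hc : ∀ j, |c j| ≤ 1) {l : ℕ} :
    (∀ q, |diaI R θ lab U (wU θ lab U w₀ rd) rd c l q| ≤ 6 * L) ∧
    ∀ t q, q.length = R → Sml lab U c a b (fun V => diaI R θ lab V (wU θ lab V w₀ rd) rd c l q)
      (40 * L / N + 4 * L * ∑ s ∈ Icc l R, |kapR R s| *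
        ext (lin R) (wU θ lab U w₀ rd) (R - s) (q.take s) fun x => |gC θ lab U c a b (rd x) - t|) := by
  have hL0 : (0:ℝ) ≤ L := by linarith
  have h1 : ∀ j, |(1 : Fin k → ℝ) j| ≤ 1 := fun j => by simp
  have hθc : ∀ j, |(θ * c) j| ≤ L := fun j => by
    rw [Pi.mul_apply, abs_mul]; simpa using mul_le_mul (hθ j) (hc j) (abs_nonneg _) hL0
  have hsh : |share lab c| ≤ 1 := Sd.abs_share_le hc
  refine ⟨fun q => ?_, fun t q hq => ?_⟩
  · have a1 := abs_le.1 (abs_povc_le hU lab hc (rd q) (rd q))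
    have a2 : |share lab c * povc lab U 1 (rd q) (rd q)| ≤ 1 * 1 := by
      rw [abs_mul]; exact mul_le_mul hsh (abs_povc_le hU lab h1 _ _) (abs_nonneg _) zero_le_one
    have a3 : |∑ s ∈ Icc l R, kapR R s * ext (lin R) (wU θ lab U w₀ rd) (R - s) (q.take s)
        (fun x => pairT θ lab U c (rd q) (rd x) (rd q))| ≤ 2 * (2 * L) := by
      refine (abs_sum_le_sum_abs _ _).trans ((sum_le_sum (g := fun s => |kapR R s| * (2 * L)) fun s _ => ?_).trans ?_)
      · rw [abs_mul]
        exact mul_le_mul_of_nonneg_left (ext_bound (wU_pos h0 θ lab U) fun x => SdAlg.abs_pairT_le hU hL hθ hc _ _ _)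
          (abs_nonneg _)
      · rw [← sum_mul]; exact mul_le_mul_of_nonneg_right (Sd.abs_kap_sum hR) (by positivity)
    have := abs_le.1 a2
    have := abs_le.1 a3
    rw [diaI, abs_le]
    constructor <;> linarith
  have hpair : ∀ x, Sml lab U c a b (fun V => pairT θ lab V c (rd q) (rd x) (rd q)) (16 * L / N) := fun x => by
    refine Sml.mono (Sml.sub
      (Sml.mul (abs_povc_le hU lab hc _ _) (abs_povc_le hU lab hθ _ _) (sml_povc hU hc zero_le_one hc _ _)
        (sml_povc hU hc hL0 hθ _ _))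
      (Sml.mul (abs_povc_le hU lab h1 _ _) (abs_povc_le hU lab hθc _ _) (sml_povc hU hc zero_le_one h1 _ _)
        (sml_povc hU hc hL0 hθc _ _))) (le_of_eq ?_)
    ring
  have hext : ∀ s ∈ Icc l R, Sml lab U c a b (fun V => kapR R s * ext (lin R) (wU θ lab V w₀ rd) (R - s) (q.take s)
      fun x => pairT θ lab V c (rd q) (rd x) (rd q)) (|kapR R s| * (16 * L / N) + 4 * L * (|kapR R s| *
      ext (lin R) (wU θ lab U w₀ rd) (R - s) (q.take s) fun x => |gC θ lab U c a b (rd x) - t|)) := fun s hs => by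
    refine ((sml_ext hR h0 θ t (e := fun _ => 16 * L / (N:ℝ)) (mem_Icc.1 hs).2 (by rw [List.length_take, hq, min_eq_left (mem_Icc.1 hs).2])
      (fun suf _ => hpair _) (fun x => SdAlg.abs_pairT_le hU hL hθ hc _ _ _)).const_mul (kapR R s)).mono (le_of_eq ?_)
    rw [ext_const (wU_pos h0 θ lab U)]
    ring
  refine ((((sml_povc hU hc zero_le_one hc _ _).sub
    ((sml_povc hU hc zero_le_one h1 _ _).const_mul (share lab c)))).add (Sml.sum _ hext)).mono ?_
  rw [sum_add_distrib, ← sum_mul, ← mul_sum, ← add_assoc]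
  refine add_le_add ?_ le_rfl
  have e1 := mul_le_mul_of_nonneg_right (Sd.abs_kap_sum (l := l) hR) (show (0:ℝ) ≤ 16 * L / N by positivity)
  have e2 : |share lab c| * (4 * 1 / (N:ℝ)) ≤ 1 * (4 * 1 / (N:ℝ)) :=
    mul_le_mul_of_nonneg_right hsh (by positivity)
  have e3 : 8 * (1 / (N:ℝ)) ≤ 8 * L * (1 / N) := by
    nlinarith [mul_le_mul_of_nonneg_right hL (show (0:ℝ) ≤ 1 / N by positivity)]
  simp only [div_eq_mul_one_div (40 * L), div_eq_mul_one_div (4 * 1 : ℝ), div_eq_mul_one_div (16 * L)] at e1 e2 ⊢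
  nlinarith

end cost

end SdE

open SdE in
/-- **G1, Haar invariance**: the attachment sums with the identities as multipliers almost vanish -/
theorem stmt_sd_eq (hcov : StmtSdCov) : StmtSdEq := by
  intro k L₀
  set L := max L₀ 1
  refine ⟨2 * (14 * L * (12 * L) + (14 * L * (2 * L) * 3 + 2 * (24 * L ^ 2)) * (4 * L) +
      (40 * L + (4 * L * 2 + 2 * (6 * L)) * (4 * L))),
    fun R N _ hR θ hθ₀ lab Ω _ _ w₀ h0 rd ν hν c hc l s hl _ hs => ?_⟩
  have hL : 1 ≤ L := le_max_right _ _
  have hθ : ∀ j, |θ j| ≤ L := fun j => (hθ₀ j).trans (le_max_left _ _)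
  set K1 := 14 * L * (12 * L) + (14 * L * (2 * L) * 3 + 2 * (24 * L ^ 2)) * (4 * L)
  set K2 := 40 * L + (4 * L * 2 + 2 * (6 * L)) * (4 * L)
  have hK1 : 0 ≤ K1 := by positivity
  have hK2 : 0 ≤ K2 := by positivity
  have hI : 0 ≤ ∫ U, devS R (wU θ lab U w₀ rd) rd l ∂ν + 1 / (N:ℝ) :=
    add_nonneg (integral_nonneg fun U => Real.sqrt_nonneg _) (by positivity)
  constructor
  · refine (fullI_int_le hR h0 hν hl.le hs hcov (K := K1) (fun pre => ?_) hK1
      fun U hU pre hpre a b => ?_).trans (mul_le_mul_of_nonneg_right (by linarith) hI)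
    · exact contDiff_ext (fun U => wU_pos h0 θ lab U) contDiff_wU _ _ fun q => contDiff_resid h0 c l q
    · obtain ⟨h1, h2⟩ := sml_resid (rd := rd) (lab := lab) (a := a) (b := b) hR h0 hU hL hθ hc hl
      exact sml_node hR h0 hU hcov hL hθ hc hl.le hpre h1 (by positivity) (by positivity)
        (Sd.abs_rc_sum hl) h2
  · refine (fullI_int_le hR h0 hν hl.le hs hcov (K := K2) (fun pre => ?_) hK2
      fun U hU pre hpre a b => ?_).trans (mul_le_mul_of_nonneg_right (by linarith) hI)
    · exact contDiff_ext (fun U => wU_pos h0 θ lab U) contDiff_wU _ _ fun q => contDiff_diaI h0 c l q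
    · obtain ⟨h1, h2⟩ := sml_diaI (rd := rd) (lab := lab) (a := a) (b := b) (l := l) hR h0 hU hL hθ hc
      exact sml_node hR h0 hU hcov hL hθ hc hl.le hpre h1 (by positivity) (by positivity)
        (Sd.abs_kap_sum hR) h2

end Vale.Agent.P166.Gen
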