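import Vale.Agent.P166.Gen.SdDefs
import Vale.Agent.P166.Haar

/-!
# P166 G1: plane rotations of the frame, Haar invariance, smoothness of the nested means in the frame
-/

open MeasureTheory Filter Finset Real
open scoped Topology
open Vale.Agent.P168.MP (ext ET trans Z avg trans_den_pos Z_pos card_pos_real)

noncomputable section

namespace Vale.Agent.P166.Gen.SdE

variable {N : ℕ}

/-- the rotation of the coordinates `i`, `j` by the angle `t`; the identity if `i = j` -/
def rotM (i j : Fin N) (t : ℝ) : Mat N := fun a b =>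
  if i = j then (if a = b then 1 else 0)
  else if a = i then (if b = i then cos t else if b = j then sin t else 0)
  else if a = j then (if b = i then -sin t else if b = j then cos t else 0)
  else if a = b then 1 else 0

/-- the rotated frame -/
def rotU (i j : Fin N) (t : ℝ) (U : Mat N) : Mat N := fun a x => ∑ b, rotM i j t a b * U b x

lemma rotM_row {i j : Fin N} (t : ℝ) (a : Fin N) (x : Fin N → ℝ) :
    ∑ b, rotM i j t a b * x b = if i = j then x a else if a = i then cos t * x i + sin t * x j
      else if a = j then -sin t * x i + cos t * x j else x a := by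
  by_cases hij : i = j
  · simp [rotM, hij]
  have two : ∀ p q : ℝ, ∑ b, (if b = i then p else if b = j then q else 0) * x b = p * x i + q * x j :=
    fun p q => by
      rw [Fintype.sum_eq_add i j hij fun b hb => by simp [hb.1, hb.2]]
      simp [Ne.symm hij]
  simp only [rotM, if_neg hij]
  split_ifs
  · exact two _ _
  · exact two _ _
  · simp

lemma orth_rotM (i j : Fin N) (t : ℝ) : Matrix.of (rotM i j t) ∈ Matrix.orthogonalGroup (Fin N) ℝ := by
  refine (Matrix.mem_orthogonalGroup_iff (Fin N) ℝ).2 ?_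
  ext a c
  simp only [Matrix.mul_apply, Matrix.transpose_apply, Matrix.of_apply, Matrix.one_apply]
  rw [rotM_row t a fun b => rotM i j t c b]
  have hs := sin_sq_add_cos_sq t
  by_cases hij : i = j
  · simp [rotM, hij, eq_comm]
  simp only [rotM, if_neg hij]
  split_ifs <;> (try subst_vars) <;> first
    | (exfalso; simp_all; done)
    | linear_combination hs
    | ring

lemma rotU_zero (i j : Fin N) (U : Mat N) : rotU i j 0 U = U := by
  funext a x
  rw [rotU, rotM_row 0 a fun b => U b x]
  simp only [cos_zero, sin_zero]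
  split_ifs <;> simp_all

lemma cd_rotU (i j : Fin N) (t : ℝ) (U : Mat N) (σ : Fin N → Bool) (a : Fin N) :
    cd (rotU i j t U) σ a = ∑ b, rotM i j t a b * cd U σ b := by
  simp only [cd, rotU, sum_mul, mul_sum]
  rw [sum_comm]
  exact sum_congr rfl fun b _ => sum_congr rfl fun x _ => by ring

/-- the derivative of a coordinate along a rotation -/
lemma hasDerivAt_cd (i j : Fin N) (U : Mat N) (σ : Fin N → Bool) (a : Fin N) :
    HasDerivAt (fun t => cd (rotU i j t U) σ a)
      ((if a = i then cd U σ j else 0) - if a = j then cd U σ i else 0) 0 := by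
  simp only [cd_rotU, rotM_row]
  by_cases hij : i = j
  · subst hij
    simp only [if_true]
    exact (hasDerivAt_const (0:ℝ) (cd U σ a)).congr_deriv (by split_ifs <;> simp)
  simp only [if_neg hij]
  by_cases hi : a = i
  · simp only [if_pos hi, if_neg (hi.trans_ne hij), sub_zero]
    exact (((hasDerivAt_cos 0).mul_const _).add ((hasDerivAt_sin 0).mul_const _)).congr_deriv (by simp)
  by_cases hj : a = j
  · simp only [if_neg hi, if_pos hj, zero_sub]
    exact (((hasDerivAt_sin 0).neg.mul_const _).add ((hasDerivAt_cos 0).mul_const _)).congr_deriv (by simp)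
  simp only [if_neg hi, if_neg hj, sub_zero]
  exact hasDerivAt_const _ _

/-- the orthogonal frames form a compact set -/
lemma isCompact_orth (N : ℕ) :
    IsCompact {U : Mat N | Matrix.of U ∈ Matrix.orthogonalGroup (Fin N) ℝ} := by
  have h := (compact_orthogonal N).image (f := fun A : Matrix (Fin N) (Fin N) ℝ => (fun a b => A a b : Mat N))
    (by fun_prop)
  refine h.of_isClosed_subset ?_ fun U hU => ⟨Matrix.of U, hU, rfl⟩
  exact (compact_orthogonal N).isClosed.preimage (f := fun U : Mat N => Matrix.of U) (by fun_prop)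

/-- continuous functions of the frame are integrable -/
lemma integrable_haar {ν : Measure (Mat N)} (hν : IsHaarOrthogonal ν) {f : Mat N → ℝ}
    (hf : Continuous f) : Integrable f ν := by
  obtain ⟨B, hB⟩ := (isCompact_orth N).exists_bound_of_continuousOn hf.continuousOn
  have := hν.1
  exact Integrable.of_bound hf.aestronglyMeasurable B (hν.2.1.mono fun U hU => hB U hU)

/-- **Haar invariance**: a rotation derivative has mean zero -/
theorem haar_deriv_zero {Ψ : Mat N → ℝ} (hΨ : ContDiff ℝ 1 Ψ) {ν : Measure (Mat N)}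
    (hν : IsHaarOrthogonal ν) (i j : Fin N) {D : Mat N → ℝ}
    (hD : ∀ U, Matrix.of U ∈ Matrix.orthogonalGroup (Fin N) ℝ →
      HasDerivAt (fun t => Ψ (rotU i j t U)) (D U) 0) :
    Integrable D ν ∧ ∫ U, D U ∂ν = 0 := by
  obtain ⟨hp, horth, hinv⟩ := hν
  set Φ : Mat N × ℝ → ℝ := fun p => Ψ (rotU i j p.2 p.1)
  have hrot : ContDiff ℝ 1 fun p : Mat N × ℝ => rotU i j p.2 p.1 := by
    refine contDiff_pi.2 fun a => contDiff_pi.2 fun x => ?_
    simp only [rotU, rotM_row]
    have hc : ∀ b : Fin N, ContDiff ℝ 1 fun p : Mat N × ℝ => p.1 b x := fun b =>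
      (contDiff_apply_apply ℝ ℝ b x).comp contDiff_fst
    have h1 : ContDiff ℝ 1 fun p : Mat N × ℝ => cos p.2 := contDiff_cos.comp contDiff_snd
    have h2 : ContDiff ℝ 1 fun p : Mat N × ℝ => sin p.2 := contDiff_sin.comp contDiff_snd
    split_ifs
    · exact hc a
    · exact (h1.mul (hc i)).add (h2.mul (hc j))
    · exact (h2.neg.mul (hc i)).add (h1.mul (hc j))
    · exact hc a
  have hΦ : ContDiff ℝ 1 Φ := hΨ.comp hrot
  set D' : ℝ → Mat N → ℝ := fun t U => fderiv ℝ Φ (U, t) (0, 1)
  have hd : ∀ U t, HasDerivAt (fun t => Φ (U, t)) (D' t U) t := fun U t =>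
    ((hΦ.differentiable one_ne_zero).differentiableAt.hasFDerivAt).comp_hasDerivAt t
      ((hasDerivAt_const t U).prodMk (hasDerivAt_id t))
  have hD'c : Continuous fun p : Mat N × ℝ => fderiv ℝ Φ p (0, 1) :=
    (hΦ.continuous_fderiv one_ne_zero).clm_apply continuous_const
  set S : Set (Mat N) := {U | Matrix.of U ∈ Matrix.orthogonalGroup (Fin N) ℝ}
  have hS : IsCompact S := isCompact_orth N
  obtain ⟨B, hB⟩ := (hS.prod (isCompact_Icc (a := (-1:ℝ)) (b := 1))).exists_bound_of_continuousOn
    hD'c.continuousOn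
  obtain ⟨B0, hB0⟩ := hS.exists_bound_of_continuousOn
    (hΦ.continuous.comp (continuous_id.prodMk continuous_const) : Continuous fun U => Φ (U, (0:ℝ))).continuousOn
  have hconst : ∀ t, ∫ U, Φ (U, t) ∂ν = ∫ U, Ψ U ∂ν := fun t => by
    have hm : Measurable fun (U : Mat N) (a x : Fin N) => ∑ b, rotM i j t a b * U b x := by fun_prop
    conv_rhs => rw [← hinv _ (orth_rotM i j t),
      integral_map hm.aemeasurable hΨ.continuous.aestronglyMeasurable]
    rfl
  obtain ⟨hi, hder⟩ := hasDerivAt_integral_of_dominated_loc_of_deriv_le (μ := ν)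
    (F := fun t U => Φ (U, t)) (F' := D') (x₀ := (0:ℝ)) (bound := fun _ => B)
    (Metric.ball_mem_nhds (0:ℝ) one_pos)
    (.of_forall fun t => (hΦ.continuous.comp (continuous_id.prodMk continuous_const)).aestronglyMeasurable)
    (Integrable.of_bound (hΦ.continuous.comp (continuous_id.prodMk continuous_const)).aestronglyMeasurable B0
      (horth.mono fun U hU => hB0 U hU))
    ((hD'c.comp (continuous_id.prodMk continuous_const)).aestronglyMeasurable)
    (horth.mono fun U hU t ht => hB (U, t) ⟨hU, by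
      rw [Metric.mem_ball, Real.dist_eq, sub_zero, abs_lt] at ht
      exact ⟨ht.1.le, ht.2.le⟩⟩)
    (integrable_const B) (.of_forall fun U t _ => hd U t)
  have h0 : ∫ U, D' 0 U ∂ν = 0 := by
    refine hder.unique ?_
    simp only [hconst]
    exact hasDerivAt_const _ _
  have he : D' 0 =ᵐ[ν] D := horth.mono fun U hU => (hd U 0).unique (hD U hU)
  exact ⟨hi.congr he, (integral_congr_ae he).symm.trans h0⟩

/-! ### smoothness -/

lemma contDiff_cd (σ : Fin N → Bool) (i : Fin N) : ContDiff ℝ 1 fun U : Mat N => cd U σ i :=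
  ContDiff.sum fun x _ => (contDiff_apply_apply ℝ ℝ i x).mul contDiff_const

variable {k : ℕ} {Ω : Type} [Fintype Ω] [Nonempty Ω] {W : Mat N → List Ω → ℝ} {m : ℕ → ℝ}

lemma contDiff_Z (hp : ∀ U p, 0 < W U p) (hW : ∀ p, ContDiff ℝ 1 fun U => W U p) :
    ∀ (d : ℕ) (pre : List Ω), ContDiff ℝ 1 fun U => Z m (W U) d pre
  | 0, pre => hW pre
  | d + 1, pre => by
    simp only [Z, avg]
    have hZ : ∀ o U, 0 < Z m (W U) d (pre ++ [o]) := fun o U => Z_pos (hp U) d _
    refine ContDiff.rpow_const_of_ne ?_ fun U => ?_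
    · exact (ContDiff.sum fun o _ =>
        (contDiff_Z hp hW d _).rpow_const_of_ne fun U => (hZ o U).ne').div_const _
    · exact (div_pos (sum_pos (fun o _ => rpow_pos_of_pos (hZ o U) _) univ_nonempty) card_pos_real).ne'

lemma contDiff_ext (hp : ∀ U p, 0 < W U p) (hW : ∀ p, ContDiff ℝ 1 fun U => W U p) :
    ∀ (d : ℕ) (pre : List Ω) {F : Mat N → List Ω → ℝ}, (∀ q, ContDiff ℝ 1 fun U => F U q) →
      ContDiff ℝ 1 fun U => ext m (W U) d pre (F U)
  | 0, pre, F, hF => hF pre
  | d + 1, pre, F, hF => by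
    simp only [Vale.Agent.P168.MP.ext_succ, Vale.Agent.P168.MP.trans]
    refine ContDiff.sum fun o _ => ContDiff.mul ?_ (contDiff_ext hp hW d _ hF)
    have hn : ∀ o, ContDiff ℝ 1 fun U => Z m (W U) d (pre ++ [o]) ^ m (pre.length + 1) := fun o =>
      (contDiff_Z hp hW d _).rpow_const_of_ne fun U => (Z_pos (hp U) d _).ne'
    exact (hn o).div (ContDiff.sum fun o' _ => hn o') fun U => (trans_den_pos (hp U) d pre).ne'

lemma contDiff_ET (hp : ∀ U p, 0 < W U p) (hW : ∀ p, ContDiff ℝ 1 fun U => W U p) {R : ℕ} :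
    ∀ (T : List (ℕ × ℕ)) {F : Mat N → List (List Ω) → ℝ}, (∀ ps, ContDiff ℝ 1 fun U => F U ps) →
      ContDiff ℝ 1 fun U => ET R m (W U) T (F U)
  | [], F, hF => hF []
  | (p, v) :: T, F, hF => by
    simp only [Vale.Agent.P168.MP.ET_cons]
    exact contDiff_ET hp hW T fun ps => contDiff_ext hp hW _ _ fun q => hF _

end Vale.Agent.P166.Gen.SdE
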