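import Vale.Agent.P166.Gen.SdDefs
import Vale.Agent.P166.Gen.Algebra

/-!
# P166 Gen, G1: deterministic lemmas on the levels for `stmt_sd_solve`
-/

open MeasureTheory Filter Finset Real
open scoped Topology
open Vale.Agent.P157.Par (Prof)
open Vale.Agent.P157.Sph (lam prodU lam_prod prod_zero ext_lam)

noncomputable section

namespace Vale.Agent.P166.Gen

open Atoms (pA_of_pos pA_zero pA_sub phiA_eq)

/-- a linearised Gronwall inequality over the levels -/
lemma gronwall_sum {R l₀ : ℕ} {c : ℝ} (hc : 0 ≤ c) {a b : ℕ → ℝ} (hb : ∀ l, 0 ≤ b l)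
    (h : ∀ l, l₀ ≤ l → l < R → a l ≤ b l + c / R * ∑ m ∈ Ico (l + 1) R, a m) :
    ∑ m ∈ Ico l₀ R, a m ≤ exp c * ∑ m ∈ Ico l₀ R, b m := by
  have hcR : 0 ≤ c / R := div_nonneg hc (Nat.cast_nonneg R)
  have key : ∀ i l, R - l = i → l₀ ≤ l → ∑ m ∈ Ico l R, a m ≤ exp (c / R * i) * ∑ m ∈ Ico l R, b m := by
    intro i
    induction i with
    | zero => intro l hl _; simp [Ico_eq_empty_of_le (show R ≤ l by omega)]
    | succ i ih =>
      intro l hl hl0
      have hlR : l < R := by omega
      rw [sum_eq_sum_Ico_succ_bot hlR, sum_eq_sum_Ico_succ_bot hlR]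
      have hi := ih (l + 1) (by omega) (by omega)
      have hl' := h l hl0 hlR
      set S := ∑ m ∈ Ico (l + 1) R, a m
      set T := ∑ m ∈ Ico (l + 1) R, b m
      have hT : 0 ≤ T := sum_nonneg fun m _ => hb m
      have e : exp (c / R * (i + 1 : ℕ)) = exp (c / R) * exp (c / R * i) := by
        rw [← exp_add]; push_cast; ring_nf
      have h1 : 1 + c / R ≤ exp (c / R) := by linarith [add_one_le_exp (c / R)]
      have h2 : 1 ≤ exp (c / R) * exp (c / R * i) := by
        rw [← exp_add]; exact one_le_exp (by positivity)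
      have h3 : (1 + c / R) * S ≤ exp (c / R) * exp (c / R * i) * T := by
        rw [mul_assoc]
        exact (mul_le_mul_of_nonneg_left hi (by linarith)).trans
          (mul_le_mul_of_nonneg_right h1 (mul_nonneg (exp_pos _).le hT))
      rw [e, mul_add]
      have h4 := le_mul_of_one_le_left (hb l) h2
      linarith
  rcases Nat.lt_or_ge l₀ R with hl | hl
  · refine (key (R - l₀) l₀ rfl le_rfl).trans (mul_le_mul_of_nonneg_right (exp_le_exp.2 ?_) (sum_nonneg fun m _ => hb m))
    have hR : (0:ℝ) < R := Nat.cast_pos.2 (by omega)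
    rw [div_mul_eq_mul_div, div_le_iff₀ hR]
    exact mul_le_mul_of_nonneg_left (Nat.cast_le.2 (Nat.sub_le R l₀)) hc
  · simp [Ico_eq_empty_of_le hl]

/-- a fourth root is at most linear -/
lemma qroot_le {x t : ℝ} (hx : 0 ≤ x) (ht : 0 < t) : √√x ≤ t + x / t ^ 3 := by
  rcases le_total (√√x) t with h | h
  · exact h.trans (le_add_of_nonneg_right (by positivity))
  · refine le_trans ?_ (le_add_of_nonneg_left ht.le)
    rw [le_div_iff₀ (by positivity)]
    calc √√x * t ^ 3 ≤ √√x * √√x ^ 3 :=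
          mul_le_mul_of_nonneg_left (pow_le_pow_left₀ ht.le h 3) (Real.sqrt_nonneg _)
      _ = (√√x ^ 2) ^ 2 := by ring
      _ = x := by rw [sq_sqrt (Real.sqrt_nonneg _), sq_sqrt hx]

variable {k : ℕ}

/-- perturbing the weights and the atoms in the equation of the rows -/
lemma res_close {f w θ' θ u : Fin k → ℝ} {δ M : ℝ} (hf : ∀ j, |f j - w j| ≤ δ)
    (hθ : ∀ j, |θ' j - θ j| ≤ δ) (hM : ∀ j, |u j| ≤ M) (j : Fin k) :
    |(u j * (1 + ∑ i, θ' i * u i) - (∑ i, u i) * (f j + θ' j * u j)) -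
      (u j * (1 + ∑ i, θ i * u i) - (∑ i, u i) * (w j + θ j * u j))| ≤ 2 * k * (M + M ^ 2) * δ := by
  have hM0 : 0 ≤ M := (abs_nonneg _).trans (hM j)
  have hδ : 0 ≤ δ := (abs_nonneg _).trans (hf j)
  have hk : (1:ℝ) ≤ k := by exact_mod_cast (Fin.pos j)
  have e : (u j * (1 + ∑ i, θ' i * u i) - (∑ i, u i) * (f j + θ' j * u j)) -
      (u j * (1 + ∑ i, θ i * u i) - (∑ i, u i) * (w j + θ j * u j)) =
      u j * ∑ i, (θ' i - θ i) * u i - (∑ i, u i) * ((f j - w j) + (θ' j - θ j) * u j) := by
    simp only [sub_mul, sum_sub_distrib]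
    ring
  have h1 : |∑ i, (θ' i - θ i) * u i| ≤ k * (δ * M) := by
    refine (abs_sum_le_sum_abs _ _).trans ((sum_le_sum fun i _ => ?_).trans_eq
      (show ∑ _i : Fin k, δ * M = k * (δ * M) by simp))
    rw [abs_mul]
    exact mul_le_mul (hθ i) (hM i) (abs_nonneg _) hδ
  have h2 : |∑ i, u i| ≤ k * M :=
    (abs_sum_le_sum_abs _ _).trans ((sum_le_sum fun i _ => hM i).trans_eq (by simp))
  have h3 : |(f j - w j) + (θ' j - θ j) * u j| ≤ δ + δ * M := by
    refine (abs_add_le _ _).trans (add_le_add (hf j) ?_)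
    rw [abs_mul]
    exact mul_le_mul (hθ j) (hM j) (abs_nonneg _) hδ
  rw [e]
  refine (abs_sub _ _).trans ((add_le_add (?_ : _ ≤ M * (k * (δ * M))) (?_ : _ ≤ k * M * (δ + δ * M))).trans ?_)
  · rw [abs_mul]; exact mul_le_mul (hM j) h1 (abs_nonneg _) hM0
  · rw [abs_mul]; exact mul_le_mul h2 h3 (abs_nonneg _) (by positivity)
  · nlinarith [mul_nonneg (mul_nonneg (show (0:ℝ) ≤ k by positivity) hM0) hδ]

variable {w θ : Fin k → ℝ} (ha : Atoms w θ) {y : ℝ}

include ha

omit ha in
lemma pA_eq (j : Fin k) (hy : 0 ≤ y) : pA w θ j y = 1 + y * (Rat w θ y - θ j) := by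
  rcases hy.eq_or_lt with rfl | h
  · simp [pA_zero]
  · rw [pA_of_pos h, Rat, if_pos h]
    field_simp
    ring

section profile
variable {R : ℕ} {q : ℕ → ℝ} (hq : Prof R q 1) (htop : q R = 1)
include hq htop

lemma lam_levP (j : Fin k) {l : ℕ} (hl : l < R) :
    lam R (levP w θ j R q) l = phiA w θ j (lam R q l) ∧ lam R q l ∈ Set.Icc (0:ℝ) 1 := by
  have e := lam_profile hq (by omega) htop hl.le
  have hm := hq.upper hl.le
  have hx := Par.Multi.xiD_mem hq hm.1 hm.2
  refine ⟨?_, e ▸ ⟨hx.1, hx.2.trans ?_⟩⟩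
  · rw [e, levP, lam_levF hq (ha.continuousOn_dphiA j) (f := phiA w θ j)
      (fun x hx => by rw [ha.integral_dphiA j hx]; simp [phiA]) (by omega) htop hl.le]
    simp [phiA]
  · linarith [hm.1]

/-- at the formula the diagonal equation holds -/
theorem levP_diag (hR : 1 ≤ R) (j : Fin k) :
    levP w θ j R q R + (levP w θ j R q R * (∑ i, θ i * levP w θ i R q R) -
      (∑ l ∈ range R, levP w θ j R q l * ∑ i, θ i * levP w θ i R q l) / R) -
        θ j * (levP w θ j R q R - (∑ l ∈ range R, q l * levP w θ j R q l) / R) = w j := by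
  set P := levP w θ j R q
  set J := fun l => ∑ i, θ i * levP w θ i R q l
  have hlamJ : ∀ m, m < R → lam R J m = lam R q m * Rat w θ (lam R q m) := fun m hm => by
    rw [← ha.sum_theta_phiA (lam_levP ha hq htop j hm).2.1]
    rw [sum_congr rfl fun i _ => by rw [← (lam_levP ha hq htop i hm).1]]
    simp only [lam, J, mul_sub, sum_sub_distrib, sum_div, mul_sum]
    refine congrArg₂ _ (congrArg₂ _ rfl ?_) ?_
    · rw [sum_comm]
      exact sum_congr rfl fun i _ => sum_congr rfl fun x _ => by ring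
    · exact sum_congr rfl fun i _ => by ring
  set Z := fun l => P l + prodU R P J l - θ j * prodU R q P l
  have hl : ∀ m < R, lam R Z m = lam R (fun l => w j * q l) m := fun m hm => by
    obtain ⟨h1, h2⟩ := lam_levP ha hq htop j hm
    have e1 : lam R Z m = lam R P m + lam R (prodU R P J) m - θ j * lam R (prodU R q P) m := by
      simp only [lam, Z, sum_sub_distrib, sum_add_distrib, ← mul_sum]; ring
    have e2 : lam R (fun l => w j * q l) m = w j * lam R q m := by
      simp only [lam, ← mul_sum]; ring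
    rw [e1, e2, lam_prod hR hm, lam_prod hR hm, hlamJ m hm, h1, phiA_eq j h2.1]
    have hp := (ha.pA_pos j (lam R q m)).ne'
    field_simp
    rw [pA_eq j h2.1]
    ring
  have h0 : Z 0 = (fun l => w j * q l) 0 := by
    obtain ⟨h1, h2⟩ := lam_levP ha hq htop j (show 0 < R by omega)
    have e := lam_profile hq hR htop (Nat.zero_le R)
    set y := lam R q 0
    have eP : P 0 = q 0 * dphiA w θ j y := by simp only [P, levP, levF_low hq, ← e]
    have eJ : J 0 = q 0 * ∑ i, θ i * dphiA w θ i y := by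
      simp only [J, levP, levF_low hq, ← e, mul_sum]
      exact sum_congr rfl fun i _ => by ring
    simp only [Z, prod_zero hR]
    rw [hlamJ 0 (by omega), h1, eP, eJ]
    have key : dphiA w θ j y * pA w θ j y + phiA w θ j y * ((∑ i, θ i * dphiA w θ i y) - θ j) = w j := by
      rw [ha.dphiA_eq j, phiA_eq j h2.1]
      have hs : y * ((∑ i, θ i * dphiA w θ i y) - θ j) =
          ∑ i, (pA w θ j y - pA w θ i y) * (w i / pA w θ i y ^ 2) / qA w θ y := by
        rw [show θ j = θ j * ∑ i, dphiA w θ i y by rw [ha.sum_dphiA, mul_one], mul_sum, ← sum_sub_distrib,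
          mul_sum]
        refine sum_congr rfl fun i _ => ?_
        rw [ha.dphiA_eq i, pA_sub j i h2.1]
        ring
      have hs2 : ∑ i, (pA w θ j y - pA w θ i y) * (w i / pA w θ i y ^ 2) / qA w θ y =
          (pA w θ j y * qA w θ y - 1) / qA w θ y := by
        rw [← sum_div]
        simp only [sub_mul, sum_sub_distrib, ← mul_sum]
        congr 1
        rw [show ∑ i, pA w θ i y * (w i / pA w θ i y ^ 2) = 1 from ?_, qA]
        rw [← ha.sum_pA y]
        exact sum_congr rfl fun i _ => by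
          have := (ha.pA_pos i y).ne'
          field_simp
      have hp := (ha.pA_pos j y).ne'
      have hq' := (ha.qA_pos y).ne'
      rw [show y * (w j / pA w θ j y) * ((∑ i, θ i * dphiA w θ i y) - θ j) =
        w j / pA w θ j y * (y * ((∑ i, θ i * dphiA w θ i y) - θ j)) by ring, hs, hs2]
      field_simp
      ring
    rw [pA_eq j h2.1] at key
    linear_combination q 0 * key
  have h := ext_lam hR hl h0 R le_rfl
  simp only [Z, prodU, lt_irrefl, if_false, htop, mul_one, one_mul] at h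
  exact h

end profile

end Vale.Agent.P166.Gen
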