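import Vale.Agent.P166.Gen.SdSolveBase
import Vale.Agent.P166.Gen.SdSolveLevels

/-!
# P166 Gen, G1: at one frame the identities determine the projected overlaps

The targets are the levels of the formula shifted to the mean diagonal. Rows give a linear Gronwall
recursion for the mean distance from the targets above `η R`; the diagonal identity bounds the shift.
-/

open MeasureTheory Filter Finset Real
open scoped Topology
open Vale.Agent.P157.Par (Prof adev devOf ovK qlev ov qlev_prof qlev_top ov_self)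
open Vale.Agent.P157.Sph (lam)
open Vale.Agent.P168.MP (lin ET ext mad mean1)

noncomputable section

namespace Vale.Agent.P166.Gen.SdSol

open Vale.Agent.P168.MP (ext_add ext_sub ext_const ext_mono ext_mono_on ext_nonneg ext_bound ext_abs_le
  ext_sum ext_const_mul ext_congr ext_mul_const)

variable {k N : ℕ} {Ω : Type} [Fintype Ω] [Nonempty Ω]

/-- the mean squared norm of a projection -/
def diagM (R : ℕ) (lab : Fin N → Fin k) (U : Mat N) (W : List Ω → ℝ) (rd : List Ω → Fin N → Bool)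
    (j : Fin k) : ℝ :=
  mean1 R (lin R) W fun p => pov lab U j (rd p) (rd p)

/-- the levels of the formula shifted to the mean diagonal -/
def tg (w θ : Fin k → ℝ) (R : ℕ) (lab : Fin N → Fin k) (U : Mat N) (W : List Ω → ℝ)
    (rd : List Ω → Fin N → Bool) (j : Fin k) (s : ℕ) : ℝ :=
  diagM R lab U W rd j - levP w θ j R (qlev R W rd) R + levP w θ j R (qlev R W rd) s

/-- mean distance from the targets -/
def dist (w θ : Fin k → ℝ) (R : ℕ) (lab : Fin N → Fin k) (U : Mat N) (W : List Ω → ℝ)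
    (rd : List Ω → Fin N → Bool) (j : Fin k) (s : ℕ) : ℝ :=
  pm R W fun p => |hB R lab U W rd (indA j) s p - tg w θ R lab U W rd j s|

/-- the identity of the rows -/
def resF (f θ u : Fin k → ℝ) (j : Fin k) : ℝ :=
  u j * (1 + ∑ i, θ i * u i) - (∑ i, u i) * (f j + θ j * u j)

lemma resF_lip {f θ : Fin k → ℝ} {L : ℝ} (hL : ∀ i, |θ i| ≤ L) (hf : ∀ i, |f i| ≤ 1) {a b : Fin k → ℝ}
    (ha : ∀ i, |a i| ≤ 2) (hb : ∀ i, |b i| ≤ 2) (j : Fin k) :
    |resF f θ a j - resF f θ b j| ≤ (2 + 4 * L + 4 * k * L) * ∑ i, |a i - b i| := by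
  set D := ∑ i, |a i - b i|
  have hL0 : 0 ≤ L := (abs_nonneg _).trans (hL j)
  have hD : |a j - b j| ≤ D := single_le_sum (fun i _ => abs_nonneg (a i - b i)) (mem_univ j)
  have hD0 : 0 ≤ D := sum_nonneg fun i _ => abs_nonneg _
  have e : resF f θ a j - resF f θ b j = (a j - b j) * (1 + ∑ i, θ i * a i) +
      b j * (∑ i, θ i * (a i - b i)) - (∑ i, (a i - b i)) * (f j + θ j * a j) -
      (∑ i, b i) * (θ j * (a j - b j)) := by
    simp only [resF, mul_sub, sum_sub_distrib]; ring
  have h1 : |1 + ∑ i, θ i * a i| ≤ 1 + 2 * k * L := by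
    refine (abs_add_le _ _).trans (add_le_add (by simp) ((abs_sum_le_sum_abs _ _).trans
      ((sum_le_sum fun i _ => ?_).trans_eq (show ∑ _i : Fin k, L * 2 = 2 * k * L by simp; ring))))
    rw [abs_mul]; exact mul_le_mul (hL i) (ha i) (abs_nonneg _) hL0
  have h2 : |∑ i, θ i * (a i - b i)| ≤ L * D := by
    refine (abs_sum_le_sum_abs _ _).trans ((sum_le_sum fun i _ => ?_).trans_eq (mul_sum ..).symm)
    rw [abs_mul]; exact mul_le_mul_of_nonneg_right (hL i) (abs_nonneg _)
  have h3 : |f j + θ j * a j| ≤ 1 + 2 * L := by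
    refine (abs_add_le _ _).trans (add_le_add (hf j) ?_)
    rw [abs_mul, mul_comm 2 L]; exact mul_le_mul (hL j) (ha j) (abs_nonneg _) hL0
  have h4 : |∑ i, b i| ≤ 2 * k :=
    (abs_sum_le_sum_abs _ _).trans ((sum_le_sum fun i _ => hb i).trans_eq (by simp [mul_comm]))
  rw [e]
  refine (abs_sub _ _).trans ((add_le_add ((abs_sub _ _).trans (add_le_add ((abs_add_le _ _).trans
    (add_le_add (?_ : _ ≤ D * (1 + 2 * k * L)) (?_ : _ ≤ 2 * (L * D)))) (?_ : _ ≤ D * (1 + 2 * L))))
    (?_ : _ ≤ 2 * k * (L * D))).trans (le_of_eq (by ring)))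
  · rw [abs_mul]; exact mul_le_mul hD h1 (abs_nonneg _) hD0
  · rw [abs_mul]; exact mul_le_mul (hb j) h2 (abs_nonneg _) zero_le_two
  · rw [abs_mul]; exact mul_le_mul (abs_sum_le_sum_abs _ _) h3 (abs_nonneg _) hD0
  · rw [abs_mul, abs_mul]
    exact mul_le_mul h4 (mul_le_mul (hL j) hD (abs_nonneg _) hL0) (by positivity) (by positivity)

variable {R : ℕ} {W : List Ω → ℝ} {U : Mat N} {lab : Fin N → Fin k} {rd : List Ω → Fin N → Bool}
  {w θ : Fin k → ℝ}

omit [Nonempty Ω] in
lemma pm_add (F G : List Ω → ℝ) : pm R W (fun p => F p + G p) = pm R W F + pm R W G := ext_add ..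

omit [Nonempty Ω] in
lemma pm_mul (c : ℝ) (F : List Ω → ℝ) : pm R W (fun p => c * F p) = c * pm R W F := ext_const_mul ..

omit [Nonempty Ω] in
lemma pm_sum {ι : Type*} (S : Finset ι) (F : ι → List Ω → ℝ) :
    pm R W (fun p => ∑ i ∈ S, F i p) = ∑ i ∈ S, pm R W (F i) := ext_sum ..

lemma pm_const (hW : ∀ p, 0 < W p) (c : ℝ) : pm R W (fun _ => c) = c := ext_const hW ..

omit [Nonempty Ω] in
lemma mad_eq (j : Fin k) : mad R (lin R) W (fun p => pov lab U j (rd p) (rd p)) =
    pm R W fun p => |pov lab U j (rd p) (rd p) - diagM R lab U W rd j| := by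
  rw [mad, pm_eq]; rfl

lemma dist_nonneg (hW : ∀ p, 0 < W p) (j : Fin k) (s : ℕ) : 0 ≤ dist w θ R lab U W rd j s :=
  ext_nonneg hW fun _ => abs_nonneg _

/-- the distance of the overlap from its mean level -/
lemma ov_dev (hU : Matrix.of U ∈ Matrix.orthogonalGroup (Fin N) ℝ) (hW : ∀ p, 0 < W p) (s : ℕ) :
    pm R W (fun p => |hB R lab U W rd 1 s p - qlev R W rd s|) ≤
      devOf R W (ovK rd) (qlev R W rd) s := by
  rw [devOf_eq]
  refine pm_mono hW fun p _ => ?_
  simp only [hB, povc_one hU]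
  conv_lhs => rw [← ext_const (m := lin R) hW (R - s) (p.take s) (qlev R W rd s), ← ext_sub]
  exact ext_abs_le hW _ _ _

/-- two paths split at `s` against the target -/
lemma pair_tg [NeZero N] (hcov : StmtSdCov) (hR : 1 ≤ R)
    (hU : Matrix.of U ∈ Matrix.orthogonalGroup (Fin N) ℝ) (hW : ∀ p, 0 < W p) (j : Fin k) {s : ℕ}
    (hs : s ≤ R) :
    pm R W (fun p => ext (lin R) W (R - s) (p.take s) fun q =>
      |pov lab U j (rd p) (rd q) - tg w θ R lab U W rd j s|) ≤
      2 * devS R W rd s + dist w θ R lab U W rd j s := by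
  refine le_trans ?_ (add_le_add (pair_close (lab := lab) (rd := rd) hcov hR hU hW j hs).1
    (le_refl (dist w θ R lab U W rd j s)))
  rw [dist, ← pm_add]
  refine pm_mono hW fun p _ => ?_
  rw [← ext_const (m := lin R) hW (R - s) (p.take s) |hB R lab U W rd (indA j) s p - tg w θ R lab U W rd j s|,
    ← ext_add]
  exact ext_mono hW fun q => abs_sub_le _ _ _

lemma tg_bound [NeZero N] (ha : Atoms w θ) (hU : Matrix.of U ∈ Matrix.orthogonalGroup (Fin N) ℝ)
    (hW : ∀ p, 0 < W p) (j : Fin k) {s : ℕ} (hs : s ≤ R) : |tg w θ R lab U W rd j s| ≤ 2 := by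
  have hP := levP_prof ha (qlev_prof (R := R) (rd := rd) hW).1 j
  have h1 := hP.upper hs
  have h2 := hP.upper (le_refl R)
  have h3 : |diagM R lab U W rd j| ≤ 1 :=
    Vale.Agent.P168.MP.ET_bound hW fun _ => abs_pov_le hU j _ _
  rw [tg, abs_le]
  rw [abs_le] at h3
  constructor <;> linarith [h1.1, h1.2, h2.1, h2.2]

/-- **one step of the recursion** -/
theorem rows_step [NeZero N] (hcov : StmtSdCov) (ha : Atoms w θ) {Cs : ℝ} (hCs : 0 ≤ Cs)
    (hst : ∀ y : ℝ, 0 ≤ y → y ≤ 1 → ∀ u : Fin k → ℝ, (∀ j, 0 ≤ u j) → ∀ e : ℝ, |∑ j, u j - y| ≤ e →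
      (∀ j, |u j * (1 + ∑ i, θ i * u i - θ j * y) - w j * y| ≤ e) → ∀ j, |u j - phiA w θ j y| ≤ Cs * e)
    {L δ : ℝ} {θ' : Fin k → ℝ} (hθL : ∀ i, |θ i| ≤ L) (hθ'L : ∀ i, |θ' i| ≤ L)
    (hθ : ∀ i, |θ' i - θ i| ≤ δ) (hf : ∀ i, |freq lab i - w i| ≤ δ)
    (hU : Matrix.of U ∈ Matrix.orthogonalGroup (Fin N) ℝ) (hW : ∀ p, 0 < W p) {l : ℕ} (hl : l < R)
    (j : Fin k) :
    ((l + 1 : ℝ) / R) * dist w θ R lab U W rd j l ≤
      (2 + (2 * k + 2) + Cs * (2 * (2 + 2 * L) + 1 + 2 * (k * (2 + 4 * L + 4 * k * L)) * (2 * k + 2) + 12 * k)) *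
        ((∑ i, √(nodeSq R W l (resid R θ' lab U W rd (indA i) l))) + devS R W rd l +
          devOf R W (ovK rd) (qlev R W rd) l + adev R W (ovK rd) (qlev R W rd) + madJ R lab U W rd + δ +
          (∑ s ∈ Ico (l + 1) R, ∑ i, dist w θ R lab U W rd i s) / R) := by
  have hR : 1 ≤ R := by omega
  have hR' : (0:ℝ) < R := Nat.cast_pos.2 hR
  set q := qlev R W rd with hqdef
  have hq : Prof R q 1 := (qlev_prof hW).1
  have htop : q R = 1 := qlev_top hW
  set A := diagM R lab U W rd
  set t := tg w θ R lab U W rd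
  set u : Fin k → List Ω → ℝ := fun i => nodeE R W l (rho R lab U W rd (indA i) l)
  set hn : Fin k → List Ω → ℝ := fun i => nodeE R W l (hB R lab U W rd (indA i) l)
  set v : Fin k → List Ω → ℝ := fun i pre =>
    A i - ((l + 1 : ℝ) * hn i pre + ∑ s ∈ Ico (l + 1) R, t i s) / R
  set a : Fin k → ℝ := fun i => pm R W fun p => |rho R lab U W rd (indA i) l p - v i (p.take l)|
  set S := devS R W rd l
  set M := madJ R lab U W rd
  set D := (∑ s ∈ Ico (l + 1) R, ∑ i, dist w θ R lab U W rd i s) / R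
  set dl := devOf R W (ovK rd) q l
  set dA := adev R W (ovK rd) q
  set Q := ∑ i, √(nodeSq R W l (resid R θ' lab U W rd (indA i) l))
  set X := Q + S + dl + dA + M + δ + D
  have hδ : 0 ≤ δ := (abs_nonneg _).trans (hθ j)
  have hL : 0 ≤ L := (abs_nonneg _).trans (hθL j)
  have hl1 : ((l + 1 : ℝ) / R) ≤ 1 := (div_le_one hR').2 (by exact_mod_cast hl)
  have hdl : 0 ≤ dl := devOf_nonneg hW _ _ _
  have hdA : 0 ≤ dA := add_nonneg (div_nonneg (sum_nonneg fun s _ => devOf_nonneg hW _ _ _) hR'.le)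
    (devOf_nonneg hW _ _ _)
  have hS : 0 ≤ S := Real.sqrt_nonneg _
  have hM : 0 ≤ M := sum_nonneg fun i _ => by rw [mad_eq]; exact ext_nonneg hW fun _ => abs_nonneg _
  have hD : 0 ≤ D := div_nonneg (sum_nonneg fun s _ => sum_nonneg fun i _ => dist_nonneg hW i s) hR'.le
  have hQ : 0 ≤ Q := sum_nonneg fun i _ => Real.sqrt_nonneg _
  -- rows against the surrogate of the node
  have ha_le : ∀ i, a i ≤ mad R (lin R) W (fun p => pov lab U i (rd p) (rd p)) + 2 * S +
      (∑ s ∈ Ico (l + 1) R, dist w θ R lab U W rd i s) / R := fun i => by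
    refine le_trans (pm_mono hW (G := fun p => |pov lab U i (rd p) (rd p) - A i| +
      ((l + 1 : ℝ) / R) * |hB R lab U W rd (indA i) l p - hn i (p.take l)| +
      (1 / (R:ℝ)) * ∑ s ∈ Ico (l + 1) R, |hB R lab U W rd (indA i) s p - t i s|) fun p hp => ?_) ?_
    · rw [rho_eq hp hl, povc_ind,
        show pov lab U i (rd p) (rd p) - ((l + 1 : ℝ) * hB R lab U W rd (indA i) l p +
            ∑ s ∈ Ico (l + 1) R, hB R lab U W rd (indA i) s p) / R - v i (p.take l) =
          (pov lab U i (rd p) (rd p) - A i) - ((l + 1 : ℝ) / R) * (hB R lab U W rd (indA i) l p - hn i (p.take l)) -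
            (1 / (R:ℝ)) * ∑ s ∈ Ico (l + 1) R, (hB R lab U W rd (indA i) s p - t i s) by
          simp only [v, sum_sub_distrib]; ring]
      refine (abs_sub _ _).trans (add_le_add ((abs_sub _ _).trans (add_le_add le_rfl (le_of_eq ?_))) ?_)
      · rw [abs_mul, abs_of_nonneg (by positivity)]
      · rw [abs_mul, abs_of_nonneg (by positivity : (0:ℝ) ≤ 1 / R)]
        exact mul_le_mul_of_nonneg_left (abs_sum_le_sum_abs _ _) (by positivity)
    · rw [pm_add, pm_add, pm_mul, pm_mul, pm_sum, mad_eq, one_div, inv_mul_eq_div]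
      refine add_le_add (add_le_add le_rfl ?_) le_rfl
      exact (mul_le_of_le_one_left (ext_nonneg hW fun _ => abs_nonneg _) hl1).trans
        (pair_close hcov hR hU hW i hl.le).2
  have hSa : ∑ i, a i ≤ (2 * k + 2) * X := by
    have e : ∑ i, (∑ s ∈ Ico (l + 1) R, dist w θ R lab U W rd i s) / (R:ℝ) = D := by
      rw [← sum_div, sum_comm]
    refine (sum_le_sum fun i _ => ha_le i).trans ?_
    rw [sum_add_distrib, sum_add_distrib, e, sum_const, card_univ, Fintype.card_fin, nsmul_eq_mul]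
    change M + (k:ℝ) * (2 * S) + D ≤ _
    have hSX : S ≤ X := by linarith
    have hMX : M + D ≤ X := by linarith
    have hk0 : (0:ℝ) ≤ k := Nat.cast_nonneg k
    nlinarith [mul_le_mul_of_nonneg_left hSX hk0]
  have ha0 : ∀ i, 0 ≤ a i := fun i => ext_nonneg hW fun _ => abs_nonneg _
  have huv : ∀ i, pm R W (fun p => |u i (p.take l) - v i (p.take l)|) ≤ a i := fun i =>
    pm_node_close (N := N) hW hl.le _ _
  have hru : ∀ i, pm R W (fun p => |rho R lab U W rd (indA i) l p - u i (p.take l)|) ≤ 2 * a i := fun i => by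
    refine (pm_mono hW fun p _ => abs_sub_le _ (v i (p.take l)) _).trans ?_
    rw [pm_add, two_mul]
    refine add_le_add le_rfl ((le_of_eq (pm_congr fun p _ => abs_sub_comm _ _)).trans (huv i))
  have hu2 : ∀ i, ∀ pre : List Ω, pre.length = l → |u i pre| ≤ 2 := fun i pre hpre =>
    (ext_abs_le hW _ _ _).trans ((ext_mono_on hW fun suf hs =>
      abs_rho_le hU hW (by simp [hpre, hs]; omega) hl i).trans_eq (ext_const hW _ _ _))
  -- the identity at the node
  have hf1 : ∀ i, |freq lab i| ≤ 1 := fun i => by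
    rw [freq, abs_of_nonneg (by positivity)]
    refine div_le_one_of_le₀ ?_ (Nat.cast_nonneg N)
    exact_mod_cast (card_le_univ _).trans_eq (Fintype.card_fin N)
  have hres : ∀ i, pm R W (fun p => |resF (freq lab) θ' (fun m => u m (p.take l)) i|) ≤
      √(nodeSq R W l (resid R θ' lab U W rd (indA i) l)) + 2 * (2 + 4 * L + 4 * k * L) * ∑ m, a m := fun i => by
    refine (pm_mono hW fun p _ => ?_).trans ((pm_add (fun p => |nodeE R W l (resid R θ' lab U W rd (indA i) l)
      (p.take l)|) fun p => |nodeE R W l (resid R θ' lab U W rd (indA i) l) (p.take l) -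
      resF (freq lab) θ' (fun m => u m (p.take l)) i|).trans_le (add_le_add (pm_nodeSq hW l _) ?_))
    · simpa using abs_sub_le (resF (freq lab) θ' (fun m => u m (p.take l)) i)
        (nodeE R W l (resid R θ' lab U W rd (indA i) l) (p.take l)) 0 |>.trans_eq (by
          rw [sub_zero, add_comm, abs_sub_comm])
    · refine (pm_node_close (N := N) hW hl.le _ (fun pre => resF (freq lab) θ' (fun m => u m pre) i)).trans ?_
      refine (pm_mono hW (G := fun p => (2 + 4 * L + 4 * k * L) *
        ∑ m, |rho R lab U W rd (indA m) l p - u m (p.take l)|) fun p hp => ?_).trans ?_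
      · have e : resid R θ' lab U W rd (indA i) l p =
            resF (freq lab) θ' (fun m => rho R lab U W rd (indA m) l p) i := by
          simp only [resid, resF]
          rw [rho_sum 1, rho_sum θ', rho_sum (θ' * indA i)]
          simp [share, indA]
          ring
        rw [e]
        exact resF_lip hθ'L hf1 (fun m => abs_rho_le hU hW hp hl m)
          (fun m => hu2 m _ (by rw [List.length_take]; omega)) i
      · rw [pm_mul, pm_sum]
        refine (mul_le_mul_of_nonneg_left (sum_le_sum fun m _ => hru m) (by positivity)).trans_eq ?_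
        rw [← mul_sum]
        ring
  set y := lam R q l
  obtain ⟨-, hy⟩ := lam_levP ha hq htop j hl
  have hsum : pm R W (fun p => |∑ i, u i (p.take l) - y|) ≤ dl + dA := by
    have e : ∀ pre, ∑ i, u i pre = nodeE R W l (rho R lab U W rd 1 l) pre := fun pre => by
      simp only [u, nodeE, ← ext_sum]
      exact ext_congr fun suf _ => by rw [rho_sum 1]; simp
    simp only [e]
    refine (pm_node_close (N := N) hW hl.le _ (fun _ => y)).trans ?_
    refine (pm_mono hW (G := fun p => ((l + 1 : ℝ) / R) * |hB R lab U W rd 1 l p - q l| +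
      (1 / (R:ℝ)) * ∑ s ∈ Ico (l + 1) R, |hB R lab U W rd 1 s p - q s|) fun p hp => ?_).trans ?_
    · rw [rho_eq hp hl, povc_one hU, ov_self,
        show (1:ℝ) - ((l + 1 : ℝ) * hB R lab U W rd 1 l p + ∑ s ∈ Ico (l + 1) R, hB R lab U W rd 1 s p) / R - y =
          -(((l + 1 : ℝ) / R) * (hB R lab U W rd 1 l p - q l) +
            (1 / (R:ℝ)) * ∑ s ∈ Ico (l + 1) R, (hB R lab U W rd 1 s p - q s)) by
          simp only [y, lam, htop, sum_sub_distrib, sum_eq_sum_Ico_succ_bot hl]; ring, abs_neg]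
      refine (abs_add_le _ _).trans (add_le_add (le_of_eq ?_) ?_)
      · rw [abs_mul, abs_of_nonneg (by positivity)]
      · rw [abs_mul, abs_of_nonneg (by positivity : (0:ℝ) ≤ 1 / R)]
        exact mul_le_mul_of_nonneg_left (abs_sum_le_sum_abs _ _) (by positivity)
    · rw [pm_add, pm_mul, pm_mul, pm_sum, one_div, inv_mul_eq_div]
      refine add_le_add ((mul_le_of_le_one_left (ext_nonneg hW fun _ => abs_nonneg _) hl1).trans
        (ov_dev hU hW l)) ?_
      refine le_trans (div_le_div_of_nonneg_right ((sum_le_sum fun s _ => ov_dev hU hW s).trans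
        (sum_le_sum_of_subset_of_nonneg (fun s hs => mem_range.2 (mem_Ico.1 hs).2)
          fun s _ _ => devOf_nonneg hW _ _ _)) hR'.le) (le_add_of_nonneg_right (devOf_nonneg hW _ _ _))
  -- stability
  have hw1 : ∀ i, |w i| ≤ 1 := fun i => by
    rw [abs_of_pos (ha.pos i)]
    exact (single_le_sum (fun m _ => (ha.pos m).le) (mem_univ i)).trans_eq ha.one
  have hphi : pm R W (fun p => |u j (p.take l) - phiA w θ j y|) ≤
      Cs * ((2 * (2 + 2 * L) + 1 + 2 * (k * (2 + 4 * L + 4 * k * L)) * (2 * k + 2) + 12 * k) * X) := by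
    refine (pm_mono hW (G := fun p => Cs * ((2 + 2 * L) * |∑ i, u i (p.take l) - y| +
      (∑ i, |resF (freq lab) θ' (fun m => u m (p.take l)) i| + 12 * k * δ))) fun p hp => ?_).trans ?_
    · have hlen : (p.take l).length = l := by rw [List.length_take]; omega
      set Sd := ∑ i, u i (p.take l) - y
      set T := ∑ i, |resF (freq lab) θ' (fun m => u m (p.take l)) i|
      have hT : 0 ≤ T := sum_nonneg fun i _ => abs_nonneg _
      refine hst y hy.1 hy.2 (fun i => u i (p.take l)) (fun i => node_rho_nonneg hW hl hlen i) _ ?_ (fun i => ?_) j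
      · have := abs_nonneg Sd
        nlinarith [show (0:ℝ) ≤ 12 * k * δ by positivity]
      · have h1 := res_close (u := fun m => u m (p.take l)) (M := 2) hf hθ (fun m => hu2 m _ hlen) i
        have h2 : |resF (freq lab) θ' (fun m => u m (p.take l)) i| ≤ T :=
          single_le_sum (f := fun i => |resF (freq lab) θ' (fun m => u m (p.take l)) i|)
            (fun _ _ => abs_nonneg _) (mem_univ i)
        have h3 : |w i + θ i * u i (p.take l)| ≤ 1 + 2 * L := by
          refine (abs_add_le _ _).trans (add_le_add (hw1 i) ?_)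
          rw [abs_mul, mul_comm 2 L]; exact mul_le_mul (hθL i) (hu2 i _ hlen) (abs_nonneg _) hL
        have h4 : |Sd * (w i + θ i * u i (p.take l))| ≤ (1 + 2 * L) * |Sd| := by
          rw [abs_mul, mul_comm]; exact mul_le_mul_of_nonneg_right h3 (abs_nonneg _)
        rw [show u i (p.take l) * (1 + ∑ m, θ m * u m (p.take l) - θ i * y) - w i * y =
          resF w θ (fun m => u m (p.take l)) i + Sd * (w i + θ i * u i (p.take l)) by
            simp only [resF, Sd]; ring]
        have h5 : |resF w θ (fun m => u m (p.take l)) i| ≤ T + 12 * k * δ := by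
          have h6 := abs_sub_le (resF w θ (fun m => u m (p.take l)) i)
            (resF (freq lab) θ' (fun m => u m (p.take l)) i) 0
          rw [sub_zero, sub_zero, abs_sub_comm] at h6
          have : 2 * (k:ℝ) * (2 + 2 ^ 2) * δ = 12 * k * δ := by ring
          simp only [resF] at h1 h6 h2 ⊢
          linarith
        linarith [abs_add_le (resF w θ (fun m => u m (p.take l)) i) (Sd * (w i + θ i * u i (p.take l))),
          abs_nonneg Sd]
    · rw [pm_mul, pm_add, pm_mul, pm_add, pm_sum, pm_const hW]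
      refine mul_le_mul_of_nonneg_left ?_ hCs
      have hdX : dl + dA ≤ 2 * X := by linarith
      have hQX : Q ≤ X := by linarith
      have hδX : δ ≤ X := by linarith
      have e := sum_le_sum (s := univ) fun i _ => hres i
      rw [sum_add_distrib, sum_const, card_univ, Fintype.card_fin, nsmul_eq_mul] at e
      change _ ≤ Q + _ at e
      have := mul_le_mul_of_nonneg_left (hsum.trans hdX) (show 0 ≤ 2 + 2 * L by positivity)
      have := mul_le_mul_of_nonneg_left hSa (show 0 ≤ 2 * ((k:ℝ) * (2 + 4 * L + 4 * k * L)) by positivity)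
      have := mul_le_mul_of_nonneg_left hδX (show 0 ≤ 12 * (k:ℝ) by positivity)
      linarith
  -- back to the level
  have hid : ∀ pre, ((l + 1 : ℝ) / R) * (hn j pre - t j l) = phiA w θ j y - v j pre := fun pre => by
    have hrow := row_levP ha hq htop j hl
    rw [← lam_profile hq hR htop hl.le] at hrow
    change _ = phiA w θ j y at hrow
    rw [← hrow]
    simp only [v, t, tg, A, sum_add_distrib, sum_sub_distrib, sum_const, Nat.card_Ico, nsmul_eq_mul,
      Nat.cast_sub (show l + 1 ≤ R by omega)]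
    push_cast
    field_simp
    ring
  have hdist : dist w θ R lab U W rd j l ≤
      pm R W (fun p => |hn j (p.take l) - t j l|) + 2 * S := by
    rw [dist, add_comm]
    refine (pm_mono hW fun p _ => abs_sub_le _ (hn j (p.take l)) _).trans ?_
    rw [pm_add]
    exact add_le_add (pair_close hcov hR hU hW j hl.le).2 le_rfl
  have hmain : ((l + 1 : ℝ) / R) * pm R W (fun p => |hn j (p.take l) - t j l|) ≤
      a j + pm R W (fun p => |u j (p.take l) - phiA w θ j y|) := by
    rw [← pm_mul]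
    refine (pm_mono hW fun p _ => ?_).trans ((pm_add (fun p => |u j (p.take l) - v j (p.take l)|)
      fun p => |u j (p.take l) - phiA w θ j y|).trans_le (add_le_add (huv j) le_rfl))
    rw [← abs_of_nonneg (show 0 ≤ ((l + 1 : ℝ) / R) by positivity), ← abs_mul, hid,
      show phiA w θ j y - v j (p.take l) = (u j (p.take l) - v j (p.take l)) - (u j (p.take l) - phiA w θ j y) by
        ring]
    exact abs_sub _ _
  have haj : a j ≤ ∑ i, a i := single_le_sum (fun i _ => ha0 i) (mem_univ j)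
  have hSX : S ≤ X := by linarith
  have := mul_le_mul_of_nonneg_left hdist (show 0 ≤ ((l + 1 : ℝ) / R) by positivity)
  have := mul_le_of_le_one_left (show 0 ≤ 2 * S by linarith) hl1
  linarith

/-- the summand of the diagonal identity at the targets -/
def fT (θ : Fin k → ℝ) (t : Fin k → ℕ → ℝ) (q : ℕ → ℝ) (i : Fin k) (s : ℕ) : ℝ :=
  t i s * (∑ m, θ m * t m s) - q s * (θ i * t i s)

lemma prod_close {θ x X : Fin k → ℝ} {L o O : ℝ} (hL : ∀ m, |θ m| ≤ L) (hx : ∀ m, |x m| ≤ 1)
    (hX : ∀ m, |X m| ≤ 2) (hO : |O| ≤ 1) (i : Fin k) :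
    |x i * (∑ m, θ m * x m) - o * (θ i * x i) - (X i * (∑ m, θ m * X m) - O * (θ i * X i))| ≤
      (k * L + 3 * L) * (∑ m, |x m - X m| + |o - O|) := by
  have hL0 : 0 ≤ L := (abs_nonneg _).trans (hL i)
  set D := ∑ m, |x m - X m|
  have hD : |x i - X i| ≤ D := single_le_sum (fun m _ => abs_nonneg (x m - X m)) (mem_univ i)
  have hD0 : 0 ≤ D := sum_nonneg fun m _ => abs_nonneg _
  have h1 : |∑ m, θ m * x m| ≤ k * L := by
    refine (abs_sum_le_sum_abs _ _).trans ((sum_le_sum fun m _ => ?_).trans_eq (show ∑ _m : Fin k, L * 1 = k * L by simp))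
    rw [abs_mul]; exact mul_le_mul (hL m) (hx m) (abs_nonneg _) hL0
  have h2 : |∑ m, θ m * (x m - X m)| ≤ L * D := by
    refine (abs_sum_le_sum_abs _ _).trans ((sum_le_sum fun m _ => ?_).trans_eq (mul_sum ..).symm)
    rw [abs_mul]; exact mul_le_mul_of_nonneg_right (hL m) (abs_nonneg _)
  rw [show x i * (∑ m, θ m * x m) - o * (θ i * x i) - (X i * (∑ m, θ m * X m) - O * (θ i * X i)) =
    (x i - X i) * (∑ m, θ m * x m) + X i * (∑ m, θ m * (x m - X m)) -
      (o - O) * (θ i * x i) - O * (θ i * (x i - X i)) by simp only [mul_sub, sum_sub_distrib]; ring]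
  refine (abs_sub _ _).trans ((add_le_add ((abs_sub _ _).trans (add_le_add ((abs_add_le _ _).trans
    (add_le_add (?_ : _ ≤ D * (k * L)) (?_ : _ ≤ 2 * (L * D)))) (?_ : _ ≤ |o - O| * L)))
    (?_ : _ ≤ L * D)).trans ?_)
  · rw [abs_mul]; exact mul_le_mul hD h1 (abs_nonneg _) hD0
  · rw [abs_mul]; exact mul_le_mul (hX i) h2 (abs_nonneg _) zero_le_two
  · rw [abs_mul]
    refine mul_le_mul_of_nonneg_left ?_ (abs_nonneg _)
    rw [abs_mul]
    exact (mul_le_mul (hL i) (hx i) (abs_nonneg _) hL0).trans_eq (mul_one L)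
  · rw [abs_mul, abs_mul]
    exact (mul_le_mul hO (mul_le_mul (hL i) hD (abs_nonneg _) hL0) (by positivity) zero_le_one).trans_eq
      (one_mul _)
  · have := mul_nonneg (mul_nonneg (Nat.cast_nonneg (α := ℝ) k) hL0) (abs_nonneg (o - O))
    have := mul_nonneg hL0 (abs_nonneg (o - O))
    linarith

/-- **the shift of the diagonal** -/
theorem diag_step [NeZero N] (hcov : StmtSdCov) (ha : Atoms w θ) {Cd : ℝ}
    (hsh : ∀ y : ℝ, 0 ≤ y → y ≤ 1 → ∀ (a : Fin k → ℝ) (e : ℝ), |∑ j, a j| ≤ e →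
      (∀ j, |a j * pA w θ j y + phiA w θ j y * ∑ i, θ i * a i| ≤ e) → ∀ j, |a j| ≤ Cd * e)
    {L δ : ℝ} {θ' : Fin k → ℝ} (hθ'L : ∀ i, |θ' i| ≤ L)
    (hθ : ∀ i, |θ' i - θ i| ≤ δ) (hf : ∀ i, |freq lab i - w i| ≤ δ)
    (hU : Matrix.of U ∈ Matrix.orthogonalGroup (Fin N) ℝ) (hW : ∀ p, 0 < W p) {l : ℕ} (hl : l < R)
    (hlδ : (l : ℝ) ≤ δ * R)
    (hdia : ∑ i, √(nodeSq R W l (diaI R θ' lab U W rd (indA i) l)) ≤ δ) (j : Fin k) :
    |diagM R lab U W rd j - levP w θ j R (qlev R W rd) R| ≤
      Cd * ((1 + (1 + (k * L + 3 * L)) + (k * L + 3 * L) * (2 * k + 2) + (4 * k * L + 2 * L) +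
        2 * (4 * k + 2) + 1) *
        (δ + madJ R lab U W rd + devA R W rd + adev R W (ovK rd) (qlev R W rd) +
          (∑ s ∈ range R, ∑ i, dist w θ R lab U W rd i s) / R)) := by
  have hR : 1 ≤ R := by omega
  have hR' : (0:ℝ) < R := Nat.cast_pos.2 hR
  set q := qlev R W rd with hqdef
  have hq : Prof R q 1 := (qlev_prof hW).1
  have htop : q R = 1 := qlev_top hW
  have hL : 0 ≤ L := (abs_nonneg _).trans (hθ'L j)
  set A := diagM R lab U W rd
  set t := tg w θ R lab U W rd
  set P := fun i => levP w θ i R q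
  set C3 : ℝ := k * L + 3 * L
  set E := (∑ s ∈ range R, ∑ i, dist w θ R lab U W rd i s) / R
  set M := madJ R lab U W rd
  set dA := adev R W (ovK rd) q
  set dS := devA R W rd
  set X := δ + M + dS + dA + E
  have hδ : 0 ≤ δ := (abs_nonneg _).trans (hθ j)
  have hM : 0 ≤ M := sum_nonneg fun i _ => by rw [mad_eq]; exact ext_nonneg hW fun _ => abs_nonneg _
  have hdA : 0 ≤ dA := add_nonneg (div_nonneg (sum_nonneg fun s _ => devOf_nonneg hW _ _ _) hR'.le)
    (devOf_nonneg hW _ _ _)
  have hdS : 0 ≤ dS := div_nonneg (sum_nonneg fun s _ => Real.sqrt_nonneg _) hR'.le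
  have hE : 0 ≤ E := div_nonneg (sum_nonneg fun s _ => sum_nonneg fun i _ => dist_nonneg hW i s) hR'.le
  have hC3 : 0 ≤ C3 := by positivity
  have hqb : ∀ s, s ≤ R → |q s| ≤ 1 := fun s hs => by
    rw [abs_of_nonneg (hq.upper hs).1]; exact (hq.upper hs).2
  have htb : ∀ m s, s ≤ R → |t m s| ≤ 2 := fun m s hs => tg_bound ha hU hW m hs
  have htR : ∀ m, t m R = A m := fun m => by simp only [t, tg, A]; ring
  refine hsh _ (lam_levP ha hq htop j (show 0 < R by omega)).2.1 (lam_levP ha hq htop j (show 0 < R by omega)).2.2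
    (fun i => A i - P i R) _ ?_ (fun i => ?_) j
  · rw [sum_sub_distrib, sum_levP ha hq (le_refl R), htop]
    have e : ∑ i, A i = 1 := by
      simp only [A, diagM, mean1, pm_eq, List.getD_cons_zero, ← pm_sum]
      rw [pm_congr (G := fun _ => (1:ℝ)) fun p _ => ?_, pm_const hW]
      have := povc_one (lab := lab) hU (rd p) (rd p)
      simpa [povc, ov_self] using this
    rw [e, sub_self, abs_zero]
    positivity
  · set y := lam R q 0
    set fi := freq lab i
    -- the identity
    have h0 : |pm R W (diaI R θ' lab U W rd (indA i) l)| ≤ δ := by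
      rw [← pm_node (N := N) hW hl.le (diaI R θ' lab U W rd (indA i) l)]
      exact (pm_abs hW _).trans ((pm_nodeSq hW l _).trans
        ((single_le_sum (f := fun m => √(nodeSq R W l (diaI R θ' lab U W rd (indA m) l)))
          (fun m _ => Real.sqrt_nonneg _) (mem_univ i)).trans hdia))
    set Gp := A i - fi + fT θ' t q i R - (∑ s ∈ Ico l R, fT θ' t q i s) / R
    have hT : ∀ p : List Ω, p.length = R → ∀ s, s ≤ R →
        |ext (lin R) W (R - s) (p.take s) (fun x => pairT θ' lab U (indA i) (rd p) (rd x) (rd p)) -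
          fT θ' t q i s| ≤ C3 * (∑ m, ext (lin R) W (R - s) (p.take s)
            (fun x => |pov lab U m (rd p) (rd x) - t m s|) +
            ext (lin R) W (R - s) (p.take s) fun x => |ov (rd p) (rd x) - q s|) := fun p _ s hs => by
      conv_lhs => rw [← ext_const (m := lin R) hW (R - s) (p.take s) (fT θ' t q i s), ← ext_sub]
      refine (ext_abs_le hW _ _ _).trans ?_
      rw [← ext_sum, ← ext_add, ← ext_const_mul]
      refine ext_mono hW fun x => ?_
      have e : pairT θ' lab U (indA i) (rd p) (rd x) (rd p) =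
          pov lab U i (rd p) (rd x) * (∑ m, θ' m * pov lab U m (rd p) (rd x)) -
            ov (rd p) (rd x) * (θ' i * pov lab U i (rd p) (rd x)) := by
        simp only [pairT, povc_ind, povc_one hU, Vale.Agent.P157.Par.ov_comm (rd x)]
        simp only [povc, Pi.mul_apply, indA, mul_ite, mul_one, mul_zero, ite_mul, zero_mul, sum_ite_eq',
          mem_univ, if_true, pov_comm (lab := lab) (U := U) _ (rd x) (rd p)]
      rw [e, fT]
      exact prod_close hθ'L (fun m => abs_pov_le hU m _ _) (fun m => htb m s hs) (hqb s hs) i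
    have h1 : |pm R W (diaI R θ' lab U W rd (indA i) l) - Gp| ≤
        (1 + C3) * M + C3 * ((2 * k + 2) * X) := by
      rw [← pm_const hW (R := R) Gp, pm, pm, ← ext_sub]
      refine (pm_abs hW _).trans ((pm_mono hW (G := fun p => |pov lab U i (rd p) (rd p) - A i| +
        C3 * (∑ m, |pov lab U m (rd p) (rd p) - A m|) + (1 / (R:ℝ)) * ∑ s ∈ range R, C3 *
          (∑ m, ext (lin R) W (R - s) (p.take s) (fun x => |pov lab U m (rd p) (rd x) - t m s|) +
            ext (lin R) W (R - s) (p.take s) fun x => |ov (rd p) (rd x) - q s|)) fun p hp => ?_).trans ?_)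
      · rw [diaI, ← Ico_insert_right hl.le, sum_insert right_notMem_Ico]
        simp only [kapR, if_true, one_mul, povc_one hU, ov_self, povc_ind]
        rw [sum_congr rfl fun s hs => by rw [if_neg (mem_Ico.1 hs).2.ne]]
        have hTR := hT p hp R le_rfl
        simp only [Nat.sub_self, Vale.Agent.P168.MP.ext_zero, List.take_of_length_le hp.le, ov_self, htop,
          sub_self, abs_zero, add_zero, htR] at hTR
        simp only [Nat.sub_self, Vale.Agent.P168.MP.ext_zero, List.take_of_length_le hp.le]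
        have es : share lab (indA i) = fi := by simp [share, indA, fi]
        rw [es, mul_one, show ∀ x y z : ℝ, x - fi + (y + z) - Gp =
          (x - A i) + (y - fT θ' t q i R) + (z + (∑ s ∈ Ico l R, fT θ' t q i s) / R) from fun x y z => by
            simp only [Gp]; ring]
        refine (abs_add_le _ _).trans (add_le_add ((abs_add_le _ _).trans (add_le_add le_rfl hTR)) ?_)
        rw [← mul_sum, show ∀ a b : ℝ, -1 / (R:ℝ) * a + b / R = 1 / R * (b - a) from fun a b => by ring,
          ← sum_sub_distrib, abs_mul, abs_of_nonneg (show (0:ℝ) ≤ 1 / R by positivity)]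
        refine mul_le_mul_of_nonneg_left ((abs_sum_le_sum_abs _ _).trans ((sum_le_sum fun s hs => ?_).trans
          (sum_le_sum_of_subset_of_nonneg (fun s hs => mem_range.2 (mem_Ico.1 hs).2) fun s _ _ => ?_)))
          (by positivity)
        · rw [abs_sub_comm]; exact hT p hp s (mem_Ico.1 hs).2.le
        · exact mul_nonneg hC3 (add_nonneg (sum_nonneg fun m _ => ext_nonneg hW fun _ => abs_nonneg _)
            (ext_nonneg hW fun _ => abs_nonneg _))
      · rw [pm_add, pm_add, pm_mul, pm_sum, pm_mul, pm_sum]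
        have eM : ∑ m, pm R W (fun p => |pov lab U m (rd p) (rd p) - A m|) = M := by
          simp only [M, madJ, mad_eq, A]
        have hi : pm R W (fun p => |pov lab U i (rd p) (rd p) - A i|) ≤ M := by
          rw [← eM]
          exact single_le_sum (f := fun m => pm R W (fun p => |pov lab U m (rd p) (rd p) - A m|))
            (fun m _ => ext_nonneg hW fun _ => abs_nonneg _) (mem_univ i)
        have hs : (1 / (R:ℝ)) * ∑ s ∈ range R, pm R W (fun p => C3 *
            (∑ m, ext (lin R) W (R - s) (p.take s) (fun x => |pov lab U m (rd p) (rd x) - t m s|) +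
              ext (lin R) W (R - s) (p.take s) fun x => |ov (rd p) (rd x) - q s|)) ≤
            C3 * ((2 * k + 2) * X) := by
          refine le_trans (mul_le_mul_of_nonneg_left (sum_le_sum (g := fun s => C3 *
            (∑ m, (2 * devS R W rd s + dist w θ R lab U W rd m s) + devOf R W (ovK rd) q s)) fun s hs => ?_)
            (by positivity)) ?_
          · rw [pm_mul, pm_add, pm_sum]
            refine mul_le_mul_of_nonneg_left (add_le_add (sum_le_sum fun m _ =>
              pair_tg hcov hR hU hW m (mem_range.1 hs).le) (le_of_eq ?_)) hC3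
            rw [devOf_eq]; rfl
          · rw [← mul_sum, mul_left_comm]
            refine mul_le_mul_of_nonneg_left ?_ hC3
            simp only [sum_add_distrib, sum_const, card_univ, Fintype.card_fin, nsmul_eq_mul, ← mul_sum]
            have hdev : (∑ s ∈ range R, devOf R W (ovK rd) q s) / R ≤ dA :=
              le_add_of_nonneg_right (devOf_nonneg hW _ _ _)
            rw [one_div, inv_mul_eq_div, add_div, add_div, mul_div_assoc, mul_div_assoc]
            change (k:ℝ) * (2 * dS) + E + _ ≤ _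
            have := mul_le_mul_of_nonneg_left (show dS ≤ X by linarith) (Nat.cast_nonneg (α := ℝ) k)
            linarith
        rw [eM]
        linarith
    -- the levels below the node and the exact atoms
    have hFb : ∀ s, s ≤ R → |fT θ' t q i s| ≤ 4 * k * L + 2 * L := fun s hs => by
      refine (abs_sub _ _).trans (add_le_add ?_ ?_)
      · rw [abs_mul]
        refine (mul_le_mul (htb i s hs) ((abs_sum_le_sum_abs _ _).trans (sum_le_sum fun m _ =>
          (abs_mul _ _).trans_le (mul_le_mul (hθ'L m) (htb m s hs) (abs_nonneg _) hL)))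
          (abs_nonneg _) zero_le_two).trans_eq (by simp; ring)
      · rw [abs_mul, abs_mul]
        refine (mul_le_mul (hqb s hs) (mul_le_mul (hθ'L i) (htb i s hs) (abs_nonneg _) hL) (by positivity)
          zero_le_one).trans_eq (by ring)
    have hFd : ∀ s, s ≤ R → |fT θ' t q i s - fT θ t q i s| ≤ δ * (4 * k + 2) := fun s hs => by
      rw [show fT θ' t q i s - fT θ t q i s = t i s * (∑ m, (θ' m - θ m) * t m s) -
        q s * ((θ' i - θ i) * t i s) by simp only [fT, sub_mul, sum_sub_distrib]; ring, mul_add]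
      refine (abs_sub _ _).trans (add_le_add ?_ ?_)
      · rw [abs_mul]
        refine (mul_le_mul (htb i s hs) ((abs_sum_le_sum_abs _ _).trans (sum_le_sum fun m _ =>
          (abs_mul _ _).trans_le (mul_le_mul (hθ m) (htb m s hs) (abs_nonneg _) hδ)))
          (abs_nonneg _) zero_le_two).trans_eq (by simp; ring)
      · rw [abs_mul, abs_mul]
        refine (mul_le_mul (hqb s hs) (mul_le_mul (hθ i) (htb i s hs) (abs_nonneg _) hδ) (by positivity)
          zero_le_one).trans_eq (by ring)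
    set G := A i - fi + fT θ t q i R - (∑ s ∈ range R, fT θ t q i s) / R
    have h2 : |G - Gp| ≤ (4 * k * L + 2 * L) * δ + 2 * (4 * k + 2) * δ := by
      have e : G - Gp = -(∑ s ∈ range l, fT θ' t q i s) / R - (fT θ' t q i R - fT θ t q i R) +
          (∑ s ∈ range R, (fT θ' t q i s - fT θ t q i s)) / R := by
        simp only [G, Gp, sum_sub_distrib, ← sum_range_add_sum_Ico _ hl.le]
        ring
      rw [e]
      refine (abs_add_le _ _).trans ((add_le_add ((abs_sub _ _).trans (add_le_add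
        (?_ : _ ≤ (4 * k * L + 2 * L) * δ) (hFd R le_rfl))) (?_ : _ ≤ δ * (4 * k + 2))).trans_eq (by ring))
      · rw [abs_div, abs_neg, abs_of_pos hR', div_le_iff₀ hR']
        refine ((abs_sum_le_sum_abs _ _).trans (sum_le_sum fun s hs =>
          hFb s ((mem_range.1 hs).le.trans hl.le))).trans ?_
        rw [sum_const, card_range, nsmul_eq_mul]
        linarith [mul_le_mul_of_nonneg_left hlδ (show 0 ≤ 4 * k * L + 2 * L by positivity)]
      · rw [abs_div, abs_of_pos hR', div_le_iff₀ hR']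
        refine ((abs_sum_le_sum_abs _ _).trans (sum_le_sum fun s hs => hFd s (mem_range.1 hs).le)).trans_eq ?_
        rw [sum_const, card_range, nsmul_eq_mul, mul_comm]
    -- the bracket at the formula
    have eG : G = (A i - P i R) * pA w θ i y + phiA w θ i y * (∑ m, θ m * (A m - P m R)) + (w i - fi) := by
      have hd := levP_diag ha hq htop hR i
      have h1 : lam R (P i) 0 = phiA w θ i y := (lam_levP ha hq htop i (show 0 < R by omega)).1
      have hy0 := (lam_levP ha hq htop i (show 0 < R by omega)).2.1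
      have h2 : ∀ m, lam R (P m) 0 = phiA w θ m y := fun m => (lam_levP ha hq htop m (show 0 < R by omega)).1
      have hl0 : ∀ Z : ℕ → ℝ, lam R Z 0 = Z R - (∑ s ∈ range R, Z s) / R := fun Z => by
        simp only [lam, Nat.cast_zero, zero_div, zero_mul, sub_zero, range_eq_Ico]
      have hJ : (∑ m, θ m * P m R) - (∑ s ∈ range R, ∑ m, θ m * P m s) / R = y * Rat w θ y := by
        have h3 : ∀ m, phiA w θ m y = P m R - (∑ s ∈ range R, P m s) / R := fun m => by rw [← h2 m, hl0]
        rw [← ha.sum_theta_phiA hy0, sum_comm, sum_div, ← sum_sub_distrib]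
        exact sum_congr rfl fun m _ => by rw [h3, ← mul_sum]; ring
      have hy' : y = 1 - (∑ s ∈ range R, q s) / R := by rw [← htop]; exact hl0 q
      rw [hl0] at h1
      have e1 : ∀ s, fT θ t q i s = P i s * (∑ m, θ m * P m s) +
          (A i - P i R) * (∑ m, θ m * P m s) + P i s * (∑ m, θ m * (A m - P m R)) +
          (A i - P i R) * (∑ m, θ m * (A m - P m R)) - θ i * (q s * P i s) - θ i * (A i - P i R) * q s :=
        fun s => by
          simp only [fT, t, tg, A, P, ← hqdef, mul_add, mul_sub, sum_add_distrib, sum_sub_distrib]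
          ring
      have hRR : (∑ _s ∈ range R, (1:ℝ)) / R = 1 := by
        simp [div_self hR'.ne']
      simp only [G, e1, sum_add_distrib, sum_sub_distrib, ← mul_sum, ← sum_mul]
      rw [sum_const, card_range, nsmul_eq_mul, htop, pA_eq i hy0]
      field_simp at hd h1 hJ hy' ⊢
      linear_combination hd + (A i - P i R) * hJ + (∑ m, θ m * (A m - P m R)) * h1 +
        θ i * (A i - P i R) * hy'
    have h3 : |G| ≤ δ + ((1 + C3) * M + C3 * ((2 * k + 2) * X)) + ((4 * k * L + 2 * L) * δ + 2 * (4 * k + 2) * δ) := by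
      have a1 := abs_le.1 h0
      have a2 := abs_le.1 h1
      have a3 := abs_le.1 h2
      rw [abs_le]
      constructor <;> linarith
    have h4 : |w i - fi| ≤ δ := by rw [abs_sub_comm]; exact hf i
    have hδX : δ ≤ X := by linarith
    have hMX : M ≤ X := by linarith
    have := mul_le_mul_of_nonneg_left hMX (show 0 ≤ 1 + C3 by positivity)
    have := mul_le_mul_of_nonneg_left hδX (show 0 ≤ 4 * k * L + 2 * L by positivity)
    have := mul_le_mul_of_nonneg_left hδX (show 0 ≤ 2 * (4 * (k:ℝ) + 2) by positivity)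
    rw [eG] at h3
    have a3 := abs_le.1 h3
    have a4 := abs_le.1 h4
    rw [abs_le]
    constructor <;> linarith

/-- the projected overlaps against the formula at one level -/
lemma devOf_le [NeZero N] (hcov : StmtSdCov) (hR : 1 ≤ R)
    (hU : Matrix.of U ∈ Matrix.orthogonalGroup (Fin N) ℝ) (hW : ∀ p, 0 < W p) (j : Fin k) :
    adev R W (fun p p' => pov lab U j (rd p) (rd p')) (levP w θ j R (qlev R W rd)) ≤
      2 * devA R W rd + (∑ s ∈ range R, dist w θ R lab U W rd j s) / R +
        mad R (lin R) W (fun p => pov lab U j (rd p) (rd p)) +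
        2 * |diagM R lab U W rd j - levP w θ j R (qlev R W rd) R| := by
  have hR' : (0:ℝ) < R := Nat.cast_pos.2 hR
  set a := |diagM R lab U W rd j - levP w θ j R (qlev R W rd) R|
  have h1 : ∀ s ∈ range R, devOf R W (fun p p' => pov lab U j (rd p) (rd p'))
      (levP w θ j R (qlev R W rd)) s ≤ 2 * devS R W rd s + dist w θ R lab U W rd j s + a := fun s hs => by
    refine le_trans ?_ (add_le_add (pair_tg hcov hR hU hW j (mem_range.1 hs).le) (le_refl a))
    rw [devOf_eq, ← pm_const hW (R := R) a, ← pm_add]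
    refine pm_mono hW fun p _ => ?_
    rw [← ext_const (m := lin R) hW (R - s) (p.take s) a, ← ext_add]
    refine ext_mono hW fun x => (abs_sub_le _ (tg w θ R lab U W rd j s) _).trans (add_le_add le_rfl (le_of_eq ?_))
    simp [a, tg]
  have h2 : devOf R W (fun p p' => pov lab U j (rd p) (rd p')) (levP w θ j R (qlev R W rd)) R ≤
      mad R (lin R) W (fun p => pov lab U j (rd p) (rd p)) + a := by
    rw [devOf_eq, mad_eq, ← pm_const hW (R := R) a, ← pm_add]
    refine pm_mono hW fun p hp => ?_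
    simp only [Nat.sub_self, Vale.Agent.P168.MP.ext_zero, List.take_of_length_le hp.le]
    exact abs_sub_le _ _ _
  unfold adev
  refine (add_le_add (div_le_div_of_nonneg_right (sum_le_sum h1) hR'.le) h2).trans_eq ?_
  simp only [sum_add_distrib, ← mul_sum, sum_const, card_range, nsmul_eq_mul, devA]
  field_simp
  ring

/-- **the mean distance from the targets** -/
theorem mean_dist [NeZero N] (hcov : StmtSdCov) (ha : Atoms w θ) {Cs : ℝ} (hCs : 0 ≤ Cs)
    (hst : ∀ y : ℝ, 0 ≤ y → y ≤ 1 → ∀ u : Fin k → ℝ, (∀ j, 0 ≤ u j) → ∀ e : ℝ, |∑ j, u j - y| ≤ e →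
      (∀ j, |u j * (1 + ∑ i, θ i * u i - θ j * y) - w j * y| ≤ e) → ∀ j, |u j - phiA w θ j y| ≤ Cs * e)
    {L δ η : ℝ} {θ' : Fin k → ℝ} (hθL : ∀ i, |θ i| ≤ L) (hθ'L : ∀ i, |θ' i| ≤ L)
    (hθ : ∀ i, |θ' i - θ i| ≤ δ) (hf : ∀ i, |freq lab i - w i| ≤ δ) (hδ : 0 ≤ δ) (hL : 0 ≤ L) (hη : 0 < η)
    (hU : Matrix.of U ∈ Matrix.orthogonalGroup (Fin N) ℝ) (hW : ∀ p, 0 < W p) (hR : 1 ≤ R) {c K1 : ℝ}
    (hK : K1 = 2 + (2 * k + 2) +
      Cs * (2 * (2 + 2 * L) + 1 + 2 * (k * (2 + 4 * L + 4 * k * L)) * (2 * k + 2) + 12 * k))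
    (hc : c = k * K1 / η)
    (herr : adev R W (ovK rd) (qlev R W rd) + madJ R lab U W rd +
      (∑ l ∈ range R, ∑ j, √(nodeSq R W l (resid R θ' lab U W rd (indA j) l))) / R ≤ δ) :
    (∑ s ∈ range R, ∑ i, dist w θ R lab U W rd i s) / R ≤
      3 * k * η + exp c * c * (devA R W rd + 3 * δ) := by
  have hR' : (0:ℝ) < R := Nat.cast_pos.2 hR
  have hc0 : 0 ≤ c := by subst hc hK; positivity
  set q := qlev R W rd
  set dO := adev R W (ovK rd) q
  set M := madJ R lab U W rd
  set dA := devA R W rd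
  set Sr := (∑ l ∈ range R, ∑ j, √(nodeSq R W l (resid R θ' lab U W rd (indA j) l))) / R
  have hdO : 0 ≤ dO := add_nonneg (div_nonneg (sum_nonneg fun s _ => devOf_nonneg hW _ _ _) hR'.le)
    (devOf_nonneg hW _ _ _)
  have hM : 0 ≤ M := sum_nonneg fun i _ => by rw [mad_eq]; exact ext_nonneg hW fun _ => abs_nonneg _
  have hSr : 0 ≤ Sr := div_nonneg (sum_nonneg fun s _ => sum_nonneg fun i _ => Real.sqrt_nonneg _) hR'.le
  -- the recursion
  set e : ℕ → ℝ := fun s => ∑ i, dist w θ R lab U W rd i s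
  set b : ℕ → ℝ := fun s => c * ((∑ i, √(nodeSq R W s (resid R θ' lab U W rd (indA i) s))) + devS R W rd s +
    devOf R W (ovK rd) q s + dO + M + δ)
  have hb : ∀ s, 0 ≤ b s := fun s => mul_nonneg hc0 (by
    have : 0 ≤ devS R W rd s := Real.sqrt_nonneg _
    have := devOf_nonneg (R := R) hW (ovK rd) q s
    have : 0 ≤ ∑ i, √(nodeSq R W s (resid R θ' lab U W rd (indA i) s)) := sum_nonneg fun i _ => Real.sqrt_nonneg _
    linarith)
  set n₀ := ⌊η * (R:ℝ)⌋₊
  have hgr : ∑ s ∈ Ico n₀ R, e s ≤ exp c * ∑ s ∈ Ico n₀ R, b s := by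
    refine gronwall_sum hc0 hb fun l hl hlR => ?_
    subst hK
    have hstep : ∀ j, η * dist w θ R lab U W rd j l ≤ (2 + (2 * k + 2) + Cs * (2 * (2 + 2 * L) + 1 + 2 * (k * (2 + 4 * L + 4 * k * L)) * (2 * k + 2) + 12 * k)) * ((∑ i, √(nodeSq R W l (resid R θ' lab U W rd (indA i) l))) +
        devS R W rd l + devOf R W (ovK rd) q l + dO + M + δ + (∑ s ∈ Ico (l + 1) R, e s) / R) := fun j => by
      refine le_trans (mul_le_mul_of_nonneg_right ?_ (dist_nonneg hW j l)) (rows_step (L := L) hcov ha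
        hCs hst hθL hθ'L hθ hf hU hW hlR j)
      rw [le_div_iff₀ hR']
      have h := Nat.lt_floor_add_one (η * (R:ℝ))
      have : (n₀:ℝ) ≤ l := by exact_mod_cast hl
      linarith
    have h := sum_le_sum (s := univ) fun j _ => hstep j
    rw [← mul_sum, sum_const, card_univ, Fintype.card_fin, nsmul_eq_mul] at h
    simp only [e] at h
    simp only [e, b, hc]
    refine ((le_div_iff₀' hη).2 h).trans_eq ?_
    ring
  have he3 : ∀ s, s ≤ R → e s ≤ 3 * k := fun s hs => by
    refine (sum_le_sum fun i _ => ?_).trans_eq (show ∑ _i : Fin k, (3:ℝ) = 3 * k by simp [mul_comm])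
    refine (pm_mono hW fun p _ => (abs_sub _ _).trans (add_le_add (abs_hB_le hU hW i s p)
      (tg_bound ha hU hW i hs))).trans_eq ?_
    rw [pm_const hW]; norm_num
  have hE : (∑ s ∈ range R, e s) / R ≤ 3 * k * η + exp c * c * (dA + 3 * δ) := by
    have h1 : ∑ s ∈ range R, e s ≤ 3 * k * n₀ + exp c * ∑ s ∈ range R, b s := by
      have hn₀ : n₀ ≤ R ∨ R < n₀ := le_or_gt _ _
      rcases hn₀ with h | h
      · rw [← sum_range_add_sum_Ico _ h]
        refine add_le_add ((sum_le_sum fun s hs => he3 s ((mem_range.1 hs).le.trans h)).trans_eq ?_)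
          (hgr.trans (mul_le_mul_of_nonneg_left (sum_le_sum_of_subset_of_nonneg
            (fun s hs => mem_range.2 (mem_Ico.1 hs).2) fun s _ _ => hb s) (exp_pos _).le))
        rw [sum_const, card_range, nsmul_eq_mul, mul_comm]
      · refine ((sum_le_sum fun s hs => he3 s (mem_range.1 hs).le).trans ?_).trans
          (le_add_of_nonneg_right (mul_nonneg (exp_pos _).le (sum_nonneg fun s _ => hb s)))
        rw [sum_const, card_range, nsmul_eq_mul, mul_comm]
        exact mul_le_mul_of_nonneg_left (Nat.cast_le.2 h.le) (by positivity)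
    refine (div_le_div_of_nonneg_right h1 hR'.le).trans ?_
    rw [add_div]
    refine add_le_add ?_ ?_
    · rw [div_le_iff₀ hR']
      linarith [mul_le_mul_of_nonneg_left (Nat.floor_le (R := ℝ) (show 0 ≤ η * R by positivity))
        (show (0:ℝ) ≤ 3 * k by positivity)]
    · simp only [b]
      rw [← mul_sum, mul_div_assoc, mul_div_assoc, mul_assoc]
      refine mul_le_mul_of_nonneg_left (mul_le_mul_of_nonneg_left ?_ hc0) (exp_pos _).le
      simp only [sum_add_distrib, sum_const, card_range, nsmul_eq_mul, add_div]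
      rw [mul_div_cancel_left₀ _ hR'.ne', mul_div_cancel_left₀ _ hR'.ne', mul_div_cancel_left₀ _ hR'.ne']
      change Sr + dA + _ + dO + M + δ ≤ _
      have : (∑ s ∈ range R, devOf R W (ovK rd) q s) / R ≤ dO := le_add_of_nonneg_right (devOf_nonneg hW _ _ _)
      linarith
  exact hE

/-- **the shifts** -/
theorem shift_le [NeZero N] (hcov : StmtSdCov) (ha : Atoms w θ) {Cd : ℝ} (hCd : 0 ≤ Cd)
    (hsh : ∀ y : ℝ, 0 ≤ y → y ≤ 1 → ∀ (a : Fin k → ℝ) (e : ℝ), |∑ j, a j| ≤ e →
      (∀ j, |a j * pA w θ j y + phiA w θ j y * ∑ i, θ i * a i| ≤ e) → ∀ j, |a j| ≤ Cd * e)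
    {L δ : ℝ} {θ' : Fin k → ℝ} (hθ'L : ∀ i, |θ' i| ≤ L)
    (hθ : ∀ i, |θ' i - θ i| ≤ δ) (hf : ∀ i, |freq lab i - w i| ≤ δ)
    (hU : Matrix.of U ∈ Matrix.orthogonalGroup (Fin N) ℝ) (hW : ∀ p, 0 < W p) {K2 : ℝ}
    (hK : K2 = 1 + (1 + (k * L + 3 * L)) + (k * L + 3 * L) * (2 * k + 2) + (4 * k * L + 2 * L) +
      2 * (4 * k + 2) + 1)
    (hK2 : 0 ≤ K2) {n : ℕ} (hn1 : 1 ≤ n) (hnR : n ≤ R) (hnδ : (n : ℝ) ≤ δ * R + 1)
    (hOM : adev R W (ovK rd) (qlev R W rd) + madJ R lab U W rd ≤ δ)
    (hSd : (∑ l ∈ range n, (devS R W rd l + ∑ j, √(nodeSq R W l (diaI R θ' lab U W rd (indA j) l)))) / n ≤ δ) :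
    ∀ j, |diagM R lab U W rd j - levP w θ j R (qlev R W rd) R| ≤ Cd * (K2 * (2 * δ + devA R W rd +
      (∑ s ∈ range R, ∑ i, dist w θ R lab U W rd i s) / R)) := by
  set q := qlev R W rd
  set dO := adev R W (ovK rd) q
  set M := madJ R lab U W rd
  set dA := devA R W rd
  set E := (∑ s ∈ range R, ∑ i, dist w θ R lab U W rd i s) / R
  -- the shift
  obtain ⟨l, hln, hl⟩ : ∃ l ∈ range n, devS R W rd l +
      ∑ j, √(nodeSq R W l (diaI R θ' lab U W rd (indA j) l)) ≤ δ := by
    refine exists_le_of_sum_le ⟨0, mem_range.2 hn1⟩ ?_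
    rw [sum_const, card_range, nsmul_eq_mul]
    have hn0 : (0:ℝ) < n := Nat.cast_pos.2 hn1
    rw [div_le_iff₀ hn0, mul_comm] at hSd
    exact hSd
  have hlR : l < R := (mem_range.1 hln).trans_le hnR
  have hlδ : (l : ℝ) ≤ δ * R := by
    have : ((l + 1 : ℕ) : ℝ) ≤ n := Nat.cast_le.2 (mem_range.1 hln)
    push_cast at this
    linarith
  have hdev0 : 0 ≤ devS R W rd l := Real.sqrt_nonneg _
  intro j
  subst hK
  refine (diag_step hcov ha hsh hθ'L hθ hf
    hU hW hlR hlδ (by linarith) j).trans (mul_le_mul_of_nonneg_left (mul_le_mul_of_nonneg_left ?_ hK2)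
    hCd)
  change δ + M + dA + dO + E ≤ _
  linarith

/-- a fraction of the budget -/
lemma budget_eta {x ε : ℝ} (hx : 0 ≤ x) (hε : 0 ≤ ε) : x * (ε / (2 * (x + 1))) ≤ ε / 2 := by
  rw [mul_div_assoc', div_le_iff₀ (by positivity)]
  nlinarith

lemma budget_delta {ε Q t δ : ℝ} (hQ : 0 < Q) (ht : 0 < t) (hte : t = ε / (8 * Q))
    (hδ : δ ≤ ε / (8 * Q * (1 / t ^ 3 + 1))) : Q * (t + δ / t ^ 3 + δ) ≤ ε / 4 := by
  rw [le_div_iff₀ (by positivity)] at hδ
  have h1 : Q * t = ε / 8 := by subst hte; field_simp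
  rw [show Q * (t + δ / t ^ 3 + δ) = Q * t + δ * (8 * Q * (1 / t ^ 3 + 1)) / 8 by ring]
  linarith

/-- the choice of the constants -/
lemma final_arith {ε k η t δ dA E M B A P Q : ℝ} (hk : 0 ≤ k) (hA : 0 ≤ A) (hB : 0 ≤ B) (hdA : 0 ≤ dA)
    (hδ : 0 ≤ δ) (hP : P = 1 + 2 * B) (hQ : Q = 2 * k + 1 + A * 3 + 4 * B)
    (hE : P * E ≤ 3 * k * P * η + A * (dA + 3 * δ)) (hη : 3 * k * P * η ≤ ε / 2) (hM : M ≤ δ)
    (hQδ : Q * (t + δ / t ^ 3 + δ) ≤ ε / 4) (hdt : dA ≤ t + δ / t ^ 3) (hε : 0 ≤ ε) :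
    2 * k * dA + E + M + 2 * (B * (2 * δ + dA + E)) ≤ ε := by
  subst hP hQ
  nlinarith [mul_le_mul_of_nonneg_left hdt (show 0 ≤ 2 * k + 1 + A * 3 + 4 * B by positivity),
    mul_nonneg (show 0 ≤ 1 + 2 * A + 2 * B by positivity) hdA, mul_nonneg hk hδ]

end Vale.Agent.P166.Gen.SdSol

namespace Vale.Agent.P166.Gen

open SdSol

/-- **G1, per frame**: small identities determine the projected overlaps -/
theorem stmt_sd_solve : StmtSdCov → StmtSdStable → StmtSdShift → StmtSdSolve := by
  intro hcov hstab hshift k w θ ha ε hε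
  obtain ⟨Cs₀, hst⟩ := hstab k w θ ha
  obtain ⟨Cd₀, hsh⟩ := hshift k w θ ha
  set Cs := max Cs₀ 0
  set Cd := max Cd₀ 0
  set L := ∑ i, |θ i| + 1
  have hL : 0 ≤ L := by positivity
  have hθL0 : ∀ i, |θ i| + 1 ≤ L := fun i =>
    add_le_add (single_le_sum (fun m _ => abs_nonneg (θ m)) (mem_univ i)) le_rfl
  set K1 : ℝ := 2 + (2 * k + 2) +
    Cs * (2 * (2 + 2 * L) + 1 + 2 * (k * (2 + 4 * L + 4 * k * L)) * (2 * k + 2) + 12 * k)
  set K2 : ℝ := 1 + (1 + (k * L + 3 * L)) + (k * L + 3 * L) * (2 * k + 2) + (4 * k * L + 2 * L) +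
    2 * (4 * k + 2) + 1
  have hK1 : 0 ≤ K1 := by positivity
  have hK2 : 0 ≤ K2 := by positivity
  set P : ℝ := 1 + 2 * (k * (Cd * K2))
  have hP : 0 < P := by positivity
  set η : ℝ := ε / (2 * (3 * k * P + 1))
  have hη : 0 < η := by positivity
  set c : ℝ := k * K1 / η
  set Q : ℝ := 2 * k + 1 + P * (exp c * c) * 3 + 4 * (k * (Cd * K2))
  have hc : 0 ≤ c := by positivity
  have hQ : 0 < Q := by positivity
  set t : ℝ := ε / (8 * Q)
  have ht : 0 < t := by positivity
  set δ : ℝ := min 1 (ε / (8 * Q * (1 / t ^ 3 + 1)))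
  have hδ : 0 < δ := lt_min one_pos (by positivity)
  refine ⟨δ, hδ, fun R N _ hR θ' lab hθ hf U hU Ω _ _ W hW rd n hn1 hnR hnδ herr => ?_⟩
  have hR' : (0:ℝ) < R := Nat.cast_pos.2 hR
  have hθL : ∀ i, |θ i| ≤ L := fun i => (le_add_of_nonneg_right zero_le_one).trans (hθL0 i)
  have hθ'L : ∀ i, |θ' i| ≤ L := fun i => by
    have := abs_sub_le (θ' i) (θ i) 0
    simp only [sub_zero] at this
    linarith [hθ i, hθL0 i, min_le_left 1 (ε / (8 * Q * (1 / t ^ 3 + 1)))]
  set q := qlev R W rd
  set dO := adev R W (ovK rd) q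
  set M := madJ R lab U W rd
  set dA := devA R W rd
  set Sr := (∑ l ∈ range R, ∑ j, √(nodeSq R W l (resid R θ' lab U W rd (indA j) l))) / R
  set Sd := (∑ l ∈ range n, (devS R W rd l + ∑ j, √(nodeSq R W l (diaI R θ' lab U W rd (indA j) l)))) / n
  have hdO : 0 ≤ dO := add_nonneg (div_nonneg (sum_nonneg fun s _ => devOf_nonneg hW _ _ _) hR'.le)
    (devOf_nonneg hW _ _ _)
  have hM : 0 ≤ M := sum_nonneg fun i _ => by rw [mad_eq]; exact Vale.Agent.P168.MP.ext_nonneg hW fun _ => abs_nonneg _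
  have hSr : 0 ≤ Sr := div_nonneg (sum_nonneg fun s _ => sum_nonneg fun i _ => Real.sqrt_nonneg _) hR'.le
  have hSd : 0 ≤ Sd := div_nonneg (sum_nonneg fun s _ => add_nonneg (Real.sqrt_nonneg _)
    (sum_nonneg fun i _ => Real.sqrt_nonneg _)) (Nat.cast_nonneg n)
  change dO + M + Sr + Sd ≤ δ at herr
  have hdA0 : 0 ≤ dA := div_nonneg (sum_nonneg fun s _ => Real.sqrt_nonneg _) hR'.le
  -- fourth roots
  have hdA : dA ≤ t + δ / t ^ 3 := by
    have h : ∀ s ∈ range R, devS R W rd s ≤ t + devOf R W (ovK rd) q s / t ^ 3 := fun s _ =>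
      qroot_le (devOf_nonneg hW _ _ _) ht
    refine (div_le_div_of_nonneg_right (sum_le_sum h) hR'.le).trans ?_
    rw [sum_add_distrib, sum_const, card_range, nsmul_eq_mul, ← sum_div, add_div,
      mul_div_cancel_left₀ _ hR'.ne', div_right_comm]
    refine add_le_add le_rfl (div_le_div_of_nonneg_right ?_ (by positivity))
    have : (∑ s ∈ range R, devOf R W (ovK rd) q s) / R ≤ dO := le_add_of_nonneg_right (devOf_nonneg hW _ _ _)
    linarith
  set E := (∑ s ∈ range R, ∑ i, SdSol.dist w θ R lab U W rd i s) / R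
  have hE : E ≤ 3 * k * η + exp c * c * (dA + 3 * δ) :=
    SdSol.mean_dist hcov ha (le_max_right Cs₀ 0) (fun y h0 h1 u hu er he he' i => (hst y h0 h1 u hu er he he' i).trans
      (mul_le_mul_of_nonneg_right (le_max_left Cs₀ 0) ((abs_nonneg _).trans he))) hθL hθ'L hθ hf hδ.le hL hη hU hW
      hR rfl rfl (show dO + M + Sr ≤ δ by linarith)
  have hshift' : ∀ j, |diagM R lab U W rd j - levP w θ j R q R| ≤ Cd * (K2 * (2 * δ + dA + E)) :=
    SdSol.shift_le hcov ha (le_max_right Cd₀ 0) (fun y h0 h1 a er he he' i => (hsh y h0 h1 a er he he' i).trans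
      (mul_le_mul_of_nonneg_right (le_max_left Cd₀ 0) ((abs_nonneg _).trans he))) hθ'L hθ hf hU hW rfl hK2 hn1 hnR
      hnδ (show dO + M ≤ δ by linarith) (show Sd ≤ δ by linarith)
  -- together
  have hfin : ∑ j, adev R W (fun p p' => pov lab U j (rd p) (rd p')) (levP w θ j R q) ≤
      2 * k * dA + E + M + 2 * (k * (Cd * (K2 * (2 * δ + dA + E)))) := by
    refine (sum_le_sum fun j _ => (SdSol.devOf_le hcov hR hU hW j).trans
      (add_le_add le_rfl (mul_le_mul_of_nonneg_left (hshift' j) zero_le_two))).trans_eq ?_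
    simp only [sum_add_distrib, sum_const, card_univ, Fintype.card_fin, nsmul_eq_mul, ← sum_div]
    rw [sum_comm]
    simp only [M, madJ, E, dA]
    ring
  have hE' := mul_le_mul_of_nonneg_left hE hP.le
  have hη' : 3 * k * P * η ≤ ε / 2 := SdSol.budget_eta (by positivity) hε.le
  have hQδ : Q * (t + δ / t ^ 3 + δ) ≤ ε / 4 := SdSol.budget_delta hQ ht rfl (min_le_right _ _)
  refine hfin.trans ((le_of_eq ?_).trans (SdSol.final_arith (ε := ε) (k := k) (η := η) (t := t) (δ := δ)
    (dA := dA) (E := E) (M := M) (B := k * (Cd * K2)) (A := P * (exp c * c)) (P := P) (Q := Q)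
    (Nat.cast_nonneg k) (by positivity) (by positivity) hdA0 hδ.le rfl rfl
    (hE'.trans_eq (by ring)) hη' (by linarith) hQδ hdA hε.le))
  ring

end Vale.Agent.P166.Gen
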