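import Vale.Agent.P166.Gen.SdDefs

/-! G1: stability of the rows and of the shift of the diagonal, uniformly down to `y = 0`. With
`p = pA w θ · y` the rows read `u p + u ∑ θ (u - phiA) = w y`; summing after division by `p` bounds
the shift times the mass `y`, and every coordinate is at most that mass. -/

open Finset

noncomputable section

namespace Vale.Agent.P166.Gen

variable {k : ℕ} {w θ : Fin k → ℝ}

lemma pA_lin (i : Fin k) {y : ℝ} (hy : 0 ≤ y) : pA w θ i y = 1 + y * Rat w θ y - θ i * y := by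
  rcases hy.eq_or_lt with rfl | h
  · simp [pA]
  · rw [pA, if_pos h, Rat, if_pos h]
    field_simp
    ring

lemma phiA_mul_pA (ha : Atoms w θ) (i : Fin k) {y : ℝ} (hy : 0 ≤ y) :
    phiA w θ i y * pA w θ i y = w i * y := by
  rw [Atoms.phiA_eq i hy, mul_assoc, div_mul_cancel₀ _ (ha.pA_pos i y).ne', mul_comm]

/-- dividing rows with error `e` by `p ≥ η` and summing -/
lemma shift_bound {ι : Type} [Fintype ι] {η e T : ℝ} {p v a : ι → ℝ} (hη : 0 < η) (hp : ∀ i, η ≤ p i)
    (ha : |∑ i, a i| ≤ e) (hr : ∀ i, |a i * p i + v i * T| ≤ e) :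
    |(∑ i, v i / p i) * T| ≤ (1 + Fintype.card ι / η) * e := by
  have h : (∑ i, v i / p i) * T = (∑ i, (a i * p i + v i * T) / p i) - ∑ i, a i := by
    rw [sum_mul, ← sum_sub_distrib]
    refine sum_congr rfl fun i _ => ?_
    have := (hη.trans_le (hp i)).ne'
    field_simp
    ring
  rw [h]
  refine (abs_sub _ _).trans ((add_le_add ((abs_sum_le_sum_abs _ _).trans
    (sum_le_sum (g := fun _ => e / η) fun i _ => ?_)) ha).trans_eq
    (by rw [sum_const, card_univ, nsmul_eq_mul]; ring))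
  rw [abs_div, abs_of_pos (hη.trans_le (hp i))]
  exact div_le_div₀ ((abs_nonneg _).trans (hr i)) (hr i) hη (hp i)

theorem stmt_sd_stable : StmtSdStable := fun k w θ ha => by
  obtain ⟨t, ht⟩ := ha.exists_top
  set η := w t
  have hη : 0 < η := ha.pos t
  set L := ∑ i, |θ i|
  have hL : ∀ j, |θ j| ≤ L := fun j =>
    single_le_sum (f := fun i => |θ i|) (fun i _ => abs_nonneg _) (mem_univ j)
  have hL0 : 0 ≤ L := sum_nonneg fun i _ => abs_nonneg (θ i)
  set C := (1 + 2 * L) * (1 + k / η) + 6 * L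
  have hC : 0 ≤ C := by positivity
  refine ⟨3 + (1 + C) / η, fun y hy hy1 u hu e h1 h2 j => ?_⟩
  have he : 0 ≤ e := (abs_nonneg _).trans h1
  have hφ := fun i => ha.phiA_mem i hy
  have hsu : ∑ i, u i ≤ y + e := by linarith [(abs_le.1 h1).2]
  have huj : u j ≤ ∑ i, u i := single_le_sum (fun i _ => hu i) (mem_univ j)
  rcases le_or_gt 1 e with he1 | he1
  · have hb : 3 * e ≤ (3 + (1 + C) / η) * e :=
      mul_le_mul_of_nonneg_right (by linarith [show 0 ≤ (1 + C) / η by positivity]) he
    rw [abs_le]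
    constructor <;> linarith [hu j, hφ j]
  set D := ∑ i, θ i * (u i - phiA w θ i y) with hD
  have hr : ∀ i, |(u i - phiA w θ i y) * pA w θ i y + u i * D| ≤ e := fun i => by
    have hS : D = (∑ i, θ i * u i) - y * Rat w θ y := by
      rw [hD, ← ha.sum_theta_phiA hy, ← sum_sub_distrib]
      simp only [mul_sub]
    have h3 := h2 i
    rw [← phiA_mul_pA ha i hy] at h3
    refine le_of_eq_of_le (congrArg abs ?_) h3
    rw [hS, pA_lin i hy]
    ring
  have hsum : |∑ i, (u i - phiA w θ i y)| ≤ e := by rwa [sum_sub_distrib, ha.sum_phiA hy]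
  have hV := shift_bound hη (fun i => ha.pA_ge ht i y) hsum hr
  rw [Fintype.card_fin] at hV
  have hp : ∀ i, pA w θ i y ≤ 1 + 2 * L := fun i => by
    rw [pA_lin i hy]
    have a := abs_le.1 (ha.abs_Rat_le hy hL)
    have b := abs_le.1 (hL i)
    have : (Rat w θ y - θ i) * y ≤ 2 * L * 1 := mul_le_mul (by linarith) hy1 hy (by linarith)
    linarith
  set V := ∑ i, u i / pA w θ i y
  have hV0 : 0 ≤ V := sum_nonneg fun i _ => div_nonneg (hu i) (ha.pA_pos i y).le
  have hSV : ∑ i, u i ≤ (1 + 2 * L) * V := by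
    rw [mul_sum]
    refine sum_le_sum fun i _ => ?_
    rw [← mul_div_assoc, le_div_iff₀ (ha.pA_pos i y), mul_comm (1 + 2 * L)]
    exact mul_le_mul_of_nonneg_left (hp i) (hu i)
  have hD3 : |D| ≤ 3 * L := by
    refine (abs_sum_le_sum_abs _ _).trans ((sum_le_sum (g := fun i => L * (u i + phiA w θ i y)) fun i _ => ?_).trans ?_)
    · rw [abs_mul]
      exact mul_le_mul (hL i) (abs_le.2 ⟨by linarith [hu i, (hφ i).1], by linarith [hu i, (hφ i).1]⟩)
        (abs_nonneg _) hL0
    · rw [← mul_sum, sum_add_distrib, ha.sum_phiA hy, mul_comm 3 L]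
      exact mul_le_mul_of_nonneg_left (by linarith) hL0
  have huD : u j * |D| ≤ C * e := by
    have a1 : u j * |D| ≤ ((1 + 2 * L) * V + 2 * e) * |D| :=
      mul_le_mul_of_nonneg_right (by linarith) (abs_nonneg D)
    have a2 : (1 + 2 * L) * (V * |D|) ≤ (1 + 2 * L) * ((1 + k / η) * e) :=
      mul_le_mul_of_nonneg_left (by rwa [abs_mul, abs_of_nonneg hV0] at hV) (by linarith)
    have a3 := mul_le_mul_of_nonneg_left hD3 (show 0 ≤ 2 * e by linarith)
    simp only [C]
    linarith
  have hfin : η * |u j - phiA w θ j y| ≤ (1 + C) * e := by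
    refine (mul_le_mul_of_nonneg_right (ha.pA_ge ht j y) (abs_nonneg _)).trans ?_
    rw [← abs_of_pos (ha.pA_pos j y), ← abs_mul, mul_comm]
    have h3 : |(u j - phiA w θ j y) * pA w θ j y| ≤ e + u j * |D| := by
      rw [show u j * |D| = |u j * D| by rw [abs_mul, abs_of_nonneg (hu j)]]
      exact le_trans (by simpa using abs_sub ((u j - phiA w θ j y) * pA w θ j y + u j * D) (u j * D))
        (add_le_add (hr j) le_rfl)
    linarith
  rw [add_mul, div_mul_eq_mul_div]
  have : |u j - phiA w θ j y| ≤ (1 + C) * e / η := by rw [le_div_iff₀ hη]; linarith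
  linarith

theorem stmt_sd_shift : StmtSdShift := fun k w θ ha => by
  obtain ⟨t, ht⟩ := ha.exists_top
  set η := w t
  have hη : 0 < η := ha.pos t
  set T₀ := 1 + k / η
  refine ⟨(1 + T₀) / η, fun y hy _ a e h1 h2 j => ?_⟩
  set T := ∑ i, θ i * a i
  have hV := shift_bound hη (fun i => ha.pA_ge ht i y) h1 h2
  have hy' : y ≤ ∑ i, phiA w θ i y / pA w θ i y := by
    calc y = y * 1 := (mul_one y).symm
      _ ≤ y * qA w θ y := mul_le_mul_of_nonneg_left (ha.qA_bounds ht y).1 hy
      _ = _ := by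
        rw [qA, mul_sum]
        refine sum_congr rfl fun i _ => ?_
        rw [Atoms.phiA_eq i hy]
        have := (ha.pA_pos i y).ne'
        field_simp
  rw [Fintype.card_fin, abs_mul, abs_of_nonneg (hy.trans hy')] at hV
  have hT : phiA w θ j y * |T| ≤ T₀ * e :=
    (mul_le_mul_of_nonneg_right ((ha.phiA_mem j hy).2.trans hy') (abs_nonneg T)).trans hV
  have h3 : η * |a j| ≤ e + T₀ * e := by
    refine ((mul_le_mul_of_nonneg_right (ha.pA_ge ht j y) (abs_nonneg _)).trans ?_)
    rw [← abs_of_pos (ha.pA_pos j y), ← abs_mul, mul_comm]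
    refine le_trans (by simpa using abs_sub (a j * pA w θ j y + phiA w θ j y * T) (phiA w θ j y * T)) ?_
    rw [abs_of_nonneg (ha.phiA_mem j hy).1]
    exact add_le_add (h2 j) hT
  rw [div_mul_eq_mul_div, le_div_iff₀ hη]
  linarith

end Vale.Agent.P166.Gen
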