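import Vale.Agent.P166.Gen.SdAssemble
import Vale.Agent.P166.Gen.SdCov
import Vale.Agent.P166.Gen.SdEq
import Vale.Agent.P166.Gen.SdAlg
import Vale.Agent.P166.Gen.SdSolve
import Vale.Agent.P166.Gen.SdStable

/-! # P166 Gen G1: the rotation identities determine the projected overlaps -/

namespace Vale.Agent.P166.Gen

/-- **G1** -/
theorem stmt_sd : StmtSd :=
  sd_of stmt_sd_cov stmt_sd_eq stmt_sd_alg (stmt_sd_solve stmt_sd_cov stmt_sd_stable stmt_sd_shift)

end Vale.Agent.P166.Gen
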