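import Vale.Agent.P166.Gen.SdDefs
import Vale.Agent.P166.Functional
import Vale.Agent.P157.Par.Rep

/-!
# P166 Gen, G1: means over paths and below nodes for `stmt_sd_solve`
-/

open MeasureTheory Filter Finset Real
open scoped Topology
open Vale.Agent.P157.Par (Prof adev devOf ovK qlev ov ext_prefix tower tower' ext_congr_len)
open Vale.Agent.P168.MP (lin ET ext Z)

noncomputable section

namespace Vale.Agent.P166.Gen.SdSol

open Vale.Agent.P168.MP (ext_congr ext_mono_on ext_const ext_sum ext_const_mul ext_succ ext_abs_le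
  ext_bound ext_sub ext_add ext_nonneg ext_sq_le ext_zero ET_cons ET_single Z_pos)

variable {k N : ℕ} {Ω : Type} [Fintype Ω] [Nonempty Ω] {R : ℕ} {W : List Ω → ℝ}

omit [Nonempty Ω] in
/-- independent averages below two nodes commute -/
lemma ext_swap {m : ℕ → ℝ} {w : List Ω → ℝ} :
    ∀ (a : ℕ) (pre : List Ω) (b : ℕ) (pre' : List Ω) (F : List Ω → List Ω → ℝ),
      ext m w a pre (fun p => ext m w b pre' (F p)) = ext m w b pre' fun q => ext m w a pre fun p => F p q
  | 0, pre, b, pre', F => by simp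
  | a + 1, pre, b, pre', F => by
    simp only [ext_succ, ext_sum, ext_const_mul]
    exact sum_congr rfl fun o _ => by rw [ext_swap a]

/-- the mean over the paths -/
def pm (R : ℕ) (W : List Ω → ℝ) (F : List Ω → ℝ) : ℝ := ext (lin R) W R [] F

omit [Nonempty Ω] in
lemma pm_eq (F : List (List Ω) → ℝ) :
    ET R (lin R) W [(0, 0)] F = pm R W fun p => F [p] := ET_single F

lemma pm_mono (hW : ∀ p, 0 < W p) {F G : List Ω → ℝ} (h : ∀ p, p.length = R → F p ≤ G p) :
    pm R W F ≤ pm R W G :=
  ext_mono_on hW fun suf hs => h _ (by simpa using hs)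

omit [Nonempty Ω] in
lemma pm_congr {F G : List Ω → ℝ} (h : ∀ p, p.length = R → F p = G p) : pm R W F = pm R W G :=
  ext_congr fun suf hs => h _ (by simpa using hs)

lemma pm_abs (hW : ∀ p, 0 < W p) (F : List Ω → ℝ) : |pm R W F| ≤ pm R W fun p => |F p| :=
  ext_abs_le hW _ _ F

lemma pm_sqrt (hW : ∀ p, 0 < W p) (F : List Ω → ℝ) :
    pm R W (fun p => |F p|) ≤ √(pm R W fun p => F p ^ 2) := by
  refine Real.le_sqrt_of_sq_le ?_
  have h := ext_sq_le (m := lin R) hW R [] fun p => |F p|
  simp only [sq_abs] at h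
  exact h

/-- a node mean of a deeper node mean -/
lemma node_tower [NeZero N] (hW : ∀ p, 0 < W p) {l s : ℕ} (hl : l ≤ s) (hs : s ≤ R) {pre : List Ω}
    (hpre : pre.length = l) (z : List Ω → ℝ) :
    nodeE R W l (fun p => nodeE R W s z (p.take s)) pre = nodeE R W l z pre := by
  unfold nodeE
  rw [tower' hl hs pre z]
  exact ext_prefix (m := lin R) hW hl hs hpre fun q => ext (lin R) W (R - s) q z

lemma pm_node [NeZero N] (hW : ∀ p, 0 < W p) {l : ℕ} (hl : l ≤ R) (z : List Ω → ℝ) :
    pm R W (fun p => nodeE R W l z (p.take l)) = pm R W z := by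
  have h := node_tower (N := N) (R := R) hW (Nat.zero_le l) hl (pre := []) rfl z
  simpa [nodeE, pm] using h

/-- replacing a function by one of the node costs its mean distance twice -/
lemma pm_node_close [NeZero N] (hW : ∀ p, 0 < W p) {l : ℕ} (hl : l ≤ R) (z v : List Ω → ℝ) :
    pm R W (fun p => |nodeE R W l z (p.take l) - v (p.take l)|) ≤
      pm R W fun p => |z p - v (p.take l)| := by
  rw [← pm_node (N := N) hW hl fun p => |z p - v (p.take l)|]
  refine pm_mono hW fun p hp => ?_
  have e : nodeE R W l z (p.take l) - v (p.take l) =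
      nodeE R W l (fun q => z q - v (q.take l)) (p.take l) := by
    unfold nodeE
    rw [ext_sub, ← ext_const (m := lin R) hW (R - l) (p.take l) (v (p.take l))]
    refine congrArg _ (ext_congr fun suf _ => ?_)
    rw [List.take_left' (by rw [List.length_take]; omega)]
  rw [e]
  exact ext_abs_le hW _ _ _

/-- root mean square at the nodes -/
lemma pm_nodeSq (hW : ∀ p, 0 < W p) (l : ℕ) (z : List Ω → ℝ) :
    pm R W (fun p => |nodeE R W l z (p.take l)|) ≤ √(nodeSq R W l z) := by
  rw [nodeSq, pm_eq]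
  exact pm_sqrt hW fun p => nodeE R W l z (p.take l)

omit [Nonempty Ω] in
lemma devOf_eq (C : List Ω → List Ω → ℝ) (q : ℕ → ℝ) (l : ℕ) :
    devOf R W C q l = pm R W fun p => ext (lin R) W (R - l) (p.take l) fun p' => |C p p' - q l| := by
  rw [devOf, ET_cons, ET_single]
  rfl

lemma devOf_nonneg (hW : ∀ p, 0 < W p) (C : List Ω → List Ω → ℝ) (q : ℕ → ℝ) (l : ℕ) :
    0 ≤ devOf R W C q l := by
  rw [devOf_eq]
  exact ext_nonneg hW fun p => ext_nonneg hW fun _ => abs_nonneg _

/-! ### the forms -/

variable {U : Mat N} {lab : Fin N → Fin k}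

lemma pov_comm (j : Fin k) (σ τ : Fin N → Bool) : pov lab U j σ τ = pov lab U j τ σ := by
  simp only [pov, mul_comm (cd U σ _)]

lemma pov_le_half (j : Fin k) (σ τ : Fin N → Bool) :
    |pov lab U j σ τ| ≤ (pov lab U j σ σ + pov lab U j τ τ) / 2 := by
  simp only [pov, ← add_div, abs_div, abs_of_nonneg (Nat.cast_nonneg (α := ℝ) N), ← sum_add_distrib]
  rw [div_right_comm]
  refine div_le_div_of_nonneg_right ?_ (Nat.cast_nonneg N)
  rw [sum_div]
  exact (abs_sum_le_sum_abs _ _).trans (sum_le_sum fun i _ => by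
    rw [abs_mul]
    nlinarith [two_mul_le_add_sq |cd U σ i| |cd U τ i|, sq_abs (cd U σ i), sq_abs (cd U τ i)])

lemma abs_pov_le (hU : Matrix.of U ∈ Matrix.orthogonalGroup (Fin N) ℝ) (j : Fin k) (σ τ : Fin N → Bool) :
    |pov lab U j σ τ| ≤ 1 := by
  refine (pov_le_half j σ τ).trans ?_
  have h : ∀ σ : Fin N → Bool, pov lab U j σ σ ≤ 1 := fun σ => by
    rw [pov]
    refine div_le_one_of_le₀ ?_ (Nat.cast_nonneg N)
    rw [← sum_field_sq hU σ]
    simp only [← sq]
    exact sum_le_sum_of_subset_of_nonneg (subset_univ _) fun i _ _ => sq_nonneg _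
  linarith [h σ, h τ]

/-- the projections sum to the overlap -/
lemma povc_one (hU : Matrix.of U ∈ Matrix.orthogonalGroup (Fin N) ℝ) (σ τ : Fin N → Bool) :
    povc lab U 1 σ τ = ov σ τ := by
  have h := (Matrix.mem_orthogonalGroup_iff' (Fin N) ℝ).1 hU
  have e : ∀ i j, ∑ r, U r i * U r j = if i = j then 1 else 0 := fun i j => by
    have := congrFun (congrFun h i) j
    simpa [Matrix.mul_apply, Matrix.transpose_apply, Matrix.one_apply] using this
  simp only [povc, Pi.one_apply, one_mul, pov, ← sum_div]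
  rw [sum_fiberwise univ lab fun i => cd U σ i * cd U τ i, ov, Vale.Agent.P168.MP.avg, Fintype.card_fin]
  congr 1
  calc ∑ r, cd U σ r * cd U τ r = ∑ i, ∑ j, (spin (σ i) * spin (τ j)) * ∑ r, U r i * U r j := by
        simp only [cd, sum_mul_sum]
        rw [sum_comm]
        refine sum_congr rfl fun i _ => ?_
        rw [sum_comm]
        refine sum_congr rfl fun j _ => ?_
        rw [mul_sum]
        exact sum_congr rfl fun r _ => by ring
    _ = _ := by simp [e, spin, Vale.Agent.P168.sg]

lemma povc_ind (j : Fin k) (σ τ : Fin N → Bool) : povc lab U (indA j) σ τ = pov lab U j σ τ := by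
  simp [povc, indA]

variable {rd : List Ω → Fin N → Bool}

omit [Nonempty Ω] in
lemma hB_sum (c : Fin k → ℝ) (s : ℕ) (p : List Ω) :
    hB R lab U W rd c s p = ∑ i, c i * hB R lab U W rd (indA i) s p := by
  simp only [hB, povc_ind]
  simp only [povc, ext_sum, ext_const_mul]

omit [Nonempty Ω] in
lemma rho_sum (c : Fin k → ℝ) (l : ℕ) (p : List Ω) :
    rho R lab U W rd c l p = ∑ i, c i * rho R lab U W rd (indA i) l p := by
  simp only [rho, mul_sum]
  rw [sum_comm]
  refine sum_congr rfl fun s _ => ?_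
  rw [hB_sum, mul_sum]
  exact sum_congr rfl fun i _ => by ring

omit [Nonempty Ω] in
lemma hB_top {p : List Ω} (hp : p.length = R) (c : Fin k → ℝ) :
    hB R lab U W rd c R p = povc lab U c (rd p) (rd p) := by
  simp [hB, List.take_of_length_le hp.le]

lemma abs_hB_le (hU : Matrix.of U ∈ Matrix.orthogonalGroup (Fin N) ℝ) (hW : ∀ p, 0 < W p) (j : Fin k)
    (s : ℕ) (p : List Ω) : |hB R lab U W rd (indA j) s p| ≤ 1 :=
  ext_bound hW fun _ => by rw [povc_ind]; exact abs_pov_le hU j _ _

omit [Nonempty Ω] in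
lemma rho_eq {p : List Ω} (hp : p.length = R) {l : ℕ} (hl : l < R) (c : Fin k → ℝ) :
    rho R lab U W rd c l p = povc lab U c (rd p) (rd p) -
      ((l + 1 : ℝ) * hB R lab U W rd c l p + ∑ s ∈ Ico (l + 1) R, hB R lab U W rd c s p) / R := by
  rw [rho, ← Ico_insert_right hl.le, sum_insert right_notMem_Ico, sum_eq_sum_Ico_succ_bot hl, hB_top hp]
  simp only [rc, if_true, if_neg hl.ne]
  rw [sum_congr rfl fun s hs => by
    rw [if_neg (mem_Ico.1 hs).2.ne, if_neg (show s ≠ l by have := (mem_Ico.1 hs).1; omega)], ← mul_sum]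
  ring

lemma weights {l : ℕ} (hl : l < R) :
    (((l + 1 : ℝ) + ∑ _s ∈ Ico (l + 1) R, (1:ℝ)) / R) = 1 := by
  have hR : (0:ℝ) < R := Nat.cast_pos.2 (by omega)
  simp only [sum_const, Nat.card_Ico, nsmul_one, Nat.cast_sub (show l + 1 ≤ R by omega)]
  push_cast
  field_simp
  ring

/-- a weighted mean of numbers bounded by `B` -/
lemma row_le {l : ℕ} (hl : l < R) {B x : ℝ} {y : ℕ → ℝ} (hx : x ≤ B) (hy : ∀ s ∈ Ico (l + 1) R, y s ≤ B) :
    ((l + 1 : ℝ) * x + ∑ s ∈ Ico (l + 1) R, y s) / R ≤ B := by
  calc ((l + 1 : ℝ) * x + ∑ s ∈ Ico (l + 1) R, y s) / R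
      ≤ ((l + 1 : ℝ) * B + ∑ _s ∈ Ico (l + 1) R, B) / R := div_le_div_of_nonneg_right
        (add_le_add (mul_le_mul_of_nonneg_left hx (by positivity)) (sum_le_sum hy)) (Nat.cast_nonneg R)
    _ = B * (((l + 1 : ℝ) + ∑ _s ∈ Ico (l + 1) R, (1:ℝ)) / R) := by
        rw [← mul_div_assoc, mul_add, mul_sum]; simp [mul_comm]
    _ = B := by rw [weights hl, mul_one]

lemma abs_row_le {l : ℕ} (hl : l < R) {B x : ℝ} {y : ℕ → ℝ} (hx : |x| ≤ B)
    (hy : ∀ s ∈ Ico (l + 1) R, |y s| ≤ B) :
    |((l + 1 : ℝ) * x + ∑ s ∈ Ico (l + 1) R, y s) / R| ≤ B := by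
  refine abs_le.2 ⟨?_, row_le hl (abs_le.1 hx).2 fun s hs => (abs_le.1 (hy s hs)).2⟩
  have := row_le hl (B := B) (x := -x) (y := fun s => -y s) (by linarith [(abs_le.1 hx).1])
    fun s hs => by linarith [(abs_le.1 (hy s hs)).1]
  rw [sum_neg_distrib, mul_neg, ← neg_add, neg_div] at this
  linarith

lemma abs_rho_le (hU : Matrix.of U ∈ Matrix.orthogonalGroup (Fin N) ℝ) (hW : ∀ p, 0 < W p) {p : List Ω}
    (hp : p.length = R) {l : ℕ} (hl : l < R) (j : Fin k) : |rho R lab U W rd (indA j) l p| ≤ 2 := by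
  rw [rho_eq hp hl, povc_ind]
  refine (abs_sub _ _).trans ?_
  have h1 := abs_pov_le (lab := lab) hU j (rd p) (rd p)
  have h2 := abs_row_le hl (B := 1) (y := fun s => hB R lab U W rd (indA j) s p)
    (abs_hB_le (rd := rd) (lab := lab) (R := R) hU hW j l p)
    fun s _ => abs_hB_le (rd := rd) (lab := lab) (R := R) hU hW j s p
  linarith

/-- a node mean of a row is nonnegative -/
lemma node_rho_nonneg [NeZero N] (hW : ∀ p, 0 < W p) {l : ℕ} (hl : l < R) {pre : List Ω} (hpre : pre.length = l) (j : Fin k) :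
    0 ≤ nodeE R W l (rho R lab U W rd (indA j) l) pre := by
  set G := nodeE R W l (fun p => pov lab U j (rd p) (rd p)) pre
  have hB_le : ∀ s, l ≤ s → s ≤ R → nodeE R W l (hB R lab U W rd (indA j) s) pre ≤ G := fun s hls hsR => by
    have h1 : nodeE R W l (hB R lab U W rd (indA j) s) pre ≤ nodeE R W l (fun p =>
        pov lab U j (rd p) (rd p) / 2 + nodeE R W s (fun q => pov lab U j (rd q) (rd q) / 2) (p.take s)) pre := by
      refine ext_mono_on hW fun suf _ => ?_
      simp only [hB, povc_ind, nodeE]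
      conv_rhs => rw [← ext_const (m := lin R) hW (R - s) ((pre ++ suf).take s)
        (pov lab U j (rd (pre ++ suf)) (rd (pre ++ suf)) / 2), ← ext_add]
      refine ext_mono_on hW fun suf' _ => ?_
      have := (le_abs_self _).trans (pov_le_half (U := U) (lab := lab) j (rd (pre ++ suf))
        (rd ((pre ++ suf).take s ++ suf')))
      linarith
    refine h1.trans (le_of_eq ?_)
    rw [show nodeE R W l (fun p => pov lab U j (rd p) (rd p) / 2 +
        nodeE R W s (fun q => pov lab U j (rd q) (rd q) / 2) (p.take s)) pre =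
        nodeE R W l (fun p => pov lab U j (rd p) (rd p) / 2) pre +
        nodeE R W l (fun p => nodeE R W s (fun q => pov lab U j (rd q) (rd q) / 2) (p.take s)) pre
      from ext_add .., node_tower (N := N) hW hls hsR hpre]
    simp only [G, nodeE, div_eq_mul_inv, Vale.Agent.P168.MP.ext_mul_const]
    ring
  have e : nodeE R W l (rho R lab U W rd (indA j) l) pre = G -
      ((l + 1 : ℝ) * nodeE R W l (hB R lab U W rd (indA j) l) pre +
        ∑ s ∈ Ico (l + 1) R, nodeE R W l (hB R lab U W rd (indA j) s) pre) / R := by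
    rw [nodeE, ext_congr (G := fun x => povc lab U (indA j) (rd x) (rd x) -
      ((l + 1 : ℝ) * hB R lab U W rd (indA j) l x +
        ∑ s ∈ Ico (l + 1) R, hB R lab U W rd (indA j) s x) / R) fun suf hs => rho_eq (p := pre ++ suf) (by simp [hpre, hs]; omega) hl (indA j)]
    simp only [G, nodeE, povc_ind, div_eq_mul_inv, Vale.Agent.P168.MP.ext_mul_const, ext_sub, ext_add,
      ext_const_mul, ext_sum]
  rw [e, sub_nonneg]
  exact row_le hl (hB_le l le_rfl hl.le) fun s hs => hB_le s (by simp at hs; omega) (mem_Ico.1 hs).2.le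

/-- the covariance bound for a form of two paths sharing `l` marks -/
lemma pair_close [NeZero N] (hcov : StmtSdCov) (hR : 1 ≤ R)
    (hU : Matrix.of U ∈ Matrix.orthogonalGroup (Fin N) ℝ) (hW : ∀ p, 0 < W p) (j : Fin k) {l : ℕ}
    (hl : l ≤ R) :
    (pm R W (fun p => ext (lin R) W (R - l) (p.take l) fun q =>
        |pov lab U j (rd p) (rd q) - hB R lab U W rd (indA j) l p|) ≤ 2 * devS R W rd l) ∧
    pm R W (fun p => |hB R lab U W rd (indA j) l p -
        nodeE R W l (hB R lab U W rd (indA j) l) (p.take l)|) ≤ 2 * devS R W rd l := by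
  obtain ⟨h1, -⟩ := hcov k R N hR lab U hU W hW rd l hl
  rw [pm_eq] at h1
  simp only [List.getD_cons_zero] at h1
  have h2 : ∀ (σ : Fin N → Bool) (pre : List Ω), pre.length = l →
      nodeE R W l (fun q => |pov lab U j σ (rd q) - nodeE R W l (fun q' => pov lab U j σ (rd q')) pre|) pre ≤
        devN R W rd l pre := fun σ pre hp => by
    have h := (hcov k R N hR lab U hU W hW rd l hl).2 (indA j)
      (fun i => by unfold indA; split_ifs <;> norm_num) σ pre hp
    simpa only [povc_ind] using h
  constructor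
  · refine le_trans (pm_mono hW fun p hp => ?_) h1
    have := h2 (rd p) (p.take l) (by rw [List.length_take]; omega)
    simpa only [hB, povc_ind, nodeE] using this
  · refine le_trans ?_ h1
    rw [← pm_node (N := N) hW hl fun p => |hB R lab U W rd (indA j) l p -
      nodeE R W l (hB R lab U W rd (indA j) l) (p.take l)|]
    refine pm_mono hW fun p hp => ?_
    have hlen : (p.take l).length = l := by rw [List.length_take]; omega
    set pre := p.take l
    unfold nodeE
    calc ext (lin R) W (R - l) pre (fun x => |hB R lab U W rd (indA j) l x -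
          ext (lin R) W (R - l) (x.take l) (hB R lab U W rd (indA j) l)|)
        ≤ ext (lin R) W (R - l) pre (fun x => ext (lin R) W (R - l) pre fun q =>
            |pov lab U j (rd x) (rd q) - ext (lin R) W (R - l) pre fun x' => pov lab U j (rd x') (rd q)|) := by
          refine ext_mono_on hW fun suf _ => ?_
          rw [show hB R lab U W rd (indA j) l = fun x => ext (lin R) W (R - l) (x.take l) fun q =>
            pov lab U j (rd x) (rd q) from funext fun x => by simp only [hB, povc_ind]]
          simp only [List.take_left' hlen]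
          rw [show ext (lin R) W (R - l) pre (fun x => ext (lin R) W (R - l) (x.take l)
              fun q => pov lab U j (rd x) (rd q)) =
            ext (lin R) W (R - l) pre fun x => ext (lin R) W (R - l) pre fun q => pov lab U j (rd x) (rd q)
            from ext_congr fun s _ => by rw [List.take_left' hlen],
            ext_swap (R - l) pre (R - l) pre, ← ext_sub]
          exact ext_abs_le hW _ _ _
      _ = ext (lin R) W (R - l) pre (fun q => ext (lin R) W (R - l) pre fun x =>
            |pov lab U j (rd q) (rd x) - ext (lin R) W (R - l) pre fun x' => pov lab U j (rd q) (rd x')|) := by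
          rw [ext_swap (R - l) pre (R - l) pre]
          simp only [pov_comm (lab := lab) (U := U) j (rd _) (rd _)]
      _ ≤ ext (lin R) W (R - l) pre (fun _ => devN R W rd l pre) :=
          ext_mono_on hW fun s _ => h2 _ pre hlen
      _ = _ := ext_const hW _ _ _

end Vale.Agent.P166.Gen.SdSol
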