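import Vale.Agent.P168.MP.Calc
import Mathlib

/-!
# P166 G1: below a node, a bilinear form with one independent argument varies as little as the overlap

For independent copies below a node, the variance of `∑ i ∈ S, c i * y i` is at most `|c|²` times the
square root of the variance of the overlap `∑ i, y i * y' i`.
-/

open Finset Real
open Vale.Agent.P168.MP

noncomputable section

namespace Vale.Agent.P166.Gen

variable {Ω : Type} [Fintype Ω] [Nonempty Ω] {m : ℕ → ℝ} {w : List Ω → ℝ} {N d : ℕ} {pre : List Ω}

/-- the variance is below every second moment -/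
lemma ext_var_le (hw : ∀ p, 0 < w p) (F : List Ω → ℝ) (t : ℝ) :
    ext m w d pre (fun q => (F q - ext m w d pre F) ^ 2) ≤ ext m w d pre fun q => (F q - t) ^ 2 := by
  set μ := ext m w d pre F
  have e : (fun q => (F q - t) ^ 2) = fun q => (F q - μ) ^ 2 + (2 * (μ - t) * (F q - μ) + (μ - t) ^ 2) :=
    funext fun q => by ring
  rw [e, ext_add, ext_add, ext_const_mul, ext_sub, ext_const hw, ext_const hw, sub_self, mul_zero,
    zero_add]
  linarith [sq_nonneg (μ - t)]

/-- the mean of a family of vectors below a node -/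
def bary (m : ℕ → ℝ) (w : List Ω → ℝ) (d : ℕ) (pre : List Ω) (y : List Ω → Fin N → ℝ) (i : Fin N) : ℝ :=
  ext m w d pre fun b => y b i

omit [Nonempty Ω] in
lemma bary_sum (S : Finset (Fin N)) (c : Fin N → ℝ) (y : List Ω → Fin N → ℝ) :
    ext m w d pre (fun b => ∑ i ∈ S, c i * y b i) = ∑ i ∈ S, c i * bary m w d pre y i := by
  simp only [ext_sum, ext_const_mul, bary]

/-- **the variance of a linear form of the configuration below a node** -/
theorem var_bilin (hw : ∀ p, 0 < w p) (y : List Ω → Fin N → ℝ) (S : Finset (Fin N)) (c : Fin N → ℝ)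
    (q : ℝ) :
    ext m w d pre (fun b => (∑ i ∈ S, c i * y b i - ∑ i ∈ S, c i * bary m w d pre y i) ^ 2) ≤
      (∑ i, c i ^ 2) * √(ext m w d pre fun a => ext m w d pre fun b => (∑ i, y a i * y b i - q) ^ 2) := by
  set mu := bary m w d pre y
  set z := fun b i => y b i - mu i
  set C := fun i j => ext m w d pre fun b => z b i * z b j
  set c' := fun i => if i ∈ S then c i else 0
  have eL : ext m w d pre (fun b => (∑ i ∈ S, c i * y b i - ∑ i ∈ S, c i * mu i) ^ 2) =
      ∑ i, ∑ j, (c' i * c' j) * C i j := by
    have e1 : ∀ b, (∑ i ∈ S, c i * y b i - ∑ i ∈ S, c i * mu i) ^ 2 =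
        ∑ i, ∑ j, (c' i * c' j) * (z b i * z b j) := fun b => by
      have e2 : ∑ i ∈ S, c i * y b i - ∑ i ∈ S, c i * mu i = ∑ i, c' i * z b i := by
        simp only [c', z, ite_mul, zero_mul, sum_ite_mem, univ_inter, mul_sub, sum_sub_distrib]
      rw [e2, sq, sum_mul_sum]
      exact sum_congr rfl fun i _ => sum_congr rfl fun j _ => by ring
    simp only [e1, ext_sum, ext_const_mul, C]
  have hC : ∑ i, ∑ j, C i j ^ 2 ≤
      ext m w d pre fun a => ext m w d pre fun b => (∑ i, y a i * y b i - q) ^ 2 := by
    have e2 : ∑ i, ∑ j, C i j ^ 2 =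
        ext m w d pre fun a => ext m w d pre fun b => (∑ i, z a i * z b i) ^ 2 := by
      have e3 : ∀ a b, (∑ i, z a i * z b i) ^ 2 = ∑ i, ∑ j, (z a i * z a j) * (z b i * z b j) := fun a b => by
        rw [sq, sum_mul_sum]
        exact sum_congr rfl fun i _ => sum_congr rfl fun j _ => by ring
      simp only [e3, ext_sum, ext_const_mul, ext_mul_const, C, sq]
    rw [e2]
    calc ext m w d pre (fun a => ext m w d pre fun b => (∑ i, z a i * z b i) ^ 2)
        ≤ ext m w d pre fun a => ext m w d pre fun b => (∑ i, z a i * y b i) ^ 2 := by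
          refine ext_mono hw fun a => ?_
          have h := ext_var_le (m := m) (d := d) (pre := pre) hw (fun b => ∑ i, z a i * y b i) 0
          rw [bary_sum] at h
          simp only [sub_zero] at h
          refine le_of_eq_of_le (ext_congr fun suf _ => ?_) h
          simp only [z, mu, mul_sub, sum_sub_distrib]
      _ = ext m w d pre fun b => ext m w d pre fun a => (∑ i, z a i * y b i) ^ 2 := by
          have e4 : ∀ a b, (∑ i, z a i * y b i) ^ 2 = ∑ i, ∑ j, (z a i * z a j) * (y b i * y b j) := fun a b => by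
            rw [sq, sum_mul_sum]
            exact sum_congr rfl fun i _ => sum_congr rfl fun j _ => by ring
          simp only [e4, ext_sum, ext_const_mul, ext_mul_const]
      _ ≤ ext m w d pre fun b => ext m w d pre fun a => (∑ i, y a i * y b i - q) ^ 2 := by
          refine ext_mono hw fun b => ?_
          have h := ext_var_le (m := m) (d := d) (pre := pre) hw (fun a => ∑ i, y a i * y b i) q
          refine le_of_eq_of_le (ext_congr fun suf _ => ?_) h
          simp only [z, mu, bary, sub_mul, sum_sub_distrib, ext_sum, ext_mul_const]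
      _ = _ := by simp only [mul_comm]
  rw [eL, ← Fintype.sum_prod_type' (fun i j => (c' i * c' j) * C i j)]
  refine (Real.sum_mul_le_sqrt_mul_sqrt univ (fun p : Fin N × Fin N => c' p.1 * c' p.2)
    (fun p => C p.1 p.2)).trans (mul_le_mul ?_ (Real.sqrt_le_sqrt ?_) (Real.sqrt_nonneg _)
      (sum_nonneg fun i _ => sq_nonneg _))
  · have e : ∑ p : Fin N × Fin N, (c' p.1 * c' p.2) ^ 2 = (∑ i, c' i ^ 2) ^ 2 := by
      rw [Fintype.sum_prod_type, sq (∑ i, c' i ^ 2), sum_mul_sum]
      simp only [mul_pow]
    rw [e, Real.sqrt_sq (sum_nonneg fun i _ => sq_nonneg _)]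
    refine sum_le_sum fun i _ => ?_
    simp only [c']
    split_ifs
    · exact le_rfl
    · rw [zero_pow two_ne_zero]; exact sq_nonneg _
  · rw [Fintype.sum_prod_type]; exact hC

end Vale.Agent.P166.Gen
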