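import Vale.Agent.P157.Full.Envelope
import Vale.Agent.P166.Gen.Up.Average
import Vale.Agent.P166.Gen.Up.Field
import Vale.Agent.P166.Gen.Up.Ends

/-!
# P166 Gen G3: for finitely many atoms the mean pressure is at most the value of every path

The inverse temperature climbs from zero on a grid. At each step the amplitudes maximise the objective over a
finite grid of amplitudes, so that the energy per site is at most the slope of the energy along the path, up to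
the error of the rotation identities; that error is small in mean over the frame.
-/

open MeasureTheory ProbabilityTheory Real Finset Filter
open scoped Topology
open Vale.Agent.P150 (gauss)
open Vale.Agent.P168.MP (lin Batch gainCap avg avg_le_avg avg_const allBatch BIdx gu gu_mem)
open Vale.Agent.P157.Full (qh psiH dotH psi_coercive grid_repX spinX cfg eventually_dim)
open Vale.Agent.P157.Par (Site Ix Prof adev ovK qlev)
open Vale.Agent.P157.Lim (wt)

noncomputable section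

namespace Vale.Agent.P166.Gen.Up

/-- the grid of amplitudes -/
def gridG (R₀ : ℕ) (δ hi : ℝ) : Finset (Fin R₀ → ℝ) :=
  (univ : Finset (Fin R₀ → Fin ⌊hi / δ⌋₊)).image fun g i => δ * ((g i : ℕ) + 1)

lemma gridG_ok {R₀ : ℕ} {l1 lo hi δ : ℝ} {m₁ : ℕ} (hm : 1 ≤ m₁) (hl : l1 = δ * m₁) (hl' : l1 ≤ hi) (hδ : 0 < δ)
    (hlo : 0 < lo) : GridOK (gridG R₀ δ hi) l1 lo hi δ := by
  have hfl : ∀ i : ℕ, δ * ((i:ℝ) + 1) ≤ hi → i < ⌊hi / δ⌋₊ := fun i h => by
    refine Nat.lt_of_succ_le (Nat.le_floor ?_)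
    rw [le_div_iff₀ hδ]; push_cast; linarith
  refine ⟨mem_image.2 ⟨fun _ => ⟨m₁ - 1, hfl _ ?_⟩, mem_univ _, funext fun _ => ?_⟩, fun lam h i => ?_, ?_⟩
  · rw [Nat.cast_sub hm]; push_cast; linarith
  · simp only; rw [Nat.cast_sub hm]; push_cast; linarith
  · obtain ⟨g, -, rfl⟩ := mem_image.1 h
    refine ⟨by positivity, ?_⟩
    have h1 : (((g i : ℕ) + 1 : ℕ) : ℝ) ≤ hi / δ :=
      (Nat.le_floor_iff' (by omega)).1 (Nat.succ_le_of_lt (g i).isLt)
    rw [le_div_iff₀ hδ] at h1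
    push_cast at h1
    linarith
  · intro lam h j h1 h2 d hd
    obtain ⟨g, -, rfl⟩ := mem_image.1 h
    beta_reduce at h1 h2
    obtain ⟨i, hi'⟩ : ∃ i : ℕ, δ * ((i:ℝ) + 1) = δ * ((g j : ℕ) + 1) + d := by
      rcases hd with rfl | rfl
      · exact ⟨(g j : ℕ) + 1, by push_cast; ring⟩
      · have h0 : 1 ≤ (g j : ℕ) := by
          by_contra h0
          rw [show (g j : ℕ) = 0 by omega] at h1
          simp at h1
          linarith
        exact ⟨(g j : ℕ) - 1, by rw [Nat.cast_sub h0]; push_cast; ring⟩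
    have hd' : δ * ((i:ℝ) + 1) ≤ hi := by
      rcases hd with rfl | rfl <;> linarith
    refine mem_image.2 ⟨Function.update g j ⟨i, hfl _ hd'⟩, mem_univ _, funext fun x => ?_⟩
    rcases eq_or_ne x j with rfl | hx
    · simpa using hi'
    · simp [Function.update_of_ne hx]

/-- the deviations assumed small are integrable in the field -/
lemma intZ_devU {N n S R₀ k m : ℕ} [NeZero N] {ι : Type} [Fintype ι] [DecidableEq ι] {β : ι → Batch} {h u : ι → ℝ}
    {lam : Fin R₀ → ℝ} {lab : Fin N → Fin m} {U : Mat N} (hR : 1 ≤ k * R₀) (hU : Orth U) (θ' : Fin m → ℝ) :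
    IntZ (devU (n := n) θ' lab U R₀ k S β h u lam) := by
  have hc := (continuous_devU (n := n) (S := S) (β := β) (h := h) (u := u) (lam := lam) (k := k) θ' lab).comp
    (Continuous.prodMk_right (Y := Fin N × Ix (k * R₀) n → ℝ) U)
  simp only [Function.comp_def] at hc
  refine intZ_of_bound hc (C := 6 + 2 * m) fun z => ?_
  obtain ⟨x, y⟩ := devU_mem (n := n) (S := S) (β := β) (h := h) (u := u) (lam := lam) (lab := lab) hR hU θ' z
  rw [abs_of_nonneg x]; exact y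

variable {N n S R₀ k Kg M m : ℕ} [NeZero N] {hp ubp ub : ℝ} {w θ : Fin m → ℝ} {lab : Fin N → Fin m}
  [Nonempty (BIdx (k * R₀) 2 → Fin Kg)] [Nonempty (Fin m → Fin M)]

/-- the mean over the frame of the error of the rotation identities -/
theorem error_mean (hR : 1 ≤ k * R₀) {ν : Measure (Mat N)} (hν : IsHaarOrthogonal ν) (ha : Atoms w θ) {b : ℝ}
    (hb : 0 < b) {δ e t tw : ℝ} (hδ : 0 < δ) (he : 0 ≤ e) (hub : 0 < ub) (hubδ : ub ≤ δ)
    (hfr : ∀ j, |freq lab j - w j| ≤ δ)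
    (hsd : ∀ (θ' : Fin m → ℝ), (∀ j, |θ' j - b * θ j| ≤ δ) → (∀ j, |freq lab j - w j| ≤ δ) →
      ∀ {Ω : Type} [Fintype Ω] [Nonempty Ω] (w₀ : List Ω → ℝ), (∀ p, 0 < w₀ p) →
      ∀ (rd : List Ω → Fin N → Bool),
      ∫ U, (adev (k * R₀) (wU θ' lab U w₀ rd) (ovK rd) (qlev (k * R₀) (wU θ' lab U w₀ rd) rd) +
        madJ (k * R₀) lab U (wU θ' lab U w₀ rd) rd) ∂ν ≤ δ →
      ∫ U, (∑ j, adev (k * R₀) (wU θ' lab U w₀ rd) (fun p p' => pov lab U j (rd p) (rd p'))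
        (levP w (fun i => b * θ i) j (k * R₀) (qlev (k * R₀) (wU θ' lab U w₀ rd) rd))) ∂ν ≤ e)
    (hgrid : ∀ (Cm : Type) [Fintype Cm] [Nonempty Cm] (cf : Cm → Fin N → Bool) (W : List Cm → ℝ),
      (∀ p, 0 < W p) → avg (fun g : BIdx (k * R₀) 2 → Fin Kg =>
        adev (k * R₀) (Vale.Agent.P157.Full.pwX (S := S) (β := allBatch (k * R₀) 2) cf (k * R₀) W (fun _ => hp)
          (gu ubp Kg g)) (ovK (spinX cf (k * R₀)))
          (qlev (k * R₀) (Vale.Agent.P157.Full.pwX (S := S) (β := allBatch (k * R₀) 2) cf (k * R₀) W (fun _ => hp)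
            (gu ubp Kg g)) (spinX cf (k * R₀)))) ≤ t)
    (hwin : ∀ (θ : Fin m → ℝ) {Ω : Type} [Fintype Ω] [Nonempty Ω] (w₀ : List Ω → ℝ), (∀ p, 0 < w₀ p) →
      ∀ (rd : List Ω → Fin N → Bool) (U : Mat N), Orth U →
      avg (fun g : Fin m → Fin M =>
        madJ (k * R₀) lab U (wU (fun j => θ j + gu ub M g j) lab U w₀ rd) rd) ≤ tw)
    (lam : Fin R₀ → ℝ) :
    Integrable (fun U => errA w θ (shA k R₀ Kg M m ub) lab U n R₀ k S (allBatch (k * R₀) 2) (fun _ => hp)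
      (strA k R₀ Kg M m ubp) b lam) ν ∧
    ∫ U, errA w θ (shA k R₀ Kg M m ub) lab U n R₀ k S (allBatch (k * R₀) 2) (fun _ => hp)
      (strA k R₀ Kg M m ubp) b lam ∂ν ≤ e + 4 * m / δ * (t + tw) := by
  have : IsProbabilityMeasure ν := hν.1
  unfold errA
  refine int_EZ_le (A := (BIdx (k * R₀) 2 → Fin Kg) × (Fin m → Fin M)) (P := fun a U => povErr (n := n) w (fun i => b * θ i) (thA θ (shA k R₀ Kg M m ub) b a) lab U
      R₀ k S (allBatch (k * R₀) 2) (fun _ => hp) (strA k R₀ Kg M m ubp a) lam)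
    (D := fun a U => devU (n := n) (thA θ (shA k R₀ Kg M m ub) b a) lab U R₀ k S (allBatch (k * R₀) 2)
      (fun _ => hp) (strA k R₀ Kg M m ubp a) lam)
    hν.2.1 (fun a => continuous_povErr (atoms_smul ha hb) _ lab) (fun a U hU z => povErr_mem (atoms_smul ha hb) hR hU _ z)
    (fun a => continuous_devU _ lab) (fun a U hU z => devU_mem hR hU _ z) hδ he (by positivity) (fun a z => ?_)
    fun U hU => ?_
  · simp only [povErr, devU, adB, rB, wB_eq_wU hR]
    refine hsd _ (fun j => ?_) hfr _ (w0B_pos z) _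
    show |b * θ j + gu ub M a.2 j - b * θ j| ≤ δ
    obtain ⟨x, y⟩ := gu_mem hub a.2 j
    rw [add_sub_cancel_left, abs_of_pos x]
    exact y.trans hubδ
  · refine EZ_le_of_avg (fun a => intZ_devU hR hU _) fun z => ?_
    · simp only [devU]
      rw [avg_addF]
      exact add_le_add (adB_grid (bw := fun g => wJ (fun j => b * θ j + gu ub M g j) lab U) hgrid
        (fun g σ => wJ_pos _ lab U σ) lam z) (madJ_grid hR hU hwin (fun _ => hp) b lam z)

omit [Nonempty (BIdx (k * R₀) 2 → Fin Kg)] [Nonempty (Fin m → Fin M)] in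
/-- from one frame to the mean over the frames -/
lemma pressure_mean {ν : Measure (Mat N)} (hν : IsHaarOrthogonal ν) {L : ℝ} (hL : ∀ j, |θ j| ≤ L) {ι : Type}
    (s : Finset ι) (Gd : Finset (Fin R₀ → ℝ)) {E : ι → (Fin R₀ → ℝ) → Mat N → ℝ} {c a eS : ℝ} {d : ι → ℝ}
    (ha : 0 ≤ a) (hd : ∀ i ∈ s, 0 ≤ d i) (hd1 : ∑ i ∈ s, d i = 1)
    (hE : ∀ i ∈ s, ∀ lam ∈ Gd, Integrable (E i lam) ν ∧ ∫ U, E i lam U ∂ν ≤ eS)
    (h : ∀ U, Orth U → pressure 1 (fun i => θ (lab i)) U ≤ c + a * ∑ i ∈ s, d i * ∑ lam ∈ Gd, E i lam U) :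
    ∫ U, pressure 1 (fun i => θ (lab i)) U ∂ν ≤ c + a * (Gd.card * eS) := by
  have : IsProbabilityMeasure ν := hν.1
  have hN : (0:ℝ) < N := by exact_mod_cast Nat.pos_of_ne_zero (NeZero.ne N)
  have hp : Integrable (fun U => pressure 1 (fun i => θ (lab i)) U) ν := by
    simp only [pressure_eq]
    refine Integrable.of_bound (Continuous.aestronglyMeasurable ?_) (L / 2) ?_
    · exact ((continuous_finsetSum _ fun σ _ => continuous_const.mul (continuous_wJ θ lab σ)).log fun U =>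
        (sum_pos (fun σ _ => mul_pos (show 0 < wt N σ by unfold wt; positivity) (wJ_pos θ lab U σ))
          univ_nonempty).ne').div_const _
    · filter_upwards [hν.2.1] with U hU
      rw [norm_eq_abs, abs_div, Nat.abs_cast, div_le_iff₀ hN]
      exact (log_Z_bounds hU hL).trans_eq (by ring)
  have i1 : ∀ i ∈ s, Integrable (fun U => d i * ∑ lam ∈ Gd, E i lam U) ν := fun i hi =>
    (integrable_finsetSum _ fun lam hlam => (hE i hi lam hlam).1).const_mul _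
  have i2 := (integrable_finsetSum _ i1).const_mul a
  refine (integral_mono_ae hp ((integrable_const c).add i2) (hν.2.1.mono fun U hU => h U hU)).trans ?_
  simp only [Pi.add_apply]
  rw [integral_add (integrable_const c) i2, integral_const, probReal_univ, one_smul, integral_const_mul,
    integral_finsetSum _ i1]
  refine add_le_add le_rfl (mul_le_mul_of_nonneg_left ?_ ha)
  refine (sum_le_sum fun i hi => show _ ≤ d i * (Gd.card * eS) from ?_).trans_eq (by rw [← sum_mul, hd1, one_mul])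
  rw [integral_const_mul, integral_finsetSum _ fun lam hlam => (hE i hi lam hlam).1]
  refine mul_le_mul_of_nonneg_left ((sum_le_card_nsmul _ _ eS fun lam hlam => (hE i hi lam hlam).2).trans_eq ?_)
    (hd i hi)
  rw [nsmul_eq_mul]

omit [NeZero N] [Nonempty (BIdx (k * R₀) 2 → Fin Kg)] [Nonempty (Fin m → Fin M)] in
/-- the three point error at large dimension -/
lemma thMax_small {η lo hi δ τ gc : ℝ} (hN : 1 ≤ N) (hδ : 0 < δ) (h1 : (1 / 2 + 2 * η / lo ^ 2) * δ ≤ τ / 3)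
    (h2 : 3 * ub / δ ≤ τ / 3) (h3 : 3 * ((3 * (√N * √(R₀ * hi ^ 2)) + 2 * gc) / N) / δ ≤ τ / 3) :
    thMax N R₀ η lo hi δ (ub * N) gc ≤ τ := by
  have hN' : (0:ℝ) < N := by exact_mod_cast hN
  rw [thMax, sqrt_mul hN'.le]
  have e : 3 * ((3 * (√N * √(R₀ * hi ^ 2)) + ub * N + 2 * gc) / N) / δ =
      3 * ((3 * (√N * √(R₀ * hi ^ 2)) + 2 * gc) / N) / δ + 3 * ub / δ := by field_simp; ring
  linarith [e.le]

end Vale.Agent.P166.Gen.Up

namespace Vale.Agent.P166.Gen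

open Up

/-- **the upper bound for finitely many atoms**, given the system of site fields -/
theorem upper_gen_of (hF : FieldB) (hI : IbpB) (hZ : ZeroB) (hE : GeB) (hSd : StmtSd) (hW : StmtWindow) :
    StmtUpperG := by
  intro m w θ ha lab hfr ν hν R₀ h₀ V₀ hR₀ hh₀ ε hε
  have hm : (1:ℝ) ≤ m := by exact_mod_cast ha.card_pos
  have hR1 : (1:ℝ) ≤ R₀ := by exact_mod_cast hR₀
  set L := ∑ j, |θ j| + 1 with hLdef
  have hL : ∑ j, |θ j| ≤ L := by linarith
  have hθ : ∀ j, |θ j| ≤ L := fun j =>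
    (single_le_sum (f := fun j => |θ j|) (fun _ _ => abs_nonneg _) (mem_univ j)).trans hL
  have hL0 : 0 < L := by linarith [sum_nonneg (s := univ) fun j (_ : j ∈ univ) => abs_nonneg (θ j)]
  obtain ⟨K, hK0, hK⟩ := slope_modulus ha (show 0 < ε / 5 by positivity)
  obtain ⟨c, C, hc, hco⟩ := psi_coercive hR₀ hh₀
  obtain ⟨nb, hnb⟩ := exists_nat_ge (5 * L / ε)
  have hnb' : L / ((nb:ℝ) + 1) ≤ ε / 5 := by
    rw [div_le_iff₀ hε] at hnb
    rw [div_le_iff₀ (by positivity)]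
    linarith
  obtain ⟨ε₂, hε₂, hε₂1, hε₂ε⟩ : ∃ ε₂, 0 < ε₂ ∧ ε₂ ≤ 1 ∧ 10 * ε₂ ≤ ε / 5 :=
    ⟨min (ε / 50) 1, lt_min (by positivity) one_pos, min_le_right _ _, by linarith [min_le_left (ε / 50) 1]⟩
  obtain ⟨l1, hl1, hl1', hl1sq⟩ : ∃ l1 : ℝ, 0 < l1 ∧ l1 ≤ 1 ∧ R₀ * l1 ^ 2 ≤ ε₂ := by
    refine ⟨ε₂ / R₀, by positivity, (div_le_one (by positivity)).2 (hε₂1.trans hR1), ?_⟩
    rw [show (R₀:ℝ) * (ε₂ / R₀) ^ 2 = ε₂ * (ε₂ / R₀) by field_simp]
    exact mul_le_of_le_one_right hε₂.le ((div_le_one (by positivity)).2 (hε₂1.trans hR1))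
  obtain ⟨hi, hhi, hhi'⟩ : ∃ hi : ℝ, 1 ≤ hi ∧
      √(2 * ((C + (L + 7)) + (L + 7) + R₀ / (2 * c)) / c) + 1 ≤ hi :=
    ⟨_, le_add_of_nonneg_left (sqrt_nonneg _), le_rfl⟩
  have hlog0 := log_nonneg hhi
  obtain ⟨η, hη, hη1, hηlog⟩ : ∃ η : ℝ, 0 < η ∧ η ≤ 1 ∧ η * (R₀ * (log hi + |log l1| + 1)) ≤ ε₂ := by
    refine ⟨min 1 (ε₂ / (R₀ * (log hi + |log l1| + 1))), lt_min one_pos (by positivity), min_le_left _ _, ?_⟩
    rw [← le_div_iff₀ (by positivity)]
    exact min_le_right _ _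
  set xm := exp (-((C + (L + 7)) + (L + 7) + R₀ / (2 * c)) / η) with hxm
  have hxm0 : 0 < xm := exp_pos _
  obtain ⟨σ, hσ, hσK⟩ : ∃ σ : ℝ, 0 < σ ∧ 3 * R₀ * K * σ ≤ ε / 5 := by
    refine ⟨ε / 5 / (3 * R₀ * K + 1), by positivity, ?_⟩
    rw [← mul_div_assoc, div_le_iff₀ (by positivity), mul_comm]
    exact mul_le_mul_of_nonneg_left (by linarith) (by positivity)
  set lo := xm / 2 with hlo'
  have hlo : 0 < lo := by positivity
  obtain ⟨τ, hτ, hτv, hτe⟩ : ∃ τ : ℝ, 0 < τ ∧ 5 * τ ≤ lo * (σ * σ) ∧ 2 * τ ≤ lo * σ :=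
    ⟨min (lo * (σ * σ) / 5) (lo * σ / 2), lt_min (by positivity) (by positivity),
      by linarith [min_le_left (lo * (σ * σ) / 5) (lo * σ / 2)],
      by linarith [min_le_right (lo * (σ * σ) / 5) (lo * σ / 2)]⟩
  have hC0 : 0 < 1 / 2 + 2 * η / lo ^ 2 := by positivity
  set δ₀ := min (xm / 4) (min 1 (τ / 3 / (1 / 2 + 2 * η / lo ^ 2)))
  obtain ⟨m₁, hm₁⟩ := exists_nat_ge (l1 / δ₀ + 1)
  have hδ₀ : 0 < δ₀ := lt_min (by positivity) (lt_min one_pos (by positivity))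
  have hm₁1 : (1:ℝ) ≤ m₁ := le_trans (by linarith [div_pos hl1 hδ₀]) hm₁
  obtain ⟨δ, hδ, hδl, hδx, hδ1, hδC⟩ : ∃ δ : ℝ, 0 < δ ∧ l1 = δ * m₁ ∧ δ ≤ xm / 4 ∧ δ ≤ 1 ∧
      (1 / 2 + 2 * η / lo ^ 2) * δ ≤ τ / 3 := by
    have h1 : l1 / m₁ ≤ δ₀ := by
      rw [div_le_iff₀ (by linarith)]
      have h2 : l1 / δ₀ ≤ m₁ := by linarith
      rw [div_le_iff₀ hδ₀] at h2
      linarith
    refine ⟨l1 / m₁, div_pos hl1 (by linarith), (div_mul_cancel₀ _ (by linarith)).symm,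
      h1.trans (min_le_left _ _), h1.trans ((min_le_right _ _).trans (min_le_left _ _)), ?_⟩
    rw [← le_div_iff₀' hC0]
    exact h1.trans ((min_le_right _ _).trans (min_le_right _ _))
  have hG := gridG_ok (R₀ := R₀) (by exact_mod_cast hm₁1) hδl (hl1'.trans hhi) hδ hlo
  set Gd := gridG R₀ δ hi
  have hcard : (1:ℝ) ≤ Gd.card := by exact_mod_cast card_pos.2 ⟨_, hG.mem⟩
  set eS := ε / (5 * L * Gd.card)
  have heS : 0 < eS := by positivity
  choose δs hδs hsd using fun i : ℕ =>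
    hSd m w (fun j => ((i:ℝ) + 1) / (nb + 1) * θ j) (atoms_smul ha (by positivity)) (eS / 2) (by positivity)
  obtain ⟨δd, hδd, hδd'⟩ : ∃ δd : ℝ, 0 < δd ∧ ∀ i ∈ range (nb + 1), δd ≤ δs i :=
    ⟨(range (nb + 1)).inf' nonempty_range_add_one δs, (lt_inf'_iff _).2 fun i _ => hδs i, fun i hi => inf'_le _ hi⟩
  obtain ⟨ub, hub, hub1, hubε, hubd, hubδ⟩ : ∃ ub : ℝ, 0 < ub ∧ ub ≤ 1 ∧ ub ≤ ε₂ ∧ ub ≤ δd ∧ 3 * ub / δ ≤ τ / 3 := by
    refine ⟨min (min 1 ε₂) (min δd (δ * τ / 9)), lt_min (lt_min one_pos hε₂) (lt_min hδd (by positivity)),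
      (min_le_left _ _).trans (min_le_left _ _), (min_le_left _ _).trans (min_le_right _ _),
      (min_le_right _ _).trans (min_le_left _ _), ?_⟩
    rw [div_le_iff₀ hδ]
    linarith [(min_le_right (min 1 ε₂) _).trans (min_le_right δd (δ * τ / 9))]
  obtain ⟨t, ht, htτ, htd⟩ : ∃ t : ℝ, 0 < t ∧ 12 * hi * t ≤ τ ∧ 4 * m / δd * (t + t) ≤ eS / 2 := by
    refine ⟨min (τ / (12 * hi)) (eS * δd / (16 * m)), lt_min (by positivity) (by positivity), ?_, ?_⟩
    · rw [← le_div_iff₀' (by positivity)]; exact min_le_left _ _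
    · refine (mul_le_mul_of_nonneg_left (add_le_add (min_le_right _ _) (min_le_right _ _)) (by positivity)).trans
        (le_of_eq ?_)
      field_simp
      ring
  obtain ⟨Rg, hRg⟩ := grid_repX ht
  obtain ⟨k, hk, hkR⟩ : ∃ k : ℕ, 1 ≤ k ∧ Rg ≤ k * R₀ :=
    ⟨max Rg 1, le_max_right _ _, (le_max_left _ _).trans (Nat.le_mul_of_pos_right _ hR₀)⟩
  obtain ⟨S, Kg, hp, ubp, -, hKg, hp0, hp1, hubp, hubp1, hgrid⟩ := hRg (k * R₀) hkR
  have : NeZero Kg := ⟨hKg.ne'⟩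
  have hR : 1 ≤ k * R₀ := Nat.one_le_iff_ne_zero.2 (Nat.mul_ne_zero (by omega) (by omega))
  obtain ⟨Nw, hNw⟩ := hW m (k * R₀) hR ub hub t ht
  choose Ns hNs using fun i => hsd i (k * R₀) hR
  have hh : ∀ _j : BIdx (k * R₀) 2, |hp| ≤ 1 := fun _ => by rw [abs_of_pos hp0]; exact hp1
  have hev : ∀ᶠ N : ℕ in atTop, ∀ j, |freq (lab N) j - w j| ≤ δd := eventually_all.2 fun j =>
    (((hfr j).sub_const (w j)).abs).eventually_le_const (by simpa using hδd)
  filter_upwards [hev, eventually_ge_atTop Nw,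
    (eventually_all_finset (range (nb + 1))).2 fun i _ => eventually_ge_atTop (Ns i),
    eventually_dim (gc := gainCap S (allBatch (k * R₀) 2)) (c := √(R₀ * hi ^ 2)) (δ := δ) (b := 0)
      (show 0 < τ / 3 by positivity) one_pos hε₂] with N hfN hNN hNs' ⟨hN1, hgN, hdev, _⟩
  have : NeZero N := ⟨by omega⟩
  have : NeZero (N * N) := ⟨Nat.mul_ne_zero (by omega) (by omega)⟩
  have hu : ∀ (a : (BIdx (k * R₀) 2 → Fin Kg) × (Fin m → Fin (N * N))) j, |strA k R₀ Kg (N * N) m ubp a j| ≤ 1 :=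
    fun a j => by
    obtain ⟨x, y⟩ := gu_mem hubp a.1 j
    rw [strA, abs_of_pos x]; exact y.trans hubp1
  have hsh : ∀ (a : (BIdx (k * R₀) 2 → Fin Kg) × (Fin m → Fin (N * N))) j, |shA k R₀ Kg (N * N) m ub a j| ≤ ub :=
    fun a j => by
    obtain ⟨x, y⟩ := gu_mem hub a.2 j
    rw [shA, abs_of_pos x]; exact y
  obtain ⟨n, hn0, hn1⟩ := Eventually.exists (f := atTop) (Eventually.and
    (eventually_all.2 fun a : (BIdx (k * R₀) 2 → Fin Kg) × (Fin m → Fin (N * N)) =>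
      hZ hR₀ hk (allBatch (k * R₀) 2) S (fun _ => hp) (strA k R₀ Kg (N * N) m ubp a) hh (hu a) hi hε₂)
    (eventually_all.2 fun a : (BIdx (k * R₀) 2 → Fin Kg) × (Fin m → Fin (N * N)) =>
      hI R₀ k S N (β := allBatch (k * R₀) 2) (h := fun _ => hp) (u := strA k R₀ Kg (N * N) m ubp a) hR₀ hk hh
        (hu a) hi ((L + 1) * N / 2) hτ))
  have hth : thMax N R₀ η lo hi δ (ub * N) (gainCap S (allBatch (k * R₀) 2)) ≤ τ :=
    thMax_small hN1 hδ hδC hubδ hdev
  have hbox : ∀ lam ∈ Gd, ∀ i, 0 ≤ lam i ∧ lam i ≤ hi := fun lam h i =>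
    ⟨(hG.box lam h i).1.le, (hG.box lam h i).2⟩
  have hstep : ∀ U, Orth U → pressure 1 (fun i => θ (lab N i)) U ≤
      spinH R₀ h₀ + energy w θ R₀ (qh R₀ h₀) 1 + L / ((nb:ℝ) + 1) + 10 * ε₂ +
        (ε / 5 + K * (σ + R₀ * (σ * σ / σ + σ))) / 2 +
        L / 2 * ∑ i ∈ range (nb + 1), 1 / ((nb:ℝ) + 1) *
          ∑ lam ∈ Gd, errA w θ (shA k R₀ Kg (N * N) m ub) (lab N) U n R₀ k S (allBatch (k * R₀) 2) (fun _ => hp)
            (strA k R₀ Kg (N * N) m ubp) (((i:ℝ) + 1) / (nb + 1)) lam := fun U hU =>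
    climb_U (t := t) (e := τ) hF hE ha hU hub.le hub1 hsh hR₀ hk hh hu hh₀ hc hco hG hlo hδ hη hη1 hε₂1
      (le_trans (mul_le_mul_of_nonneg_left (mul_le_mul_of_nonneg_left (by linarith [abs_nonneg (log l1)])
        (by positivity)) hη.le) hηlog)
      (by
        have : η * (R₀ * |log l1|) ≤ ε₂ := le_trans
          (mul_le_mul_of_nonneg_left (mul_le_mul_of_nonneg_left (by linarith) (by positivity)) hη.le) hηlog
        linarith)
      hgN hubε hL (by linarith) (by rw [← hxm]; linarith) (by rw [← hxm]; linarith) hK0 hK hσ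
      (by linarith)
      (by rw [div_le_iff₀ hlo]; linarith)
      hσ.le nb (fun lam h a => hn0 a N lam (hbox lam h))
      (fun b hb hb1 lam h a j => hn1 a _ (fun σ' => wJ_pos _ (lab N) U σ')
        (fun σ' => (abs_log_wJ hU (fun i => show |b * θ i + shA k R₀ Kg (N * N) m ub a i| ≤ L + 1 from
          (abs_add_le _ _).trans (add_le_add (by
            rw [abs_mul, abs_of_pos hb]; exact (mul_le_of_le_one_left (abs_nonneg _) hb1).trans (hθ i))
            ((hsh a i).trans hub1))) σ')) lam (hbox lam h) j)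
      (fun b lam => EZ_le_of_avg (fun a => intZ_adB (fun σ' => wJ_pos _ (lab N) U σ') hR) fun z =>
        adB_grid (bw := fun g => wJ (fun i => b * θ i + gu ub (N * N) g i) (lab N) U) (hgrid N)
          (fun g σ' => wJ_pos _ (lab N) U σ') lam z)
  refine (pressure_mean (hν N) hθ (range (nb + 1)) Gd (eS := eS) (by positivity) (fun i _ => by positivity)
    (by rw [sum_const, card_range, nsmul_eq_mul]; push_cast; field_simp)
    (fun i hi lam _ => ?_) hstep).trans ?_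
  · have h1 := error_mean (S := S) (hp := hp) (ubp := ubp) (ub := ub) (lab := lab N) (n := n) hR (hν N) ha
      (b := ((i:ℝ) + 1) / (nb + 1)) (by positivity) hδd (le_of_lt (half_pos heS)) hub hubd hfN
      (fun θ' h1 h2 Ω _ _ w₀ hw₀ rd h3 => hNs i N (hNs' i hi) θ' (lab N) (fun j => (h1 j).trans (hδd' i hi))
        (fun j => (h2 j).trans (hδd' i hi)) w₀ hw₀ rd (ν N) (hν N) (h3.trans (hδd' i hi)))
      (hgrid N) (fun θ' Ω _ _ w₀ hw₀ rd U hU => hNw N hNN (N * N) le_rfl θ' (lab N) w₀ hw₀ rd U hU) lam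
    exact ⟨h1.1, h1.2.trans (by linarith)⟩
  · have e1 : L / 2 * (Gd.card * eS) = ε / 10 := by simp only [eS]; field_simp; ring
    have e2 : aForm w θ R₀ h₀ = spinH R₀ h₀ + energy w θ R₀ (qh R₀ h₀) 1 := by
      simp only [aForm, energy, one_mul]; ring
    have e3 : K * (σ + R₀ * (σ * σ / σ + σ)) ≤ ε / 5 := by
      rw [mul_div_cancel_right₀ _ hσ.ne']
      refine le_trans ?_ hσK
      linarith [mul_nonneg (mul_nonneg hK0 hσ.le) (sub_nonneg.2 hR1)]
    linarith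

/-- **the upper bound for finitely many atoms** -/
theorem upper_gen : StmtSd → StmtWindow → StmtUpperG :=
  upper_gen_of field_b ibp_b zero_b ge_b

end Vale.Agent.P166.Gen
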