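import Vale.Agent.P166.Gen.Defs
import Vale.Agent.P166.Functional

/-!
# P166 Gen, G2: concentration of the projected squared norms on a window of shifts of the atoms

Shifting the atom `j` by `t` tilts the weight by `t N / 2` times the squared norm projected on the
eigenspace of `j`; concentration under tilts and a Riemann sum give the bound.
-/

open MeasureTheory Filter Finset Real
open scoped Topology
open Vale.Agent.P168.MP (lin mad avg gu tilt seqBound Ok ok_lin abs_mad_sub riemann_le concentration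
  avg_equiv avg_prod_eq avg_le_avg avg_const)

noncomputable section

namespace Vale.Agent.P166.Gen

variable {k N : ℕ}

/-- a projected squared norm is at most one -/
lemma abs_pov_le {U : Mat N} (hU : Matrix.of U ∈ Matrix.orthogonalGroup (Fin N) ℝ) (lab : Fin N → Fin k)
    (j : Fin k) (σ : Fin N → Bool) : |pov lab U j σ σ| ≤ 1 := by
  have h : ∑ i, cd U σ i ^ 2 = N := sum_field_sq hU σ
  have h1 : ∑ i ∈ univ.filter (fun i => lab i = j), cd U σ i * cd U σ i ≤ (N:ℝ) := by
    rw [← h]
    simp only [← sq]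
    exact sum_le_sum_of_subset_of_nonneg (subset_univ _) fun i _ _ => sq_nonneg _
  rw [pov, abs_of_nonneg (div_nonneg (sum_nonneg fun i _ => mul_self_nonneg _) N.cast_nonneg)]
  exact div_le_one_of_le₀ h1 N.cast_nonneg

/-- **G2** -/
theorem stmt_window : StmtWindow := by
  intro k R hR ub hub ε hε
  set S := seqBound R 1 1
  have hS : 0 ≤ S := by simp only [S, seqBound]; positivity
  set B : ℕ → ℝ := fun N => (2 * √(2 / lin R 1 / ub)) / √(N:ℝ) + (3 * S * ub / 2) / (N:ℝ)
  have hB : Tendsto B atTop (𝓝 0) := by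
    simpa [B] using ((Real.tendsto_sqrt_atTop.comp tendsto_natCast_atTop_atTop).const_div_atTop
      (2 * √(2 / lin R 1 / ub))).add ((tendsto_natCast_atTop_atTop (R := ℝ)).const_div_atTop (3 * S * ub / 2))
  have hkB : Tendsto (fun N => (k:ℝ) * B N) atTop (𝓝 0) := by simpa using hB.const_mul (k:ℝ)
  obtain ⟨N₀, hN₀⟩ := eventually_atTop.1 (hkB.eventually (eventually_le_nhds hε))
  refine ⟨N₀, fun N hN _ M hM θ lab Ω _ _ w₀ hw₀ rd U hU => ?_⟩
  have hN' : (0:ℝ) < N := Nat.cast_pos.2 (NeZero.pos N)
  have hM0 : 0 < M := lt_of_lt_of_le (Nat.mul_pos (NeZero.pos N) (NeZero.pos N)) hM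
  have : NeZero M := ⟨hM0.ne'⟩
  refine le_trans ?_ (hN₀ N hN)
  have hm1 : 0 < lin R 1 := (ok_lin hR hw₀).pos 1 le_rfl hR
  have term : ∀ j, avg (fun g : Fin k → Fin M => mad R (lin R)
      (wU (fun i => θ i + gu ub M g i) lab U w₀ rd) fun p => pov lab U j (rd p) (rd p)) ≤ B N := by
    intro j
    rw [← avg_equiv (Equiv.piSplitAt j fun _ : Fin k => Fin M).symm, avg_prod_eq]
    have hcomm : ∀ (F : Fin M → ({c // c ≠ j} → Fin M) → ℝ),
        (avg fun a => avg fun r => F a r) = avg fun r => avg fun a => F a r := fun F => by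
      simp only [avg, ← sum_div]
      rw [Finset.sum_comm, div_div, div_div, mul_comm]
    rw [hcomm]
    refine (avg_le_avg fun r => ?_).trans_eq (avg_const _)
    set u0 : Fin k → ℝ := Function.update
      (gu ub M ((Equiv.piSplitAt j fun _ : Fin k => Fin M).symm (⟨0, hM0⟩, r))) j 0
    set D : List Ω → ℝ := fun p => pov lab U j (rd p) (rd p)
    set W := wU (fun i => θ i + u0 i) lab U w₀ rd
    have hw : ∀ a : Fin M, wU (fun i => θ i +
        gu ub M ((Equiv.piSplitAt j fun _ : Fin k => Fin M).symm (a, r)) i) lab U w₀ rd =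
        tilt W D ((N:ℝ) / 2 * (ub * ((a : ℕ) + 1 : ℝ) / M)) := fun a => by
      funext p
      simp only [W, tilt, wU, wJ]
      rw [mul_assoc, ← exp_add]
      congr 2
      simp only [D, pov]
      have e : ∀ i, (θ (lab i) + gu ub M ((Equiv.piSplitAt j fun _ : Fin k => Fin M).symm (a, r)) (lab i)) *
          cd U (rd p) i ^ 2 = (θ (lab i) + u0 (lab i)) * cd U (rd p) i ^ 2 +
            if lab i = j then ub * ((a : ℕ) + 1 : ℝ) / M * (cd U (rd p) i * cd U (rd p) i) else 0 := by
        intro i
        by_cases hi : lab i = j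
        · simp [hi, u0, gu, Equiv.piSplitAt]; ring
        · simp [hi, u0, gu, Equiv.piSplitAt]
      rw [sum_congr rfl fun i _ => e i, sum_add_distrib, ← sum_filter, ← mul_sum]
      field_simp
    simp only [hw]
    have hok : Ok R (lin R) W := ok_lin hR fun p => mul_pos (hw₀ p) (exp_pos _)
    have hD : ∀ p, |D p| ≤ 1 := fun p => abs_pov_le hU lab j (rd p)
    set f := fun x => mad R (lin R) (tilt W D ((N:ℝ) / 2 * x)) D
    have hlip : ∀ x y, |f x - f y| ≤ 3 * S * ((N:ℝ) / 2) * |x - y| := fun x y => by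
      refine (abs_mad_sub hok hD _ _).trans_eq ?_
      rw [← mul_sub, abs_mul, abs_of_nonneg (by positivity)]
      ring
    have hc : Continuous f :=
      (LipschitzWith.of_dist_le' fun x y => by simpa [Real.dist_eq] using hlip x y).continuous
    refine (riemann_le hlip hc hub hM0).trans ?_
    have hi : ∫ x in (0:ℝ)..ub, f x ≤ 2 / N * √(2 * ((N:ℝ) / 2 * ub) / lin R 1) := by
      simp only [f]
      rw [intervalIntegral.integral_comp_mul_left (fun u => mad R (lin R) (tilt W D u) D)
        (by positivity : ((N:ℝ) / 2) ≠ 0), mul_zero, smul_eq_mul, inv_div]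
      refine mul_le_mul_of_nonneg_left ?_ (by positivity)
      refine (concentration hok hR hD one_pos (by positivity)).trans_eq ?_
      rw [mul_one]
    refine add_le_add ((div_le_div_of_nonneg_right hi hub.le).trans ?_) ?_
    · have e : √(2 * ((N:ℝ) / 2 * ub) / lin R 1) ≤ √(2 / lin R 1 / ub) * (√(N:ℝ) * ub) := by
        rw [← sqrt_sq (mul_nonneg (sqrt_nonneg (N:ℝ)) hub.le), ← sqrt_mul (by positivity)]
        refine sqrt_le_sqrt ?_
        rw [mul_pow, sq_sqrt hN'.le]
        have : (0:ℝ) ≤ N * ub / lin R 1 := by positivity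
        field_simp
        nlinarith
      rw [div_le_iff₀ hub]
      refine (mul_le_mul_of_nonneg_left e (by positivity)).trans_eq ?_
      field_simp
      rw [sq_sqrt hN'.le]
    · have hMN : (N:ℝ) * N ≤ M := by exact_mod_cast hM
      rw [div_le_div_iff₀ (Nat.cast_pos.2 hM0) hN']
      nlinarith [mul_le_mul_of_nonneg_left hMN (mul_nonneg hS hub.le)]
  calc avg (fun g : Fin k → Fin M => madJ R lab U (wU (fun j => θ j + gu ub M g j) lab U w₀ rd) rd)
      = ∑ j, avg (fun g : Fin k → Fin M => mad R (lin R)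
          (wU (fun i => θ i + gu ub M g i) lab U w₀ rd) fun p => pov lab U j (rd p) (rd p)) := by
        simp only [avg, madJ]
        rw [Finset.sum_comm, sum_div]
    _ ≤ ∑ _j : Fin k, B N := sum_le_sum fun j _ => term j
    _ = k * B N := by simp

end Vale.Agent.P166.Gen
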